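import Mathlib

/-!
# R304 / S0464, part L2: the ultrametric nodes

Abstract statement (no matchings): from a symmetric kernel `K` satisfying the four point
inequality and `1/(q K) ≤ lam ≤ 1/K` we build a finite family of *nodes* `o`, each with positive
vertex weights `b o v`, such that `lam u v ≥ c0 * b o u * b o v` for all nodes and
`lam u v ≤ b o u * b o v` for the nodes on `path(u v)`, with the ear property.
-/

set_option autoImplicit false

open scoped Classical

namespace Crest.Agent.R304.Nodes

set_option linter.unusedSectionVars false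

variable {V : Type} [Fintype V]

/-- A system of nodes for the weights `lam` with loss `c0`. -/
structure NodeSys (V : Type) [Fintype V] (lam : V → V → ℝ) (c0 : ℝ) where
  /-- the nodes -/
  O : Type
  /-- finitely many -/
  finO : Fintype O
  card_le : Fintype.card O ≤ Fintype.card V ^ 2
  /-- vertex weights at a node -/
  b : O → V → ℝ
  b_pos : ∀ o v, 0 < b o v
  /-- `path o u v`: the node `o` lies on the path of the pair `{u,v}` -/
  path : O → V → V → Prop
  path_symm : ∀ o u v, path o u v → path o v u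
  /-- the level of a pair -/
  level : V → V → ℝ
  level_symm : ∀ u v, level u v = level v u
  /-- the top node of a pair -/
  top : V → V → O
  lower : ∀ o u v, u ≠ v → c0 * (b o u * b o v) ≤ lam u v
  upper : ∀ o u v, u ≠ v → path o u v → lam u v ≤ b o u * b o v
  top_mem : ∀ u v, u ≠ v → path (top u v) u v
  ear : ∀ u v x y, u ≠ v → x ≠ y → level u v ≤ level x y →
    (∃ o, path o u v ∧ path o x y) → path (top u v) x y
  share : ∀ u v x, u ≠ v → u ≠ x → ∃ o, path o u v ∧ path o u x

/-- Distinct vertices, both different from `w`. -/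
def OK (w u v : V) : Prop := u ≠ v ∧ u ≠ w ∧ v ≠ w

/-- The graph of pairs of `rho`-length at most `t`, away from `w`. -/
def gr (w : V) (rho : V → V → ℝ) (hs : ∀ u v, rho u v = rho v u) (t : ℝ) : SimpleGraph V where
  Adj u v := OK w u v ∧ rho u v ≤ t
  symm := ⟨fun u v h => ⟨⟨h.1.1.symm, h.1.2.2, h.1.2.1⟩, by rw [hs]; exact h.2⟩⟩
  loopless := ⟨fun u h => h.1.1 rfl⟩

/-- An ultrametric comparable with `rho`. -/
structure Ultra (V : Type) [Fintype V] (w : V) (rho : V → V → ℝ) (N : ℝ) where
  U : V → V → ℝ
  symm : ∀ u v, U u v = U v u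
  pos : ∀ u v, OK w u v → 0 < U u v
  tri : ∀ u v x, OK w u v → OK w v x → OK w u x → U u x ≤ max (U u v) (U v x)
  le : ∀ u v, OK w u v → U u v ≤ rho u v
  ge : ∀ u v, OK w u v → rho u v ≤ N * U u v

theorem chain_bound (w : V) (rho : V → V → ℝ) (hs : ∀ u v, rho u v = rho v u)
    (Q : ℝ) (hQ : 1 ≤ Q) (t : ℝ) (ht : 0 ≤ t)
    (hq : ∀ u x v, OK w u x → OK w x v → OK w u v → rho u v ≤ Q * rho u x + rho x v)
    {u v : V} (p : (gr w rho hs t).Walk u v) (hp : p.IsPath) (huv : u ≠ v) :
    rho u v ≤ Q * t * p.length := by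
  induction p with
  | nil => exact absurd rfl huv
  | @cons u x v h p ih =>
    have hQt : 0 ≤ Q * t := by positivity
    have hp' : p.IsPath := hp.of_cons
    have hadj : OK w u x ∧ rho u x ≤ t := h
    by_cases hxv : x = v
    · subst hxv
      rw [SimpleGraph.Walk.length_cons]
      push_cast
      have h1 : rho u x ≤ Q * t := by nlinarith [hadj.2]
      have h2 : 0 ≤ Q * t * (p.length : ℝ) := by positivity
      nlinarith
    · have hv : v ≠ w := by
        -- the last vertex of a nontrivial walk is not `w`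
        have := p.adj_penultimate (by
          intro hnil
          exact hxv hnil.eq)
        exact this.1.2.2
      have hx : x ≠ w := hadj.1.2.2
      have h1 := hq u x v hadj.1 ⟨hxv, hx, hv⟩ ⟨huv, hadj.1.2.1, hv⟩
      have h2 := ih hp' hxv
      rw [SimpleGraph.Walk.length_cons]
      push_cast
      have h3 : Q * rho u x ≤ Q * t := by nlinarith [hadj.2]
      nlinarith

/-- The values of `rho` on pairs away from `w`. -/
noncomputable def vals (w : V) (rho : V → V → ℝ) : Finset ℝ :=
  (Finset.univ.filter (fun p : V × V => OK w p.1 p.2)).image (fun p => rho p.1 p.2)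

/-- The thresholds at which `u` and `v` are connected. -/
noncomputable def thr (w : V) (rho : V → V → ℝ) (hs : ∀ u v, rho u v = rho v u) (u v : V) :
    Finset ℝ :=
  (vals w rho).filter (fun t => (gr w rho hs t).Reachable u v)

theorem rho_mem_thr (w : V) (rho : V → V → ℝ) (hs : ∀ u v, rho u v = rho v u) {u v : V}
    (h : OK w u v) : rho u v ∈ thr w rho hs u v := by
  unfold thr vals
  rw [Finset.mem_filter, Finset.mem_image]
  refine ⟨⟨(u, v), by simpa using h, rfl⟩, ?_⟩
  exact SimpleGraph.Adj.reachable (show (gr w rho hs (rho u v)).Adj u v from ⟨h, le_refl _⟩)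

/-- The subdominant ultrametric. -/
noncomputable def uU (w : V) (rho : V → V → ℝ) (hs : ∀ u v, rho u v = rho v u) (u v : V) : ℝ :=
  if h : (thr w rho hs u v).Nonempty then (thr w rho hs u v).min' h else 1

theorem uU_mem (w : V) (rho : V → V → ℝ) (hs : ∀ u v, rho u v = rho v u) {u v : V}
    (h : OK w u v) : uU w rho hs u v ∈ thr w rho hs u v := by
  have hne : (thr w rho hs u v).Nonempty := ⟨_, rho_mem_thr w rho hs h⟩
  unfold uU
  rw [dif_pos hne]
  exact Finset.min'_mem _ _

theorem uU_le (w : V) (rho : V → V → ℝ) (hs : ∀ u v, rho u v = rho v u) {u v : V} {t : ℝ}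
    (ht : t ∈ thr w rho hs u v) : uU w rho hs u v ≤ t := by
  have hne : (thr w rho hs u v).Nonempty := ⟨_, ht⟩
  unfold uU
  rw [dif_pos hne]
  exact Finset.min'_le _ _ ht

theorem gr_mono (w : V) (rho : V → V → ℝ) (hs : ∀ u v, rho u v = rho v u) {s t : ℝ}
    (h : s ≤ t) : gr w rho hs s ≤ gr w rho hs t := by
  intro u v huv
  exact ⟨huv.1, le_trans huv.2 h⟩

theorem exists_ultra (w : V) (rho : V → V → ℝ) (hs : ∀ u v, rho u v = rho v u)
    (Q : ℝ) (hQ : 1 ≤ Q) (hpos : ∀ u v, OK w u v → 0 < rho u v)
    (hq : ∀ u x v, OK w u x → OK w x v → OK w u v → rho u v ≤ Q * rho u x + rho x v) :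
    Nonempty (Ultra V w rho (Q * Fintype.card V)) := by
  have hthr : ∀ u v t, t ∈ thr w rho hs u v → 0 < t := by
    intro u v t ht
    unfold thr vals at ht
    rw [Finset.mem_filter, Finset.mem_image] at ht
    obtain ⟨⟨p, hp, rfl⟩, _⟩ := ht
    exact hpos _ _ (by simpa using hp)
  have hsymm : ∀ u v, thr w rho hs u v = thr w rho hs v u := by
    intro u v
    unfold thr
    apply Finset.filter_congr
    intro t _
    exact ⟨fun h => h.symm, fun h => h.symm⟩
  refine ⟨⟨uU w rho hs, ?_, ?_, ?_, ?_, ?_⟩⟩
  · intro u v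
    unfold uU
    simp only [hsymm u v]
  · intro u v h
    exact hthr _ _ _ (uU_mem w rho hs h)
  · intro u v x huv hvx hux
    have h1 := uU_mem w rho hs huv
    have h2 := uU_mem w rho hs hvx
    unfold thr at h1 h2
    rw [Finset.mem_filter] at h1 h2
    apply uU_le w rho hs
    unfold thr
    rw [Finset.mem_filter]
    refine ⟨?_, ?_⟩
    · rcases max_choice (uU w rho hs u v) (uU w rho hs v x) with h | h
      · rw [h]; exact h1.1
      · rw [h]; exact h2.1
    · exact (h1.2.mono (gr_mono w rho hs (le_max_left _ _))).trans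
        (h2.2.mono (gr_mono w rho hs (le_max_right _ _)))
  · intro u v h
    exact uU_le w rho hs (rho_mem_thr w rho hs h)
  · intro u v h
    have h1 := uU_mem w rho hs h
    have h1' := h1
    unfold thr at h1
    rw [Finset.mem_filter] at h1
    obtain ⟨p, hp⟩ := h1.2.exists_isPath
    have h2 := chain_bound w rho hs Q hQ (uU w rho hs u v) (hthr _ _ _ h1').le hq p hp h.1
    have h3 : (p.length : ℝ) ≤ Fintype.card V := by
      exact_mod_cast (hp.length_lt).le
    have h4 : 0 ≤ Q * uU w rho hs u v := mul_nonneg (by linarith) (hthr _ _ _ h1').le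
    calc rho u v ≤ Q * uU w rho hs u v * p.length := h2
      _ ≤ Q * uU w rho hs u v * Fintype.card V := mul_le_mul_of_nonneg_left h3 h4
      _ = Q * Fintype.card V * uU w rho hs u v := by ring

section build

variable {w : V} {rho : V → V → ℝ} {N : ℝ} (D : Ultra V w rho N)

/-- Nodes: ordered pairs of distinct vertices away from `w`; `(a,b)` stands for the closed ball
around `a` of radius `U a b`. -/
abbrev Nd (w : V) : Type := {p : V × V // OK w p.1 p.2}

/-- the radius of a node -/
noncomputable def rad (o : Nd w) : ℝ := D.U o.1.1 o.1.2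

/-- membership in the ball -/
def In (o : Nd w) (v : V) : Prop := v ≠ w ∧ (v = o.1.1 ∨ D.U o.1.1 v ≤ rad D o)

theorem rad_pos (o : Nd w) : 0 < rad D o := D.pos _ _ o.2

theorem in_in {o : Nd w} {u v : V} (hu : In D o u) (hv : In D o v) (huv : u ≠ v) :
    D.U u v ≤ rad D o := by
  obtain ⟨hu0, hu⟩ := hu
  obtain ⟨hv0, hv⟩ := hv
  have ha := o.2.2.1
  by_cases h1 : u = o.1.1
  · subst h1
    rcases hv with hv | hv
    · exact absurd hv.symm huv
    · exact hv
  · by_cases h2 : v = o.1.1
    · subst h2
      rcases hu with hu | hu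
      · exact absurd hu huv
      · rw [D.symm]; exact hu
    · have hu' := hu.resolve_left h1
      have hv' := hv.resolve_left h2
      refine le_trans (D.tri u o.1.1 v ⟨h1, hu0, ha⟩ ⟨Ne.symm h2, ha, hv0⟩ ⟨huv, hu0, hv0⟩) ?_
      rw [D.symm u]
      exact max_le hu' hv'

theorem out_lt {o : Nd w} {v : V} (hv : ¬ In D o v) (hv0 : v ≠ w) :
    v ≠ o.1.1 ∧ rad D o < D.U o.1.1 v := by
  unfold In at hv
  push Not at hv
  exact hv hv0

theorem in_out {o : Nd w} {u v : V} (hu : In D o u) (hv : ¬ In D o v) (hv0 : v ≠ w) :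
    D.U u v = D.U o.1.1 v := by
  obtain ⟨h1, h2⟩ := out_lt D hv hv0
  obtain ⟨hu0, hu⟩ := hu
  by_cases hu1 : u = o.1.1
  · rw [hu1]
  · have hu' := hu.resolve_left hu1
    have huv : u ≠ v := by
      rintro rfl
      exact absurd hu' (not_le.mpr h2)
    have ha := o.2.2.1
    have t1 := D.tri o.1.1 u v ⟨Ne.symm hu1, ha, hu0⟩ ⟨huv, hu0, hv0⟩ ⟨Ne.symm h1, ha, hv0⟩
    have t2 := D.tri u o.1.1 v ⟨hu1, hu0, ha⟩ ⟨Ne.symm h1, ha, hv0⟩ ⟨huv, hu0, hv0⟩
    rw [D.symm u o.1.1] at t2
    apply le_antisymm
    · rcases le_max_iff.mp t2 with h | h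
      · linarith
      · exact h
    · rcases le_max_iff.mp t1 with h | h
      · linarith
      · exact h

/-- normalised vertex weights -/
noncomputable def bet (o : Nd w) (v : V) : ℝ :=
  if In D o v then (Real.sqrt (rad D o))⁻¹ else Real.sqrt (rad D o) / D.U o.1.1 v

theorem sqrt_pos' (o : Nd w) : 0 < Real.sqrt (rad D o) := Real.sqrt_pos.mpr (rad_pos D o)

theorem sqrt_mul (o : Nd w) : Real.sqrt (rad D o) * Real.sqrt (rad D o) = rad D o :=
  Real.mul_self_sqrt (rad_pos D o).le

theorem bet_pos (o : Nd w) (v : V) (hv : v ≠ w) : 0 < bet D o v := by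
  unfold bet
  split_ifs with h
  · exact inv_pos.mpr (sqrt_pos' D o)
  · obtain ⟨h1, h2⟩ := out_lt D h hv
    exact div_pos (sqrt_pos' D o) (lt_trans (rad_pos D o) h2)

/-- the nodes on the path of a pair -/
def pth (o : Nd w) (u v : V) : Prop :=
  (In D o u ∧ ¬ In D o v) ∨ (¬ In D o u ∧ In D o v) ∨
    (In D o u ∧ In D o v ∧ u ≠ v ∧ D.U u v = rad D o)

theorem pth_symm {o : Nd w} {u v : V} (h : pth D o u v) : pth D o v u := by
  rcases h with h | h | h
  · exact Or.inr (Or.inl ⟨h.2, h.1⟩)
  · exact Or.inl ⟨h.2, h.1⟩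
  · exact Or.inr (Or.inr ⟨h.2.1, h.1, h.2.2.1.symm, by rw [D.symm]; exact h.2.2.2⟩)

theorem bet_mul_le (o : Nd w) {u v : V} (h : OK w u v) :
    D.U u v * (bet D o u * bet D o v) ≤ 1 := by
  have hs := sqrt_pos' D o
  have hm := sqrt_mul D o
  have hr := rad_pos D o
  have hU := D.pos u v h
  unfold bet
  split_ifs with hu hv hv
  · have h1 := in_in D hu hv h.1
    rw [← mul_inv, hm, ← div_eq_mul_inv, div_le_one hr]
    exact h1
  · have h1 := in_out D hu hv h.2.2
    obtain ⟨_, h2⟩ := out_lt D hv h.2.2
    rw [h1]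
    have h3 : (0:ℝ) < D.U o.1.1 v := lt_trans hr h2
    have h4 : D.U o.1.1 v * ((Real.sqrt (rad D o))⁻¹ * (Real.sqrt (rad D o) / D.U o.1.1 v)) = 1 := by
      field_simp
    exact h4.le
  · have h1 := in_out D hv hu h.2.1
    obtain ⟨_, h2⟩ := out_lt D hu h.2.1
    rw [D.symm u v, h1]
    have h3 : (0:ℝ) < D.U o.1.1 u := lt_trans hr h2
    have h4 : D.U o.1.1 u * (Real.sqrt (rad D o) / D.U o.1.1 u * (Real.sqrt (rad D o))⁻¹) = 1 := by
      field_simp
    exact h4.le
  · obtain ⟨hu1, hu2⟩ := out_lt D hu h.2.1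
    obtain ⟨hv1, hv2⟩ := out_lt D hv h.2.2
    have hu3 : (0:ℝ) < D.U o.1.1 u := lt_trans hr hu2
    have hv3 : (0:ℝ) < D.U o.1.1 v := lt_trans hr hv2
    have ha := o.2.2.1
    have t := D.tri u o.1.1 v ⟨hu1, h.2.1, ha⟩ ⟨Ne.symm hv1, ha, h.2.2⟩ h
    rw [D.symm u o.1.1] at t
    have key : D.U u v * rad D o ≤ D.U o.1.1 u * D.U o.1.1 v := by
      rcases le_max_iff.mp t with h' | h'
      · calc D.U u v * rad D o ≤ D.U o.1.1 u * rad D o := mul_le_mul_of_nonneg_right h' hr.le
          _ ≤ D.U o.1.1 u * D.U o.1.1 v := mul_le_mul_of_nonneg_left hv2.le hu3.le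
      · calc D.U u v * rad D o ≤ D.U o.1.1 v * rad D o := mul_le_mul_of_nonneg_right h' hr.le
          _ ≤ D.U o.1.1 v * D.U o.1.1 u := mul_le_mul_of_nonneg_left hu2.le hv3.le
          _ = _ := mul_comm _ _
    have e : D.U u v * (Real.sqrt (rad D o) / D.U o.1.1 u * (Real.sqrt (rad D o) / D.U o.1.1 v))
        = D.U u v * rad D o / (D.U o.1.1 u * D.U o.1.1 v) := by
      rw [div_mul_div_comm, hm]; ring
    rw [e, div_le_one (mul_pos hu3 hv3)]
    exact key

theorem bet_mul_eq (o : Nd w) {u v : V} (h : OK w u v) (hp : pth D o u v) :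
    D.U u v * (bet D o u * bet D o v) = 1 := by
  have hs := sqrt_pos' D o
  have hm := sqrt_mul D o
  have hr := rad_pos D o
  unfold bet
  rcases hp with ⟨hu, hv⟩ | ⟨hu, hv⟩ | ⟨hu, hv, _, hU⟩
  · rw [if_pos hu, if_neg hv, in_out D hu hv h.2.2]
    obtain ⟨_, h2⟩ := out_lt D hv h.2.2
    have h3 : (0:ℝ) < D.U o.1.1 v := lt_trans hr h2
    field_simp
  · rw [if_neg hu, if_pos hv, D.symm u v, in_out D hv hu h.2.1]
    obtain ⟨_, h2⟩ := out_lt D hu h.2.1
    have h3 : (0:ℝ) < D.U o.1.1 u := lt_trans hr h2
    field_simp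
  · rw [if_pos hu, if_pos hv, hU, ← mul_inv, hm]
    exact mul_inv_cancel₀ hr.ne'

theorem not_in_w (o : Nd w) : ¬ In D o w := fun h => h.1 rfl

theorem in_left (o : Nd w) : In D o o.1.1 := ⟨o.2.2.1, Or.inl rfl⟩

theorem in_right (o : Nd w) : In D o o.1.2 := ⟨o.2.2.2, Or.inr le_rfl⟩

theorem pth_self {u v : V} (h : OK w u v) : pth D ⟨(u, v), h⟩ u v :=
  Or.inr (Or.inr ⟨in_left D _, in_right D ⟨(u, v), h⟩, h.1, rfl⟩)

/-- The ear property away from `w`. -/
theorem ear_aux {o : Nd w} {u v x y : V} (h : OK w u v) (hxy : x ≠ y)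
    (hlev : OK w x y → D.U u v ≤ D.U x y)
    (h1 : pth D o u v) (h2 : pth D o x y) : pth D ⟨(u, v), h⟩ x y := by
  set T : Nd w := ⟨(u, v), h⟩ with hT
  have hTu : In D T u := in_left D T
  have hTv : In D T v := in_right D T
  have hrT : rad D T = D.U u v := rfl
  -- the case where `o` is strictly inside
  have strict : ∀ c d : V, In D o c → ¬ In D o d → In D T c → d ≠ w → D.U c d = rad D T →
      pth D T x y := by
    intro c d hc hd hTc hdw hcd
    have hlt : rad D o < rad D T := by
      rw [← hcd, in_out D hc hd hdw]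
      exact (out_lt D hd hdw).2
    have hsub : ∀ z, In D o z → In D T z := by
      intro z hz
      by_cases hzc : c = z
      · rw [← hzc]; exact hTc
      · by_contra hzT
        have e1 := in_out D hTc hzT hz.1
        have e2 := (out_lt D hzT hz.1).2
        have e3 := in_in D hc hz hzc
        linarith
    have one : ∀ x' y', In D o x' → ¬ In D o y' → (OK w x' y' → D.U u v ≤ D.U x' y') →
        pth D T x' y' := by
      intro x' y' hx' hy' hl
      have hx'T := hsub x' hx'
      by_cases hy'T : In D T y'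
      · have hne : x' ≠ y' := by
          rintro rfl
          exact hy' hx'
        refine Or.inr (Or.inr ⟨hx'T, hy'T, hne, ?_⟩)
        exact le_antisymm (in_in D hx'T hy'T hne) (hl ⟨hne, hx'T.1, hy'T.1⟩)
      · exact Or.inl ⟨hx'T, hy'T⟩
    rcases h2 with ⟨hx, hy⟩ | ⟨hx, hy⟩ | ⟨hx, hy, _, hU⟩
    · exact one x y hx hy hlev
    · apply pth_symm
      exact one y x hy hx (fun hok => by
        rw [D.symm y x]; exact hlev ⟨hok.1.symm, hok.2.2, hok.2.1⟩)
    · exfalso
      have := hlev ⟨hxy, hx.1, hy.1⟩
      rw [hU] at this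
      linarith
  rcases h1 with ⟨hu, hv⟩ | ⟨hu, hv⟩ | ⟨hu, hv, _, hU⟩
  · exact strict u v hu hv hTu h.2.2 rfl
  · exact strict v u hv hu hTv h.2.1 (by rw [D.symm]; rfl)
  · -- same ball
    have hiff : ∀ z, In D o z ↔ In D T z := by
      intro z
      constructor
      · intro hz
        by_cases hzu : z = u
        · rw [hzu]; exact hTu
        · refine ⟨hz.1, Or.inr ?_⟩
          have := in_in D hu hz (Ne.symm hzu)
          show D.U u z ≤ D.U u v
          rw [hU]; exact this
      · intro hz
        by_contra hzo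
        have e1 := in_out D hu hzo hz.1
        have e2 := (out_lt D hzo hz.1).2
        by_cases hzu : u = z
        · exact hzo (hzu ▸ hu)
        · have e3 := in_in D hTu hz hzu
          rw [hrT, hU] at e3
          linarith
    have hr : rad D o = rad D T := by rw [hrT, hU]
    rcases h2 with ⟨hx, hy⟩ | ⟨hx, hy⟩ | ⟨hx, hy, hne, hU'⟩
    · exact Or.inl ⟨(hiff x).mp hx, fun h' => hy ((hiff y).mpr h')⟩
    · exact Or.inr (Or.inl ⟨fun h' => hx ((hiff x).mpr h'), (hiff y).mp hy⟩)
    · exact Or.inr (Or.inr ⟨(hiff x).mp hx, (hiff y).mp hy, hne, by rw [hU', hr]⟩)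

theorem exists_top (D : Ultra V w rho N) (hn : 3 ≤ Fintype.card V) :
    ∃ o : Nd w, ∀ z, z ≠ w → In D o z := by
  -- a pair of maximal distance
  have hne : (Finset.univ : Finset (Nd w)).Nonempty := by
    have h1 : 2 ≤ (Finset.univ.erase w).card := by
      rw [Finset.card_erase_of_mem (Finset.mem_univ w), Finset.card_univ]; omega
    obtain ⟨a, ha, b, hb, hab⟩ := Finset.one_lt_card.mp h1
    exact ⟨⟨(a, b), hab, Finset.ne_of_mem_erase ha, Finset.ne_of_mem_erase hb⟩,
      Finset.mem_univ _⟩
  obtain ⟨o, _, ho⟩ := Finset.exists_max_image Finset.univ (fun o : Nd w => rad D o) hne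
  refine ⟨o, fun z hz => ⟨hz, ?_⟩⟩
  by_cases h : z = o.1.1
  · exact Or.inl h
  · exact Or.inr (ho ⟨(o.1.1, z), Ne.symm h, o.2.2.1, hz⟩ (Finset.mem_univ _))

/-- The level of a pair. -/
noncomputable def lev (D : Ultra V w rho N) (t : Nd w) (u v : V) : ℝ :=
  if u = w ∨ v = w then rad D t + 1 else D.U u v

theorem lev_ok (D : Ultra V w rho N) (t : Nd w) {u v : V} (h : OK w u v) :
    lev D t u v = D.U u v := by
  unfold lev
  rw [if_neg]
  rintro (h' | h')
  · exact h.2.1 h'
  · exact h.2.2 h'

/-- The full weights of the vertices at a node. -/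
noncomputable def bw (D : Ultra V w rho N) (A : V → ℝ) (o : Nd w) (v : V) : ℝ :=
  if v = w then Real.sqrt (rad D o) else bet D o v / A v

theorem bw_w_mul (D : Ultra V w rho N) (A : V → ℝ) (o : Nd w) {v : V} (hv : v ≠ w)
    (hA : 0 < A v) : bw D A o w * bw D A o v ≤ 1 / A v ∧
      (pth D o w v → bw D A o w * bw D A o v = 1 / A v) := by
  have hs := sqrt_pos' D o
  have hm := sqrt_mul D o
  have hr := rad_pos D o
  unfold bw
  rw [if_pos rfl, if_neg hv]
  have e : Real.sqrt (rad D o) * (bet D o v / A v) = (Real.sqrt (rad D o) * bet D o v) / A v := by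
    ring
  rw [e]
  have e1 : Real.sqrt (rad D o) * bet D o v ≤ 1 := by
    unfold bet
    split_ifs with h
    · rw [mul_inv_cancel₀ hs.ne']
    · obtain ⟨_, h2⟩ := out_lt D h hv
      rw [← mul_div_assoc, hm, div_le_one (lt_trans hr h2)]
      exact h2.le
  constructor
  · exact div_le_div_of_nonneg_right e1 hA.le
  · intro hp
    have hin : In D o v := by
      rcases hp with h | h | h
      · exact absurd rfl h.1.1
      · exact h.2
      · exact absurd rfl h.1.1
    unfold bet
    rw [if_pos hin, mul_inv_cancel₀ hs.ne']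

end build

/-- **Existence of the node system.** -/
theorem exists_nodeSys (hn : 3 ≤ Fintype.card V) (lam K : V → V → ℝ) (q Q : ℝ) (hq1 : 1 ≤ q)
    (hQ : 1 ≤ Q) (lam_symm : ∀ u v, lam u v = lam v u) (K_symm : ∀ u v, K u v = K v u)
    (K_pos : ∀ u v, u ≠ v → 0 < K u v)
    (lam_lower : ∀ u v, u ≠ v → 1 ≤ q * (lam u v * K u v))
    (lam_upper : ∀ u v, u ≠ v → lam u v * K u v ≤ 1)
    (four : ∀ u v x y : V, u ≠ v → u ≠ x → u ≠ y → v ≠ x → v ≠ y → x ≠ y →
      K u v * K x y ≤ K u x * K v y + Q * (K u y * K v x)) :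
    Nonempty (NodeSys V lam (1 / (q * (Q * Fintype.card V)))) := by
  have : Nonempty V := Fintype.card_pos_iff.mp (by omega)
  obtain ⟨w⟩ := this
  set rho : V → V → ℝ := fun u v => K u v / (K u w * K v w) with hrho
  have hs : ∀ u v, rho u v = rho v u := by
    intro u v
    simp only [hrho]
    rw [K_symm u v, mul_comm (K u w)]
  have hpos : ∀ u v, OK w u v → 0 < rho u v := by
    intro u v h
    exact div_pos (K_pos _ _ h.1) (mul_pos (K_pos _ _ h.2.1) (K_pos _ _ h.2.2))
  have hqm : ∀ u x v, OK w u x → OK w x v → OK w u v → rho u v ≤ Q * rho u x + rho x v := by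
    intro u x v h1 h2 h3
    have hf := four u v w x h3.1 h3.2.1 h1.1 h3.2.2 h2.1.symm h1.2.2.symm
    have ku := K_pos _ _ h1.2.1
    have kx := K_pos _ _ h1.2.2
    have kv := K_pos _ _ h2.2.2
    have e : Q * rho u x + rho x v - rho u v =
        (K u w * K v x + Q * (K u x * K v w) - K u v * K w x) / (K u w * K v w * K x w) := by
      simp only [hrho]
      rw [K_symm x v, K_symm w x]
      field_simp
      ring
    have : 0 ≤ Q * rho u x + rho x v - rho u v := by
      rw [e]
      apply div_nonneg
      · linarith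
      · positivity
    linarith
  obtain ⟨D⟩ := exists_ultra w rho hs Q hQ hpos hqm
  obtain ⟨N, hN⟩ : ∃ N : ℝ, N = Q * Fintype.card V := ⟨_, rfl⟩
  rw [← hN] at D ⊢
  obtain ⟨t, ht⟩ := exists_top D hn
  have hcard : (1:ℝ) ≤ Fintype.card V := by exact_mod_cast (by omega : 1 ≤ Fintype.card V)
  have hN1 : 1 ≤ N := by nlinarith
  have hN0 : 0 < N := by linarith
  have hq0 : 0 < q := by linarith
  have hc0 : (0:ℝ) < 1 / (q * N) := by positivity
  set A : V → ℝ := fun v => K v w with hA
  have hApos : ∀ v, v ≠ w → 0 < A v := fun v hv => K_pos _ _ hv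
  have hradt : ∀ u v, OK w u v → D.U u v ≤ rad D t := fun u v h =>
    in_in D (ht u h.2.1) (ht v h.2.2) h.1
  -- lam compared with `1/K`
  have lamK_le : ∀ u v, u ≠ v → lam u v ≤ 1 / K u v := by
    intro u v h
    rw [le_div_iff₀ (K_pos _ _ h)]
    exact lam_upper u v h
  have lamK_ge : ∀ u v, u ≠ v → 1 / (q * K u v) ≤ lam u v := by
    intro u v h
    have hk := K_pos _ _ h
    rw [div_le_iff₀ (by positivity)]
    have := lam_lower u v h
    linarith
  have w_lower : ∀ (o : Nd w) (v : V), v ≠ w → 1 / (q * N) * (bw D A o w * bw D A o v) ≤ lam w v := by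
    intro o v hv
    have h1 := (bw_w_mul D A o hv (hApos v hv)).1
    have hk := hApos v hv
    calc 1 / (q * N) * (bw D A o w * bw D A o v) ≤ 1 / (q * N) * (1 / A v) :=
          mul_le_mul_of_nonneg_left h1 hc0.le
      _ ≤ 1 / q * (1 / A v) := by
          apply mul_le_mul_of_nonneg_right _ (by positivity)
          apply one_div_le_one_div_of_le hq0
          nlinarith
      _ = 1 / (q * K w v) := by
          rw [K_symm w v, one_div_mul_one_div]
      _ ≤ lam w v := lamK_ge w v hv.symm
  have w_upper : ∀ (o : Nd w) (v : V), v ≠ w → pth D o w v →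
      lam w v ≤ bw D A o w * bw D A o v := by
    intro o v hv hp
    rw [(bw_w_mul D A o hv (hApos v hv)).2 hp]
    have := lamK_le w v hv.symm
    rw [K_symm w v] at this
    exact this
  refine ⟨{
    O := Nd w
    finO := inferInstance
    card_le := ?_
    b := bw D A
    b_pos := ?_
    path := pth D
    path_symm := fun o u v h => pth_symm D h
    level := lev D t
    level_symm := ?_
    top := fun u v => if h : OK w u v then ⟨(u, v), h⟩ else t
    lower := ?_
    upper := ?_
    top_mem := ?_
    ear := ?_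
    share := ?_ }⟩
  · calc Fintype.card (Nd w) ≤ Fintype.card (V × V) :=
          Fintype.card_le_of_injective _ Subtype.val_injective
      _ = Fintype.card V ^ 2 := by rw [Fintype.card_prod, sq]
  · intro o v
    unfold bw
    split_ifs with h
    · exact sqrt_pos' D o
    · exact div_pos (bet_pos D o v h) (hApos v h)
  · intro u v
    unfold lev
    simp only [or_comm, D.symm u v]
  · -- lower
    intro o u v huv
    by_cases hu : u = w
    · subst hu
      exact w_lower o v huv.symm
    · by_cases hv : v = w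
      · subst hv
        rw [mul_comm (bw D A o u), lam_symm]
        exact w_lower o u hu
      · have hok : OK w u v := ⟨huv, hu, hv⟩
        have h1 := bet_mul_le D o hok
        have hUp := D.pos u v hok
        have h2 := D.ge u v hok
        have hku := hApos u hu
        have hkv := hApos v hv
        have hrp := hpos u v hok
        have eK : K u v = rho u v * (A u * A v) := by
          simp only [hrho, hA]
          rw [div_mul_cancel₀]
          exact (mul_pos hku hkv).ne'
        have hb : bet D o u * bet D o v ≤ 1 / D.U u v := by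
          rw [le_div_iff₀ hUp]
          linarith
        unfold bw
        rw [if_neg hu, if_neg hv]
        calc 1 / (q * N) * (bet D o u / A u * (bet D o v / A v))
            = 1 / (q * N) * (bet D o u * bet D o v) * (1 / (A u * A v)) := by
              field_simp
          _ ≤ 1 / (q * N) * (1 / D.U u v) * (1 / (A u * A v)) := by
              apply mul_le_mul_of_nonneg_right _ (by positivity)
              exact mul_le_mul_of_nonneg_left hb hc0.le
          _ = 1 / (q * (N * D.U u v) * (A u * A v)) := by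
              rw [one_div_mul_one_div, one_div_mul_one_div]
              ring_nf
          _ ≤ 1 / (q * rho u v * (A u * A v)) := by
              apply one_div_le_one_div_of_le (by positivity)
              apply mul_le_mul_of_nonneg_right _ (by positivity)
              exact mul_le_mul_of_nonneg_left h2 hq0.le
          _ = 1 / (q * K u v) := by rw [eK]; ring_nf
          _ ≤ lam u v := lamK_ge u v huv
  · -- upper
    intro o u v huv hp
    by_cases hu : u = w
    · subst hu
      exact w_upper o v huv.symm hp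
    · by_cases hv : v = w
      · subst hv
        rw [mul_comm (bw D A o u), lam_symm]
        exact w_upper o u hu (pth_symm D hp)
      · have hok : OK w u v := ⟨huv, hu, hv⟩
        have h1 := bet_mul_eq D o hok hp
        have hUp := D.pos u v hok
        have h2 := D.le u v hok
        have hku := hApos u hu
        have hkv := hApos v hv
        have hrp := hpos u v hok
        have eK : K u v = rho u v * (A u * A v) := by
          simp only [hrho, hA]
          rw [div_mul_cancel₀]
          exact (mul_pos hku hkv).ne'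
        have hb : bet D o u * bet D o v = 1 / D.U u v := by
          rw [eq_div_iff hUp.ne']
          linarith
        unfold bw
        rw [if_neg hu, if_neg hv]
        calc lam u v ≤ 1 / K u v := lamK_le u v huv
          _ = 1 / (rho u v * (A u * A v)) := by rw [eK]
          _ ≤ 1 / (D.U u v * (A u * A v)) := by
              apply one_div_le_one_div_of_le (by positivity)
              exact mul_le_mul_of_nonneg_right h2 (by positivity)
          _ = 1 / D.U u v * (1 / (A u * A v)) := by rw [one_div_mul_one_div]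
          _ = (bet D o u * bet D o v) * (1 / (A u * A v)) := by rw [hb]
          _ = bet D o u / A u * (bet D o v / A v) := by field_simp
  · -- top_mem
    intro u v huv
    by_cases h : OK w u v
    · rw [dif_pos h]
      exact pth_self D h
    · rw [dif_neg h]
      by_cases hu : u = w
      · refine Or.inr (Or.inl ⟨?_, ht v ?_⟩)
        · rw [hu]; exact not_in_w D t
        · rintro rfl; exact huv hu
      · have hv : v = w := by
          by_contra hv
          exact h ⟨huv, hu, hv⟩
        refine Or.inl ⟨ht u hu, ?_⟩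
        rw [hv]; exact not_in_w D t
  · -- ear
    rintro u v x y huv hxy hl ⟨o, h1, h2⟩
    by_cases h : OK w u v
    · rw [dif_pos h]
      apply ear_aux D h hxy _ h1 h2
      intro hok
      rw [lev_ok D t h, lev_ok D t hok] at hl
      exact hl
    · rw [dif_neg h]
      have hw : u = w ∨ v = w := by
        by_contra hc
        push Not at hc
        exact h ⟨huv, hc.1, hc.2⟩
      have hxyw : x = w ∨ y = w := by
        by_contra hc
        push Not at hc
        have hok : OK w x y := ⟨hxy, hc.1, hc.2⟩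
        have h3 := hradt x y hok
        have h4 := lev_ok D t hok
        have h5 : lev D t u v = rad D t + 1 := by
          unfold lev
          rw [if_pos hw]
        rw [h4, h5] at hl
        linarith
      rcases hxyw with h' | h'
      · refine Or.inr (Or.inl ⟨?_, ht y ?_⟩)
        · rw [h']; exact not_in_w D t
        · rintro rfl; exact hxy h'
      · refine Or.inl ⟨ht x ?_, ?_⟩
        · rintro rfl; exact hxy h'.symm
        · rw [h']; exact not_in_w D t
  · -- share
    intro u v x huv hux
    by_cases hu : u = w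
    · subst hu
      exact ⟨t, Or.inr (Or.inl ⟨not_in_w D t, ht v huv.symm⟩),
        Or.inr (Or.inl ⟨not_in_w D t, ht x hux.symm⟩)⟩
    · by_cases hv : v = w
      · by_cases hx : x = w
        · refine ⟨t, Or.inl ⟨ht u hu, ?_⟩, Or.inl ⟨ht u hu, ?_⟩⟩
          · rw [hv]; exact not_in_w D t
          · rw [hx]; exact not_in_w D t
        · have hok : OK w u x := ⟨hux, hu, hx⟩
          refine ⟨⟨(u, x), hok⟩, Or.inl ⟨in_left D _, ?_⟩, pth_self D hok⟩
          rw [hv]; exact not_in_w D _
      · have hok : OK w u v := ⟨huv, hu, hv⟩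
        by_cases hx : x = w
        · refine ⟨⟨(u, v), hok⟩, pth_self D hok, Or.inl ⟨in_left D _, ?_⟩⟩
          rw [hx]; exact not_in_w D _
        · have hok' : OK w u x := ⟨hux, hu, hx⟩
          rcases le_total (D.U u v) (D.U u x) with hle | hle
          · refine ⟨⟨(u, v), hok⟩, pth_self D hok, ?_⟩
            by_cases hin : In D ⟨(u, v), hok⟩ x
            · refine Or.inr (Or.inr ⟨in_left D _, hin, hux, ?_⟩)
              exact le_antisymm (in_in D (in_left D ⟨(u, v), hok⟩) hin hux) hle
            · exact Or.inl ⟨in_left D _, hin⟩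
          · refine ⟨⟨(u, x), hok'⟩, ?_, pth_self D hok'⟩
            by_cases hin : In D ⟨(u, x), hok'⟩ v
            · refine Or.inr (Or.inr ⟨in_left D _, hin, huv, ?_⟩)
              exact le_antisymm (in_in D (in_left D ⟨(u, x), hok'⟩) hin huv) hle
            · exact Or.inl ⟨in_left D _, hin⟩

end Crest.Agent.R304.Nodes
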