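import Mathlib

/-!
# R304 / S0464 : base file — partial matchings as involutive functions

A partial matching of the finite set `V` is an involutive FUNCTION `s : V → V`; its holes are its
fixed points.  `pms V` is the Finset of perfect matchings (no holes), `st H` the Finset of
involutions whose set of holes is exactly `H`.  `W a s = ∏ v, a v (s v)`.
`swp A s t` is `t` on `A` and `s` off `A`;  `comp s t v` the component of `v` in the superposition
of `s` and `t`;  `del s u` removes the edge at `u`;  `add s u v` matches the holes `u ≠ v`;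
`hyb A s t` is `t` inside `A`, `s` outside `A`, edges crossing the boundary removed.
-/

set_option autoImplicit false
set_option linter.unusedSectionVars false

namespace Crest.Agent.R304

open Finset

section Defs
variable {V : Type*}

/-- involutive maps -/
def Inv (s : V → V) : Prop := ∀ v, s (s v) = v

/-- `A` is closed under `s` -/
def Cl (A : Finset V) (s : V → V) : Prop := ∀ v ∈ A, s v ∈ A

/-- activity of a pair (product of the two half weights) -/
def lam (a : V → V → ℝ) (u v : V) : ℝ := a u v * a v u

theorem lam_pos {a : V → V → ℝ} (ha : ∀ u v, 0 < a u v) (u v : V) : 0 < lam a u v :=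
  mul_pos (ha _ _) (ha _ _)

theorem lam_comm (a : V → V → ℝ) (u v : V) : lam a u v = lam a v u := mul_comm _ _

namespace Inv
variable {s : V → V}

theorem eq_iff (hs : Inv s) {x y : V} : s x = y ↔ x = s y :=
  ⟨fun h => by rw [← h, hs], fun h => by rw [h, hs]⟩

theorem injective (hs : Inv s) : Function.Injective s := fun x y h => by
  have := congrArg s h; rwa [hs, hs] at this

theorem inj (hs : Inv s) {x y : V} : s x = s y ↔ x = y := hs.injective.eq_iff

theorem involutive (hs : Inv s) : Function.Involutive s := hs

end Inv

variable [DecidableEq V]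

/-- `t` on `A`, `s` off `A` -/
def swp (A : Finset V) (s t : V → V) : V → V := fun v => if v ∈ A then t v else s v

/-- remove the edge at `u` -/
def del (s : V → V) (u : V) : V → V := fun v => if v = u ∨ v = s u then v else s v

/-- match `u` and `v` -/
def add (s : V → V) (u v : V) : V → V := fun x => if x = u then v else if x = v then u else s x

/-- `t` inside `A`, `s` outside `A`, no edges across -/
def hyb (A : Finset V) (s t : V → V) : V → V := fun v =>
  if v ∈ A then (if t v ∈ A then t v else v) else (if s v ∈ A then v else s v)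

end Defs

section Base
variable {V : Type*} [Fintype V] [DecidableEq V]

instance (s : V → V) : Decidable (Inv s) := by unfold Inv; infer_instance
instance (A : Finset V) (s : V → V) : Decidable (Cl A s) := by unfold Cl; infer_instance

/-- holes (fixed points) -/
def holes (s : V → V) : Finset V := univ.filter fun v => s v = v

@[simp] theorem mem_holes {s : V → V} {v : V} : v ∈ holes s ↔ s v = v := by simp [holes]

/-- all involutions -/
def invs (V : Type*) [Fintype V] [DecidableEq V] : Finset (V → V) := univ.filter fun s => Inv s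

/-- perfect matchings -/
def pms (V : Type*) [Fintype V] [DecidableEq V] : Finset (V → V) :=
  univ.filter fun s => Inv s ∧ ∀ v, s v ≠ v

/-- involutions with hole set exactly `H` -/
def st (H : Finset V) : Finset (V → V) := univ.filter fun s => Inv s ∧ holes s = H

@[simp] theorem mem_invs {s : V → V} : s ∈ invs V ↔ Inv s := by simp [invs]

@[simp] theorem mem_pms {s : V → V} : s ∈ pms V ↔ Inv s ∧ ∀ v, s v ≠ v := by simp [pms]

@[simp] theorem mem_st {s : V → V} {H : Finset V} : s ∈ st H ↔ Inv s ∧ holes s = H := by simp [st]

theorem holes_eq_empty {s : V → V} : holes s = ∅ ↔ ∀ v, s v ≠ v := by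
  simp [holes, Finset.filter_eq_empty_iff]

theorem st_empty : st (∅ : Finset V) = pms V := by
  ext s; simp [holes_eq_empty]

/-- the weight of a partial matching -/
def W (a : V → V → ℝ) (s : V → V) : ℝ := ∏ v, a v (s v)

/-- partition function of the involutions with hole set `H` -/
def Zh (a : V → V → ℝ) (H : Finset V) : ℝ := ∑ s ∈ st H, W a s

theorem W_pos {a : V → V → ℝ} (ha : ∀ u v, 0 < a u v) (s : V → V) : 0 < W a s :=
  Finset.prod_pos fun _ _ => ha _ _

theorem Zh_nonneg {a : V → V → ℝ} (ha : ∀ u v, 0 < a u v) (H : Finset V) : 0 ≤ Zh a H :=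
  Finset.sum_nonneg fun _ _ => (W_pos ha _).le

/-! ### closed sets -/

namespace Cl
omit [Fintype V]
variable {A B : Finset V} {s t : V → V}

omit [DecidableEq V] in
theorem mem_iff (hA : Cl A s) (hs : Inv s) {v : V} : s v ∈ A ↔ v ∈ A :=
  ⟨fun h => by have := hA _ h; rwa [hs] at this, hA v⟩

omit [DecidableEq V] in
theorem not_mem (hA : Cl A s) (hs : Inv s) {v : V} (h : v ∉ A) : s v ∉ A := fun h' =>
  h ((hA.mem_iff hs).1 h')

theorem union (hA : Cl A s) (hB : Cl B s) : Cl (A ∪ B) s := fun v hv => by
  rcases Finset.mem_union.1 hv with h | h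
  · exact Finset.mem_union_left _ (hA v h)
  · exact Finset.mem_union_right _ (hB v h)

theorem inter (hA : Cl A s) (hB : Cl B s) : Cl (A ∩ B) s := fun v hv => by
  rw [Finset.mem_inter] at *
  exact ⟨hA v hv.1, hB v hv.2⟩

theorem sdiff (hs : Inv s) (hA : Cl A s) (hB : Cl B s) : Cl (A \ B) s := fun v hv => by
  rw [Finset.mem_sdiff] at *
  exact ⟨hA v hv.1, hB.not_mem hs hv.2⟩

theorem swp (hB : Cl A t) : Cl A (swp A s t) := fun v hv => by
  simp only [Crest.Agent.R304.swp, if_pos hv]
  exact hB v hv

end Cl

theorem Cl.compl {A : Finset V} {s : V → V} (hs : Inv s) (hA : Cl A s) : Cl Aᶜ s := fun v hv => by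
  rw [Finset.mem_compl] at *
  exact hA.not_mem hs hv

omit [Fintype V] in
/-- parity: the number of holes in a closed set has the parity of the set -/
theorem card_fix_mod {s : V → V} (hs : Inv s) {A : Finset V} (hA : Cl A s) :
    (A.filter fun v => s v = v).card % 2 = A.card % 2 := by
  have key : ((A.filter fun v => ¬ s v = v).card : ZMod 2) = 0 := by
    have h := Finset.sum_involution (s := A.filter fun v => ¬ s v = v) (f := fun _ => (1 : ZMod 2))
      (fun v _ => s v) (fun _ _ => by decide)
      (fun v hv _ => (Finset.mem_filter.1 hv).2)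
      (fun v hv => by
        rw [Finset.mem_filter] at hv ⊢
        exact ⟨hA v hv.1, fun h => hv.2 (by rw [hs] at h; exact h.symm)⟩)
      (fun v _ => hs v)
    simpa using h
  have hd : 2 ∣ (A.filter fun v => ¬ s v = v).card := (ZMod.natCast_eq_zero_iff _ _).1 key
  have := Finset.card_filter_add_card_filter_not (s := A) (p := fun v => s v = v)
  omega

theorem card_inter_holes_mod {s : V → V} (hs : Inv s) {A : Finset V} (hA : Cl A s) :
    (A ∩ holes s).card % 2 = A.card % 2 := by
  rw [← card_fix_mod hs hA]
  congr 2
  ext v; simp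

theorem card_holes_mod {s : V → V} (hs : Inv s) :
    (holes s).card % 2 = Fintype.card V % 2 := by
  have := card_inter_holes_mod hs (A := (univ : Finset V)) (fun _ _ => Finset.mem_univ _)
  rwa [Finset.univ_inter, Finset.card_univ] at this

/-! ### swapping -/

section Swp
omit [Fintype V]
variable {A B : Finset V} {s t : V → V}

theorem swp_of_mem {v : V} (h : v ∈ A) : swp A s t v = t v := if_pos h
theorem swp_of_not_mem {v : V} (h : v ∉ A) : swp A s t v = s v := if_neg h

theorem Inv.swp (hs : Inv s) (ht : Inv t) (hA : Cl A s) (hB : Cl A t) : Inv (swp A s t) := fun v => by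
  by_cases h : v ∈ A
  · rw [swp_of_mem h, swp_of_mem (hB v h), ht]
  · rw [swp_of_not_mem h, swp_of_not_mem (hA.not_mem hs h), hs]

theorem swp_swp : swp A (swp A s t) (swp A t s) = s := by
  funext v
  by_cases h : v ∈ A
  · rw [swp_of_mem h, swp_of_mem h]
  · rw [swp_of_not_mem h, swp_of_not_mem h]

theorem swp_self : swp A s s = s := by funext v; simp [swp]

theorem swp_empty : swp ∅ s t = s := by funext v; simp [swp]

/-- swapping successively on two sets -/
theorem swp_swp_union (h : Disjoint A B) :
    swp B (swp A s t) (swp A t s) = swp (A ∪ B) s t := by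
  funext v
  by_cases hA : v ∈ A <;> by_cases hB : v ∈ B
  · exact absurd hB (Finset.disjoint_left.1 h hA)
  all_goals simp [swp, hA, hB]

end Swp

theorem swp_univ {s t : V → V} : swp univ s t = t := by funext v; simp [swp]

theorem swp_compl {A : Finset V} {s t : V → V} : swp Aᶜ s t = swp A t s := by
  funext v; by_cases h : v ∈ A <;> simp [swp, h]

theorem holes_swp {A : Finset V} {s t : V → V} :
    holes (swp A s t) = (holes t ∩ A) ∪ (holes s \ A) := by
  ext v; by_cases h : v ∈ A <;> simp [swp, h]

theorem holes_swp_inter {A : Finset V} {s t : V → V} : A ∩ holes (swp A s t) = A ∩ holes t := by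
  ext v; by_cases h : v ∈ A <;> simp [swp, h]

theorem W_swp_mul {A : Finset V} {s t : V → V} (a : V → V → ℝ) :
    W a (swp A s t) * W a (swp A t s) = W a s * W a t := by
  unfold W
  rw [← Finset.prod_mul_distrib, ← Finset.prod_mul_distrib]
  refine Finset.prod_congr rfl fun v _ => ?_
  by_cases h : v ∈ A <;> simp [swp, h, mul_comm]

/-! ### deleting and adding an edge -/

section DelAdd
omit [Fintype V]
variable {s : V → V} {u v x : V}

theorem del_self : del s u u = u := by simp [del]
theorem del_mate : del s u (s u) = s u := by simp [del]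
theorem del_of_ne (h : x ≠ u) (h' : x ≠ s u) : del s u x = s x := by simp [del, h, h']

theorem Inv.del (hs : Inv s) : Inv (del s u) := fun x => by
  by_cases h : x = u ∨ x = s u
  · have : Crest.Agent.R304.del s u x = x := if_pos h
    rw [this, this]
  · have h1 : Crest.Agent.R304.del s u x = s x := if_neg h
    rw [h1]
    push Not at h
    have : ¬ (s x = u ∨ s x = s u) := by
      rintro (h2 | h2)
      · exact h.2 (by rw [← h2, hs])
      · exact h.1 (hs.injective h2)
    have h3 : Crest.Agent.R304.del s u (s x) = s (s x) := if_neg this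
    rw [h3, hs]

theorem del_mate_eq (hs : Inv s) : del s (s u) = del s u := by
  funext x; simp only [del, hs u]; congr 1; rw [or_comm]

theorem Inv.add (hs : Inv s) (hu : s u = u) (hv : s v = v) : Inv (add s u v) := fun x => by
  unfold Crest.Agent.R304.add
  by_cases h1 : x = u
  · subst h1
    by_cases h2 : v = x
    · subst h2; simp
    · simp [h2]
  · by_cases h2 : x = v
    · subst h2; simp [h1]
    · have h3 : s x ≠ u := fun h => h1 (by rw [← hs x, h, hu])
      have h4 : s x ≠ v := fun h => h2 (by rw [← hs x, h, hv])
      simp [h1, h2, h3, h4, hs x]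

theorem add_left : add s u v u = v := by simp [add]
theorem add_right : add s u v v = u := by
  by_cases h : v = u
  · simp [add, h]
  · simp [add, h]
theorem add_of_ne (h : x ≠ u) (h' : x ≠ v) : add s u v x = s x := by simp [add, h, h']

theorem add_comm' : add s u v = add s v u := by
  funext x
  by_cases h1 : x = u <;> by_cases h2 : x = v
  · subst h1; subst h2; rfl
  · subst h1; rw [add_left, add_right]
  · subst h2; rw [add_left, add_right]
  · rw [add_of_ne h1 h2, add_of_ne h2 h1]

theorem del_add (hu : s u = u) (hv : s v = v) : del (add s u v) u = s := by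
  funext x
  unfold del
  rw [add_left]
  by_cases h : x = u ∨ x = v
  · rw [if_pos h]
    rcases h with h | h
    · rw [h, hu]
    · rw [h, hv]
  · rw [if_neg h]
    push Not at h
    exact add_of_ne h.1 h.2

theorem add_del (hs : Inv s) : add (del s u) u (s u) = s := by
  funext x
  by_cases h1 : x = u
  · subst h1; rw [add_left]
  · by_cases h2 : x = s u
    · subst h2; rw [add_right, hs]
    · rw [add_of_ne h1 h2, del_of_ne h1 h2]

end DelAdd

theorem holes_del {s : V → V} {u : V} : holes (del s u) = holes s ∪ {u, s u} := by
  ext x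
  simp only [mem_holes, mem_union, mem_insert, mem_singleton]
  by_cases h : x = u ∨ x = s u
  · have : del s u x = x := if_pos h
    simp [this, h]
  · have : del s u x = s x := if_neg h
    simp [this, h]

theorem holes_add {s : V → V} {u v : V} (huv : u ≠ v) : holes (add s u v) = holes s \ {u, v} := by
  ext x
  simp only [mem_holes, mem_sdiff, mem_insert, mem_singleton]
  by_cases h1 : x = u
  · subst h1; simp [add_left, huv.symm]
  · by_cases h2 : x = v
    · subst h2; simp [add_right, huv]
    · simp [add_of_ne h1 h2, h1, h2]

theorem W_add {a : V → V → ℝ} (h1 : ∀ v, a v v = 1) {s : V → V} {u v : V} (huv : u ≠ v)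
    (hu : s u = u) (hv : s v = v) : W a (add s u v) = W a s * lam a u v := by
  unfold W lam
  rw [← Finset.mul_prod_erase univ _ (Finset.mem_univ u),
    ← Finset.mul_prod_erase univ (fun x => a x (s x)) (Finset.mem_univ u),
    ← Finset.mul_prod_erase (univ.erase u) _ (Finset.mem_erase.2 ⟨huv.symm, Finset.mem_univ v⟩),
    ← Finset.mul_prod_erase (univ.erase u) (fun x => a x (s x))
      (Finset.mem_erase.2 ⟨huv.symm, Finset.mem_univ v⟩), add_left, add_right, hu, hv, h1, h1]
  have : ∏ x ∈ (univ.erase u).erase v, a x (add s u v x) = ∏ x ∈ (univ.erase u).erase v, a x (s x) := by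
    refine Finset.prod_congr rfl fun x hx => ?_
    simp only [Finset.mem_erase] at hx
    rw [add_of_ne hx.2.1 hx.1]
  rw [this]; ring

theorem W_del {a : V → V → ℝ} (h1 : ∀ v, a v v = 1) {s : V → V} (hs : Inv s) {u : V}
    (hu : s u ≠ u) : W a s = W a (del s u) * lam a u (s u) := by
  conv_lhs => rw [← add_del (u := u) hs]
  exact W_add h1 hu.symm del_self del_mate

/-! ### components -/

/-- the component of `v` in the superposition of `s` and `t` -/
noncomputable def comp (s t : V → V) (v : V) : Finset V := by
  classical
  exact univ.filter fun x => Relation.ReflTransGen (fun x y => y = s x ∨ y = t x) v x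

section Comp
variable {s t : V → V} {u v x y : V} {A : Finset V}

theorem mem_comp : x ∈ comp s t v ↔ Relation.ReflTransGen (fun x y => y = s x ∨ y = t x) v x := by
  classical
  simp [comp]

theorem self_mem_comp : v ∈ comp s t v := mem_comp.2 Relation.ReflTransGen.refl

theorem comp_cl_left : Cl (comp s t v) s := fun _ hx =>
  mem_comp.2 ((mem_comp.1 hx).tail (Or.inl rfl))

theorem comp_cl_right : Cl (comp s t v) t := fun _ hx =>
  mem_comp.2 ((mem_comp.1 hx).tail (Or.inr rfl))

theorem comp_subset (hv : v ∈ A) (hs : Cl A s) (ht : Cl A t) : comp s t v ⊆ A := fun x hx => by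
  have h := mem_comp.1 hx
  induction h with
  | refl => exact hv
  | @tail b c hb hbc ih =>
    have hb' := ih (mem_comp.2 hb)
    rcases hbc with h | h
    · rw [h]; exact hs _ hb'
    · rw [h]; exact ht _ hb'

theorem comp_trans (h : y ∈ comp s t x) (h' : x ∈ comp s t v) : y ∈ comp s t v :=
  mem_comp.2 ((mem_comp.1 h').trans (mem_comp.1 h))

theorem comp_symm (hs : Inv s) (ht : Inv t) (h0 : x ∈ comp s t v) : v ∈ comp s t x := by
  have h := mem_comp.1 h0
  clear h0
  induction h with
  | refl => exact self_mem_comp
  | @tail b c hb hbc ih =>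
    refine comp_trans ih ?_
    rcases hbc with h | h
    · have : b = s c := by rw [h, hs]
      rw [this]; exact comp_cl_left _ self_mem_comp
    · have : b = t c := by rw [h, ht]
      rw [this]; exact comp_cl_right _ self_mem_comp

theorem comp_eq (hs : Inv s) (ht : Inv t) (h : x ∈ comp s t v) : comp s t x = comp s t v := by
  ext y
  exact ⟨fun hy => comp_trans hy h, fun hy => comp_trans hy (comp_symm hs ht h)⟩

theorem mem_comp_comm (hs : Inv s) (ht : Inv t) : x ∈ comp s t v ↔ v ∈ comp s t x :=
  ⟨comp_symm hs ht, comp_symm hs ht⟩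

theorem comp_comm : comp s t v = comp t s v := by
  have h : (fun x y => y = s x ∨ y = t x) = (fun x y => y = t x ∨ y = s x) := by
    funext x y; exact propext or_comm
  ext x; rw [mem_comp, mem_comp, h]

/-- swapping on any set does not change the superposition -/
theorem comp_swp : comp (swp A s t) (swp A t s) v = comp s t v := by
  have h : (fun x y => y = swp A s t x ∨ y = swp A t s x) = (fun x y => y = s x ∨ y = t x) := by
    funext x y
    by_cases hx : x ∈ A
    · simp [swp, hx, or_comm]
    · simp [swp, hx]
  ext x; rw [mem_comp, mem_comp, h]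

/-- a component only depends on the restriction of the matchings to it -/
theorem comp_congr {s' t' : V → V} (h : ∀ x ∈ comp s t v, s' x = s x ∧ t' x = t x) :
    comp s' t' v = comp s t v := by
  have h1 : comp s' t' v ⊆ comp s t v :=
    comp_subset self_mem_comp (fun x hx => by rw [(h x hx).1]; exact comp_cl_left x hx)
      (fun x hx => by rw [(h x hx).2]; exact comp_cl_right x hx)
  refine Finset.Subset.antisymm h1 ?_
  refine fun x hx => ?_
  have hx' := mem_comp.1 hx
  induction hx' with
  | refl => exact self_mem_comp
  | @tail b c hb hbc ih =>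
    have hb1 := mem_comp.2 hb
    have hb' := ih hb1
    rcases hbc with h2 | h2
    · rw [h2, ← (h b hb1).1]; exact comp_cl_left _ hb'
    · rw [h2, ← (h b hb1).2]; exact comp_cl_right _ hb'

theorem comp_disjoint (hs : Inv s) (ht : Inv t) (h : x ∉ comp s t v) :
    Disjoint (comp s t x) (comp s t v) := by
  rw [Finset.disjoint_left]
  intro y hy hy'
  exact h (comp_trans (comp_symm hs ht hy) hy')

end Comp

/-- adding an edge outside a component does not change the component -/
theorem comp_add {s t : V → V} {u v x : V} (hu : u ∉ comp s t x) (hv : v ∉ comp s t x) :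
    comp (add s u v) t x = comp s t x :=
  comp_congr fun y hy => ⟨add_of_ne (fun h => hu (h ▸ hy)) (fun h => hv (h ▸ hy)), rfl⟩

/-- deleting an edge outside a component does not change the component -/
theorem comp_del {s t : V → V} {u x : V} (hu : u ∉ comp s t x) (hv : s u ∉ comp s t x) :
    comp (del s u) t x = comp s t x :=
  comp_congr fun y hy => ⟨del_of_ne (fun h => hu (h ▸ hy)) (fun h => hv (h ▸ hy)), rfl⟩

/-- deleting an edge outside a component does not change the component -/
theorem comp_del' {s t : V → V} (hs : Inv s) {u x : V} (hu : u ∉ comp s t x) :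
    comp (del s u) t x = comp s t x :=
  comp_del hu (comp_cl_left.not_mem hs hu)

/-- deleting an edge shrinks components -/
theorem comp_del_subset {s t : V → V} {u x : V} :
    comp (del s u) t x ⊆ comp s t x :=
  comp_subset self_mem_comp (fun y hy => by
    unfold del
    by_cases h : y = u ∨ y = s u
    · rw [if_pos h]; exact hy
    · rw [if_neg h]; exact comp_cl_left y hy) comp_cl_right

/-! ### the two-defects theorem -/

section Dih
variable {s t : V → V} {v : V}

/-- if `s v = v` then the component of `v` is the orbit of `v` under `s ∘ t` -/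
theorem comp_eq_orbit (hs : Inv s) (ht : Inv t) (hv : s v = v) :
    comp s t v = (Finset.range (Function.minimalPeriod (s ∘ t) v)).image (fun k => (s ∘ t)^[k] v) := by
  classical
  have hinj : Function.Injective (s ∘ t) := hs.injective.comp ht.injective
  have hper : v ∈ Function.periodicPts (s ∘ t) := hinj.mem_periodicPts v
  have hpos : 0 < Function.minimalPeriod (s ∘ t) v := Function.minimalPeriod_pos_of_mem_periodicPts hper
  set N := Function.minimalPeriod (s ∘ t) v with hN
  set ρ := s ∘ t with hρ
  -- the orbit as a set
  have hO : ∀ k, ρ^[k] v ∈ (Finset.range N).image (fun k => ρ^[k] v) := fun k => by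
    rw [← Function.iterate_mod_minimalPeriod_eq]
    exact Finset.mem_image_of_mem _ (Finset.mem_range.2 (Nat.mod_lt _ hpos))
  -- t (ρ^k v) = ρ^(k') v
  have hback : ∀ k, ρ^[k] (s (ρ^[k] v)) = v := by
    intro k
    induction k with
    | zero => simpa using hv
    | succ k ih =>
      have e : ρ (s (ρ^[k+1] v)) = s (ρ^[k] v) := by
        rw [Function.iterate_succ_apply']
        simp only [hρ, Function.comp_apply, hs _, ht _]
      rw [Function.iterate_succ_apply, e, ih]
  have hs_mem : ∀ k, s (ρ^[k] v) ∈ (Finset.range N).image (fun k => ρ^[k] v) := by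
    intro k
    -- s (ρ^k v) = ρ^(N*k - k) v
    have h1 : ρ^[k] (ρ^[N * k - k] v) = v := by
      rw [← Function.iterate_add_apply, show k + (N * k - k) = k * N by
        have : k ≤ N * k := Nat.le_mul_of_pos_left k hpos
        rw [Nat.add_sub_cancel' this, Nat.mul_comm]]
      exact ((Function.isPeriodicPt_minimalPeriod ρ v).const_mul k)
    have h2 : s (ρ^[k] v) = ρ^[N * k - k] v := (hinj.iterate k) ((hback k).trans h1.symm)
    rw [h2]; exact hO _
  refine Finset.Subset.antisymm ?_ ?_
  · refine comp_subset ?_ ?_ ?_
    · exact hO 0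
    · intro x hx
      obtain ⟨k, -, rfl⟩ := Finset.mem_image.1 hx
      exact hs_mem k
    · intro x hx
      obtain ⟨k, -, rfl⟩ := Finset.mem_image.1 hx
      have : t (ρ^[k] v) = s (ρ^[k+1] v) := by
        rw [Function.iterate_succ_apply']
        simp only [hρ, Function.comp_apply, hs _]
      simp only [this]
      exact hs_mem _
  · intro x hx
    obtain ⟨k, -, rfl⟩ := Finset.mem_image.1 hx
    clear hx
    induction k with
    | zero => exact self_mem_comp
    | succ k ih =>
      rw [Function.iterate_succ_apply']
      exact comp_cl_left _ (comp_cl_right _ ih)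

theorem iterate_back (hs : Inv s) (ht : Inv t) (hv : s v = v) (k : ℕ) :
    (s ∘ t)^[k] (s ((s ∘ t)^[k] v)) = v := by
  induction k with
  | zero => simpa using hv
  | succ k ih =>
    have e : (s ∘ t) (s ((s ∘ t)^[k+1] v)) = s ((s ∘ t)^[k] v) := by
      rw [Function.iterate_succ_apply']
      simp only [Function.comp_apply, hs _, ht _]
    rw [Function.iterate_succ_apply, e, ih]

theorem count_two_dvd (N : ℕ) (hN : 0 < N) :
    ((Finset.range N).filter fun k => N ∣ 2 * k).card
      + ((Finset.range N).filter fun k => N ∣ 2 * k + 1).card = 2 := by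
  rcases Nat.even_or_odd' N with ⟨m, hm | hm⟩
  · -- N = 2 m
    have h1 : ((Finset.range N).filter fun k => N ∣ 2 * k) = {0, m} := by
      ext k
      simp only [Finset.mem_filter, Finset.mem_range, Finset.mem_insert, Finset.mem_singleton]
      constructor
      · rintro ⟨hk, d, hd⟩
        have hd2 : d < 2 := by
          by_contra h
          push Not at h
          have : N * 2 ≤ N * d := Nat.mul_le_mul_left _ h
          omega
        interval_cases d
        · left; omega
        · right; omega
      · rintro (rfl | rfl)
        · exact ⟨hN, by simp⟩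
        · exact ⟨by omega, ⟨1, by omega⟩⟩
    have h2 : ((Finset.range N).filter fun k => N ∣ 2 * k + 1) = ∅ := by
      rw [Finset.filter_eq_empty_iff]
      rintro k - ⟨d, hd⟩
      rw [hm, Nat.mul_assoc] at hd
      omega
    rw [h1, h2, Finset.card_pair (by omega), Finset.card_empty]
  · have h1 : ((Finset.range N).filter fun k => N ∣ 2 * k) = {0} := by
      ext k
      simp only [Finset.mem_filter, Finset.mem_range, Finset.mem_singleton]
      constructor
      · rintro ⟨hk, d, hd⟩
        have hd2 : d < 2 := by
          by_contra h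
          push Not at h
          have : N * 2 ≤ N * d := Nat.mul_le_mul_left _ h
          omega
        interval_cases d <;> omega
      · rintro rfl
        exact ⟨hN, by simp⟩
    have h2 : ((Finset.range N).filter fun k => N ∣ 2 * k + 1) = {m} := by
      ext k
      simp only [Finset.mem_filter, Finset.mem_range, Finset.mem_singleton]
      constructor
      · rintro ⟨hk, d, hd⟩
        have hd2 : d < 2 := by
          by_contra h
          push Not at h
          have : N * 2 ≤ N * d := Nat.mul_le_mul_left _ h
          omega
        interval_cases d <;> omega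
      · rintro rfl
        exact ⟨by omega, ⟨1, by omega⟩⟩
    rw [h1, h2, Finset.card_singleton, Finset.card_singleton]

/-- FACT DIH: a component containing a defect contains exactly two defects -/
theorem defects_left (hs : Inv s) (ht : Inv t) (hv : s v = v) :
    (comp s t v ∩ holes s).card + (comp s t v ∩ holes t).card = 2 := by
  classical
  have hinj : Function.Injective (s ∘ t) := hs.injective.comp ht.injective
  have hper : v ∈ Function.periodicPts (s ∘ t) := hinj.mem_periodicPts v
  have hpos : 0 < Function.minimalPeriod (s ∘ t) v := Function.minimalPeriod_pos_of_mem_periodicPts hper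
  rw [comp_eq_orbit hs ht hv]
  have hback := iterate_back hs ht hv
  set N := Function.minimalPeriod (s ∘ t) v with hN
  set ρ := s ∘ t with hρ
  have hio : Set.InjOn (fun k => ρ^[k] v) ↑(Finset.range N) := by
    intro x hx y hy hxy
    exact Function.iterate_injOn_Iio_minimalPeriod (by simpa using hx) (by simpa using hy) hxy
  have hdvd : ∀ k, ρ^[k] v = v ↔ N ∣ k := fun k => Function.isPeriodicPt_iff_minimalPeriod_dvd
  have e1 : ((Finset.range N).image (fun k => ρ^[k] v)) ∩ holes s
      = ((Finset.range N).filter fun k => N ∣ 2 * k).image (fun k => ρ^[k] v) := by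
    ext x
    simp only [Finset.mem_inter, Finset.mem_image, mem_holes, Finset.mem_filter]
    constructor
    · rintro ⟨⟨k, hk, rfl⟩, hx⟩
      refine ⟨k, ⟨hk, ?_⟩, rfl⟩
      rw [← hdvd, Nat.two_mul, Function.iterate_add_apply]
      have := hback k
      rwa [hx] at this
    · rintro ⟨k, ⟨hk, hd⟩, rfl⟩
      refine ⟨⟨k, hk, rfl⟩, ?_⟩
      rw [← hdvd, Nat.two_mul, Function.iterate_add_apply] at hd
      exact (hinj.iterate k) ((hback k).trans hd.symm)
  have e2 : ((Finset.range N).image (fun k => ρ^[k] v)) ∩ holes t
      = ((Finset.range N).filter fun k => N ∣ 2 * k + 1).image (fun k => ρ^[k] v) := by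
    have ht' : ∀ k, t (ρ^[k] v) = ρ^[k] v ↔ s (ρ^[k] v) = ρ^[k + 1] v := by
      intro k
      rw [Function.iterate_succ_apply' ρ k v]
      simp only [hρ, Function.comp_apply]
      constructor
      · intro h; rw [h]
      · intro h; exact (hs.injective h).symm
    ext x
    simp only [Finset.mem_inter, Finset.mem_image, mem_holes, Finset.mem_filter]
    constructor
    · rintro ⟨⟨k, hk, rfl⟩, hx⟩
      refine ⟨k, ⟨hk, ?_⟩, rfl⟩
      rw [ht'] at hx
      have := hback k
      rw [hx, ← Function.iterate_add_apply, hdvd] at this
      convert this using 1; ring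
    · rintro ⟨k, ⟨hk, hd⟩, rfl⟩
      refine ⟨⟨k, hk, rfl⟩, ?_⟩
      rw [ht']
      refine (hinj.iterate k) ?_
      rw [hback k]
      rw [← hdvd, show 2 * k + 1 = k + (k + 1) by ring, Function.iterate_add_apply] at hd
      exact hd.symm
  rw [e1, e2, Finset.card_image_of_injOn (hio.mono (Finset.coe_subset.2 (Finset.filter_subset _ _))),
    Finset.card_image_of_injOn (hio.mono (Finset.coe_subset.2 (Finset.filter_subset _ _)))]
  exact count_two_dvd N hpos

theorem defects_right (hs : Inv s) (ht : Inv t) (hv : t v = v) :
    (comp s t v ∩ holes s).card + (comp s t v ∩ holes t).card = 2 := by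
  rw [comp_comm, Nat.add_comm]
  exact defects_left ht hs hv

/-- FACT DIH, general form -/
theorem defects_two (hs : Inv s) (ht : Inv t)
    (h : (comp s t v ∩ holes s).Nonempty ∨ (comp s t v ∩ holes t).Nonempty) :
    (comp s t v ∩ holes s).card + (comp s t v ∩ holes t).card = 2 := by
  rcases h with ⟨x, hx⟩ | ⟨x, hx⟩
  · rw [Finset.mem_inter, mem_holes] at hx
    have := defects_left hs ht hx.2
    rwa [comp_eq hs ht hx.1] at this
  · rw [Finset.mem_inter, mem_holes] at hx
    have := defects_right hs ht hx.2
    rwa [comp_eq hs ht hx.1] at this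

end Dih

/-! ### hybrids -/

section Hyb
variable {A : Finset V} {s t : V → V} {v : V}

theorem Inv.hyb (hs : Inv s) (ht : Inv t) : Inv (hyb A s t) := fun v => by
  unfold Crest.Agent.R304.hyb
  by_cases h : v ∈ A
  · by_cases h' : t v ∈ A
    · simp [h, h', ht v]
    · simp [h, h']
  · by_cases h' : s v ∈ A
    · simp [h, h']
    · simp [h, h', hs v]

theorem mem_holes_hyb (hs : ∀ v, s v ≠ v) (ht : ∀ v, t v ≠ v) :
    v ∈ holes (hyb A s t) ↔ (v ∈ A ∧ t v ∉ A) ∨ (v ∉ A ∧ s v ∈ A) := by
  rw [mem_holes]
  unfold hyb
  by_cases h : v ∈ A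
  · by_cases h' : t v ∈ A
    · simp [h, h', ht v]
    · simp [h, h']
  · by_cases h' : s v ∈ A
    · simp [h, h']
    · simp [h, h', hs v]

/-- on a closed set the hybrid is the swap -/
theorem hyb_eq_swp (hs : Inv s) (h1 : Cl A s) (h2 : Cl A t) : hyb A s t = swp A s t := by
  funext v
  unfold hyb swp
  by_cases h : v ∈ A
  · simp [h, h2 v h]
  · simp [h, h1.not_mem hs h]

theorem hyb_compl : hyb Aᶜ s t = hyb A t s := by
  funext v
  unfold hyb
  by_cases h : v ∈ A
  · by_cases h' : s v ∈ A <;> by_cases h'' : t v ∈ A <;> simp [h, h', h'']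
  · by_cases h' : s v ∈ A <;> by_cases h'' : t v ∈ A <;> simp [h, h', h'']

theorem hyb_empty : hyb ∅ s t = s := by funext v; simp [hyb]
theorem hyb_univ : hyb univ s t = t := by funext v; simp [hyb]

end Hyb

end Base
end Crest.Agent.R304
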