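import Mathlib

/-!
# R304 / S0464: the guarded moves of the pair chain

States are perfect matchings of the complete graph on `V`, given by their partner functions
`s : V → V` (an involution without fixed points).  A move with label `l` sends a pair `(s, t)` to
`tau l (s, t)`, which is the raw candidate `cand l (s, t)` if this is again a pair of perfect
matchings and if `cand l` maps it back to `(s, t)`, and is `(s, t)` otherwise.  So `tau l` is an
involution of the set of pairs of perfect matchings for every label `l`, without any proof about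
the combinatorics of the candidates.
-/

set_option autoImplicit false

namespace Crest.Agent.R304.Mov

variable {V : Type} [Fintype V] [DecidableEq V]

/-- `s` is the partner function of a perfect matching of the complete graph. -/
def IsPM (s : V → V) : Prop := ∀ v, s (s v) = v ∧ s v ≠ v

instance (s : V → V) : Decidable (IsPM s) := by unfold IsPM; infer_instance

/-- swap values on a set: `t` on `C`, `s` off `C` -/
def mix (C : Finset V) (s t : V → V) (v : V) : V := if v ∈ C then t v else s v

/-- make `u` and `v` fixed points -/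
def cut (s : V → V) (u v : V) (w : V) : V := if w = u ∨ w = v then w else s w

/-- match `u` and `v` -/
def join (s : V → V) (u v : V) (w : V) : V := if w = u then v else if w = v then u else s w

/-- the component of `a` in the superposition of `s` and `t` -/
def comp (s t : V → V) (a : V) : Finset V :=
  (Finset.range (Fintype.card V)).biUnion
    (fun k => {(fun x => t (s x))^[k] a, s ((fun x => t (s x))^[k] a)})

/-- labels of moves -/
abbrev Lab (V : Type) : Type := ℕ × V × V × V × V

/-- exchange of the component of `u` -/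
def candEx (u : V) (p : (V → V) × (V → V)) : (V → V) × (V → V) :=
  (mix (comp p.1 p.2 u) p.1 p.2, mix (comp p.1 p.2 u) p.2 p.1)

/-- switch of two edges of one matching -/
def candSw (u v x y : V) (s : V → V) : V → V :=
  if s u = v ∧ s x = y then join (join s u x) v y
  else if s u = x ∧ s v = y then join (join s u v) x y
  else s

/-- double switch: `uv` in the first matching, `xy` in the second one -/
def candTwo (u v x y : V) (p : (V → V) × (V → V)) : (V → V) × (V → V) :=
  if p.1 u = v ∧ p.2 x = y then
    (join (mix (comp (cut p.1 u v) (cut p.2 x y) u) (cut p.1 u v) (cut p.2 x y)) x v,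
      join (mix (comp (cut p.1 u v) (cut p.2 x y) u) (cut p.2 x y) (cut p.1 u v)) u y)
  else if p.1 x = v ∧ p.2 u = y then
    (join (mix (comp (cut p.1 x v) (cut p.2 u y) x) (cut p.1 x v) (cut p.2 u y)) u v,
      join (mix (comp (cut p.1 x v) (cut p.2 u y) x) (cut p.2 u y) (cut p.1 x v)) x y)
  else p

/-- the raw candidate of a label -/
def cand (l : Lab V) (p : (V → V) × (V → V)) : (V → V) × (V → V) :=
  if l.1 = 0 then candEx l.2.1 p
  else if l.1 = 1 then (candSw l.2.1 l.2.2.1 l.2.2.2.1 l.2.2.2.2 p.1, p.2)
  else if l.1 = 2 then (p.1, candSw l.2.1 l.2.2.1 l.2.2.2.1 l.2.2.2.2 p.2)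
  else candTwo l.2.1 l.2.2.1 l.2.2.2.1 l.2.2.2.2 p

/-- the guard -/
def Ok (l : Lab V) (p : (V → V) × (V → V)) : Prop :=
  IsPM (cand l p).1 ∧ IsPM (cand l p).2 ∧ cand l (cand l p) = p

instance (l : Lab V) (p : (V → V) × (V → V)) : Decidable (Ok l p) := by
  unfold Ok; infer_instance

/-- the guarded move on raw pairs -/
def tauR (l : Lab V) (p : (V → V) × (V → V)) : (V → V) × (V → V) :=
  if Ok l p then cand l p else p

theorem tauR_tauR (l : Lab V) {p : (V → V) × (V → V)} (h1 : IsPM p.1) (h2 : IsPM p.2) :
    tauR l (tauR l p) = p := by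
  by_cases h : Ok l p
  · have h' : Ok l (cand l p) := by
      refine ⟨?_, ?_, ?_⟩
      · rw [h.2.2]; exact h1
      · rw [h.2.2]; exact h2
      · rw [h.2.2]
    rw [tauR, tauR, if_pos h, if_pos h', h.2.2]
  · rw [tauR, tauR, if_neg h, if_neg h]

theorem isPM_tauR (l : Lab V) {p : (V → V) × (V → V)} (h1 : IsPM p.1) (h2 : IsPM p.2) :
    IsPM (tauR l p).1 ∧ IsPM (tauR l p).2 := by
  unfold tauR
  split_ifs with h
  · exact ⟨h.1, h.2.1⟩
  · exact ⟨h1, h2⟩

/-- perfect matchings of the complete graph on `V` -/
abbrev Om (V : Type) : Type := {s : V → V // ∀ v, s (s v) = v ∧ s v ≠ v}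

/-- the guarded move -/
def tau (l : Lab V) (p : Om V × Om V) : Om V × Om V :=
  (⟨_, (isPM_tauR l (p := (p.1.1, p.2.1)) p.1.2 p.2.2).1⟩,
    ⟨_, (isPM_tauR l (p := (p.1.1, p.2.1)) p.1.2 p.2.2).2⟩)

@[simp] theorem tau_fst (l : Lab V) (p : Om V × Om V) :
    (tau l p).1.1 = (tauR l (p.1.1, p.2.1)).1 := rfl

@[simp] theorem tau_snd (l : Lab V) (p : Om V × Om V) :
    (tau l p).2.1 = (tauR l (p.1.1, p.2.1)).2 := rfl

/-- every move is an involution -/
theorem tau_tau (l : Lab V) (p : Om V × Om V) : tau l (tau l p) = p := by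
  have h := tauR_tauR l (p := (p.1.1, p.2.1)) p.1.2 p.2.2
  refine Prod.ext (Subtype.ext ?_) (Subtype.ext ?_)
  · simp only [tau_fst, tau_snd]; rw [Prod.mk.eta, h]
  · simp only [tau_fst, tau_snd]; rw [Prod.mk.eta, h]

theorem tau_injective (l : Lab V) : Function.Injective (tau (V := V) l) :=
  Function.LeftInverse.injective (tau_tau l)

/-- **How to realise a transition**: if the candidates of `l` are mutual, `tau l` performs them. -/
theorem tau_eq (l : Lab V) (p q : Om V × Om V) (h1 : cand l (p.1.1, p.2.1) = (q.1.1, q.2.1))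
    (h2 : cand l (q.1.1, q.2.1) = (p.1.1, p.2.1)) : tau l p = q := by
  have hok : Ok l (p.1.1, p.2.1) := by
    refine ⟨?_, ?_, ?_⟩
    · rw [h1]; exact q.1.2
    · rw [h1]; exact q.2.2
    · rw [h1, h2]
  refine Prod.ext (Subtype.ext ?_) (Subtype.ext ?_)
  · rw [tau_fst, tauR, if_pos hok, h1]
  · rw [tau_snd, tauR, if_pos hok, h1]

end Crest.Agent.R304.Mov
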