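import Crest.Prelude.Def_Matchings
import Crest.Agent.R304.Hyb
import Crest.Agent.R304.Moves
import Crest.Agent.R304.Four

/-!
# R304 / S0464: bridge between `numPerfectMatchings`, the weights on `Fin n`, and the base file

* `numPM_eq` (BR1): number of perfect matchings of `G` = number of partner functions along edges;
* `card_st`, `card_Om` (BR2): the number of perfect matchings of the complete graph, `sum_wt_const`;
* `numPM_mean` (BR3): the estimator identity;
* `wt_eq_W`, `sum_marg` (BR4): the weight as a product over all vertices, marginals.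
-/

set_option autoImplicit false
set_option linter.unusedSectionVars false

namespace Crest.Agent.R304.Br

open Finset Crest.Matchings

/-! ### BR1 -/

section BR1
variable {n : ℕ}

/-- the edge set of a partner function -/
def edges (s : Fin n → Fin n) : Finset (Sym2 (Fin n)) := univ.image fun v => s(v, s v)

theorem edges_filter {s : Fin n → Fin n} (hs : ∀ v, s (s v) = v) (v : Fin n) :
    (edges s).filter (fun e => v ∈ e) = {s(v, s v)} := by
  ext e
  simp only [edges, mem_filter, mem_image, mem_univ, true_and, mem_singleton]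
  constructor
  · rintro ⟨⟨u, rfl⟩, hv⟩
    rw [Sym2.mem_iff] at hv
    rcases hv with h | h
    · rw [h]
    · rw [h, hs, Sym2.eq_swap]
  · rintro rfl
    exact ⟨⟨v, rfl⟩, Sym2.mem_mk_left _ _⟩

/-- **BR1**. -/
theorem numPM_eq (G : SimpleGraph (Fin n)) [DecidableRel G.Adj] :
    numPerfectMatchings G =
      (univ.filter fun s : Mov.Om (Fin n) => ∀ v, G.Adj v (s.1 v)).card := by
  unfold numPerfectMatchings
  symm
  apply Finset.card_bij (fun (s : Mov.Om (Fin n)) _ => edges s.1)
  · intro s hs
    rw [mem_filter] at hs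
    rw [mem_filter, mem_powerset]
    refine ⟨?_, ?_⟩
    · intro e he
      simp only [edges, mem_image, mem_univ, true_and] at he
      obtain ⟨v, rfl⟩ := he
      rw [SimpleGraph.mem_edgeFinset, SimpleGraph.mem_edgeSet]
      exact hs.2 v
    · intro v
      rw [edges_filter (fun v => (s.2 v).1) v, card_singleton]
  · intro s _ t _ hst
    apply Subtype.ext
    funext v
    have h : s(v, s.1 v) ∈ edges t.1 := by
      rw [← hst]
      simp only [edges, mem_image, mem_univ, true_and]
      exact ⟨v, rfl⟩
    simp only [edges, mem_image, mem_univ, true_and] at h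
    obtain ⟨u, hu⟩ := h
    rw [Sym2.eq_iff] at hu
    rcases hu with ⟨h1, h2⟩ | ⟨h1, h2⟩
    · rw [← h2, h1]
    · have := (t.2 u).1
      rw [h2] at this
      rw [this, h1]
  · intro M hM
    rw [mem_filter, mem_powerset] at hM
    obtain ⟨hMG, hM1⟩ := hM
    have hex : ∀ v, ∃ e ∈ M, v ∈ e ∧ ∀ e' ∈ M, v ∈ e' → e' = e := by
      intro v
      obtain ⟨e, he⟩ := Finset.card_eq_one.1 (hM1 v)
      have h1 : e ∈ M.filter (fun e => v ∈ e) := by rw [he]; exact mem_singleton_self _
      rw [mem_filter] at h1
      refine ⟨e, h1.1, h1.2, fun e' he' hv' => ?_⟩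
      have : e' ∈ M.filter (fun e => v ∈ e) := mem_filter.2 ⟨he', hv'⟩
      rw [he, mem_singleton] at this
      exact this
    choose E hEM hvE hEu using hex
    let s : Fin n → Fin n := fun v => Sym2.Mem.other (hvE v)
    have hsE : ∀ v, s(v, s v) = E v := fun v => Sym2.other_spec (hvE v)
    have hadj : ∀ v, G.Adj v (s v) := by
      intro v
      have := hMG (hEM v)
      rw [← hsE v, SimpleGraph.mem_edgeFinset, SimpleGraph.mem_edgeSet] at this
      exact this
    have hne : ∀ v, s v ≠ v := fun v h => by
      have := hadj v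
      rw [h] at this
      exact G.loopless.irrefl v this
    have hinv : ∀ v, s (s v) = v := by
      intro v
      have h1 : E (s v) = E v := by
        symm
        apply hEu (s v) (E v) (hEM v)
        rw [← hsE v]
        exact Sym2.mem_mk_right _ _
      have h2 : s(s v, s (s v)) = s(v, s v) := by rw [hsE, hsE, h1]
      rw [Sym2.eq_iff] at h2
      rcases h2 with ⟨h2, _⟩ | ⟨_, h2⟩
      · exact absurd h2 (hne v)
      · exact h2
    refine ⟨⟨s, fun v => ⟨hinv v, hne v⟩⟩, ?_, ?_⟩
    · rw [mem_filter]
      exact ⟨mem_univ _, hadj⟩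
    · ext e
      simp only [edges, mem_image, mem_univ, true_and]
      constructor
      · rintro ⟨v, rfl⟩
        rw [hsE]
        exact hEM v
      · intro he
        induction e using Sym2.ind with
        | _ x y =>
          refine ⟨x, ?_⟩
          rw [hsE]
          exact (hEu x _ he (Sym2.mem_mk_left _ _)).symm

end BR1

/-! ### BR2 -/

section BR2
variable {V : Type} [Fintype V] [DecidableEq V]

/-- number of involutions with a given hole set -/
theorem Zh_one (k : ℕ) : ∀ H : Finset V, (univ \ H).card = 2 * k →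
    Zh (fun _ _ => (1 : ℝ)) H = ((2 * k - 1).doubleFactorial : ℝ) := by
  induction k with
  | zero =>
    intro H hH
    have hU : H = univ := by
      rw [mul_zero, Finset.card_eq_zero, Finset.sdiff_eq_empty_iff_subset] at hH
      exact Finset.eq_univ_iff_forall.2 fun x => hH (mem_univ x)
    subst hU
    have : (st (univ : Finset V) : Finset (V → V)) = {id} := by
      ext s
      rw [mem_st, mem_singleton]
      constructor
      · rintro ⟨_, h⟩
        funext v
        have : v ∈ holes s := by rw [h]; exact mem_univ v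
        exact mem_holes.1 this
      · rintro rfl
        refine ⟨fun v => rfl, ?_⟩
        ext v
        simp
    unfold Zh
    rw [this, sum_singleton]
    simp [W]
  | succ k ih =>
    intro H hH
    have hne : (univ \ H).Nonempty := by
      rw [← Finset.card_pos, hH]; omega
    obtain ⟨u, hu⟩ := hne
    have huH : u ∉ H := (mem_sdiff.1 hu).2
    have h := sum_lam_mul_Zh (a := fun _ _ : V => (1:ℝ)) (fun _ _ => one_pos) (fun _ => rfl) huH
    rw [← h]
    have hc : ((univ \ H).erase u).card = 2 * k + 1 := by
      rw [Finset.card_erase_of_mem hu, hH]; omega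
    have : ∀ v ∈ (univ \ H).erase u, lam (fun _ _ : V => (1:ℝ)) u v * Zh (fun _ _ => (1:ℝ)) (H ∪ {u, v})
        = ((2 * k - 1).doubleFactorial : ℝ) := by
      intro v hv
      have hvu := Finset.ne_of_mem_erase hv
      have hvH := Finset.mem_of_mem_erase hv
      have e : univ \ (H ∪ {u, v}) = ((univ \ H).erase u).erase v := by
        ext x
        simp only [mem_sdiff, mem_univ, true_and, mem_union, mem_insert, mem_singleton, mem_erase]
        tauto
      rw [ih (H ∪ {u, v}) (by rw [e, Finset.card_erase_of_mem hv, hc]; omega)]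
      simp [lam]
    rw [Finset.sum_congr rfl this, Finset.sum_const, hc, nsmul_eq_mul]
    have e2 : 2 * (k + 1) - 1 = (2 * k - 1) + 2 ∨ k = 0 := by omega
    rcases e2 with e2 | e2
    · rw [e2, Nat.doubleFactorial_add_two]
      push_cast
      by_cases hk : k = 0
      · subst hk; simp at e2
      · have : ((2 * k - 1 : ℕ) : ℝ) = 2 * k - 1 := by
          rw [Nat.cast_sub (by omega)]; push_cast; ring
        rw [this]; ring
    · subst e2
      simp [Nat.doubleFactorial]

theorem card_st (H : Finset V) (k : ℕ) (h : (univ \ H).card = 2 * k) :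
    (st H : Finset (V → V)).card = (2 * k - 1).doubleFactorial := by
  have := Zh_one k H h
  unfold Zh W at this
  simp only [prod_const_one, sum_const, nsmul_eq_mul, mul_one] at this
  exact_mod_cast this

theorem card_Om_eq [I : Fintype (Mov.Om V)] :
    Fintype.card (Mov.Om V) = (st (∅ : Finset V) : Finset (V → V)).card := by
  classical
  rw [Fintype.card_subtype]
  congr 1
  ext s
  rw [mem_st, holes_eq_empty, mem_filter]
  constructor
  · rintro ⟨_, h⟩; exact ⟨fun v => (h v).1, fun v => (h v).2⟩
  · rintro ⟨h1, h2⟩; exact ⟨mem_univ _, fun v => ⟨h1 v, h2 v⟩⟩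

/-- **BR2**, first part. -/
theorem card_Om [I : Fintype (Mov.Om V)] (h : Even (Fintype.card V)) :
    Fintype.card (Mov.Om V) = (Fintype.card V - 1).doubleFactorial := by
  obtain ⟨k, hk⟩ := h
  rw [card_Om_eq, card_st ∅ k (by rw [sdiff_empty, card_univ, hk]; ring)]
  congr 1
  omega

/-- there is no perfect matching on an odd set -/
theorem isEmpty_Om (h : ¬ Even (Fintype.card V)) : IsEmpty (Mov.Om V) := by
  constructor
  rintro ⟨s, hs⟩
  have h1 := card_holes_mod (s := s) (fun v => (hs v).1)
  rw [holes_eq_empty.2 (fun v => (hs v).2), card_empty] at h1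
  rw [Nat.even_iff] at h
  omega

/-- sums over `Om` are sums over `st ∅` -/
theorem sum_Om [I : Fintype (Mov.Om V)] (f : (V → V) → ℝ) :
    ∑ s : Mov.Om V, f s.1 = ∑ s ∈ (st (∅ : Finset V) : Finset (V → V)), f s := by
  symm
  apply Finset.sum_subtype
  intro s
  rw [mem_st, holes_eq_empty]
  constructor
  · rintro ⟨h1, h2⟩; exact fun v => ⟨h1 v, h2 v⟩
  · intro h; exact ⟨fun v => (h v).1, fun v => (h v).2⟩

end BR2

/-! ### weights on `Fin n` -/

section Wt
variable {n : ℕ}

/-- the lower ends of the edges of a matching -/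
def lows (s : Fin n → Fin n) : Finset (Fin n) := univ.filter fun v => v < s v

/-- the weight of a perfect matching: product over its edges -/
def wt (lam : Fin n → Fin n → ℝ) (s : Fin n → Fin n) : ℝ :=
  ∏ v ∈ univ.filter (fun v => v < s v), lam v (s v)

theorem wt_pos {lam : Fin n → Fin n → ℝ} (h : ∀ u v, 0 < lam u v) (s : Fin n → Fin n) :
    0 < wt lam s := Finset.prod_pos fun _ _ => h _ _

theorem wt_nonneg {lam : Fin n → Fin n → ℝ} (h : ∀ u v, 0 ≤ lam u v) (s : Fin n → Fin n) :
    0 ≤ wt lam s := Finset.prod_nonneg fun _ _ => h _ _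

/-- a product over the edges equals a product over the upper ends -/
theorem prod_upper {M : Type*} [CommMonoid M] {s : Fin n → Fin n} (hs : ∀ v, s (s v) = v)
    (f : Fin n → Fin n → M) :
    ∏ v ∈ univ.filter (fun v => s v < v), f (s v) v = ∏ v ∈ univ.filter (fun v => v < s v), f v (s v) := by
  apply Finset.prod_bij' (fun v _ => s v) (fun v _ => s v)
  · intro v hv; rw [mem_filter] at hv ⊢; rw [hs]; exact ⟨mem_univ _, hv.2⟩
  · intro v hv; rw [mem_filter] at hv ⊢; rw [hs]; exact ⟨mem_univ _, hv.2⟩
  · intro v _; exact hs v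
  · intro v _; exact hs v
  · intro v _; rw [hs]

theorem card_upper {s : Fin n → Fin n} (hs : ∀ v, s (s v) = v) :
    (univ.filter (fun v => s v < v)).card = (univ.filter (fun v => v < s v)).card := by
  apply Finset.card_bij' (fun v _ => s v) (fun v _ => s v)
  · intro v hv; rw [mem_filter] at hv ⊢; rw [hs]; exact ⟨mem_univ _, hv.2⟩
  · intro v hv; rw [mem_filter] at hv ⊢; rw [hs]; exact ⟨mem_univ _, hv.2⟩
  · intro v _; exact hs v
  · intro v _; exact hs v

theorem split_univ {s : Fin n → Fin n} (hne : ∀ v, s v ≠ v) :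
    (univ : Finset (Fin n)) = univ.filter (fun v => v < s v) ∪ univ.filter (fun v => s v < v) := by
  ext v
  simp only [mem_univ, mem_union, mem_filter, true_and, true_iff]
  exact lt_or_gt_of_ne (hne v).symm

theorem split_disj (s : Fin n → Fin n) :
    Disjoint (univ.filter (fun v => v < s v)) (univ.filter (fun v => s v < v)) := by
  rw [Finset.disjoint_left]
  intro v h1 h2
  rw [mem_filter] at h1 h2
  exact lt_asymm h1.2 h2.2

/-- a perfect matching has `n / 2` edges -/
theorem card_low (s : Mov.Om (Fin n)) :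
    (univ.filter (fun v => v < s.1 v)).card = n / 2 := by
  have h1 := card_upper (s := s.1) (fun v => (s.2 v).1)
  have h2 : n = (univ.filter (fun v => v < s.1 v)).card + (univ.filter (fun v => s.1 v < v)).card := by
    rw [← Finset.card_union_of_disjoint (split_disj s.1), ← split_univ (fun v => (s.2 v).2),
      Finset.card_univ, Fintype.card_fin]
  omega

theorem wt_const (c : ℝ) (s : Mov.Om (Fin n)) : wt (fun _ _ => c) s.1 = c ^ (n / 2) := by
  unfold wt
  rw [prod_const, card_low]

/-- **BR2**, second part. -/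
theorem sum_wt_const (c : ℝ) :
    ∑ s : Mov.Om (Fin n), wt (fun _ _ => c) s.1 = c ^ (n / 2) * Fintype.card (Mov.Om (Fin n)) := by
  rw [Finset.sum_congr rfl fun s _ => wt_const c s, sum_const, nsmul_eq_mul, card_univ, mul_comm]

/-- the partition function -/
noncomputable def Zw (lam : Fin n → Fin n → ℝ) : ℝ := ∑ s : Mov.Om (Fin n), wt lam s.1

/-- the number of perfect matchings as a weighted sum -/
theorem numPM_sum (G : SimpleGraph (Fin n)) [DecidableRel G.Adj] {lam : Fin n → Fin n → ℝ}
    (hl : ∀ u v, 0 < lam u v) :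
    (numPerfectMatchings G : ℝ) = ∑ s : Mov.Om (Fin n), wt lam s.1 *
      ∏ v ∈ univ.filter (fun v => v < s.1 v),
        (if G.Adj v (s.1 v) then 1 / lam v (s.1 v) else 0) := by
  rw [numPM_eq, Finset.card_filter]
  push_cast
  refine Finset.sum_congr rfl fun s _ => ?_
  unfold wt
  rw [← Finset.prod_mul_distrib]
  have e : ∀ v ∈ univ.filter (fun v => v < s.1 v),
      lam v (s.1 v) * (if G.Adj v (s.1 v) then 1 / lam v (s.1 v) else 0) =
        if G.Adj v (s.1 v) then (1:ℝ) else 0 := by
    intro v _
    split_ifs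
    · rw [mul_one_div, div_self (hl _ _).ne']
    · rw [mul_zero]
  rw [Finset.prod_congr rfl e]
  by_cases h : ∀ v, G.Adj v (s.1 v)
  · rw [if_pos h]
    symm
    apply Finset.prod_eq_one
    intro v _
    rw [if_pos (h v)]
  · rw [if_neg h]
    push Not at h
    obtain ⟨v, hv⟩ := h
    symm
    rcases lt_or_gt_of_ne (s.2 v).2 with h' | h'
    · apply Finset.prod_eq_zero (i := s.1 v)
      · rw [mem_filter, (s.2 v).1]; exact ⟨mem_univ _, h'⟩
      · rw [(s.2 v).1, if_neg fun h'' => hv h''.symm]
    · apply Finset.prod_eq_zero (i := v)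
      · rw [mem_filter]; exact ⟨mem_univ _, h'⟩
      · rw [if_neg hv]

/-- **BR3**. -/
theorem numPM_mean (G : SimpleGraph (Fin n)) [DecidableRel G.Adj] {lam : Fin n → Fin n → ℝ}
    (hl : ∀ u v, 0 < lam u v) :
    (numPerfectMatchings G : ℝ) = Zw lam * ∑ s : Mov.Om (Fin n), wt lam s.1 / Zw lam *
      ∏ v ∈ univ.filter (fun v => v < s.1 v),
        (if G.Adj v (s.1 v) then 1 / lam v (s.1 v) else 0) := by
  by_cases h : Nonempty (Mov.Om (Fin n))
  · have hZ : 0 < Zw lam := Finset.sum_pos (fun s _ => wt_pos hl _) univ_nonempty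
    rw [numPM_sum G hl, Finset.mul_sum]
    refine Finset.sum_congr rfl fun s _ => ?_
    field_simp
  · rw [not_nonempty_iff] at h
    rw [numPM_sum G hl]
    simp

/-! ### BR4 -/

/-- the half weights of the base file -/
noncomputable def half (lam : Fin n → Fin n → ℝ) (u v : Fin n) : ℝ :=
  if u = v then 1 else Real.sqrt (lam u v)

theorem half_self (lam : Fin n → Fin n → ℝ) (v : Fin n) : half lam v v = 1 := if_pos rfl

theorem half_pos {lam : Fin n → Fin n → ℝ} (h : ∀ u v, 0 < lam u v) (u v : Fin n) :
    0 < half lam u v := by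
  unfold half
  split_ifs
  · exact one_pos
  · exact Real.sqrt_pos.2 (h u v)

theorem half_symm {lam : Fin n → Fin n → ℝ} (hs : ∀ u v, lam u v = lam v u) (u v : Fin n) :
    half lam u v = half lam v u := by
  unfold half
  rw [hs u v]
  simp only [eq_comm]

theorem lam_half {lam : Fin n → Fin n → ℝ} (h : ∀ u v, 0 < lam u v)
    (hs : ∀ u v, lam u v = lam v u) {u v : Fin n} (huv : u ≠ v) :
    R304.lam (half lam) u v = lam u v := by
  unfold R304.lam
  rw [half_symm hs v u]
  unfold half
  rw [if_neg huv, Real.mul_self_sqrt (h u v).le]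

/-- **BR4**: the weight as a product over all vertices (any involution). -/
theorem wt_eq_W {lam : Fin n → Fin n → ℝ} (h : ∀ u v, 0 < lam u v)
    (hs : ∀ u v, lam u v = lam v u) {s : Fin n → Fin n} (hinv : ∀ v, s (s v) = v) :
    wt lam s = W (half lam) s := by
  unfold W
  have e : (univ : Finset (Fin n)) = (univ.filter (fun v => v < s v) ∪ univ.filter (fun v => s v < v))
      ∪ univ.filter (fun v => s v = v) := by
    ext v
    simp only [mem_univ, mem_union, mem_filter, true_and, true_iff]
    rcases lt_trichotomy v (s v) with h | h | h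
    · exact Or.inl (Or.inl h)
    · exact Or.inr h.symm
    · exact Or.inl (Or.inr h)
  have hd : Disjoint (univ.filter (fun v => v < s v) ∪ univ.filter (fun v => s v < v))
      (univ.filter (fun v => s v = v)) := by
    rw [Finset.disjoint_left]
    intro v h1 h2
    rw [mem_union, mem_filter, mem_filter] at h1
    rw [mem_filter] at h2
    rcases h1 with h1 | h1
    · exact absurd h2.2 h1.2.ne'
    · exact absurd h2.2 h1.2.ne
  rw [e, Finset.prod_union hd, Finset.prod_union (split_disj s)]
  have e3 : ∏ v ∈ univ.filter (fun v => s v = v), half lam v (s v) = 1 := by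
    apply Finset.prod_eq_one
    intro v hv
    rw [mem_filter] at hv
    rw [hv.2, half_self]
  have e2 : ∏ v ∈ univ.filter (fun v => s v < v), half lam v (s v) =
      ∏ v ∈ univ.filter (fun v => v < s v), half lam (s v) v := by
    rw [← prod_upper hinv (fun x y => half lam y x)]
  rw [e3, mul_one, e2, ← Finset.prod_mul_distrib]
  unfold wt
  refine Finset.prod_congr rfl fun v hv => ?_
  rw [mem_filter] at hv
  have := lam_half h hs (u := v) (v := s v) hv.2.ne
  unfold R304.lam at this
  exact this.symm

theorem Zw_eq_Zh {lam : Fin n → Fin n → ℝ} (h : ∀ u v, 0 < lam u v)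
    (hs : ∀ u v, lam u v = lam v u) : Zw lam = Zh (half lam) ∅ := by
  unfold Zw Zh
  rw [sum_Om (wt lam)]
  refine Finset.sum_congr rfl fun s hs' => ?_
  rw [mem_st] at hs'
  exact wt_eq_W h hs hs'.1

end Wt

/-- marginals in the base model -/
theorem sum_marg {V : Type} [Fintype V] [DecidableEq V] {a : V → V → ℝ}
    (h1 : ∀ v, a v v = 1) {H : Finset V} {u v : V} (huv : v ≠ u) (hu : u ∉ H) (hv : v ∉ H) :
    ∑ s ∈ (st H : Finset (V → V)).filter (fun s => s u = v), W a s =
      R304.lam a u v * Zh a (H ∪ {u, v}) := by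
  unfold Zh
  rw [Finset.mul_sum]
  symm
  have hst : ∀ s ∈ (st (H ∪ {u, v}) : Finset (V → V)),
      s u = u ∧ s v = v ∧ Inv s ∧ holes s = H ∪ {u, v} := by
    intro s hs
    rw [mem_st] at hs
    exact ⟨mem_holes.1 (hs.2 ▸ (by simp)), mem_holes.1 (hs.2 ▸ (by simp)), hs.1, hs.2⟩
  apply Finset.sum_bij' (fun s _ => add s u v) (fun s _ => del s u)
  · intro s hs
    obtain ⟨e1, e2, e3, e4⟩ := hst s hs
    rw [Finset.mem_filter, mem_st]
    refine ⟨⟨e3.add e1 e2, ?_⟩, add_left⟩
    rw [holes_add huv.symm, e4]
    ext x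
    simp only [mem_sdiff, mem_union, mem_insert, mem_singleton]
    constructor
    · rintro ⟨h | h, h'⟩
      · exact h
      · exact absurd h h'
    · intro h
      refine ⟨Or.inl h, ?_⟩
      rintro (h' | h')
      · exact hu (h' ▸ h)
      · exact hv (h' ▸ h)
  · intro s hs
    rw [Finset.mem_filter, mem_st] at hs
    rw [mem_st]
    refine ⟨hs.1.1.del, ?_⟩
    rw [holes_del, hs.1.2, hs.2]
  · intro s hs
    obtain ⟨e1, e2, e3, e4⟩ := hst s hs
    exact del_add e1 e2
  · intro s hs
    rw [Finset.mem_filter, mem_st] at hs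
    conv_rhs => rw [← add_del (u := u) hs.1.1]
    rw [hs.2]
  · intro s hs
    obtain ⟨e1, e2, e3, e4⟩ := hst s hs
    rw [W_add h1 huv.symm e1 e2, mul_comm]

/-- marginals on `Fin n` -/
theorem sum_marg_Om {n : ℕ} {lam : Fin n → Fin n → ℝ} (h : ∀ u v, 0 < lam u v)
    (hs : ∀ u v, lam u v = lam v u) {u v : Fin n} (huv : u ≠ v) :
    ∑ s : Mov.Om (Fin n), (if s.1 u = v then wt lam s.1 else 0) =
      lam u v * Zh (half lam) {u, v} := by
  rw [sum_Om (fun s => if s u = v then wt lam s else 0), ← Finset.sum_filter]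
  have e := sum_marg (a := half lam) (half_self lam) (H := ∅) (u := u) (v := v) huv.symm
    (by simp) (by simp)
  rw [lam_half h hs huv, Finset.empty_union] at e
  rw [← e]
  refine Finset.sum_congr rfl fun s hs' => ?_
  rw [mem_filter, mem_st] at hs'
  exact wt_eq_W h hs hs'.1.1

/-- well conditioned weights on `Fin n` have a node system -/
theorem nodes_of_wc {n : ℕ} {lam : Fin n → Fin n → ℝ} (h : ∀ u v, 0 < lam u v)
    (hs : ∀ u v, lam u v = lam v u) (hn : 3 ≤ n) (hev : Even n) {q : ℝ} (hq : 1 ≤ q)
    (wc : ∀ u v, u ≠ v → Zw lam ≤ q * ∑ s : Mov.Om (Fin n), (if s.1 u = v then wt lam s.1 else 0)) :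
    Nonempty (Nodes.NodeSys (Fin n) (R304.lam (half lam)) (1 / (q * ((q ^ 2 + 1) * n)))) := by
  have hpos : 0 < Zw lam := by
    have : 0 < Fintype.card (Mov.Om (Fin n)) := by
      rw [card_Om (by rwa [Fintype.card_fin])]
      exact Nat.doubleFactorial_pos _
    have : Nonempty (Mov.Om (Fin n)) := Fintype.card_pos_iff.1 this
    exact Finset.sum_pos (fun s _ => wt_pos h _) univ_nonempty
  have hZ := Zw_eq_Zh h hs
  have := exists_nodes (a := half lam) (half_pos h) (half_self lam)
    (by rwa [Fintype.card_fin]) hq (by rw [← hZ]; exact hpos) (by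
      intro u v huv
      have e := wc u v huv
      rw [sum_marg_Om h hs huv, hZ] at e
      rw [lam_half h hs huv]
      exact e)
  rwa [Fintype.card_fin] at this

end Crest.Agent.R304.Br
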