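import Mathlib
import Crest.Prelude.Def_Matchings

/-!
# R304 / S0467, block M4: the counting bounds

Given the greedy/potential sequence of maximisers `Ms t`, the number
`A = 2 ^ max 0 (⌊Φ / 2^τ⌋ + m τ - 6 m)` satisfies `N ≤ 512 ^ (2m) * A` and `A ≤ N`.
-/

set_option autoImplicit false

namespace Crest.Agent.R304.Cnt467

open Finset Crest.Matchings

/-- number of `s < t` with `e ∈ Ms s` -/
def cnt {k : ℕ} (Ms : ℕ → Finset (Fin k)) (t : ℕ) (e : Fin k) : ℕ :=
  ((range t).filter fun s => e ∈ Ms s).card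

/-- the integer weight of an edge at time `t` -/
def ew {k : ℕ} (w : Fin k → ℕ) (Ms : ℕ → Finset (Fin k)) (t : ℕ) (e : Fin k) : ℤ :=
  (Nat.log2 (w e) : ℤ) - (Nat.log2 (cnt Ms t e + 1) : ℤ)

/-- the gain of an edge set at time `t` -/
def gain {k : ℕ} (w : Fin k → ℕ) (Ms : ℕ → Finset (Fin k)) (t : ℕ) (M : Finset (Fin k)) : ℤ :=
  ∑ e ∈ M, ew w Ms t e

/-- the S0465 statement, as a hypothesis -/
def HS0465 : Prop :=
  ∀ (m : ℕ) (_ : 1 ≤ m) (k : ℕ)
    (ends : Fin k → Fin (2 * m) × Fin (2 * m)) (_ : ∀ e, (ends e).1 ≠ (ends e).2)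
    (p : Finset (Fin k) → ℝ) (_ : IsMatchingLaw ends p),
    ∃ q : Finset (Fin k) → ℝ, IsMatchingLaw ends q ∧ (∀ e, marginal q e = marginal p e) ∧
      ∑ e, Real.negMulLog (marginal p e) - (2 - 2 / (m : ℝ)) * ∑ e, Real.negMulLog (1 - marginal p e)
        ≤ lawEntropy q

variable {m k : ℕ} {ends : Fin k → Fin (2 * m) × Fin (2 * m)}

open Classical in
/-- weighted number of perfect matchings -/
noncomputable def NN (ends : Fin k → Fin (2 * m) × Fin (2 * m)) (w : Fin k → ℕ) : ℕ :=
  ∑ M ∈ (univ : Finset (Finset (Fin k))).filter (fun M => IsPerfectMatching ends M), ∏ e ∈ M, w e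

theorem card_pm (hends : ∀ e, (ends e).1 ≠ (ends e).2) {M : Finset (Fin k)}
    (hM : IsPerfectMatching ends M) : M.card = m := by
  have h1 : ∑ v : Fin (2 * m), (M.filter fun e => (ends e).1 = v ∨ (ends e).2 = v).card = 2 * m := by
    rw [Finset.sum_congr rfl (fun v _ => hM v)]
    simp
  have h2 : ∑ v : Fin (2 * m), (M.filter fun e => (ends e).1 = v ∨ (ends e).2 = v).card
      = ∑ e ∈ M, 2 := by
    simp_rw [Finset.card_filter]
    rw [Finset.sum_comm]
    refine Finset.sum_congr rfl fun e _ => ?_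
    rw [← Finset.card_filter]
    have : (univ.filter fun v : Fin (2 * m) => (ends e).1 = v ∨ (ends e).2 = v)
        = {(ends e).1, (ends e).2} := by
      ext v; simp [eq_comm]
    rw [this, Finset.card_pair (hends e)]
  rw [h1] at h2
  simp at h2
  omega

theorem cnt_succ (Ms : ℕ → Finset (Fin k)) (t : ℕ) (e : Fin k) :
    cnt Ms (t + 1) e = cnt Ms t e + if e ∈ Ms t then 1 else 0 := by
  unfold cnt
  rw [Finset.range_add_one, Finset.filter_insert]
  split_ifs with h
  · rw [Finset.card_insert_of_notMem (by simp)]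
  · simp

theorem sum_cnt (Ms : ℕ → Finset (Fin k)) (t : ℕ) (h : ∀ s < t, (Ms s).card = m) :
    ∑ e, cnt Ms t e = t * m := by
  induction t with
  | zero => simp [cnt]
  | succ t ih =>
    simp_rw [cnt_succ]
    rw [Finset.sum_add_distrib, ih (fun s hs => h s (by omega))]
    rw [← Finset.card_filter]
    have : (univ.filter fun e => e ∈ Ms t) = Ms t := by ext; simp
    rw [this, h t (by omega)]; ring

theorem sum_reindex (Ms : ℕ → Finset (Fin k)) (t : ℕ) (e : Fin k) (g : ℕ → ℝ) :
    ∑ s ∈ range t, (if e ∈ Ms s then g (cnt Ms s e) else 0) = ∑ j ∈ range (cnt Ms t e), g j := by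
  induction t with
  | zero => simp [cnt]
  | succ t ih =>
    rw [Finset.sum_range_succ, ih, cnt_succ]
    split_ifs with h
    · rw [Finset.sum_range_succ]
    · simp

/-- `e_m(x) ≤ (e s / m)^m` for any family of `m`-subsets -/
theorem esymm_bound (hm : 1 ≤ m) (F : Finset (Finset (Fin k))) (hF : ∀ M ∈ F, M.card = m)
    (x : Fin k → ℝ) (hx : ∀ e, 0 ≤ x e) (s : ℝ) (hs : 0 < s) (hsum : ∑ e, x e ≤ s) :
    ∑ M ∈ F, ∏ e ∈ M, x e ≤ (Real.exp 1 * s / m) ^ m := by
  have hm' : (0 : ℝ) < m := by exact_mod_cast hm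
  set l : ℝ := m / s with hl
  have hl0 : 0 < l := by positivity
  have h1 : ∑ M ∈ F, ∏ e ∈ M, (l * x e) ≤ ∏ e, (1 + l * x e) := by
    rw [Finset.prod_one_add]
    refine Finset.sum_le_sum_of_subset_of_nonneg ?_ ?_
    · intro M _; simp
    · intro M _ _
      exact Finset.prod_nonneg fun e _ => mul_nonneg hl0.le (hx e)
  have h2 : ∏ e, (1 + l * x e) ≤ Real.exp m := by
    calc ∏ e, (1 + l * x e) ≤ ∏ e, Real.exp (l * x e) := by
          refine Finset.prod_le_prod (fun e _ => ?_) (fun e _ => ?_)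
          · have := mul_nonneg hl0.le (hx e); linarith
          · have := Real.add_one_le_exp (l * x e); linarith
      _ = Real.exp (∑ e, l * x e) := by rw [Real.exp_sum]
      _ ≤ Real.exp m := by
          apply Real.exp_le_exp.2
          rw [← Finset.mul_sum]
          calc l * ∑ e, x e ≤ l * s := mul_le_mul_of_nonneg_left hsum hl0.le
            _ = m := by rw [hl]; field_simp
  have h3 : ∑ M ∈ F, ∏ e ∈ M, (l * x e) = l ^ m * ∑ M ∈ F, ∏ e ∈ M, x e := by
    rw [Finset.mul_sum]
    refine Finset.sum_congr rfl fun M hM => ?_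
    rw [Finset.prod_mul_distrib, Finset.prod_const, hF M hM]
  have h4 : (Real.exp 1 * s / m) ^ m = Real.exp m / l ^ m := by
    rw [hl, div_pow, div_pow, mul_pow, ← Real.exp_nat_mul, mul_one]
    field_simp
  rw [h4, le_div_iff₀ (by positivity), mul_comm, ← h3]
  exact h1.trans h2

theorem log2_le_log (a : ℕ) (ha : 1 ≤ a) : (Nat.log2 a : ℝ) * Real.log 2 ≤ Real.log a := by
  have h : (2 : ℝ) ^ (Nat.log2 a) ≤ a := by
    exact_mod_cast Nat.log2_self_le (by omega)
  have := Real.log_le_log (by positivity) h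
  rwa [Real.log_pow] at this

theorem log_le_log2 (a : ℕ) (ha : 1 ≤ a) : Real.log a ≤ ((Nat.log2 a : ℝ) + 1) * Real.log 2 := by
  have h : (a : ℝ) ≤ (2 : ℝ) ^ (Nat.log2 a + 1) := by
    exact_mod_cast (Nat.lt_log2_self (n := a)).le
  have := Real.log_le_log (by exact_mod_cast ha) h
  rw [Real.log_pow] at this
  push_cast at this
  exact this

theorem log_fact (c : ℕ) : (c : ℝ) * Real.log c - c ≤ Real.log (c.factorial) := by
  rcases Nat.eq_zero_or_pos c with rfl | hc
  · simp
  have h := Real.pow_div_factorial_le_exp (c : ℝ) (by positivity) c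
  have hc' : (0 : ℝ) < c := by exact_mod_cast hc
  have hf : (0 : ℝ) < (c.factorial : ℝ) := by exact_mod_cast Nat.factorial_pos c
  have h2 := Real.log_le_log (by positivity) h
  rw [Real.log_exp, Real.log_div (by positivity) hf.ne', Real.log_pow] at h2
  linarith

theorem sum_log_range (c : ℕ) :
    ∑ j ∈ range c, Real.log ((j : ℝ) + 1) = Real.log (c.factorial) := by
  induction c with
  | zero => simp
  | succ c ih =>
    rw [Finset.sum_range_succ, ih, Nat.factorial_succ]
    push_cast
    rw [Real.log_mul (by positivity) (by positivity)]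
    ring

/-- LOWER bound: every step gives a bound on `log N`. -/
theorem lower (hm : 1 ≤ m) (hends : ∀ e, (ends e).1 ≠ (ends e).2) (hk : k ≤ m * (2 * m - 1))
    (w : Fin k → ℕ) (hw : ∀ e, 1 ≤ w e) (τ : ℕ) (hτ : 2 * m ≤ 2 ^ τ)
    (Ms : ℕ → Finset (Fin k)) (hMs : ∀ t < 2 ^ τ, IsPerfectMatching ends (Ms t))
    (hmax : ∀ t < 2 ^ τ, ∀ M, IsPerfectMatching ends M → gain w Ms t M ≤ gain w Ms t (Ms t))
    (t : ℕ) (ht : t < 2 ^ τ) :
    Real.log (NN ends w) ≤ (gain w Ms t (Ms t) : ℝ) * Real.log 2 + m * (2 + τ) * Real.log 2 + m := by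
  classical
  have hL2 : 0 < Real.log 2 := Real.log_pos (by norm_num)
  have hm' : (0 : ℝ) < m := by exact_mod_cast hm
  have hcard : ∀ s < t, (Ms s).card = m := fun s hs => card_pm hends (hMs s (by omega))
  set G : ℝ := (gain w Ms t (Ms t) : ℝ) with hG
  -- each perfect matching
  have h1 : ∀ M, IsPerfectMatching ends M →
      (∏ e ∈ M, (w e : ℝ)) ≤ Real.exp ((G + m) * Real.log 2) * ∏ e ∈ M, ((cnt Ms t e : ℝ) + 1) := by
    intro M hM
    have hMc := card_pm hends hM
    have hpos : 0 < ∏ e ∈ M, (w e : ℝ) := Finset.prod_pos fun e _ => by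
      have := hw e; positivity
    have hpos2 : 0 < ∏ e ∈ M, ((cnt Ms t e : ℝ) + 1) := Finset.prod_pos fun e _ => by positivity
    rw [← Real.log_le_log_iff hpos (by positivity), Real.log_mul (by positivity) hpos2.ne',
      Real.log_exp, Real.log_prod (fun e he => by have := hw e; positivity),
      Real.log_prod (fun e he => by positivity)]
    have hg := hmax t ht M hM
    have hg' : (gain w Ms t M : ℝ) ≤ G := by rw [hG]; exact_mod_cast hg
    have e1 : ∑ e ∈ M, Real.log (w e) ≤ ∑ e ∈ M, ((Nat.log2 (w e) : ℝ) + 1) * Real.log 2 :=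
      Finset.sum_le_sum fun e _ => log_le_log2 _ (hw e)
    have e2 : ∑ e ∈ M, (Nat.log2 (cnt Ms t e + 1) : ℝ) * Real.log 2 ≤
        ∑ e ∈ M, Real.log ((cnt Ms t e : ℝ) + 1) :=
      Finset.sum_le_sum fun e _ => by
        have := log2_le_log (cnt Ms t e + 1) (by omega)
        push_cast at this
        exact this
    have e3 : ∑ e ∈ M, ((Nat.log2 (w e) : ℝ) + 1) * Real.log 2
        = (gain w Ms t M : ℝ) * Real.log 2
          + ∑ e ∈ M, (Nat.log2 (cnt Ms t e + 1) : ℝ) * Real.log 2 + m * Real.log 2 := by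
      unfold gain ew
      push_cast
      rw [← hMc, Finset.sum_mul, ← nsmul_eq_mul, ← Finset.sum_const, ← Finset.sum_add_distrib,
        ← Finset.sum_add_distrib]
      refine Finset.sum_congr rfl fun e _ => ?_
      ring
    nlinarith [e1, e2, e3, mul_le_mul_of_nonneg_right hg' hL2.le]
  -- N ≤ exp(..) * e_m
  set s : ℝ := (t : ℝ) * m + k with hs
  set F : Finset (Finset (Fin k)) := univ.filter (fun M => IsPerfectMatching ends M) with hF
  have hNN : (NN ends w : ℝ) = ∑ M ∈ F, ∏ e ∈ M, (w e : ℝ) := by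
    unfold NN; push_cast; rfl
  by_cases hN0 : (NN ends w) = 0
  · -- impossible, but harmless: N ≥ 1 because Ms t is a perfect matching
    exfalso
    have : 0 < NN ends w := by
      unfold NN
      refine Finset.sum_pos' (fun _ _ => Nat.zero_le _) ⟨Ms t, by simp [hMs t ht], ?_⟩
      exact Finset.prod_pos fun e _ => hw e
    omega
  have hk0 : 0 < k := by
    rcases Nat.eq_zero_or_pos k with h0 | h0
    · exfalso
      have hc := card_pm hends (hMs t ht)
      have : (Ms t).card ≤ k := by simpa using Finset.card_le_univ (Ms t)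
      omega
    · exact h0
  have hspos : 0 < s := by
    have : (0 : ℝ) < k := by exact_mod_cast hk0
    positivity
  have h2 : (NN ends w : ℝ) ≤ Real.exp ((G + m) * Real.log 2) * (Real.exp 1 * s / m) ^ m := by
    rw [hNN]
    calc ∑ M ∈ F, ∏ e ∈ M, (w e : ℝ)
        ≤ ∑ M ∈ F, Real.exp ((G + m) * Real.log 2) * ∏ e ∈ M, ((cnt Ms t e : ℝ) + 1) :=
          Finset.sum_le_sum fun M hM => h1 M (by simpa [hF] using hM)
      _ = Real.exp ((G + m) * Real.log 2) * ∑ M ∈ F, ∏ e ∈ M, ((cnt Ms t e : ℝ) + 1) := by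
          rw [Finset.mul_sum]
      _ ≤ _ := by
          refine mul_le_mul_of_nonneg_left ?_ (Real.exp_pos _).le
          refine esymm_bound hm F (fun M hM => card_pm hends (by simpa [hF] using hM)) _
            (fun e => by positivity) s hspos ?_
          rw [Finset.sum_add_distrib]
          have := sum_cnt Ms t hcard
          have h' : ∑ e, (cnt Ms t e : ℝ) = (t : ℝ) * m := by exact_mod_cast this
          rw [h', hs]; simp
  have hNpos : (0 : ℝ) < NN ends w := by
    have : 0 < NN ends w := Nat.pos_of_ne_zero hN0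
    exact_mod_cast this
  have h3 := Real.log_le_log hNpos h2
  rw [Real.log_mul (Real.exp_pos _).ne' (by positivity), Real.log_exp, Real.log_pow] at h3
  have h4 : Real.log (Real.exp 1 * s / m) ≤ 1 + (τ + 1) * Real.log 2 := by
    rw [mul_div_assoc, Real.log_mul (Real.exp_pos _).ne' (by positivity), Real.log_exp]
    have h5 : s / m ≤ 2 ^ (τ + 1) := by
      rw [div_le_iff₀ hm', hs, pow_succ]
      have a1 : (t : ℝ) ≤ 2 ^ τ := by exact_mod_cast ht.le
      have a2 : (k : ℝ) ≤ m * 2 ^ τ := by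
        have : k ≤ m * 2 ^ τ := hk.trans (Nat.mul_le_mul_left _ (by omega))
        exact_mod_cast this
      nlinarith
    have h6 := Real.log_le_log (by positivity) h5
    rw [Real.log_pow] at h6
    push_cast at h6
    linarith
  nlinarith [mul_le_mul_of_nonneg_left h4 hm'.le]

/-- Gibbs variational inequality for matching laws. -/
theorem gibbs (w : Fin k → ℕ) (hw : ∀ e, 1 ≤ w e) (q : Finset (Fin k) → ℝ)
    (hq : IsMatchingLaw ends q) :
    lawEntropy q + ∑ e, marginal q e * Real.log (w e) ≤ Real.log (NN ends w) := by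
  classical
  obtain ⟨hq0, hq1, hq2⟩ := hq
  set F : Finset (Finset (Fin k)) := univ.filter (fun M => IsPerfectMatching ends M) with hF
  have hNN : (NN ends w : ℝ) = ∑ M ∈ F, ∏ e ∈ M, (w e : ℝ) := by
    unfold NN; push_cast; rfl
  have hwp : ∀ M : Finset (Fin k), 0 < ∏ e ∈ M, (w e : ℝ) := fun M =>
    Finset.prod_pos fun e _ => by have := hw e; positivity
  have hex : ∃ M, q M ≠ 0 := by
    by_contra hcon
    push Not at hcon
    simp [hcon] at hq1
  obtain ⟨M0, hM0⟩ := hex
  have hNpos : (0 : ℝ) < NN ends w := by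
    rw [hNN]
    exact Finset.sum_pos' (fun M _ => (hwp M).le) ⟨M0, by simp [hF, hq2 M0 hM0], hwp M0⟩
  have hswap : ∑ e, marginal q e * Real.log (w e) = ∑ M, q M * Real.log (∏ e ∈ M, (w e : ℝ)) := by
    unfold marginal
    simp_rw [Finset.sum_mul, Finset.sum_filter]
    rw [Finset.sum_comm]
    refine Finset.sum_congr rfl fun M _ => ?_
    rw [Real.log_prod (fun e he => by have := hw e; positivity), Finset.mul_sum,
      ← Finset.sum_filter]
    refine Finset.sum_congr ?_ fun _ _ => rfl
    ext e; simp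
  rw [hswap]
  unfold lawEntropy
  rw [← Finset.sum_add_distrib]
  have hterm : ∀ M, Real.negMulLog (q M) + q M * Real.log (∏ e ∈ M, (w e : ℝ)) ≤
      q M * Real.log (NN ends w) +
        ((if IsPerfectMatching ends M then (∏ e ∈ M, (w e : ℝ)) / NN ends w else 0) - q M) := by
    intro M
    by_cases h0 : q M = 0
    · rw [h0]; simp only [Real.negMulLog_zero, zero_mul, zero_add, sub_zero]
      split_ifs
      · exact div_nonneg (hwp M).le hNpos.le
      · exact le_rfl
    · have hpos : 0 < q M := lt_of_le_of_ne (hq0 M) (Ne.symm h0)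
      rw [if_pos (hq2 M h0)]
      have h1 := Real.log_le_sub_one_of_pos (x := (∏ e ∈ M, (w e : ℝ)) / (q M * NN ends w))
        (div_pos (hwp M) (by positivity))
      rw [Real.log_div (hwp M).ne' (by positivity), Real.log_mul hpos.ne' hNpos.ne'] at h1
      have h2 := mul_le_mul_of_nonneg_left h1 hpos.le
      have h3 : q M * ((∏ e ∈ M, (w e : ℝ)) / (q M * NN ends w) - 1)
          = (∏ e ∈ M, (w e : ℝ)) / NN ends w - q M := by
        field_simp
      rw [h3] at h2
      unfold Real.negMulLog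
      nlinarith
  calc ∑ M, (Real.negMulLog (q M) + q M * Real.log (∏ e ∈ M, (w e : ℝ)))
      ≤ ∑ M, (q M * Real.log (NN ends w) +
        ((if IsPerfectMatching ends M then (∏ e ∈ M, (w e : ℝ)) / NN ends w else 0) - q M)) :=
        Finset.sum_le_sum fun M _ => hterm M
    _ = Real.log (NN ends w) := by
        rw [Finset.sum_add_distrib, ← Finset.sum_mul, hq1, Finset.sum_sub_distrib, hq1,
          ← Finset.sum_filter, ← Finset.sum_div]
        rw [← hF, ← hNN, div_self hNpos.ne']
        ring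

theorem negMulLog_one_sub_le (x : ℝ) (hx0 : 0 ≤ x) (hx1 : x ≤ 1) : Real.negMulLog (1 - x) ≤ x := by
  rcases eq_or_lt_of_le hx1 with h | h
  · subst h; simp
  · have hpos : 0 < 1 - x := by linarith
    have := Real.one_sub_inv_le_log_of_pos hpos
    unfold Real.negMulLog
    have h2 := mul_le_mul_of_nonneg_left this hpos.le
    have h3 : (1 - x) * (1 - (1 - x)⁻¹) = -x := by field_simp; ring
    rw [h3] at h2
    nlinarith

/-- UPPER bound for the total gain. -/
theorem upper (h465 : HS0465) (hm : 1 ≤ m) (hends : ∀ e, (ends e).1 ≠ (ends e).2)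
    (w : Fin k → ℕ) (hw : ∀ e, 1 ≤ w e) (τ : ℕ)
    (Ms : ℕ → Finset (Fin k)) (hMs : ∀ t < 2 ^ τ, IsPerfectMatching ends (Ms t)) :
    (∑ t ∈ range (2 ^ τ), (gain w Ms t (Ms t) : ℝ)) * Real.log 2 ≤
      2 ^ τ * (Real.log (NN ends w) + 3 * m + m * Real.log 2 - m * τ * Real.log 2) := by
  classical
  have hL2 : 0 < Real.log 2 := Real.log_pos (by norm_num)
  have hm' : (0 : ℝ) < m := by exact_mod_cast hm
  set T : ℕ := 2 ^ τ with hT
  have hTpos : 0 < T := by positivity
  have hTpos' : (0 : ℝ) < (T : ℝ) := by exact_mod_cast hTpos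
  have hcard : ∀ s < T, (Ms s).card = m := fun s hs => card_pm hends (hMs s hs)
  set c : Fin k → ℕ := cnt Ms T with hc
  have hcsum : ∑ e, (c e : ℝ) = T * m := by
    have := sum_cnt Ms T hcard
    exact_mod_cast this
  have hcT : ∀ e, c e ≤ T := by
    intro e
    have : c e ≤ (range T).card := Finset.card_filter_le _ _
    simpa using this
  -- total gain
  have h1 : (∑ t ∈ range T, (gain w Ms t (Ms t) : ℝ)) =
      ∑ e, ((c e : ℝ) * Nat.log2 (w e) - ∑ j ∈ range (c e), (Nat.log2 (j + 1) : ℝ)) := by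
    have e1 : ∀ t, (gain w Ms t (Ms t) : ℝ) =
        ∑ e, (if e ∈ Ms t then ((Nat.log2 (w e) : ℝ) - Nat.log2 (cnt Ms t e + 1)) else 0) := by
      intro t
      unfold gain ew
      push_cast
      rw [← Finset.sum_filter]
      refine Finset.sum_congr ?_ fun _ _ => rfl
      ext e; simp
    simp_rw [e1]
    rw [Finset.sum_comm]
    refine Finset.sum_congr rfl fun e _ => ?_
    have e2 := sum_reindex Ms T e (fun j => (Nat.log2 (w e) : ℝ) - Nat.log2 (j + 1))
    rw [e2, Finset.sum_sub_distrib, Finset.sum_const, Finset.card_range, nsmul_eq_mul]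
  have h2 : (∑ t ∈ range T, (gain w Ms t (Ms t) : ℝ)) * Real.log 2 ≤
      ∑ e, ((c e : ℝ) * Real.log (w e) - (c e * Real.log (c e) - c e) + c e * Real.log 2) := by
    rw [h1, Finset.sum_mul]
    refine Finset.sum_le_sum fun e _ => ?_
    have a1 := log2_le_log (w e) (hw e)
    have a2 : Real.log ((c e).factorial) ≤ ∑ j ∈ range (c e), ((Nat.log2 (j + 1) : ℝ) + 1) * Real.log 2 := by
      rw [← sum_log_range]
      refine Finset.sum_le_sum fun j _ => ?_
      have := log_le_log2 (j + 1) (by omega)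
      push_cast at this
      exact this
    have a3 := log_fact (c e)
    have a4 : ∑ j ∈ range (c e), ((Nat.log2 (j + 1) : ℝ) + 1) * Real.log 2
        = (∑ j ∈ range (c e), (Nat.log2 (j + 1) : ℝ)) * Real.log 2 + c e * Real.log 2 := by
      rw [← Finset.sum_mul, Finset.sum_add_distrib, Finset.sum_const, Finset.card_range,
        nsmul_eq_mul, mul_one, add_mul]
    have a5 : (0 : ℝ) ≤ c e := by positivity
    nlinarith [mul_le_mul_of_nonneg_left a1 a5]
  -- the empirical law
  let p : Finset (Fin k) → ℝ := fun M => (((range T).filter fun t => Ms t = M).card : ℝ) / T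
  have hpl : IsMatchingLaw ends p := by
    refine ⟨fun M => by positivity, ?_, ?_⟩
    · simp only [p]
      rw [← Finset.sum_div]
      have : ∑ M : Finset (Fin k), (((range T).filter fun t => Ms t = M).card : ℝ) = T := by
        have := Finset.card_eq_sum_card_fiberwise (s := range T) (t := (univ : Finset (Finset (Fin k))))
          (f := Ms) (by intro x _; simp)
        rw [Finset.card_range] at this
        exact_mod_cast this.symm
      rw [this, div_self hTpos'.ne']
    · intro M hM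
      have : ((range T).filter fun t => Ms t = M).card ≠ 0 := by
        intro h0
        apply hM
        simp [p, h0]
      obtain ⟨t, ht⟩ := Finset.card_pos.1 (Nat.pos_of_ne_zero this)
      rw [Finset.mem_filter, Finset.mem_range] at ht
      rw [← ht.2]
      exact hMs t ht.1
  have hpm : ∀ e, marginal p e = (c e : ℝ) / T := by
    intro e
    unfold marginal
    simp only [p]
    rw [← Finset.sum_div]
    congr 1
    rw [hc]
    unfold cnt
    rw [Finset.card_eq_sum_card_fiberwise (s := (range T).filter fun s => e ∈ Ms s)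
      (t := (univ.filter fun M : Finset (Fin k) => e ∈ M)) (f := Ms)
      (by intro x hx; simp at hx ⊢; exact hx.2)]
    push_cast
    refine Finset.sum_congr rfl fun M hM => ?_
    congr 2
    ext t
    simp only [Finset.mem_filter, Finset.mem_range, Finset.mem_univ, true_and] at hM ⊢
    constructor
    · rintro ⟨h1, h2⟩
      exact ⟨⟨h1, h2 ▸ hM⟩, h2⟩
    · rintro ⟨⟨h1, _⟩, h2⟩
      exact ⟨h1, h2⟩
  obtain ⟨q, hq, hqm, hent⟩ := h465 m hm k ends hends p hpl
  have hg := gibbs w hw q hq
  simp_rw [hqm, hpm] at hg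
  simp_rw [hpm] at hent
  have hx0 : ∀ e, 0 ≤ (c e : ℝ) / T := fun e => by positivity
  have hx1 : ∀ e, (c e : ℝ) / T ≤ 1 := fun e => by
    rw [div_le_one hTpos']; exact_mod_cast hcT e
  have hb : (2 - 2 / (m : ℝ)) * ∑ e, Real.negMulLog (1 - (c e : ℝ) / T) ≤ 2 * m := by
    have b1 : ∑ e, Real.negMulLog (1 - (c e : ℝ) / T) ≤ m := by
      calc ∑ e, Real.negMulLog (1 - (c e : ℝ) / T) ≤ ∑ e, (c e : ℝ) / T :=
            Finset.sum_le_sum fun e _ => negMulLog_one_sub_le _ (hx0 e) (hx1 e)
        _ = m := by rw [← Finset.sum_div, hcsum]; field_simp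
    have b0 : 0 ≤ ∑ e, Real.negMulLog (1 - (c e : ℝ) / T) :=
      Finset.sum_nonneg fun e _ => Real.negMulLog_nonneg (by linarith [hx1 e]) (by linarith [hx0 e])
    have b2 : 0 ≤ 2 / (m : ℝ) := by positivity
    nlinarith
  -- combine
  have hcomb : ∑ e, (Real.negMulLog ((c e : ℝ) / T) + (c e : ℝ) / T * Real.log (w e)) ≤
      Real.log (NN ends w) + 2 * m := by
    rw [Finset.sum_add_distrib]
    linarith
  have hterm : ∀ e, Real.negMulLog ((c e : ℝ) / T) + (c e : ℝ) / T * Real.log (w e) =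
      (1 / T) * ((c e : ℝ) * Real.log (w e) - c e * Real.log (c e) + c e * Real.log T) := by
    intro e
    unfold Real.negMulLog
    rcases Nat.eq_zero_or_pos (c e) with h0 | h0
    · simp [h0]
    · have h0' : (0 : ℝ) < c e := by exact_mod_cast h0
      rw [Real.log_div h0'.ne' hTpos'.ne']
      field_simp
      ring
  simp_rw [hterm] at hcomb
  rw [← Finset.mul_sum] at hcomb
  have hlogT : Real.log T = τ * Real.log 2 := by
    rw [hT]; push_cast; rw [Real.log_pow]
  have hsumT : ∑ e, ((c e : ℝ) * Real.log (w e) - c e * Real.log (c e) + c e * Real.log T) =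
      ∑ e, ((c e : ℝ) * Real.log (w e) - (c e * Real.log (c e) - c e) + c e * Real.log 2)
        + T * m * (τ * Real.log 2) - T * m - T * m * Real.log 2 := by
    rw [← hcsum, ← hlogT]
    simp_rw [Finset.sum_mul, Finset.sum_add_distrib, Finset.sum_sub_distrib]
    ring
  rw [hsumT] at hcomb
  have hcomb2 := mul_le_mul_of_nonneg_left hcomb hTpos'.le
  rw [← mul_assoc, mul_one_div_cancel hTpos'.ne', one_mul] at hcomb2
  have hTr : ((2 : ℝ) ^ τ) = (T : ℝ) := by rw [hT]; push_cast; rfl
  rw [hTr]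
  nlinarith [h2, hcomb2]

/-- the exponent of the output -/
def expo (m τ : ℕ) (Φ : ℤ) : ℕ := (Φ / 2 ^ τ + m * τ - 6 * m).toNat

/-- M4: the output is within `512 ^ n` of the number of perfect matchings. -/
theorem main (h465 : HS0465) (hm : 1 ≤ m) (hends : ∀ e, (ends e).1 ≠ (ends e).2)
    (hk : k ≤ m * (2 * m - 1))
    (w : Fin k → ℕ) (hw : ∀ e, 1 ≤ w e) (τ : ℕ) (hτ : 2 * m ≤ 2 ^ τ)
    (Ms : ℕ → Finset (Fin k)) (hMs : ∀ t < 2 ^ τ, IsPerfectMatching ends (Ms t))
    (hmax : ∀ t < 2 ^ τ, ∀ M, IsPerfectMatching ends M → gain w Ms t M ≤ gain w Ms t (Ms t))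
    (Φ : ℤ) (hΦ : Φ = ∑ t ∈ range (2 ^ τ), gain w Ms t (Ms t)) :
    NN ends w ≤ 512 ^ (2 * m) * 2 ^ expo m τ Φ ∧ 2 ^ expo m τ Φ ≤ NN ends w := by
  classical
  have hL2 : 0 < Real.log 2 := Real.log_pos (by norm_num)
  have hL2a : (0.69 : ℝ) < Real.log 2 := by have := Real.log_two_gt_d9; linarith
  have hm' : (1 : ℝ) ≤ m := by exact_mod_cast hm
  have hup := upper h465 hm hends w hw τ Ms hMs
  have hlow : ∀ t ∈ range (2 ^ τ), Real.log (NN ends w) ≤
      (gain w Ms t (Ms t) : ℝ) * Real.log 2 + m * (2 + τ) * Real.log 2 + m := fun t ht =>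
    lower hm hends hk w hw τ hτ Ms hMs hmax t (Finset.mem_range.1 ht)
  have hlow2 := Finset.sum_le_sum hlow
  rw [Finset.sum_const, Finset.card_range, nsmul_eq_mul, Finset.sum_add_distrib,
    Finset.sum_add_distrib, Finset.sum_const, Finset.sum_const, Finset.card_range, nsmul_eq_mul,
    nsmul_eq_mul, ← Finset.sum_mul] at hlow2
  have hΦ' : (∑ t ∈ range (2 ^ τ), (gain w Ms t (Ms t) : ℝ)) = (Φ : ℝ) := by
    rw [hΦ]; push_cast; rfl
  rw [hΦ'] at hup hlow2
  have hN : 1 ≤ NN ends w := by
    unfold NN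
    refine Nat.succ_le_of_lt (Finset.sum_pos' (fun _ _ => Nat.zero_le _) ⟨Ms 0, ?_, ?_⟩)
    · simp [hMs 0 (by positivity)]
    · exact Finset.prod_pos fun e _ => hw e
  have hNr : (0 : ℝ) < (NN ends w : ℝ) := by exact_mod_cast hN
  set T : ℝ := 2 ^ τ with hT
  have hTpos : 0 < T := by positivity
  push_cast at hlow2
  rw [← hT] at hlow2
  -- floor
  set q : ℤ := Φ / 2 ^ τ with hq
  have hq1 : (q : ℝ) * T ≤ Φ := by
    have : q * 2 ^ τ ≤ Φ := Int.ediv_mul_le Φ (by positivity)
    have h2 : ((q * 2 ^ τ : ℤ) : ℝ) ≤ Φ := by exact_mod_cast this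
    push_cast at h2
    exact h2
  have hq2 : (Φ : ℝ) < ((q : ℝ) + 1) * T := by
    have : Φ < (q + 1) * 2 ^ τ := by
      have := Int.lt_ediv_add_one_mul_self Φ (b := (2 : ℤ) ^ τ) (by positivity)
      exact this
    have h2 : (Φ : ℝ) < (((q + 1) * 2 ^ τ : ℤ) : ℝ) := by exact_mod_cast this
    push_cast at h2
    exact h2
  -- upper in terms of q
  have hU : (q : ℝ) * Real.log 2 + m * τ * Real.log 2 ≤ Real.log (NN ends w) + 3 * m + m * Real.log 2 := by
    have h1 : (q : ℝ) * T * Real.log 2 ≤ Φ * Real.log 2 := mul_le_mul_of_nonneg_right hq1 hL2.le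
    have h2 : T * ((q : ℝ) * Real.log 2) ≤
        T * (Real.log (NN ends w) + 3 * m + m * Real.log 2 - m * τ * Real.log 2) := by
      calc T * ((q : ℝ) * Real.log 2) = (q : ℝ) * T * Real.log 2 := by ring
        _ ≤ _ := h1.trans hup
    have h3 := le_of_mul_le_mul_left h2 hTpos
    linarith
  have hLo : Real.log (NN ends w) ≤ ((q : ℝ) + 1) * Real.log 2 + m * (2 + τ) * Real.log 2 + m := by
    have h1 : Φ * Real.log 2 ≤ ((q : ℝ) + 1) * T * Real.log 2 :=
      mul_le_mul_of_nonneg_right hq2.le hL2.le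
    have h2 : T * Real.log (NN ends w) ≤
        T * (((q : ℝ) + 1) * Real.log 2 + m * (2 + τ) * Real.log 2 + m) := by
      nlinarith
    exact le_of_mul_le_mul_left h2 hTpos
  set a : ℕ := expo m τ Φ with ha
  have haq : (a : ℤ) = max (q + m * τ - 6 * m) 0 := by
    rw [ha]; unfold expo; rw [Int.toNat_eq_max]
  constructor
  · have ha1 : (q : ℝ) + m * τ - 6 * m ≤ a := by
      have : q + m * τ - 6 * m ≤ (a : ℤ) := by rw [haq]; exact le_max_left _ _
      exact_mod_cast this
    have h1 : Real.log (NN ends w) ≤ Real.log (((512 ^ (2 * m) * 2 ^ a : ℕ)) : ℝ) := by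
      push_cast
      rw [Real.log_mul (by positivity) (by positivity), Real.log_pow, Real.log_pow]
      have h512 : Real.log 512 = 9 * Real.log 2 := by
        rw [show (512 : ℝ) = 2 ^ 9 by norm_num, Real.log_pow]; push_cast; ring
      rw [h512]
      push_cast
      have h2 := mul_le_mul_of_nonneg_right ha1 hL2.le
      have hpos : 0 ≤ (m : ℝ) * τ := by positivity
      nlinarith
    rw [Real.log_le_log_iff hNr (by positivity)] at h1
    exact_mod_cast h1
  · rcases le_total (q + m * τ - 6 * m) 0 with h0 | h0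
    · have : a = 0 := by
        have := haq
        rw [max_eq_right h0] at this
        exact_mod_cast this
      rw [this]; simpa using hN
    · have ha1 : (a : ℝ) = q + m * τ - 6 * m := by
        rw [max_eq_left h0] at haq
        exact_mod_cast haq
      have h1 : Real.log (((2 ^ a : ℕ)) : ℝ) ≤ Real.log (NN ends w) := by
        push_cast
        rw [Real.log_pow, ha1]
        nlinarith
      rw [Real.log_le_log_iff (by positivity) hNr] at h1
      exact_mod_cast h1

end Crest.Agent.R304.Cnt467
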