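import Crest.Agent.R304.Hyb

/-!
# R304 / S0464: configurations, canonical completion, energies (definitions)

`g : V → V → ℝ` is symmetric and positive; off the diagonal `lam g u v = g u v ^ 2` is the
activity, on the diagonal `g v v = b v` is the node weight of the hole `v` (the diagonal is
irrelevant for perfect matchings, so `W`, `Esw`, `Eex`, `E2`, `En` on `pms V` do not see it).
-/

set_option autoImplicit false
set_option linter.unusedSectionVars false

namespace Crest.Agent.R304

open Finset

variable {V : Type*} [Fintype V] [DecidableEq V]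

/-- a canonical pair of distinct elements of `H` -/
noncomputable def pick (H : Finset V) (h : 1 < H.card) : V × V :=
  ((Finset.one_lt_card.1 h).choose, (Finset.one_lt_card.1 h).choose_spec.2.choose)

theorem pick_fst (H : Finset V) (h : 1 < H.card) : (pick H h).1 ∈ H :=
  (Finset.one_lt_card.1 h).choose_spec.1

theorem pick_snd (H : Finset V) (h : 1 < H.card) : (pick H h).2 ∈ H :=
  (Finset.one_lt_card.1 h).choose_spec.2.choose_spec.1

theorem pick_ne (H : Finset V) (h : 1 < H.card) : (pick H h).1 ≠ (pick H h).2 :=
  (Finset.one_lt_card.1 h).choose_spec.2.choose_spec.2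

theorem card_holes_add {s : V → V} {u v : V} (huv : u ≠ v) (hu : u ∈ holes s)
    (hv : v ∈ holes s) : (holes (add s u v)).card + 2 = (holes s).card := by
  rw [holes_add huv]
  have hsub : ({u, v} : Finset V) ⊆ holes s := by
    intro x hx
    rcases Finset.mem_insert.1 hx with h | h
    · rw [h]; exact hu
    · rw [Finset.mem_singleton.1 h]; exact hv
  have h2 : ({u, v} : Finset V).card = 2 := Finset.card_pair huv
  have := Finset.card_sdiff_add_card_eq_card hsub
  omega

/-- match all holes in a canonical way (which depends on the set of holes only) -/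
noncomputable def jn (s : V → V) : V → V :=
  if h : 1 < (holes s).card then jn (add s (pick (holes s) h).1 (pick (holes s) h).2) else s
termination_by (holes s).card
decreasing_by
  have := card_holes_add (pick_ne (holes s) h) (pick_fst _ h) (pick_snd _ h)
  omega

theorem jn_of_lt {s : V → V} (h : 1 < (holes s).card) :
    jn s = jn (add s (pick (holes s) h).1 (pick (holes s) h).2) := by
  rw [jn]; simp [h]

theorem jn_of_le {s : V → V} (h : (holes s).card ≤ 1) : jn s = s := by
  rw [jn]; simp [Nat.not_lt.2 h]

/-- configurations: pairs of partial matchings, even numbers of holes, at most six in total -/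
def Conf (V : Type*) [Fintype V] [DecidableEq V] : Finset ((V → V) × (V → V)) :=
  (invs V ×ˢ invs V).filter fun N =>
    Even (holes N.1).card ∧ Even (holes N.2).card ∧ (holes N.1).card + (holes N.2).card ≤ 6

/-- switch: `u` gets matched with `v` and `s u` with `s v` -/
def sw (s : V → V) (u v : V) : V → V := add (add s u v) (s u) (s v)

/-- switch energy -/
noncomputable def Esw (a : V → V → ℝ) (f : (V → V) → ℝ) : ℝ :=
  ∑ s ∈ pms V, ∑ u : V, ∑ v : V,
    if v ≠ u ∧ v ≠ s u then min (W a s) (W a (sw s u v)) * (f s - f (sw s u v)) ^ 2 else 0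

/-- exchange energy -/
noncomputable def Eex (a : V → V → ℝ) (f : (V → V) → ℝ) : ℝ :=
  ∑ s ∈ pms V, ∑ t ∈ pms V, ∑ v : V,
    W a s * W a t *
      (f s + f t - f (swp (comp s t v) s t) - f (swp (comp s t v) t s)) ^ 2

/-- first member after the two-replica switch with labels `p`, `q` (the edge of `s` at `p` and the
edge of `t` at `q` are removed, the component of `p` is swapped, the holes are matched) -/
noncomputable def two1 (s t : V → V) (p q : V) : V → V :=
  add (swp (comp (del s p) (del t q) p) (del s p) (del t q)) q (s p)

/-- second member after the two-replica switch -/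
noncomputable def two2 (s t : V → V) (p q : V) : V → V :=
  add (swp (comp (del s p) (del t q) p) (del t q) (del s p)) p (t q)

open Classical in
/-- two-replica switch energy -/
noncomputable def E2 (a : V → V → ℝ) (f : (V → V) → ℝ) : ℝ :=
  ∑ s ∈ pms V, ∑ t ∈ pms V, ∑ p : V, ∑ q : V,
    if q ∈ comp (del s p) (del t q) p then
      min (W a s * W a t) (W a (two1 s t p q) * W a (two2 s t p q)) *
        (f s + f t - f (two1 s t p q) - f (two2 s t p q)) ^ 2
    else 0

/-- total energy (homogeneous of degree two in the weights) -/
noncomputable def En (a : V → V → ℝ) (f : (V → V) → ℝ) : ℝ :=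
  Zh a ∅ * Esw a f + Eex a f + E2 a f

/-- node condition (a): `c0 * (g u u * g v v) ≤ g u v ^ 2` for `u ≠ v` -/
def NodeA (g : V → V → ℝ) (c0 : ℝ) : Prop :=
  ∀ u v, u ≠ v → c0 * (g u u * g v v) ≤ g u v ^ 2

/-- put node weights on the diagonal -/
def gd (a : V → V → ℝ) (b : V → ℝ) (u v : V) : ℝ := if u = v then b u else a u v

end Crest.Agent.R304
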