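import Crest.Agent.R304.ConfDefs

/-!
# R304 / S0464: the re-pairing lemma
-/

set_option autoImplicit false
set_option linter.unusedSectionVars false
set_option linter.unusedVariables false

namespace Crest.Agent.R304

open Finset

namespace CQ

theorem sum_dom {α β : Type*} [DecidableEq β] (A : Finset α) (B : Finset β) (φ : α → β)
    (F : α → ℝ) (G : β → ℝ) {K : ℝ} (hK : 0 ≤ K) (hmap : ∀ x ∈ A, φ x ∈ B)
    (hinj : ∀ x ∈ A, ∀ y ∈ A, φ x = φ y → x = y) (hle : ∀ x ∈ A, F x ≤ K * G (φ x))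
    (hG : ∀ y ∈ B, 0 ≤ G y) : ∑ x ∈ A, F x ≤ K * ∑ y ∈ B, G y := by
  calc ∑ x ∈ A, F x ≤ ∑ x ∈ A, K * G (φ x) := Finset.sum_le_sum hle
    _ = K * ∑ x ∈ A, G (φ x) := by rw [Finset.mul_sum]
    _ = K * ∑ y ∈ A.image φ, G y := by
        rw [Finset.sum_image (fun x hx y hy h => hinj x hx y hy h)]
    _ ≤ K * ∑ y ∈ B, G y := by
        refine mul_le_mul_of_nonneg_left ?_ hK
        refine Finset.sum_le_sum_of_subset_of_nonneg ?_ fun y hy _ => hG y hy
        intro y hy
        obtain ⟨x, hx, rfl⟩ := Finset.mem_image.1 hy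
        exact hmap x hx

variable {V : Type*} [Fintype V] [DecidableEq V]

/-- involutions with exactly `m` holes -/
def Iv (V : Type*) [Fintype V] [DecidableEq V] (m : ℕ) : Finset (V → V) :=
  (invs V).filter fun s => (holes s).card = m

theorem mem_Iv {m : ℕ} {s : V → V} : s ∈ Iv V m ↔ Inv s ∧ (holes s).card = m := by
  simp [Iv]

theorem Iv_zero : Iv V 0 = pms V := by
  ext s
  rw [mem_Iv, mem_pms, Finset.card_eq_zero, holes_eq_empty]

section wt
variable {g : V → V → ℝ} {c0 : ℝ}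

theorem W_add_mul (hsym : ∀ u v, g u v = g v u) {s : V → V} {u v : V} (huv : u ≠ v)
    (hu : s u = u) (hv : s v = v) :
    W g (add s u v) * (g u u * g v v) = W g s * g u v ^ 2 := by
  unfold W
  have hmem : v ∈ (univ : Finset V).erase u := Finset.mem_erase.2 ⟨huv.symm, mem_univ _⟩
  rw [← Finset.mul_prod_erase univ (fun w => g w (add s u v w)) (mem_univ u),
    ← Finset.mul_prod_erase _ (fun w => g w (add s u v w)) hmem,
    ← Finset.mul_prod_erase univ (fun w => g w (s w)) (mem_univ u),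
    ← Finset.mul_prod_erase _ (fun w => g w (s w)) hmem]
  have hrest : ∏ w ∈ (univ.erase u).erase v, g w (add s u v w) =
      ∏ w ∈ (univ.erase u).erase v, g w (s w) := by
    refine Finset.prod_congr rfl fun w hw => ?_
    have h2 : w ≠ v := (Finset.mem_erase.1 hw).1
    have h1 : w ≠ u := (Finset.mem_erase.1 (Finset.mem_erase.1 hw).2).1
    rw [add_of_ne h1 h2]
  rw [hrest, add_left, add_right, hu, hv, hsym v u]
  ring

theorem W_le_add (hsym : ∀ u v, g u v = g v u) (hpos : ∀ u v, 0 < g u v)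
    (hc : 0 < c0) (hN : NodeA g c0) {s : V → V} {u v : V} (huv : u ≠ v)
    (hu : s u = u) (hv : s v = v) : W g s ≤ c0⁻¹ * W g (add s u v) := by
  have h := W_add_mul hsym huv hu hv
  have h1 := hN u v huv
  have hp : 0 < g u u * g v v := mul_pos (hpos _ _) (hpos _ _)
  have hW := W_pos hpos s
  have h2 : W g s * (c0 * (g u u * g v v)) ≤ W g (add s u v) * (g u u * g v v) := by
    rw [h]; exact mul_le_mul_of_nonneg_left h1 hW.le
  have h3 : (W g s * c0) * (g u u * g v v) ≤ W g (add s u v) * (g u u * g v v) := by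
    linarith [h2]
  have h4 : W g s * c0 ≤ W g (add s u v) := le_of_mul_le_mul_right h3 hp
  rw [inv_mul_eq_div, le_div_iff₀ hc]
  exact h4

end wt

/-- the constant -/
noncomputable def kap (V : Type*) [Fintype V] (c0 : ℝ) : ℝ := ((Fintype.card V : ℝ) ^ 2 + 1) * c0⁻¹

section kap
variable {c0 : ℝ}

theorem one_le_inv (hc : 0 < c0) (hc1 : c0 ≤ 1) : 1 ≤ c0⁻¹ := (one_le_inv₀ hc).2 hc1

theorem inv_le_kap (hc : 0 < c0) (hc1 : c0 ≤ 1) : c0⁻¹ ≤ kap V c0 := by
  unfold kap
  have h := one_le_inv hc hc1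
  have : 0 ≤ (Fintype.card V : ℝ) ^ 2 := sq_nonneg _
  nlinarith

theorem one_le_kap (hc : 0 < c0) (hc1 : c0 ≤ 1) : 1 ≤ kap V c0 :=
  (one_le_inv hc hc1).trans (inv_le_kap hc hc1)

theorem sq_mul_inv_le_kap (hc : 0 < c0) (hc1 : c0 ≤ 1) :
    (Fintype.card V : ℝ) ^ 2 * c0⁻¹ ≤ kap V c0 := by
  unfold kap
  have h := one_le_inv hc hc1
  nlinarith

theorem sq_le_kap (hc : 0 < c0) (hc1 : c0 ≤ 1) : (Fintype.card V : ℝ) ^ 2 ≤ kap V c0 := by
  unfold kap
  have h := one_le_inv hc hc1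
  have : 0 ≤ (Fintype.card V : ℝ) ^ 2 := sq_nonneg _
  nlinarith

theorem kap_pos (hc : 0 < c0) (hc1 : c0 ≤ 1) : 0 < kap V c0 := lt_of_lt_of_le one_pos (one_le_kap hc hc1)

end kap

theorem add_mem_Iv {m : ℕ} {s : V → V} {u w : V} (hs : s ∈ Iv V (m + 2)) (hu : s u = u)
    (hw : s w = w) (h : u ≠ w) : add s u w ∈ Iv V m := by
  rw [mem_Iv] at *
  refine ⟨hs.1.add hu hw, ?_⟩
  have := card_holes_add h (mem_holes.2 hu) (mem_holes.2 hw)
  omega

section main
variable {g : V → V → ℝ} {c0 : ℝ} (hsym : ∀ u v, g u v = g v u) (hpos : ∀ u v, 0 < g u v)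
  (hc : 0 < c0) (hc1 : c0 ≤ 1) (hN : NodeA g c0)

include hsym hpos hc hN in
/-- domination when two holes are matched -/
theorem dom_add (m : ℕ) (Φ : (V → V) → V → V → ℝ) (hΦ : ∀ s u w, 0 ≤ Φ s u w) :
    ∑ s ∈ Iv V (m + 2), ∑ u : V, ∑ w : V,
      (if s u = u ∧ s w = w ∧ u ≠ w then W g s * Φ (add s u w) u w else 0) ≤
    c0⁻¹ * ∑ s ∈ Iv V m, ∑ u : V, ∑ w : V, W g s * Φ s u w := by
  have e1 : ∑ s ∈ Iv V (m + 2), ∑ u : V, ∑ w : V,
      (if s u = u ∧ s w = w ∧ u ≠ w then W g s * Φ (add s u w) u w else 0) =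
      ∑ x ∈ ((Iv V (m + 2)) ×ˢ ((univ : Finset V) ×ˢ (univ : Finset V))).filter
        (fun x => x.1 x.2.1 = x.2.1 ∧ x.1 x.2.2 = x.2.2 ∧ x.2.1 ≠ x.2.2),
        W g x.1 * Φ (add x.1 x.2.1 x.2.2) x.2.1 x.2.2 := by
    rw [Finset.sum_filter, Finset.sum_product]
    refine Finset.sum_congr rfl fun s _ => ?_
    rw [Finset.sum_product]
  have e2 : ∑ s ∈ Iv V m, ∑ u : V, ∑ w : V, W g s * Φ s u w =
      ∑ y ∈ (Iv V m) ×ˢ ((univ : Finset V) ×ˢ (univ : Finset V)),
        W g y.1 * Φ y.1 y.2.1 y.2.2 := by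
    rw [Finset.sum_product]
    refine Finset.sum_congr rfl fun s _ => ?_
    rw [Finset.sum_product]
  rw [e1, e2]
  refine sum_dom _ _ (fun x => (add x.1 x.2.1 x.2.2, x.2.1, x.2.2)) _ _ (inv_nonneg.2 hc.le)
    ?_ ?_ ?_ ?_
  · rintro ⟨s, u, w⟩ hx
    simp only [mem_filter, mem_product, mem_univ, and_true] at hx
    simp only [mem_product, mem_univ, and_true]
    exact add_mem_Iv hx.1 hx.2.1 hx.2.2.1 hx.2.2.2
  · rintro ⟨s, u, w⟩ hx ⟨s', u', w'⟩ hy hxy
    simp only [mem_filter, mem_product, mem_univ, and_true] at hx hy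
    simp only [Prod.mk.injEq] at hxy
    obtain ⟨h1, h2, h3⟩ := hxy
    subst h2; subst h3
    have h4 := del_add (s := s) hx.2.1 hx.2.2.1
    have h5 := del_add (s := s') hy.2.1 hy.2.2.1
    rw [h1, h5] at h4
    rw [h4]
  · rintro ⟨s, u, w⟩ hx
    simp only [mem_filter, mem_product, mem_univ, and_true] at hx
    have h := W_le_add hsym hpos hc hN hx.2.2.2 hx.2.1 hx.2.2.1
    calc W g s * Φ (add s u w) u w ≤ (c0⁻¹ * W g (add s u w)) * Φ (add s u w) u w :=
          mul_le_mul_of_nonneg_right h (hΦ _ _ _)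
      _ = c0⁻¹ * (W g (add s u w) * Φ (add s u w) u w) := by ring
  · rintro ⟨s, u, w⟩ _
    exact mul_nonneg (W_pos hpos s).le (hΦ _ _ _)

/-- match the canonical pair of holes -/
noncomputable def addp (s : V → V) : V → V :=
  if h : 1 < (holes s).card then add s (pick (holes s) h).1 (pick (holes s) h).2 else s

theorem addp_of_eq {s : V → V} {H : Finset V} (hH : holes s = H) (h : 1 < H.card) :
    addp s = add s (pick H h).1 (pick H h).2 := by
  subst hH; simp [addp, h]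

theorem jn_addp {s : V → V} (h : 1 < (holes s).card) : jn (addp s) = jn s := by
  rw [jn_of_lt h, addp, dif_pos h]

theorem addp_mem {m : ℕ} {s : V → V} (hs : s ∈ Iv V (m + 2)) : addp s ∈ Iv V m := by
  have h : 1 < (holes s).card := by rw [(mem_Iv.1 hs).2]; omega
  rw [addp, dif_pos h]
  exact add_mem_Iv hs (mem_holes.1 (pick_fst _ h)) (mem_holes.1 (pick_snd _ h)) (pick_ne _ h)

include hsym hpos hc hc1 hN in
theorem dom_addp (m : ℕ) (Ψ : (V → V) → ℝ) (hΨ : ∀ s, 0 ≤ Ψ s) :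
    ∑ s ∈ Iv V (m + 2), W g s * Ψ (addp s) ≤ kap V c0 * ∑ s ∈ Iv V m, W g s * Ψ s := by
  have h1 := dom_add hsym hpos hc hN m (fun s _ _ => Ψ s) (fun s _ _ => hΨ s)
  have h2 : ∑ s ∈ Iv V (m + 2), W g s * Ψ (addp s) ≤
      ∑ s ∈ Iv V (m + 2), ∑ u : V, ∑ w : V,
      (if s u = u ∧ s w = w ∧ u ≠ w then W g s * Ψ (add s u w) else 0) := by
    refine Finset.sum_le_sum fun s hs => ?_
    have h : 1 < (holes s).card := by rw [(mem_Iv.1 hs).2]; omega
    have hnn : ∀ u w, 0 ≤ (if s u = u ∧ s w = w ∧ u ≠ w then W g s * Ψ (add s u w) else 0) := by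
      intro u w
      split_ifs
      · exact mul_nonneg (W_pos hpos s).le (hΨ _)
      · exact le_rfl
    have hmem := mem_holes.1 (pick_fst _ h)
    have hmem2 := mem_holes.1 (pick_snd _ h)
    calc W g s * Ψ (addp s) = (if s (pick (holes s) h).1 = (pick (holes s) h).1 ∧
          s (pick (holes s) h).2 = (pick (holes s) h).2 ∧ (pick (holes s) h).1 ≠ (pick (holes s) h).2
          then W g s * Ψ (add s (pick (holes s) h).1 (pick (holes s) h).2) else 0) := by
          rw [if_pos ⟨hmem, hmem2, pick_ne _ h⟩, addp, dif_pos h]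
      _ ≤ ∑ w : V, (if s (pick (holes s) h).1 = (pick (holes s) h).1 ∧
          s w = w ∧ (pick (holes s) h).1 ≠ w
          then W g s * Ψ (add s (pick (holes s) h).1 w) else 0) :=
          Finset.single_le_sum (f := fun w => (if s (pick (holes s) h).1 = (pick (holes s) h).1 ∧
          s w = w ∧ (pick (holes s) h).1 ≠ w
          then W g s * Ψ (add s (pick (holes s) h).1 w) else 0)) (fun w _ => hnn _ w) (mem_univ _)
      _ ≤ _ := Finset.single_le_sum (f := fun u => ∑ w : V, (if s u = u ∧ s w = w ∧ u ≠ w then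
          W g s * Ψ (add s u w) else 0)) (fun u _ => Finset.sum_nonneg fun w _ => hnn u w)
          (mem_univ _)
  refine (h2.trans h1).trans ?_
  have h3 : ∑ s ∈ Iv V m, ∑ u : V, ∑ w : V, W g s * Ψ s =
      (Fintype.card V : ℝ) ^ 2 * ∑ s ∈ Iv V m, W g s * Ψ s := by
    simp only [Finset.sum_const, Finset.card_univ, nsmul_eq_mul]
    rw [← Finset.mul_sum, ← Finset.mul_sum, sq, mul_assoc]
  rw [h3, ← mul_assoc, mul_comm c0⁻¹]
  exact mul_le_mul_of_nonneg_right (sq_mul_inv_le_kap hc hc1)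
    (Finset.sum_nonneg fun s _ => mul_nonneg (W_pos hpos s).le (hΨ s))

include hsym hpos hc hc1 hN in
theorem mass (k : ℕ) : ∑ s ∈ Iv V (2 * k), W g s ≤ kap V c0 ^ k * Zh g ∅ := by
  induction k with
  | zero =>
    rw [Nat.mul_zero, Iv_zero, pow_zero, one_mul]
    unfold Zh
    rw [st_empty]
  | succ k ih =>
    have h := dom_addp hsym hpos hc hc1 hN (2 * k) (fun _ => 1) (fun _ => zero_le_one)
    simp only [mul_one] at h
    rw [show 2 * (k + 1) = 2 * k + 2 by ring, pow_succ, mul_comm (kap V c0 ^ k), mul_assoc]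
    exact h.trans (mul_le_mul_of_nonneg_left ih (kap_pos hc hc1).le)

end main

section swL

theorem add_add_comm {s : V → V} {u v x y : V} (h1 : u ≠ x) (h2 : u ≠ y) (h3 : v ≠ x)
    (h4 : v ≠ y) : add (add s u v) x y = add (add s x y) u v := by
  funext w
  unfold add
  by_cases hu : w = u
  · subst hu; simp [h1, h2]
  · by_cases hv : w = v
    · subst hv; simp [h3, h4, hu]
    · simp [hu, hv]

theorem sw_cond {A : V → V} (hA : Inv A) {a z : V} (h1 : A a ≠ a) (h2 : A z ≠ z) (h3 : z ≠ a)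
    (h4 : z ≠ A a) : A a ≠ A z ∧ A z ≠ a ∧ A z ≠ A a ∧ A a ≠ z := by
  refine ⟨fun h => h3 (hA.injective h).symm, fun h => h4 ?_, fun h => h3 (hA.injective h),
    fun h => h4 h.symm⟩
  rw [← h, hA]

theorem holes_sw {A : V → V} (hA : Inv A) {a z : V} (h1 : A a ≠ a) (h2 : A z ≠ z) (h3 : z ≠ a)
    (h4 : z ≠ A a) : holes (sw A a z) = holes A := by
  obtain ⟨h5, h6, h7, h8⟩ := sw_cond hA h1 h2 h3 h4
  unfold sw
  rw [holes_add h5, holes_add h3.symm]
  ext x
  simp only [mem_sdiff, mem_holes, mem_insert, mem_singleton, not_or]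
  constructor
  · exact fun h => h.1.1
  · intro h
    refine ⟨⟨h, fun hx => h1 (by rw [← hx]; exact h), fun hx => h2 (by rw [← hx]; exact h)⟩,
      fun hx => ?_, fun hx => ?_⟩
    · rw [hx, hA] at h; exact h1 h.symm
    · rw [hx, hA] at h; exact h2 h.symm

theorem Inv_sw {A : V → V} (hA : Inv A) {a z : V} (h1 : A a ≠ a) (h2 : A z ≠ z) (h3 : z ≠ a)
    (h4 : z ≠ A a) : Inv (sw A a z) := by
  obtain ⟨h5, h6, h7, h8⟩ := sw_cond hA h1 h2 h3 h4
  have e : ∀ x, sw A a z x = if x = A a then A z else if x = A z then A a else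
      if x = a then z else if x = z then a else A x := fun x => rfl
  intro x
  by_cases x1 : x = A a
  · subst x1
    rw [e (A a), if_pos rfl, e (A z), if_neg h7, if_pos rfl]
  by_cases x2 : x = A z
  · subst x2
    rw [e (A z), if_neg h7, if_pos rfl, e (A a), if_pos rfl]
  by_cases x3 : x = a
  · subst x3
    rw [e x, if_neg x1, if_neg x2, if_pos rfl, e z, if_neg h4, if_neg (Ne.symm h2), if_neg h3,
      if_pos rfl]
  by_cases x4 : x = z
  · subst x4
    rw [e x, if_neg x1, if_neg x2, if_neg x3, if_pos rfl, e a, if_neg (Ne.symm h1),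
      if_neg (Ne.symm h6), if_pos rfl]
  · rw [e x, if_neg x1, if_neg x2, if_neg x3, if_neg x4, e (A x),
      if_neg (fun h => x3 (hA.injective h)), if_neg (fun h => x4 (hA.injective h)),
      if_neg (fun h => x1 (by rw [← h, hA])), if_neg (fun h => x2 (by rw [← h, hA])), hA]

theorem sw_add {A : V → V} (hA : Inv A) {a z h k : V} (h1 : A a ≠ a) (h2 : A z ≠ z)
    (hh : A h = h) (hk : A k = k) : sw (add A h k) a z = add (sw A a z) h k := by
  have ha1 : a ≠ h := fun e => h1 (by rw [e]; exact hh)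
  have ha2 : a ≠ k := fun e => h1 (by rw [e]; exact hk)
  have hz1 : z ≠ h := fun e => h2 (by rw [e]; exact hh)
  have hz2 : z ≠ k := fun e => h2 (by rw [e]; exact hk)
  have hAa1 : A a ≠ h := fun e => ha1 (by rw [← e, hA] at hh; rw [hh]; exact e)
  have hAa2 : A a ≠ k := fun e => ha2 (by rw [← e, hA] at hk; rw [hk]; exact e)
  have hAz1 : A z ≠ h := fun e => hz1 (by rw [← e, hA] at hh; rw [hh]; exact e)
  have hAz2 : A z ≠ k := fun e => hz2 (by rw [← e, hA] at hk; rw [hk]; exact e)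
  unfold sw
  rw [add_of_ne ha1 ha2, add_of_ne hz1 hz2,
    add_add_comm (s := A) ha1.symm hz1.symm ha2.symm hz2.symm,
    add_add_comm hAa1.symm hAz1.symm hAa2.symm hAz2.symm]

variable {g : V → V → ℝ} {c0 : ℝ} (hsym : ∀ u v, g u v = g v u) (hpos : ∀ u v, 0 < g u v)
  (hc : 0 < c0) (hc1 : c0 ≤ 1) (hN : NodeA g c0) (f : (V → V) → ℝ)

/-- one term of the switch sum on partial matchings -/
noncomputable def swT (g : V → V → ℝ) (f : (V → V) → ℝ) (A : V → V) (a z : V) : ℝ :=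
  if A a ≠ a ∧ A z ≠ z ∧ z ≠ a ∧ z ≠ A a then
    min (W g A) (W g (sw A a z)) * (f (jn A) - f (jn (sw A a z))) ^ 2 else 0

include hpos in
theorem swT_nonneg (A : V → V) (a z : V) : 0 ≤ swT g f A a z := by
  unfold swT
  split_ifs
  · exact mul_nonneg (le_min (W_pos hpos _).le (W_pos hpos _).le) (sq_nonneg _)
  · exact le_rfl

include hsym hpos hc hN in
theorem swT_le {A : V → V} (hA : Inv A) (h : 1 < (holes A).card) (a z : V) :
    swT g f A a z ≤ c0⁻¹ * swT g f (addp A) a z := by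
  unfold swT
  by_cases hcond : A a ≠ a ∧ A z ≠ z ∧ z ≠ a ∧ z ≠ A a
  · obtain ⟨h1, h2, h3, h4⟩ := hcond
    have hp := mem_holes.1 (pick_fst _ h)
    have hq := mem_holes.1 (pick_snd _ h)
    have hpq := pick_ne _ h
    set p := (pick (holes A) h).1 with hpdef
    set q := (pick (holes A) h).2 with hqdef
    have hadd : addp A = add A p q := addp_of_eq rfl h
    have ha1 : a ≠ p := fun e => h1 (by rw [e]; exact hp)
    have ha2 : a ≠ q := fun e => h1 (by rw [e]; exact hq)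
    have hz1 : z ≠ p := fun e => h2 (by rw [e]; exact hp)
    have hz2 : z ≠ q := fun e => h2 (by rw [e]; exact hq)
    have hh := holes_sw hA h1 h2 h3 h4
    have h' : 1 < (holes (sw A a z)).card := by rw [hh]; exact h
    have hadd2 : addp (sw A a z) = sw (add A p q) a z := by
      rw [addp_of_eq hh h, sw_add hA h1 h2 hp hq]
    rw [if_pos ⟨h1, h2, h3, h4⟩, hadd, add_of_ne ha1 ha2, add_of_ne hz1 hz2,
      if_pos ⟨h1, h2, h3, h4⟩, ← jn_addp h, ← jn_addp h', hadd, hadd2, ← mul_assoc]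
    refine mul_le_mul_of_nonneg_right ?_ (sq_nonneg _)
    have w1 : W g A ≤ c0⁻¹ * W g (add A p q) := W_le_add hsym hpos hc hN hpq hp hq
    have hp' : sw A a z p = p := by
      have : p ∈ holes (sw A a z) := by rw [hh]; exact mem_holes.2 hp
      exact mem_holes.1 this
    have hq' : sw A a z q = q := by
      have : q ∈ holes (sw A a z) := by rw [hh]; exact mem_holes.2 hq
      exact mem_holes.1 this
    have w2 : W g (sw A a z) ≤ c0⁻¹ * W g (sw (add A p q) a z) := by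
      rw [sw_add hA h1 h2 hp hq]
      exact W_le_add hsym hpos hc hN hpq hp' hq'
    rw [mul_min_of_nonneg _ _ (inv_nonneg.2 hc.le)]
    exact min_le_min w1 w2
  · rw [if_neg hcond]
    refine mul_nonneg (inv_nonneg.2 hc.le) ?_
    exact swT_nonneg (g := g) hpos f (addp A) a z

/-- switch sum on the partial matchings with `m` holes -/
noncomputable def SwS (g : V → V → ℝ) (f : (V → V) → ℝ) (m : ℕ) : ℝ :=
  ∑ A ∈ Iv V m, ∑ a : V, ∑ z : V, swT g f A a z

include hsym hpos hc hc1 hN in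
theorem SwS_step (m : ℕ) : SwS g f (m + 2) ≤ kap V c0 * SwS g f m := by
  classical
  unfold SwS
  have e1 : ∑ A ∈ Iv V (m + 2), ∑ a : V, ∑ z : V, swT g f A a z =
      ∑ x ∈ (Iv V (m + 2)) ×ˢ ((univ : Finset V) ×ˢ (univ : Finset V)),
        swT g f x.1 x.2.1 x.2.2 := by
    rw [Finset.sum_product]
    refine Finset.sum_congr rfl fun s _ => ?_
    rw [Finset.sum_product]
  have e2 : (Fintype.card V : ℝ) ^ 2 * ∑ A ∈ Iv V m, ∑ a : V, ∑ z : V, swT g f A a z =
      ∑ y ∈ ((Iv V m) ×ˢ ((univ : Finset V) ×ˢ (univ : Finset V))) ×ˢ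
        ((univ : Finset V) ×ˢ (univ : Finset V)), swT g f y.1.1 y.1.2.1 y.1.2.2 := by
    rw [Finset.sum_product (s := (Iv V m) ×ˢ ((univ : Finset V) ×ˢ (univ : Finset V)))]
    simp only [Finset.sum_const, Finset.card_product, Finset.card_univ, nsmul_eq_mul]
    rw [← Finset.mul_sum, Finset.sum_product]
    congr 1
    · push_cast; ring
    · refine Finset.sum_congr rfl fun s _ => ?_
      rw [Finset.sum_product]
  have hcard : ∀ x ∈ Iv V (m + 2), 1 < (holes x).card := fun x hx => by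
    rw [(mem_Iv.1 hx).2]; omega
  have key : ∑ x ∈ (Iv V (m + 2)) ×ˢ ((univ : Finset V) ×ˢ (univ : Finset V)),
        swT g f x.1 x.2.1 x.2.2 ≤ c0⁻¹ * ∑ y ∈ ((Iv V m) ×ˢ ((univ : Finset V) ×ˢ
        (univ : Finset V))) ×ˢ ((univ : Finset V) ×ˢ (univ : Finset V)),
        swT g f y.1.1 y.1.2.1 y.1.2.2 := by
    refine sum_dom _ _ (fun x => ((addp x.1, x.2),
      if h : 1 < (holes x.1).card then pick (holes x.1) h else (x.2.1, x.2.1))) _ _
      (inv_nonneg.2 hc.le) ?_ ?_ ?_ ?_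
    · rintro ⟨A, a, z⟩ hx
      simp only [mem_product, mem_univ, and_true] at hx ⊢
      exact addp_mem hx
    · rintro ⟨A, a, z⟩ hx ⟨A', a', z'⟩ hy hxy
      simp only [mem_product, mem_univ, and_true] at hx hy
      simp only [Prod.mk.injEq] at hxy
      obtain ⟨⟨h1, h2, h3⟩, h4⟩ := hxy
      have hA := hcard _ hx
      have hA' := hcard _ hy
      rw [dif_pos hA, dif_pos hA'] at h4
      have e3 := addp_of_eq rfl hA
      have e4 := addp_of_eq rfl hA'
      have d1 := del_add (s := A) (mem_holes.1 (pick_fst _ hA)) (mem_holes.1 (pick_snd _ hA))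
      have d2 := del_add (s := A') (mem_holes.1 (pick_fst _ hA')) (mem_holes.1 (pick_snd _ hA'))
      rw [← e3, h1, h4] at d1
      rw [← e4] at d2
      rw [d1] at d2
      rw [d2, h2, h3]
    · rintro ⟨A, a, z⟩ hx
      simp only [mem_product, mem_univ, and_true] at hx
      exact swT_le hsym hpos hc hN f (mem_Iv.1 hx).1 (hcard _ hx) a z
    · rintro ⟨⟨A, a, z⟩, w⟩ _
      exact swT_nonneg hpos f A a z
  rw [e1]
  refine key.trans ?_
  rw [← e2, ← mul_assoc, mul_comm c0⁻¹]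
  exact mul_le_mul_of_nonneg_right (sq_mul_inv_le_kap hc hc1)
    (Finset.sum_nonneg fun s _ => Finset.sum_nonneg fun a _ => Finset.sum_nonneg fun z _ =>
      swT_nonneg hpos f s a z)

theorem SwS_zero : SwS g f 0 = Esw g f := by
  unfold SwS Esw
  rw [Iv_zero]
  refine Finset.sum_congr rfl fun s hs => Finset.sum_congr rfl fun a _ =>
    Finset.sum_congr rfl fun z _ => ?_
  rw [mem_pms] at hs
  unfold swT
  have hh : holes s = ∅ := holes_eq_empty.2 hs.2
  by_cases h : z ≠ a ∧ z ≠ s a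
  · rw [if_pos ⟨hs.2 a, hs.2 z, h.1, h.2⟩, if_pos h, jn_of_le (by rw [hh]; simp),
      jn_of_le (by rw [holes_sw hs.1 (hs.2 a) (hs.2 z) h.1 h.2, hh]; simp)]
  · rw [if_neg h, if_neg (fun h' => h h'.2.2)]

include hsym hpos hc hc1 hN in
theorem SwS_le (k : ℕ) : SwS g f (2 * k) ≤ kap V c0 ^ k * Esw g f := by
  induction k with
  | zero => rw [Nat.mul_zero, SwS_zero, pow_zero, one_mul]
  | succ k ih =>
    rw [show 2 * (k + 1) = 2 * k + 2 by ring, pow_succ, mul_comm (kap V c0 ^ k), mul_assoc]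
    exact (SwS_step hsym hpos hc hc1 hN f (2 * k)).trans
      (mul_le_mul_of_nonneg_left ih (kap_pos hc hc1).le)

end swL

end CQ

end Crest.Agent.R304
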