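import Crest.Agent.R304.ConfQ1

/-!
# R304 / S0464: the re-pairing lemma, second part
-/

set_option autoImplicit false
set_option linter.unusedSectionVars false
set_option linter.unusedVariables false

namespace Crest.Agent.R304

open Finset

namespace CQ

variable {V : Type*} [Fintype V] [DecidableEq V]

/-- four different holes -/
def Dist4 (s : V → V) (u w a b : V) : Prop :=
  (s u = u ∧ s w = w ∧ s a = a ∧ s b = b) ∧ u ≠ w ∧ u ≠ a ∧ u ≠ b ∧ w ≠ a ∧ w ≠ b ∧ a ≠ b

instance (s : V → V) (u w a b : V) : Decidable (Dist4 s u w a b) := by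
  unfold Dist4; infer_instance

noncomputable def t4 (f : (V → V) → ℝ) (s : V → V) (u w a b : V) : ℝ :=
  if Dist4 s u w a b then (f (jn (add (add s u w) a b)) - f (jn (add s u w))) ^ 2 else 0

noncomputable def ss4 (f : (V → V) → ℝ) (s : V → V) (u w z x : V) : ℝ :=
  if Dist4 s u w z x then
    (f (jn (add (add s u w) z x)) - f (jn (sw (add (add s u w) z x) u z))) ^ 2 else 0

noncomputable def T4 (f : (V → V) → ℝ) (s : V → V) : ℝ := ∑ u, ∑ w, ∑ a, ∑ b, t4 f s u w a b
noncomputable def SS (f : (V → V) → ℝ) (s : V → V) : ℝ := ∑ u, ∑ w, ∑ z, ∑ x, ss4 f s u w z x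

theorem t4_nonneg (f : (V → V) → ℝ) (s : V → V) (u w a b : V) : 0 ≤ t4 f s u w a b := by
  unfold t4; split_ifs
  · exact sq_nonneg _
  · exact le_rfl

theorem ss4_nonneg (f : (V → V) → ℝ) (s : V → V) (u w a b : V) : 0 ≤ ss4 f s u w a b := by
  unfold ss4; split_ifs
  · exact sq_nonneg _
  · exact le_rfl

theorem le_sum4 (F : V → V → V → V → ℝ) (hF : ∀ u w a b, 0 ≤ F u w a b) (u w a b : V) :
    F u w a b ≤ ∑ u, ∑ w, ∑ a, ∑ b, F u w a b := by
  calc F u w a b ≤ ∑ b, F u w a b :=
        Finset.single_le_sum (f := fun b => F u w a b) (fun b _ => hF u w a b) (mem_univ b)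
    _ ≤ ∑ a, ∑ b, F u w a b :=
        Finset.single_le_sum (f := fun a => ∑ b, F u w a b)
          (fun a _ => Finset.sum_nonneg fun b _ => hF u w a b) (mem_univ a)
    _ ≤ ∑ w, ∑ a, ∑ b, F u w a b :=
        Finset.single_le_sum (f := fun w => ∑ a, ∑ b, F u w a b)
          (fun w _ => Finset.sum_nonneg fun a _ => Finset.sum_nonneg fun b _ => hF u w a b)
          (mem_univ w)
    _ ≤ _ :=
        Finset.single_le_sum (f := fun u => ∑ w, ∑ a, ∑ b, F u w a b)
          (fun u _ => Finset.sum_nonneg fun w _ => Finset.sum_nonneg fun a _ =>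
            Finset.sum_nonneg fun b _ => hF u w a b) (mem_univ u)

theorem t4_le (f : (V → V) → ℝ) (s : V → V) (u w a b : V) : t4 f s u w a b ≤ T4 f s :=
  le_sum4 (fun u w a b => t4 f s u w a b) (t4_nonneg f s) u w a b

theorem ss4_le (f : (V → V) → ℝ) (s : V → V) (u w a b : V) : ss4 f s u w a b ≤ SS f s :=
  le_sum4 (fun u w a b => ss4 f s u w a b) (ss4_nonneg f s) u w a b

theorem T4_nonneg (f : (V → V) → ℝ) (s : V → V) : 0 ≤ T4 f s :=
  Finset.sum_nonneg fun _ _ => Finset.sum_nonneg fun _ _ => Finset.sum_nonneg fun _ _ =>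
    Finset.sum_nonneg fun _ _ => t4_nonneg f s _ _ _ _

theorem SS_nonneg (f : (V → V) → ℝ) (s : V → V) : 0 ≤ SS f s :=
  Finset.sum_nonneg fun _ _ => Finset.sum_nonneg fun _ _ => Finset.sum_nonneg fun _ _ =>
    Finset.sum_nonneg fun _ _ => ss4_nonneg f s _ _ _ _

/-- the switch connecting the two completions -/
theorem sw_eq {s : V → V} {u w z x : V} (h : Dist4 s u w z x) :
    sw (add (add s u w) z x) u z = add (add s u z) w x := by
  obtain ⟨⟨hu, hw, hz, hx⟩, h1, h2, h3, h4, h5, h6⟩ := h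
  have e1 : add (add s u w) z x u = w := by rw [add_of_ne h2 h3, add_left]
  have e2 : add (add s u w) z x z = x := add_left
  unfold sw
  rw [e1, e2]
  funext y
  by_cases yu : y = u
  · subst yu
    rw [add_of_ne h1 h3, add_left, add_of_ne h1 h3, add_left]
  by_cases yw : y = w
  · subst yw; rw [add_left, add_left]
  by_cases yz : y = z
  · subst yz
    rw [add_of_ne h4.symm h6, add_right, add_of_ne h4.symm h6, add_right]
  by_cases yx : y = x
  · subst yx; rw [add_right, add_right]
  · rw [add_of_ne yw yx, add_of_ne yu yz, add_of_ne yz yx, add_of_ne yu yw, add_of_ne yw yx,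
      add_of_ne yu yz]

/-- the case where the new pair shares exactly one vertex with the canonical pair -/
theorem share {f : (V → V) → ℝ} {s : V → V} (h : 3 < (holes s).card) {u w z : V}
    (hu : s u = u) (hw : s w = w) (hz : s z = z) (huw : u ≠ w) (huz : u ≠ z) (hwz : w ≠ z)
    (hj : jn (add s u z) = jn s) :
    (f (jn (add s u w)) - f (jn s)) ^ 2 ≤ 6 * T4 f s + 3 * SS f s := by
  obtain ⟨x, hx, hxn⟩ : ∃ x ∈ holes s, x ∉ ({u, w, z} : Finset V) := by
    by_contra hcon
    push Not at hcon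
    have hsub : holes s ⊆ {u, w, z} := fun x hx => hcon x hx
    have := Finset.card_le_card hsub
    have h3 : ({u, w, z} : Finset V).card ≤ 3 := Finset.card_le_three
    omega
  simp only [mem_insert, mem_singleton, not_or] at hxn
  obtain ⟨hxu, hxw, hxz⟩ := hxn
  rw [mem_holes] at hx
  have d1 : Dist4 s u w z x := ⟨⟨hu, hw, hz, hx⟩, huw, huz, Ne.symm hxu, hwz, Ne.symm hxw, Ne.symm hxz⟩
  have d2 : Dist4 s u z w x := ⟨⟨hu, hz, hw, hx⟩, huz, huw, Ne.symm hxu, Ne.symm hwz,
    Ne.symm hxz, Ne.symm hxw⟩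
  have t1 := t4_le f s u w z x
  have t2 := t4_le f s u z w x
  have t3 := ss4_le f s u w z x
  rw [t4, if_pos d1] at t1
  rw [t4, if_pos d2] at t2
  rw [ss4, if_pos d1, sw_eq d1] at t3
  rw [hj] at t2
  set A1 := f (jn (add s u w))
  set A2 := f (jn (add (add s u w) z x))
  set B2 := f (jn (add (add s u z) w x))
  set B1 := f (jn s)
  nlinarith [sq_nonneg ((A1 - A2) - (A2 - B2)), sq_nonneg ((A1 - A2) - (B2 - B1)),
    sq_nonneg ((A2 - B2) - (B2 - B1))]

theorem rep_pointwise (f : (V → V) → ℝ) {s : V → V} (h : 3 < (holes s).card) {u w : V}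
    (hu : s u = u) (hw : s w = w) (huw : u ≠ w) :
    (f (jn (add s u w)) - f (jn s)) ^ 2 ≤ 6 * T4 f s + 3 * SS f s := by
  have h1 : 1 < (holes s).card := by omega
  have hp := mem_holes.1 (pick_fst _ h1)
  have hq := mem_holes.1 (pick_snd _ h1)
  have hpq := pick_ne _ h1
  have hj := jn_of_lt h1
  set p := (pick (holes s) h1).1 with hpd
  set q := (pick (holes s) h1).2 with hqd
  have hT := T4_nonneg f s
  have hS := SS_nonneg f s
  by_cases up : u = p
  · by_cases wq : w = q
    · rw [up, wq, ← hj, sub_self]; nlinarith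
    · rw [up] at huw ⊢
      exact share h hp hw hq huw hpq wq hj.symm
  · by_cases uq : u = q
    · by_cases wp : w = p
      · rw [uq, wp, add_comm', ← hj, sub_self]; nlinarith
      · rw [uq] at huw ⊢
        exact share h hq hw hp huw hpq.symm wp (by rw [add_comm']; exact hj.symm)
    · by_cases wp : w = p
      · rw [wp, add_comm']
        exact share h hp hu hq (Ne.symm up) hpq uq hj.symm
      · by_cases wq : w = q
        · rw [wq, add_comm']
          exact share h hq hu hp (Ne.symm uq) hpq.symm up (by rw [add_comm']; exact hj.symm)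
        · have d1 : Dist4 s u w p q := ⟨⟨hu, hw, hp, hq⟩, huw, up, uq, wp, wq, hpq⟩
          have d2 : Dist4 s p q u w := ⟨⟨hp, hq, hu, hw⟩, hpq, Ne.symm up, Ne.symm wp,
            Ne.symm uq, Ne.symm wq, huw⟩
          have t1 := t4_le f s u w p q
          have t2 := t4_le f s p q u w
          rw [t4, if_pos d1] at t1
          rw [t4, if_pos d2, ← hj, add_add_comm (Ne.symm up) (Ne.symm wp) (Ne.symm uq)
            (Ne.symm wq)] at t2
          set A1 := f (jn (add s u w))
          set A2 := f (jn (add (add s u w) p q))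
          set B1 := f (jn s)
          nlinarith [sq_nonneg ((A1 - A2) - (A2 - B1))]

section main
variable {g : V → V → ℝ} {c0 : ℝ} (hsym : ∀ u v, g u v = g v u) (hpos : ∀ u v, 0 < g u v)
  (hc : 0 < c0) (hc1 : c0 ≤ 1) (hN : NodeA g c0) (f : (V → V) → ℝ)

/-- unweighted term -/
noncomputable def dU (f : (V → V) → ℝ) (s : V → V) (u w : V) : ℝ :=
  if s u = u ∧ s w = w ∧ u ≠ w then (f (jn (add s u w)) - f (jn s)) ^ 2 else 0

theorem dU_nonneg (s : V → V) (u w : V) : 0 ≤ dU f s u w := by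
  unfold dU; split_ifs
  · exact sq_nonneg _
  · exact le_rfl

/-- re-pairing sum -/
noncomputable def RS (g : V → V → ℝ) (f : (V → V) → ℝ) (m : ℕ) : ℝ :=
  ∑ s ∈ Iv V m, W g s * ∑ u, ∑ w, dU f s u w

include hpos in
theorem RS_nonneg (m : ℕ) : 0 ≤ RS g f m :=
  Finset.sum_nonneg fun s _ => mul_nonneg (W_pos hpos s).le
    (Finset.sum_nonneg fun u _ => Finset.sum_nonneg fun w _ => dU_nonneg f s u w)

include hsym hpos hc hc1 hN in
theorem T4_sum (m : ℕ) : ∑ s ∈ Iv V (m + 2), W g s * T4 f s ≤ kap V c0 * RS g f m := by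
  have h1 := dom_add hsym hpos hc hN m (fun s _ _ => ∑ a, ∑ b, dU f s a b)
    (fun s _ _ => Finset.sum_nonneg fun u _ => Finset.sum_nonneg fun w _ => dU_nonneg f s u w)
  have h2 : ∑ s ∈ Iv V (m + 2), W g s * T4 f s ≤ ∑ s ∈ Iv V (m + 2), ∑ u : V, ∑ w : V,
      (if s u = u ∧ s w = w ∧ u ≠ w then W g s * ∑ a, ∑ b, dU f (add s u w) a b else 0) := by
    refine Finset.sum_le_sum fun s hs => ?_
    unfold T4
    rw [Finset.mul_sum]
    refine Finset.sum_le_sum fun u _ => ?_
    rw [Finset.mul_sum]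
    refine Finset.sum_le_sum fun w _ => ?_
    by_cases hc : s u = u ∧ s w = w ∧ u ≠ w
    · rw [if_pos hc]
      refine mul_le_mul_of_nonneg_left ?_ (W_pos hpos s).le
      refine Finset.sum_le_sum fun a _ => Finset.sum_le_sum fun b _ => ?_
      unfold t4
      split_ifs with hd
      · obtain ⟨⟨hu, hw, ha, hb⟩, h1, h2, h3, h4, h5, h6⟩ := hd
        unfold dU
        rw [add_of_ne h2.symm h4.symm, add_of_ne h3.symm h5.symm, if_pos ⟨ha, hb, h6⟩]
      · exact dU_nonneg f _ _ _
    · rw [if_neg hc]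
      have : ∀ a b, t4 f s u w a b = 0 := fun a b => by
        unfold t4
        rw [if_neg]
        intro hd
        exact hc ⟨hd.1.1, hd.1.2.1, hd.2.1⟩
      simp [this]
  refine (h2.trans h1).trans ?_
  have h3 : ∑ s ∈ Iv V m, ∑ u : V, ∑ w : V, W g s * ∑ a, ∑ b, dU f s a b =
      (Fintype.card V : ℝ) ^ 2 * RS g f m := by
    unfold RS
    simp only [Finset.sum_const, Finset.card_univ, nsmul_eq_mul]
    rw [← Finset.mul_sum, ← Finset.mul_sum, sq, mul_assoc]
  rw [h3, ← mul_assoc, mul_comm c0⁻¹]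
  exact mul_le_mul_of_nonneg_right (sq_mul_inv_le_kap hc hc1) (RS_nonneg hpos f m)

include hsym hpos hc hc1 hN in
theorem SS_sum (m : ℕ) : ∑ s ∈ Iv V (m + 4), W g s * SS f s ≤ c0⁻¹ ^ 2 * SwS g f m := by
  classical
  have e1 : ∑ s ∈ Iv V (m + 4), W g s * SS f s =
      ∑ x ∈ ((Iv V (m + 4)) ×ˢ ((univ : Finset V) ×ˢ ((univ : Finset V) ×ˢ
        ((univ : Finset V) ×ˢ (univ : Finset V))))).filter
        (fun x => Dist4 x.1 x.2.1 x.2.2.1 x.2.2.2.1 x.2.2.2.2),
        W g x.1 * ss4 f x.1 x.2.1 x.2.2.1 x.2.2.2.1 x.2.2.2.2 := by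
    rw [Finset.sum_filter, Finset.sum_product]
    refine Finset.sum_congr rfl fun s _ => ?_
    unfold SS
    rw [Finset.mul_sum, Finset.sum_product]
    refine Finset.sum_congr rfl fun u _ => ?_
    rw [Finset.mul_sum, Finset.sum_product]
    refine Finset.sum_congr rfl fun w _ => ?_
    rw [Finset.mul_sum, Finset.sum_product]
    refine Finset.sum_congr rfl fun z _ => ?_
    rw [Finset.mul_sum]
    refine Finset.sum_congr rfl fun x _ => ?_
    split_ifs with hd
    · rfl
    · rw [ss4, if_neg hd, mul_zero]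
  have e2 : SwS g f m = ∑ y ∈ (Iv V m) ×ˢ ((univ : Finset V) ×ˢ (univ : Finset V)),
      swT g f y.1 y.2.1 y.2.2 := by
    unfold SwS
    rw [Finset.sum_product]
    refine Finset.sum_congr rfl fun s _ => ?_
    rw [Finset.sum_product]
  rw [e1, e2]
  refine sum_dom _ _ (fun x => (add (add x.1 x.2.1 x.2.2.1) x.2.2.2.1 x.2.2.2.2, x.2.1,
    x.2.2.2.1)) _ _ (by positivity) ?_ ?_ ?_ ?_
  · rintro ⟨s, u, w, z, x⟩ hx
    simp only [mem_filter, mem_product, mem_univ, and_true] at hx
    obtain ⟨hs, ⟨hu, hw, hz, hx⟩, h1, h2, h3, h4, h5, h6⟩ := hx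
    simp only [mem_product, mem_univ, and_true]
    have a1 := add_mem_Iv (m := m + 2) hs hu hw h1
    exact add_mem_Iv a1 (by rw [add_of_ne h2.symm h4.symm, hz])
      (by rw [add_of_ne h3.symm h5.symm, hx]) h6
  · rintro ⟨s, u, w, z, x⟩ hx ⟨s', u', w', z', x'⟩ hy hxy
    simp only [mem_filter, mem_product, mem_univ, and_true] at hx hy
    simp only [Prod.mk.injEq] at hxy
    obtain ⟨e, hu', hz'⟩ := hxy
    subst hu'; subst hz'
    obtain ⟨hs, ⟨hu, hw, hz, hx⟩, h1, h2, h3, h4, h5, h6⟩ := hx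
    obtain ⟨hs', ⟨_, hw', _, hx'⟩, h1', h2', h3', h4', h5', h6'⟩ := hy
    have ew : w = w' := by
      have := congrFun e u
      rwa [add_of_ne h2 h3, add_left, add_of_ne h2' h3', add_left] at this
    have ex : x = x' := by
      have := congrFun e z
      rwa [add_left, add_left] at this
    subst ew; subst ex
    have d1 := del_add (s := add s u w) (u := z) (v := x) (by rw [add_of_ne h2.symm h4.symm, hz])
      (by rw [add_of_ne h3.symm h5.symm, hx])
    have d2 := del_add (s := add s' u w) (u := z) (v := x)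
      (by rw [add_of_ne h2.symm h4.symm]; assumption)
      (by rw [add_of_ne h3.symm h5.symm]; assumption)
    rw [e, d2] at d1
    have d3 := del_add (s := s) hu hw
    have d4 := del_add (s := s') (u := u) (v := w) (by assumption) (by assumption)
    rw [← d1, d4] at d3
    rw [d3]
  · rintro ⟨s, u, w, z, x⟩ hx
    simp only [mem_filter, mem_product, mem_univ, and_true] at hx
    obtain ⟨hs, hd⟩ := hx
    have hd' := hd
    obtain ⟨⟨hu, hw, hz, hx⟩, h1, h2, h3, h4, h5, h6⟩ := hd
    have a1 : add (add s u w) z x u = w := by rw [add_of_ne h2 h3, add_left]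
    have a2 : add (add s u w) z x z = x := add_left
    have hcond : add (add s u w) z x u ≠ u ∧ add (add s u w) z x z ≠ z ∧ z ≠ u ∧
        z ≠ add (add s u w) z x u := by
      rw [a1, a2]; exact ⟨h1.symm, h6.symm, h2.symm, h4.symm⟩
    simp only
    rw [ss4, if_pos hd', swT, if_pos hcond, ← mul_assoc]
    refine mul_le_mul_of_nonneg_right ?_ (sq_nonneg _)
    rw [mul_min_of_nonneg _ _ (by positivity), sw_eq hd', le_min_iff]
    have i1 := W_le_add hsym hpos hc hN h1 hu hw
    have i2 := W_le_add hsym hpos hc hN (s := add s u w) h6 (by rw [add_of_ne h2.symm h4.symm, hz])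
      (by rw [add_of_ne h3.symm h5.symm, hx])
    have i3 := W_le_add hsym hpos hc hN h2 hu hz
    have i4 := W_le_add hsym hpos hc hN (s := add s u z) h5 (by rw [add_of_ne h1.symm h4, hw])
      (by rw [add_of_ne h3.symm h6.symm, hx])
    have hci : 0 ≤ c0⁻¹ := inv_nonneg.2 hc.le
    constructor
    · calc W g s ≤ c0⁻¹ * W g (add s u w) := i1
        _ ≤ c0⁻¹ * (c0⁻¹ * W g (add (add s u w) z x)) := mul_le_mul_of_nonneg_left i2 hci
        _ = _ := by ring
    · calc W g s ≤ c0⁻¹ * W g (add s u z) := i3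
        _ ≤ c0⁻¹ * (c0⁻¹ * W g (add (add s u z) w x)) := mul_le_mul_of_nonneg_left i4 hci
        _ = _ := by ring
  · rintro ⟨A, a, z⟩ _
    exact swT_nonneg hpos f A a z

include hsym hpos hc hc1 hN in
theorem RS_step (m : ℕ) : RS g f (m + 4) ≤
    6 * kap V c0 ^ 2 * RS g f (m + 2) + 3 * kap V c0 ^ 2 * SwS g f m := by
  have hk := one_le_kap (V := V) hc hc1
  have h1 : RS g f (m + 4) ≤ (Fintype.card V : ℝ) ^ 2 *
      ∑ s ∈ Iv V (m + 4), W g s * (6 * T4 f s + 3 * SS f s) := by
    unfold RS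
    rw [Finset.mul_sum]
    refine Finset.sum_le_sum fun s hs => ?_
    have hcard : 3 < (holes s).card := by rw [(mem_Iv.1 hs).2]; omega
    have hnn : 0 ≤ 6 * T4 f s + 3 * SS f s := by
      have := T4_nonneg f s
      have := SS_nonneg f s
      positivity
    calc W g s * ∑ u, ∑ w, dU f s u w
        ≤ W g s * ∑ u : V, ∑ w : V, (6 * T4 f s + 3 * SS f s) := by
          refine mul_le_mul_of_nonneg_left ?_ (W_pos hpos s).le
          refine Finset.sum_le_sum fun u _ => Finset.sum_le_sum fun w _ => ?_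
          unfold dU
          split_ifs with hcond
          · exact rep_pointwise f hcard hcond.1 hcond.2.1 hcond.2.2
          · exact hnn
      _ = (Fintype.card V : ℝ) ^ 2 * (W g s * (6 * T4 f s + 3 * SS f s)) := by
          simp only [Finset.sum_const, Finset.card_univ, nsmul_eq_mul]
          ring
  have h2 : ∑ s ∈ Iv V (m + 4), W g s * (6 * T4 f s + 3 * SS f s) =
      6 * ∑ s ∈ Iv V (m + 4), W g s * T4 f s + 3 * ∑ s ∈ Iv V (m + 4), W g s * SS f s := by
    rw [Finset.mul_sum, Finset.mul_sum, ← Finset.sum_add_distrib]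
    exact Finset.sum_congr rfl fun s _ => by ring
  have h3 := T4_sum hsym hpos hc hc1 hN f (m + 2)
  have h4 := SS_sum hsym hpos hc hc1 hN f m
  have hR := RS_nonneg (g := g) hpos f (m + 2)
  have hSw : 0 ≤ SwS g f m := Finset.sum_nonneg fun s _ => Finset.sum_nonneg fun a _ =>
    Finset.sum_nonneg fun z _ => swT_nonneg hpos f s a z
  have hn : (0 : ℝ) ≤ (Fintype.card V : ℝ) ^ 2 := sq_nonneg _
  have hn1 := sq_le_kap (V := V) hc hc1
  have hn2 := sq_mul_inv_le_kap (V := V) hc hc1
  have hn3 := inv_le_kap (V := V) hc hc1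
  have hci : 0 ≤ c0⁻¹ := inv_nonneg.2 hc.le
  calc RS g f (m + 4) ≤ (Fintype.card V : ℝ) ^ 2 *
        (6 * ∑ s ∈ Iv V (m + 4), W g s * T4 f s + 3 * ∑ s ∈ Iv V (m + 4), W g s * SS f s) := by
        rw [← h2]; exact h1
    _ ≤ (Fintype.card V : ℝ) ^ 2 * (6 * (kap V c0 * RS g f (m + 2)) +
        3 * (c0⁻¹ ^ 2 * SwS g f m)) := by
        refine mul_le_mul_of_nonneg_left ?_ hn
        linarith
    _ = 6 * ((Fintype.card V : ℝ) ^ 2 * kap V c0) * RS g f (m + 2) +
        3 * (((Fintype.card V : ℝ) ^ 2 * c0⁻¹) * c0⁻¹) * SwS g f m := by ring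
    _ ≤ _ := by
        have k1 : (Fintype.card V : ℝ) ^ 2 * kap V c0 ≤ kap V c0 ^ 2 := by
          rw [sq (kap V c0)]
          exact mul_le_mul_of_nonneg_right hn1 (by linarith)
        have k2 : ((Fintype.card V : ℝ) ^ 2 * c0⁻¹) * c0⁻¹ ≤ kap V c0 ^ 2 := by
          rw [sq (kap V c0)]
          exact mul_le_mul hn2 hn3 hci (by linarith)
        have := mul_le_mul_of_nonneg_right k1 hR
        have := mul_le_mul_of_nonneg_right k2 hSw
        linarith

theorem RS_zero : RS g f 0 = 0 := by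
  unfold RS
  refine Finset.sum_eq_zero fun s hs => ?_
  have hh : holes s = ∅ := Finset.card_eq_zero.1 (mem_Iv.1 hs).2
  have : ∀ u w, dU f s u w = 0 := fun u w => by
    unfold dU
    rw [if_neg]
    intro h
    have : u ∈ holes s := mem_holes.2 h.1
    rw [hh] at this
    exact absurd this (Finset.notMem_empty _)
  simp [this]

theorem RS_two : RS g f 2 = 0 := by
  unfold RS
  refine Finset.sum_eq_zero fun s hs => ?_
  have hcard := (mem_Iv.1 hs).2
  have h1 : 1 < (holes s).card := by omega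
  have : ∀ u w, dU f s u w = 0 := fun u w => by
    unfold dU
    split_ifs with h
    · obtain ⟨hu, hw, huw⟩ := h
      have hsub : ({u, w} : Finset V) ⊆ holes s := by
        intro x hx
        rcases Finset.mem_insert.1 hx with hx | hx
        · rw [hx]; exact mem_holes.2 hu
        · rw [Finset.mem_singleton.1 hx]; exact mem_holes.2 hw
      have heq : ({u, w} : Finset V) = holes s :=
        Finset.eq_of_subset_of_card_le hsub (by rw [hcard, Finset.card_pair huw])
      have hp := pick_fst _ h1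
      have hq := pick_snd _ h1
      have hpq := pick_ne _ h1
      rw [jn_of_lt h1]
      set p := (pick (holes s) h1).1
      set q := (pick (holes s) h1).2
      rw [← heq, mem_insert, mem_singleton] at hp hq
      rcases hp with hp | hp <;> rcases hq with hq | hq
      · exact absurd (hp.trans hq.symm) hpq
      · rw [hp, hq, sub_self]; simp
      · rw [hp, hq, add_comm', sub_self]; simp
      · exact absurd (hp.trans hq.symm) hpq
    · rfl
  simp [this]

include hpos in
theorem Esw_nonneg : 0 ≤ Esw g f := by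
  rw [← SwS_zero]
  exact Finset.sum_nonneg fun s _ => Finset.sum_nonneg fun a _ =>
    Finset.sum_nonneg fun z _ => swT_nonneg hpos f s a z

include hsym hpos hc hc1 hN in
theorem RS_le (j : ℕ) (hj : j ≤ 3) : RS g f (2 * j) ≤ 21 * kap V c0 ^ 4 * Esw g f := by
  have hk := one_le_kap (V := V) hc hc1
  have hE := Esw_nonneg (g := g) hpos f
  have h0 : 0 ≤ 21 * kap V c0 ^ 4 * Esw g f := by positivity
  have h4 : RS g f 4 ≤ 3 * kap V c0 ^ 2 * Esw g f := by
    have := RS_step hsym hpos hc hc1 hN f 0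
    rw [Nat.zero_add, Nat.zero_add, RS_two, SwS_zero] at this
    linarith
  interval_cases j
  · rw [Nat.mul_zero, RS_zero]; exact h0
  · rw [Nat.mul_one, RS_two]; exact h0
  · refine h4.trans (mul_le_mul_of_nonneg_right ?_ hE)
    have : kap V c0 ^ 2 ≤ kap V c0 ^ 4 := pow_le_pow_right₀ hk (by norm_num)
    nlinarith [pow_pos (lt_of_lt_of_le one_pos hk) 4]
  · have h6 := RS_step hsym hpos hc hc1 hN f 2
    have hS := SwS_le hsym hpos hc hc1 hN f 1
    rw [Nat.mul_one, pow_one] at hS
    have k2 : 0 ≤ kap V c0 ^ 2 := by positivity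
    have a1 : 6 * kap V c0 ^ 2 * RS g f 4 ≤ 6 * kap V c0 ^ 2 * (3 * kap V c0 ^ 2 * Esw g f) :=
      mul_le_mul_of_nonneg_left h4 (by positivity)
    have a2 : 3 * kap V c0 ^ 2 * SwS g f 2 ≤ 3 * kap V c0 ^ 2 * (kap V c0 * Esw g f) :=
      mul_le_mul_of_nonneg_left hS (by positivity)
    have a3 : 3 * kap V c0 ^ 2 * (kap V c0 * Esw g f) ≤ 3 * kap V c0 ^ 4 * Esw g f := by
      have : kap V c0 ^ 3 ≤ kap V c0 ^ 4 := pow_le_pow_right₀ hk (by norm_num)
      have := mul_le_mul_of_nonneg_right this hE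
      nlinarith
    have : RS g f (2 * 3) ≤ 6 * kap V c0 ^ 2 * RS g f 4 + 3 * kap V c0 ^ 2 * SwS g f 2 := h6
    nlinarith

end main

end CQ

end Crest.Agent.R304
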