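import Crest.Agent.R304.ConfQ2

/-!
# R304 / S0464: the re-pairing lemma on configurations
-/

set_option autoImplicit false
set_option linter.unusedSectionVars false
set_option linter.unusedVariables false

namespace Crest.Agent.R304

open Finset

namespace CQ

variable {V : Type*} [Fintype V] [DecidableEq V]

/-- involutions with an even number `≤ 6` of holes -/
def Ie (V : Type*) [Fintype V] [DecidableEq V] : Finset (V → V) :=
  (Finset.range 4).biUnion fun j => Iv V (2 * j)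

theorem Conf_subset : Conf V ⊆ Ie V ×ˢ Ie V := by
  rintro ⟨s, t⟩ h
  simp only [Conf, mem_filter, mem_product, mem_invs] at h
  obtain ⟨⟨hs, ht⟩, ⟨j, hj⟩, ⟨k, hk⟩, hle⟩ := h
  simp only [Ie, mem_product, mem_biUnion, mem_range, mem_Iv]
  exact ⟨⟨j, by omega, hs, by omega⟩, ⟨k, by omega, ht, by omega⟩⟩

theorem sum_Ie_le (F : (V → V) → ℝ) (hF : ∀ s, 0 ≤ F s) :
    ∑ s ∈ Ie V, F s ≤ ∑ j ∈ Finset.range 4, ∑ s ∈ Iv V (2 * j), F s := by
  unfold Ie
  rw [Finset.sum_biUnion]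
  intro i _ j _ hij
  rw [Function.onFun, Finset.disjoint_left]
  intro s hs hs'
  rw [mem_Iv] at hs hs'
  exact hij (by omega)

section main
variable {g : V → V → ℝ} {c0 : ℝ} (hsym : ∀ u v, g u v = g v u) (hpos : ∀ u v, 0 < g u v)
  (hc : 0 < c0) (hc1 : c0 ≤ 1) (hN : NodeA g c0) (f : (V → V) → ℝ)

theorem Zh_nn (hpos : ∀ u v, 0 < g u v) : 0 ≤ Zh g ∅ := Zh_nonneg hpos _

theorem Eex_nonneg (hpos : ∀ u v, 0 < g u v) : 0 ≤ Eex g f :=
  Finset.sum_nonneg fun s _ => Finset.sum_nonneg fun t _ => Finset.sum_nonneg fun v _ =>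
    mul_nonneg (mul_nonneg (W_pos hpos s).le (W_pos hpos t).le) (sq_nonneg _)

theorem E2_nonneg (hpos : ∀ u v, 0 < g u v) : 0 ≤ E2 g f := by
  unfold E2
  refine Finset.sum_nonneg fun s _ => Finset.sum_nonneg fun t _ => Finset.sum_nonneg fun p _ =>
    Finset.sum_nonneg fun q _ => ?_
  split_ifs
  · exact mul_nonneg (le_min (mul_nonneg (W_pos hpos _).le (W_pos hpos _).le)
      (mul_nonneg (W_pos hpos _).le (W_pos hpos _).le)) (sq_nonneg _)
  · exact le_rfl

theorem En_nonneg (hpos : ∀ u v, 0 < g u v) : 0 ≤ En g f := by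
  unfold En
  have h1 := mul_nonneg (Zh_nn hpos) (Esw_nonneg hpos f)
  have h2 := Eex_nonneg f hpos
  have h3 := E2_nonneg f hpos
  linarith

theorem ZEsw_le_En (hpos : ∀ u v, 0 < g u v) : Zh g ∅ * Esw g f ≤ En g f := by
  unfold En
  have h2 := Eex_nonneg f hpos
  have h3 := E2_nonneg f hpos
  linarith

include hsym hpos hc hc1 hN in
theorem mass_Ie : ∑ s ∈ Ie V, W g s ≤ 4 * kap V c0 ^ 3 * Zh g ∅ := by
  have hk := one_le_kap (V := V) hc hc1
  have hZ := Zh_nn (g := g) hpos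
  refine (sum_Ie_le _ fun s => (W_pos hpos s).le).trans ?_
  calc ∑ j ∈ Finset.range 4, ∑ s ∈ Iv V (2 * j), W g s
      ≤ ∑ j ∈ Finset.range 4, kap V c0 ^ 3 * Zh g ∅ := by
        refine Finset.sum_le_sum fun j hj => (mass hsym hpos hc hc1 hN j).trans ?_
        refine mul_le_mul_of_nonneg_right ?_ hZ
        exact pow_le_pow_right₀ hk (by have := Finset.mem_range.1 hj; omega)
    _ = _ := by simp only [Finset.sum_const, Finset.card_range, nsmul_eq_mul]; push_cast; ring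

/-- constant of the re-pairing lemma -/
noncomputable def Krep (V : Type*) [Fintype V] (c0 : ℝ) : ℝ := 336 * kap V c0 ^ 7

include hsym hpos hc hc1 hN in
theorem rep_Ie : (∑ s ∈ Ie V, W g s * ∑ u, ∑ w, dU f s u w) * (∑ t ∈ Ie V, W g t) ≤
    Krep V c0 * (Zh g ∅ * Esw g f) := by
  have hk := one_le_kap (V := V) hc hc1
  have hZ := Zh_nn (g := g) hpos
  have hE := Esw_nonneg (g := g) hpos f
  have h1 : ∑ s ∈ Ie V, W g s * ∑ u, ∑ w, dU f s u w ≤ 84 * kap V c0 ^ 4 * Esw g f := by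
    refine (sum_Ie_le _ fun s => mul_nonneg (W_pos hpos s).le (Finset.sum_nonneg fun u _ =>
      Finset.sum_nonneg fun w _ => dU_nonneg f s u w)).trans ?_
    calc ∑ j ∈ Finset.range 4, ∑ s ∈ Iv V (2 * j), W g s * ∑ u, ∑ w, dU f s u w
        ≤ ∑ j ∈ Finset.range 4, 21 * kap V c0 ^ 4 * Esw g f := by
          refine Finset.sum_le_sum fun j hj => ?_
          exact RS_le hsym hpos hc hc1 hN f j (by have := Finset.mem_range.1 hj; omega)
      _ = _ := by simp only [Finset.sum_const, Finset.card_range, nsmul_eq_mul]; push_cast; ring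
  have h2 := mass_Ie hsym hpos hc hc1 hN
  have h3 : 0 ≤ ∑ t ∈ Ie V, W g t := Finset.sum_nonneg fun t _ => (W_pos hpos t).le
  calc _ ≤ (84 * kap V c0 ^ 4 * Esw g f) * (4 * kap V c0 ^ 3 * Zh g ∅) :=
        mul_le_mul h1 h2 h3 (by positivity)
    _ = _ := by unfold Krep; ring

/-- **Re-pairing lemma.** -/
theorem repair_aux (hsym : ∀ u v, g u v = g v u) (hpos : ∀ u v, 0 < g u v)
    (hc : 0 < c0) (hc1 : c0 ≤ 1) (hN : NodeA g c0) (f : (V → V) → ℝ) :
    ∑ N ∈ Conf V, W g N.1 * W g N.2 * ∑ u, ∑ w, dU f N.1 u w ≤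
      Krep V c0 * (Zh g ∅ * Esw g f) := by
  have hnn : ∀ s : V → V, 0 ≤ ∑ u, ∑ w, dU f s u w := fun s =>
    Finset.sum_nonneg fun u _ => Finset.sum_nonneg fun w _ => dU_nonneg f s u w
  calc ∑ N ∈ Conf V, W g N.1 * W g N.2 * ∑ u, ∑ w, dU f N.1 u w
      ≤ ∑ N ∈ Ie V ×ˢ Ie V, W g N.1 * W g N.2 * ∑ u, ∑ w, dU f N.1 u w :=
        Finset.sum_le_sum_of_subset_of_nonneg Conf_subset fun N _ _ =>
          mul_nonneg (mul_nonneg (W_pos hpos _).le (W_pos hpos _).le) (hnn _)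
    _ = (∑ s ∈ Ie V, W g s * ∑ u, ∑ w, dU f s u w) * (∑ t ∈ Ie V, W g t) := by
        rw [Finset.sum_product, Finset.sum_mul_sum]
        refine Finset.sum_congr rfl fun s _ => Finset.sum_congr rfl fun t _ => ?_
        ring
    _ ≤ _ := rep_Ie hsym hpos hc hc1 hN f

end main

end CQ

open CQ in
/-- **Re-pairing lemma.** -/
theorem repair {V : Type*} [Fintype V] [DecidableEq V] {g : V → V → ℝ} {c0 : ℝ}
    (hsym : ∀ u v, g u v = g v u) (hpos : ∀ u v, 0 < g u v)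
    (hc : 0 < c0) (hc1 : c0 ≤ 1) (hN : NodeA g c0) (f : (V → V) → ℝ) :
    ∑ N ∈ Conf V, ∑ u, ∑ w, (if u ∈ holes N.1 ∧ w ∈ holes N.1 ∧ u ≠ w then
      W g N.1 * W g N.2 * (f (jn (add N.1 u w)) - f (jn N.1)) ^ 2 else 0) ≤
      Krep V c0 * En g f := by
  have h := repair_aux hsym hpos hc hc1 hN f
  have hk := kap_pos (V := V) hc hc1
  have hK : 0 ≤ Krep V c0 := by unfold Krep; positivity
  refine le_trans (le_of_eq ?_) (h.trans (mul_le_mul_of_nonneg_left (ZEsw_le_En f hpos) hK))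
  refine Finset.sum_congr rfl fun N _ => ?_
  rw [Finset.mul_sum]
  refine Finset.sum_congr rfl fun u _ => ?_
  rw [Finset.mul_sum]
  refine Finset.sum_congr rfl fun w _ => ?_
  unfold dU
  simp only [mem_holes]
  split_ifs
  · rfl
  · simp

end Crest.Agent.R304
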