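import Crest.Agent.R304.ConfQ3

/-!
# R304 / S0464: variance bound for the increments along a component
-/

set_option autoImplicit false
set_option linter.unusedSectionVars false
set_option linter.unusedVariables false

namespace Crest.Agent.R304

open Finset

namespace CQ

variable {V : Type*} [Fintype V] [DecidableEq V]

/-- Jensen -/
theorem jensen {ι : Type*} (E : Finset ι) (w Δ : ι → ℝ) (x : ℝ) (hw : ∀ e ∈ E, 0 ≤ w e)
    (hG : 0 < ∑ e ∈ E, w e) :
    (∑ e ∈ E, w e) * (x - (∑ e ∈ E, w e * Δ e) / (∑ e ∈ E, w e)) ^ 2 ≤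
      ∑ e ∈ E, w e * (x - Δ e) ^ 2 := by
  have h := Finset.sum_sq_le_sum_mul_sum_of_sq_eq_mul E (r := fun e => w e * (x - Δ e))
    (f := w) (g := fun e => w e * (x - Δ e) ^ 2) hw
    (fun e he => mul_nonneg (hw e he) (sq_nonneg _)) (fun e _ => by ring)
  have e1 : ∑ e ∈ E, w e * (x - Δ e) = (∑ e ∈ E, w e) * x - ∑ e ∈ E, w e * Δ e := by
    rw [Finset.sum_mul, ← Finset.sum_sub_distrib]
    exact Finset.sum_congr rfl fun e _ => by ring
  rw [e1] at h
  have e2 : (∑ e ∈ E, w e) * (x - (∑ e ∈ E, w e * Δ e) / (∑ e ∈ E, w e)) ^ 2 =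
      ((∑ e ∈ E, w e) * x - ∑ e ∈ E, w e * Δ e) ^ 2 / (∑ e ∈ E, w e) := by
    field_simp
  rw [e2, div_le_iff₀ hG, mul_comm (∑ e ∈ E, w e * (x - Δ e) ^ 2)]
  exact h

/-- increment of the first / second member when the component of `v` is swapped -/
noncomputable def Gf (f : (V → V) → ℝ) (s t : V → V) (v : V) : ℝ :=
  f (jn (swp (comp s t v) s t)) - f (jn s)
noncomputable def Hf (f : (V → V) → ℝ) (s t : V → V) (v : V) : ℝ :=
  f (jn t) - f (jn (swp (comp s t v) t s))

/-- environments of `Y` with `r` holes -/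
def ES (Y : Finset V) (r : ℕ) : Finset (V → V) :=
  (invs V).filter fun e => (∀ x ∈ Y, e x = x) ∧ (holes e \ Y).card = r

theorem mem_ES {Y : Finset V} {r : ℕ} {e : V → V} :
    e ∈ ES Y r ↔ Inv e ∧ (∀ x ∈ Y, e x = x) ∧ (holes e \ Y).card = r := by
  simp [ES]

/-- weights inside and outside `Y` -/
noncomputable def Won (g : V → V → ℝ) (Y : Finset V) (s : V → V) : ℝ := ∏ x ∈ Y, g x (s x)
noncomputable def Woff (g : V → V → ℝ) (Y : Finset V) (s : V → V) : ℝ := ∏ x ∈ Yᶜ, g x (s x)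

theorem W_eq (g : V → V → ℝ) (Y : Finset V) (s : V → V) : W g s = Won g Y s * Woff g Y s := by
  unfold W Won Woff
  exact (Finset.prod_mul_prod_compl Y _).symm

theorem Won_congr (g : V → V → ℝ) {Y : Finset V} {s t : V → V} (h : ∀ x ∈ Y, s x = t x) :
    Won g Y s = Won g Y t := Finset.prod_congr rfl fun x hx => by rw [h x hx]

theorem Woff_congr (g : V → V → ℝ) {Y : Finset V} {s t : V → V} (h : ∀ x, x ∉ Y → s x = t x) :
    Woff g Y s = Woff g Y t :=
  Finset.prod_congr rfl fun x hx => by rw [h x (Finset.mem_compl.1 hx)]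

theorem Woff_pos {g : V → V → ℝ} (hpos : ∀ u v, 0 < g u v) (Y : Finset V) (s : V → V) :
    0 < Woff g Y s := Finset.prod_pos fun x _ => hpos _ _

theorem Won_pos {g : V → V → ℝ} (hpos : ∀ u v, 0 < g u v) (Y : Finset V) (s : V → V) :
    0 < Won g Y s := Finset.prod_pos fun x _ => hpos _ _

/-- parity of the number of holes inside the component -/
noncomputable def rr (s t : V → V) (v : V) : ℕ := (comp s t v ∩ holes s).card % 2

/-- mean increment -/
noncomputable def Db (g : V → V → ℝ) (f : (V → V) → ℝ) (s t : V → V) (v : V) : ℝ :=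
  (∑ e ∈ ES (comp s t v) (rr s t v), Woff g (comp s t v) e *
    (f (jn (swp (comp s t v) e t)) - f (jn (swp (comp s t v) e s)))) /
  (∑ e ∈ ES (comp s t v) (rr s t v), Woff g (comp s t v) e)

theorem inter_holes_congr {Y : Finset V} {s s' : V → V} (h : ∀ x ∈ Y, s' x = s x) :
    Y ∩ holes s' = Y ∩ holes s := by
  ext x
  simp only [mem_inter, mem_holes]
  constructor
  · rintro ⟨hx, h1⟩; exact ⟨hx, by rw [← h x hx]; exact h1⟩
  · rintro ⟨hx, h1⟩; exact ⟨hx, by rw [h x hx]; exact h1⟩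

theorem holes_sdiff_congr {Y : Finset V} {s s' : V → V} (h : ∀ x, x ∉ Y → s' x = s x) :
    holes s' \ Y = holes s \ Y := by
  ext x
  simp only [mem_sdiff, mem_holes]
  constructor
  · rintro ⟨h1, hx⟩; exact ⟨by rw [← h x hx]; exact h1, hx⟩
  · rintro ⟨h1, hx⟩; exact ⟨by rw [h x hx]; exact h1, hx⟩

theorem swp_congr {Y : Finset V} {s s' t t' : V → V} (h : ∀ x, x ∉ Y → s' x = s x)
    (h' : ∀ x ∈ Y, t' x = t x) : swp Y s' t' = swp Y s t := by
  funext x
  by_cases hx : x ∈ Y
  · rw [swp_of_mem hx, swp_of_mem hx, h' x hx]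
  · rw [swp_of_not_mem hx, swp_of_not_mem hx, h x hx]

/-- the mean increment depends on the restrictions to the component only -/
theorem Db_congr (g : V → V → ℝ) (f : (V → V) → ℝ) {s t s' t' : V → V} {v : V}
    (h : ∀ x ∈ comp s t v, s' x = s x ∧ t' x = t x) : Db g f s' t' v = Db g f s t v := by
  have hc : comp s' t' v = comp s t v := comp_congr h
  have hr : rr s' t' v = rr s t v := by
    unfold rr
    rw [hc, inter_holes_congr fun x hx => (h x hx).1]
  unfold Db
  rw [hc, hr]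
  congr 1
  refine Finset.sum_congr rfl fun e _ => ?_
  rw [swp_congr (s := e) (s' := e) (fun _ _ => rfl) (fun x hx => (h x hx).2),
    swp_congr (s := e) (s' := e) (fun _ _ => rfl) (fun x hx => (h x hx).1)]

/-- canonical configurations (relative to `v`) with given first member -/
def CanT (s : V → V) (v : V) : Set (V → V) :=
  {t | Inv t ∧ (s v = v ∨ t v = v) ∧ (holes s \ comp s t v).card = rr s t v ∧
    (holes t \ comp s t v).card = rr s t v}

section
variable {g : V → V → ℝ}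

open Classical in
/-- **variance bound**, first member and `v` fixed -/
theorem var_le (hpos : ∀ u v, 0 < g u v) (f : (V → V) → ℝ) {s : V → V} (hs : Inv s) (v : V) :
    ∑ t ∈ univ.filter (fun t => t ∈ CanT s v), W g t * (Gf f s t v - Db g f s t v) ^ 2 ≤
    ∑ t ∈ univ.filter (fun t => t ∈ CanT s v), W g t * (Gf f s t v - Hf f s t v) ^ 2 := by
  set T := univ.filter (fun t => t ∈ CanT s v) with hT
  -- notation
  have memT : ∀ t, t ∈ T ↔ t ∈ CanT s v := fun t => by simp [hT]
  have hES : ∀ t ∈ T, swp (comp s t v) t id ∈ ES (comp s t v) (rr s t v) := by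
    intro t ht
    obtain ⟨h1, h2, h3, h4⟩ := (memT t).1 ht
    rw [mem_ES]
    refine ⟨h1.swp (fun _ => rfl) comp_cl_right (fun _ h => h), fun x hx => swp_of_mem hx, ?_⟩
    rw [holes_sdiff_congr (s := t) (fun x hx => swp_of_not_mem hx)]
    exact h4
  have hGpos : ∀ t ∈ T, 0 < ∑ e ∈ ES (comp s t v) (rr s t v), Woff g (comp s t v) e :=
    fun t ht => Finset.sum_pos (fun e _ => Woff_pos hpos _ e) ⟨_, hES t ht⟩
  -- Step 1: pointwise Jensen
  have step1 : ∀ t ∈ T, W g t * (Gf f s t v - Db g f s t v) ^ 2 ≤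
      ∑ e ∈ ES (comp s t v) (rr s t v), (W g t * Woff g (comp s t v) e) /
        (∑ e' ∈ ES (comp s t v) (rr s t v), Woff g (comp s t v) e') *
        (Gf f s t v - (f (jn (swp (comp s t v) e t)) - f (jn (swp (comp s t v) e s)))) ^ 2 := by
    intro t ht
    have hj := jensen (ES (comp s t v) (rr s t v)) (fun e => Woff g (comp s t v) e)
      (fun e => f (jn (swp (comp s t v) e t)) - f (jn (swp (comp s t v) e s)))
      (Gf f s t v) (fun e _ => (Woff_pos hpos _ e).le) (hGpos t ht)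
    have hG := hGpos t ht
    set Γ := ∑ e ∈ ES (comp s t v) (rr s t v), Woff g (comp s t v) e with hΓ
    have e1 : ∑ e ∈ ES (comp s t v) (rr s t v), (W g t * Woff g (comp s t v) e) / Γ *
        (Gf f s t v - (f (jn (swp (comp s t v) e t)) - f (jn (swp (comp s t v) e s)))) ^ 2 =
        W g t * ((∑ e ∈ ES (comp s t v) (rr s t v), Woff g (comp s t v) e *
        (Gf f s t v - (f (jn (swp (comp s t v) e t)) - f (jn (swp (comp s t v) e s)))) ^ 2)
          / Γ) := by
      rw [Finset.sum_div, Finset.mul_sum]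
      refine Finset.sum_congr rfl fun e _ => ?_
      ring
    rw [e1]
    refine mul_le_mul_of_nonneg_left ?_ (W_pos hpos t).le
    rw [le_div_iff₀ hG, mul_comm]
    exact hj
  refine (Finset.sum_le_sum step1).trans (le_of_eq ?_)
  -- Step 2: reindex
  have e2 : ∑ t ∈ T, W g t * (Gf f s t v - Hf f s t v) ^ 2 =
      ∑ t ∈ T, ∑ e ∈ ES (comp s t v) (rr s t v), (W g t * Woff g (comp s t v) e) /
        (∑ e' ∈ ES (comp s t v) (rr s t v), Woff g (comp s t v) e') *
        (Gf f s t v - Hf f s t v) ^ 2 := by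
    refine Finset.sum_congr rfl fun t ht => ?_
    have hG := hGpos t ht
    rw [← Finset.sum_mul, ← Finset.sum_div, ← Finset.mul_sum, mul_div_assoc,
      div_self hG.ne', mul_one]
  rw [e2, Finset.sum_sigma', Finset.sum_sigma']
  have hmap : ∀ x ∈ T.sigma (fun t => ES (comp s t v) (rr s t v)),
      (∀ y ∈ comp s x.1 v, s y = s y ∧ swp (comp s x.1 v) x.2 x.1 y = x.1 y) := by
    intro x _ y hy
    exact ⟨rfl, swp_of_mem hy⟩
  have hcomp : ∀ x ∈ T.sigma (fun t => ES (comp s t v) (rr s t v)),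
      comp s (swp (comp s x.1 v) x.2 x.1) v = comp s x.1 v :=
    fun x hx => comp_congr (hmap x hx)
  have hmem : ∀ x ∈ T.sigma (fun t => ES (comp s t v) (rr s t v)),
      (⟨swp (comp s x.1 v) x.2 x.1, swp (comp s x.1 v) x.1 id⟩ : (_ : V → V) × (V → V)) ∈
        T.sigma (fun t => ES (comp s t v) (rr s t v)) := by
    intro x hx
    have hc := hcomp x hx
    rw [Finset.mem_sigma] at hx
    obtain ⟨hx1, hx2⟩ := hx
    obtain ⟨h1, h2, h3, h4⟩ := (memT _).1 hx1
    obtain ⟨k1, k2, k3⟩ := mem_ES.1 hx2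
    have hr : rr s (swp (comp s x.1 v) x.2 x.1) v = rr s x.1 v := by unfold rr; rw [hc]
    rw [Finset.mem_sigma]
    refine ⟨(memT _).2 ⟨?_, ?_, ?_, ?_⟩, ?_⟩
    · exact k1.swp h1 (fun y hy => by rw [k2 y hy]; exact hy) comp_cl_right
    · show s v = v ∨ swp (comp s x.1 v) x.2 x.1 v = v
      rw [swp_of_mem self_mem_comp]; exact h2
    · rw [hc, hr]; exact h3
    · rw [hc, hr, holes_sdiff_congr (s := x.2) (fun y hy => swp_of_not_mem hy)]
      exact k3
    · show swp (comp s x.1 v) x.1 id ∈ ES (comp s (swp (comp s x.1 v) x.2 x.1) v)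
        (rr s (swp (comp s x.1 v) x.2 x.1) v)
      rw [hc, hr]
      exact hES x.1 hx1
  have hinv : ∀ x ∈ T.sigma (fun t => ES (comp s t v) (rr s t v)),
      (⟨swp (comp s (swp (comp s x.1 v) x.2 x.1) v) (swp (comp s x.1 v) x.1 id)
          (swp (comp s x.1 v) x.2 x.1),
        swp (comp s (swp (comp s x.1 v) x.2 x.1) v) (swp (comp s x.1 v) x.2 x.1) id⟩ :
        (_ : V → V) × (V → V)) = x := by
    intro x hx
    have hc := hcomp x hx
    rw [Finset.mem_sigma] at hx
    obtain ⟨hx1, hx2⟩ := hx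
    obtain ⟨k1, k2, k3⟩ := mem_ES.1 hx2
    have e3 : swp (comp s x.1 v) (swp (comp s x.1 v) x.1 id) (swp (comp s x.1 v) x.2 x.1) = x.1 := by
      funext y
      by_cases hy : y ∈ comp s x.1 v
      · rw [swp_of_mem hy, swp_of_mem hy]
      · rw [swp_of_not_mem hy, swp_of_not_mem hy]
    have e4 : swp (comp s x.1 v) (swp (comp s x.1 v) x.2 x.1) id = x.2 := by
      funext y
      by_cases hy : y ∈ comp s x.1 v
      · rw [swp_of_mem hy, k2 y hy]; rfl
      · rw [swp_of_not_mem hy, swp_of_not_mem hy]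
    rw [hc, e3, e4]
  refine Finset.sum_bij' (fun x _ => (⟨swp (comp s x.1 v) x.2 x.1, swp (comp s x.1 v) x.1 id⟩ :
    (_ : V → V) × (V → V))) (fun x _ => (⟨swp (comp s x.1 v) x.2 x.1, swp (comp s x.1 v) x.1 id⟩ :
    (_ : V → V) × (V → V))) hmem hmem hinv hinv ?_
  intro x hx
  have hc := hcomp x hx
  rw [Finset.mem_sigma] at hx
  obtain ⟨hx1, hx2⟩ := hx
  obtain ⟨k1, k2, k3⟩ := mem_ES.1 hx2
  have hr : rr s (swp (comp s x.1 v) x.2 x.1) v = rr s x.1 v := by unfold rr; rw [hc]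
  simp only
  rw [hc, hr]
  have w1 : W g x.1 * Woff g (comp s x.1 v) x.2 =
      W g (swp (comp s x.1 v) x.2 x.1) * Woff g (comp s x.1 v) (swp (comp s x.1 v) x.1 id) := by
    rw [W_eq g (comp s x.1 v) x.1, W_eq g (comp s x.1 v) (swp (comp s x.1 v) x.2 x.1),
      Won_congr g (s := swp (comp s x.1 v) x.2 x.1) (t := x.1) (fun y hy => swp_of_mem hy),
      Woff_congr g (s := swp (comp s x.1 v) x.2 x.1) (t := x.2) (fun y hy => swp_of_not_mem hy),
      Woff_congr g (s := swp (comp s x.1 v) x.1 id) (t := x.1) (fun y hy => swp_of_not_mem hy)]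
    ring
  have g1 : Gf f s (swp (comp s x.1 v) x.2 x.1) v = Gf f s x.1 v := by
    unfold Gf
    rw [hc, swp_congr (s := s) (s' := s) (fun _ _ => rfl) (fun y hy => swp_of_mem hy)]
  have h1 : Hf f s (swp (comp s x.1 v) x.2 x.1) v =
      f (jn (swp (comp s x.1 v) x.2 x.1)) - f (jn (swp (comp s x.1 v) x.2 s)) := by
    unfold Hf
    rw [hc, swp_congr (t := s) (t' := s) (fun y hy => swp_of_not_mem hy) (fun _ _ => rfl)]
  rw [← w1, g1, h1]

end

end CQ

end Crest.Agent.R304
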