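import Crest.Agent.R304.ConfQ4

/-!
# R304 / S0464: canonical swap energies
-/

set_option autoImplicit false
set_option linter.unusedSectionVars false
set_option linter.unusedVariables false

namespace Crest.Agent.R304

open Finset

namespace CQ

variable {V : Type*} [Fintype V] [DecidableEq V]

theorem jn_two {s : V → V} {u w : V} (huw : u ≠ w) (h : holes s = {u, w}) :
    jn s = add s u w := by
  have hc : (holes s).card = 2 := by rw [h, Finset.card_pair huw]
  have h1 : 1 < (holes s).card := by omega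
  have hp := pick_fst _ h1
  have hq := pick_snd _ h1
  have hpq := pick_ne _ h1
  rw [jn_of_lt h1]
  set p := (pick (holes s) h1).1
  set q := (pick (holes s) h1).2
  have hpq' : add s p q = add s u w := by
    rw [h, mem_insert, mem_singleton] at hp hq
    rcases hp with hp | hp <;> rcases hq with hq | hq
    · exact absurd (hp.trans hq.symm) hpq
    · rw [hp, hq]
    · rw [hp, hq, add_comm']
    · exact absurd (hp.trans hq.symm) hpq
  rw [hpq', jn_of_le]
  rw [holes_add huw, h]; simp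

theorem jn_zero {s : V → V} (h : holes s = ∅) : jn s = s := jn_of_le (by rw [h]; simp)

/-- adding edges does not shrink components -/
theorem comp_subset_add {s t : V → V} {u w v : V} (hu : s u = u) (hw : s w = w) :
    comp s t v ⊆ comp (add s u w) t v := by
  refine comp_subset self_mem_comp ?_ comp_cl_right
  intro x hx
  by_cases h1 : x = u
  · have : s x = x := by rw [h1]; exact hu
    rw [this]; exact hx
  · by_cases h2 : x = w
    · have : s x = x := by rw [h2]; exact hw
      rw [this]; exact hx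
    · rw [← add_of_ne (s := s) h1 h2]; exact comp_cl_left x hx

theorem comp_add_in {s t : V → V} {u w v : V} (hu : s u = u) (hw : s w = w)
    (hu' : u ∈ comp s t v) (hw' : w ∈ comp s t v) : comp (add s u w) t v = comp s t v := by
  refine Finset.Subset.antisymm (comp_subset self_mem_comp ?_ comp_cl_right)
    (comp_subset_add hu hw)
  intro x hx
  by_cases h1 : x = u
  · rw [h1, add_left]; exact hw'
  · by_cases h2 : x = w
    · rw [h2, add_right]; exact hu'
    · rw [add_of_ne h1 h2]; exact comp_cl_left x hx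

theorem swp_add_in {A : Finset V} {s t : V → V} {u w : V} (hu : u ∈ A) (hw : w ∈ A) :
    swp A t (add s u w) = add (swp A t s) u w := by
  funext x
  by_cases h1 : x = u
  · rw [h1, swp_of_mem hu, add_left, add_left]
  · by_cases h2 : x = w
    · rw [h2, swp_of_mem hw, add_right, add_right]
    · rw [add_of_ne h1 h2]
      by_cases hx : x ∈ A
      · rw [swp_of_mem hx, swp_of_mem hx, add_of_ne h1 h2]
      · rw [swp_of_not_mem hx, swp_of_not_mem hx]

theorem swp_add_in' {A : Finset V} {s t : V → V} {u w : V} (hu : u ∈ A) (hw : w ∈ A) :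
    swp A (add s u w) t = swp A s t := by
  refine swp_congr (fun x hx => ?_) (fun _ _ => rfl)
  exact add_of_ne (fun h => hx (h ▸ hu)) (fun h => hx (h ▸ hw))

theorem swp_add_out {A : Finset V} {s t : V → V} {u w : V} (hu : u ∉ A) (hw : w ∉ A) :
    swp A (add s u w) t = add (swp A s t) u w := by
  funext x
  by_cases h1 : x = u
  · rw [h1, swp_of_not_mem hu, add_left, add_left]
  · by_cases h2 : x = w
    · rw [h2, swp_of_not_mem hw, add_right, add_right]
    · rw [add_of_ne h1 h2]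
      by_cases hx : x ∈ A
      · rw [swp_of_mem hx, swp_of_mem hx]
      · rw [swp_of_not_mem hx, swp_of_not_mem hx, add_of_ne h1 h2]

theorem swp_add_out' {A : Finset V} {s t : V → V} {u w : V} (hu : u ∉ A) (hw : w ∉ A) :
    swp A t (add s u w) = swp A t s := by
  refine swp_congr (fun _ _ => rfl) (fun x hx => ?_)
  exact add_of_ne (fun h => hu (h ▸ hx)) (fun h => hw (h ▸ hx))

theorem pms_of_holes {s : V → V} (hs : Inv s) (h : holes s = ∅) : s ∈ pms V :=
  mem_pms.2 ⟨hs, holes_eq_empty.1 h⟩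

theorem add_pm {s : V → V} (hs : Inv s) {u w : V} (huw : u ≠ w) (h : holes s = {u, w}) :
    add s u w ∈ pms V := by
  have hu : s u = u := mem_holes.1 (by rw [h]; simp)
  have hw : s w = w := mem_holes.1 (by rw [h]; simp)
  refine pms_of_holes (hs.add hu hw) ?_
  rw [holes_add huw, h]; simp

/-- structure of an odd canonical pair -/
theorem odd_struct {s : V → V} {Y : Finset V} (h1 : (Y ∩ holes s).card = 1)
    (h2 : (holes s \ Y).card = 1) : ∃ p z, p ∈ Y ∧ z ∉ Y ∧ p ≠ z ∧ holes s = {p, z} := by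
  obtain ⟨p, hp⟩ := Finset.card_eq_one.1 h1
  obtain ⟨z, hz⟩ := Finset.card_eq_one.1 h2
  have hpY : p ∈ Y ∩ holes s := by rw [hp]; simp
  have hzY : z ∈ holes s \ Y := by rw [hz]; simp
  rw [mem_inter] at hpY
  rw [mem_sdiff] at hzY
  refine ⟨p, z, hpY.1, hzY.2, fun h => hzY.2 (h ▸ hpY.1), ?_⟩
  ext x
  rw [mem_insert, mem_singleton]
  constructor
  · intro hx
    by_cases hxY : x ∈ Y
    · left
      have : x ∈ Y ∩ holes s := mem_inter.2 ⟨hxY, hx⟩
      rw [hp] at this; exact mem_singleton.1 this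
    · right
      have : x ∈ holes s \ Y := mem_sdiff.2 ⟨hx, hxY⟩
      rw [hz] at this; exact mem_singleton.1 this
  · rintro (h | h)
    · rw [h]; exact hpY.2
    · rw [h]; exact hzY.1

/-- structure of an even canonical pair -/
theorem even_struct {s : V → V} {Y : Finset V} (h1 : (Y ∩ holes s).card = 2)
    (h2 : (holes s \ Y).card = 0) : ∃ p z, p ∈ Y ∧ z ∈ Y ∧ p ≠ z ∧ holes s = {p, z} := by
  obtain ⟨p, z, hpz, hp⟩ := Finset.card_eq_two.1 h1
  have hpY : p ∈ Y ∩ holes s := by rw [hp]; simp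
  have hzY : z ∈ Y ∩ holes s := by rw [hp]; simp
  rw [mem_inter] at hpY hzY
  refine ⟨p, z, hpY.1, hzY.1, hpz, ?_⟩
  rw [← hp]
  ext x
  rw [mem_inter]
  refine ⟨fun hx => ⟨?_, hx⟩, fun hx => hx.2⟩
  by_contra hxY
  have : x ∈ holes s \ Y := mem_sdiff.2 ⟨hx, hxY⟩
  rw [Finset.card_eq_zero.1 h2] at this
  exact absurd this (Finset.notMem_empty _)

theorem empty_struct {s : V → V} {Y : Finset V} (h1 : (Y ∩ holes s).card = 0)
    (h2 : (holes s \ Y).card = 0) : holes s = ∅ := by
  have h := Finset.card_inter_add_card_sdiff (holes s) Y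
  rw [Finset.inter_comm, h1, h2] at h
  exact Finset.card_eq_zero.1 h.symm

section main
variable {g : V → V → ℝ} {c0 : ℝ} (hsym : ∀ u v, g u v = g v u) (hpos : ∀ u v, 0 < g u v)
  (hc : 0 < c0) (hc1 : c0 ≤ 1) (hN : NodeA g c0) (f : (V → V) → ℝ)

/-- odd canonical pairs -/
def OddC (V : Type*) [Fintype V] [DecidableEq V] (v : V) : Set ((V → V) × (V → V)) :=
  {N | Inv N.1 ∧ Inv N.2 ∧ (comp N.1 N.2 v ∩ holes N.1).card = 1 ∧
    (comp N.1 N.2 v ∩ holes N.2).card = 1 ∧ (holes N.1 \ comp N.1 N.2 v).card = 1 ∧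
    (holes N.2 \ comp N.1 N.2 v).card = 1}

/-- even canonical pairs, first kind -/
def EvenC (V : Type*) [Fintype V] [DecidableEq V] (v : V) : Set ((V → V) × (V → V)) :=
  {N | Inv N.1 ∧ Inv N.2 ∧ (comp N.1 N.2 v ∩ holes N.1).card = 2 ∧
    (comp N.1 N.2 v ∩ holes N.2).card = 0 ∧ (holes N.1 \ comp N.1 N.2 v).card = 0 ∧
    (holes N.2 \ comp N.1 N.2 v).card = 0}

/-- even canonical pairs, second kind -/
def EvenC' (V : Type*) [Fintype V] [DecidableEq V] (v : V) : Set ((V → V) × (V → V)) :=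
  {N | Inv N.1 ∧ Inv N.2 ∧ (comp N.1 N.2 v ∩ holes N.1).card = 0 ∧
    (comp N.1 N.2 v ∩ holes N.2).card = 2 ∧ (holes N.1 \ comp N.1 N.2 v).card = 0 ∧
    (holes N.2 \ comp N.1 N.2 v).card = 0}

/-- the canonical term -/
noncomputable def cT (g : V → V → ℝ) (f : (V → V) → ℝ) (v : V) (N : (V → V) × (V → V)) : ℝ :=
  W g N.1 * W g N.2 * (f (jn N.1) + f (jn N.2) - f (jn (swp (comp N.1 N.2 v) N.1 N.2)) -
    f (jn (swp (comp N.1 N.2 v) N.2 N.1))) ^ 2

theorem cT_eq (v : V) (s t : V → V) :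
    W g s * W g t * (Gf f s t v - Hf f s t v) ^ 2 = cT g f v (s, t) := by
  unfold cT Gf Hf
  ring

include hpos in
theorem cT_nonneg (v : V) (N : (V → V) × (V → V)) : 0 ≤ cT g f v N :=
  mul_nonneg (mul_nonneg (W_pos hpos _).le (W_pos hpos _).le) (sq_nonneg _)

open Classical in
include hsym hpos hc hc1 hN in
theorem odd_le (v : V) :
    ∑ N ∈ univ.filter (fun N => N ∈ OddC V v), cT g f v N ≤ c0⁻¹ ^ 2 * E2 g f := by
  have hst : ∀ N ∈ (univ.filter (fun N => N ∈ OddC V v) : Finset ((V → V) × (V → V))),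
      ∃ x : (V × V) × (V × V), x.1.1 ∈ comp N.1 N.2 v ∧ x.1.2 ∉ comp N.1 N.2 v ∧ x.1.1 ≠ x.1.2 ∧
        holes N.1 = {x.1.1, x.1.2} ∧
        x.2.1 ∈ comp N.1 N.2 v ∧ x.2.2 ∉ comp N.1 N.2 v ∧ x.2.1 ≠ x.2.2 ∧
        holes N.2 = {x.2.1, x.2.2} := by
    intro N hN
    rw [mem_filter] at hN
    obtain ⟨-, h1, h2, h3, h4, h5, h6⟩ := hN
    obtain ⟨p, z, a1, a2, a3, a4⟩ := odd_struct h3 h5
    obtain ⟨q, y, b1, b2, b3, b4⟩ := odd_struct h4 h6
    exact ⟨((p, z), (q, y)), a1, a2, a3, a4, b1, b2, b3, b4⟩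
  have : Nonempty V := ⟨v⟩
  choose! X hX using hst
  have e2 : E2 g f = ∑ y ∈ (pms V) ×ˢ ((pms V) ×ˢ ((univ : Finset V) ×ˢ (univ : Finset V))),
      (if y.2.2.2 ∈ comp (del y.1 y.2.2.1) (del y.2.1 y.2.2.2) y.2.2.1 then
      min (W g y.1 * W g y.2.1) (W g (two1 y.1 y.2.1 y.2.2.1 y.2.2.2) *
        W g (two2 y.1 y.2.1 y.2.2.1 y.2.2.2)) *
        (f y.1 + f y.2.1 - f (two1 y.1 y.2.1 y.2.2.1 y.2.2.2) -
          f (two2 y.1 y.2.1 y.2.2.1 y.2.2.2)) ^ 2
      else 0) := by
    unfold E2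
    rw [Finset.sum_product]
    refine Finset.sum_congr rfl fun s _ => ?_
    rw [Finset.sum_product]
    refine Finset.sum_congr rfl fun t _ => ?_
    rw [Finset.sum_product]
  rw [e2]
  refine sum_dom _ _ (fun N => (add N.1 (X N).1.1 (X N).1.2, add N.2 (X N).2.1 (X N).2.2,
    (X N).1.1, (X N).2.1)) _ _ (by positivity) ?_ ?_ ?_ ?_
  · intro N hmem
    obtain ⟨a1, a2, a3, a4, b1, b2, b3, b4⟩ := hX N hmem
    rw [mem_filter] at hmem
    obtain ⟨-, h1, h2, -⟩ := hmem
    simp only [mem_product, mem_univ, and_true]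
    exact ⟨add_pm h1 a3 a4, add_pm h2 b3 b4⟩
  · intro N hmem N' hmem' heq
    obtain ⟨a1, a2, a3, a4, b1, b2, b3, b4⟩ := hX N hmem
    obtain ⟨a1', a2', a3', a4', b1', b2', b3', b4'⟩ := hX N' hmem'
    simp only [Prod.mk.injEq] at heq
    obtain ⟨e1, e2, e3, e4⟩ := heq
    have c1 : N.1 (X N).1.1 = (X N).1.1 := mem_holes.1 (by rw [a4]; simp)
    have c2 : N.1 (X N).1.2 = (X N).1.2 := mem_holes.1 (by rw [a4]; simp)
    have c3 : N.2 (X N).2.1 = (X N).2.1 := mem_holes.1 (by rw [b4]; simp)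
    have c4 : N.2 (X N).2.2 = (X N).2.2 := mem_holes.1 (by rw [b4]; simp)
    have c1' : N'.1 (X N').1.1 = (X N').1.1 := mem_holes.1 (by rw [a4']; simp)
    have c2' : N'.1 (X N').1.2 = (X N').1.2 := mem_holes.1 (by rw [a4']; simp)
    have c3' : N'.2 (X N').2.1 = (X N').2.1 := mem_holes.1 (by rw [b4']; simp)
    have c4' : N'.2 (X N').2.2 = (X N').2.2 := mem_holes.1 (by rw [b4']; simp)
    have d1 := del_add c1 c2
    have d2 := del_add c1' c2'
    have d3 := del_add c3 c4
    have d4 := del_add c3' c4'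
    rw [e1, e3, d2] at d1
    rw [e2, e4, d4] at d3
    exact Prod.ext d1.symm d3.symm
  · intro N hmem
    obtain ⟨a1, a2, a3, a4, b1, b2, b3, b4⟩ := hX N hmem
    rw [mem_filter] at hmem
    obtain ⟨-, h1, h2, -⟩ := hmem
    obtain ⟨s, t⟩ := N
    simp only at a1 a2 a3 a4 b1 b2 b3 b4 h1 h2 ⊢
    set p := (X (s, t)).1.1
    set z := (X (s, t)).1.2
    set q := (X (s, t)).2.1
    set y := (X (s, t)).2.2
    have c1 : s p = p := mem_holes.1 (by rw [a4]; simp)
    have c2 : s z = z := mem_holes.1 (by rw [a4]; simp)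
    have c3 : t q = q := mem_holes.1 (by rw [b4]; simp)
    have c4 : t y = y := mem_holes.1 (by rw [b4]; simp)
    have d1 := del_add c1 c2
    have d3 := del_add c3 c4
    have hcp : comp s t p = comp s t v := comp_eq h1 h2 a1
    have hzq : q ≠ z := fun h => a2 (h ▸ b1)
    have hyp : p ≠ y := fun h => b2 (h ▸ a1)
    have t1 : two1 (add s p z) (add t q y) p q = add (swp (comp s t v) s t) q z := by
      unfold two1
      rw [d1, d3, hcp, add_left]
    have t2 : two2 (add s p z) (add t q y) p q = add (swp (comp s t v) t s) p y := by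
      unfold two2
      rw [d1, d3, hcp, add_left]
    rw [d1, d3, hcp, if_pos b1, t1, t2]
    have k1 : holes (swp (comp s t v) s t) = {q, z} := by
      rw [holes_swp, a4, b4]
      ext x
      simp only [mem_union, mem_inter, mem_sdiff, mem_insert, mem_singleton]
      constructor
      · rintro (⟨h | h, h'⟩ | ⟨h | h, h'⟩)
        · exact Or.inl h
        · rw [h] at h'; exact absurd h' b2
        · rw [h] at h'; exact absurd a1 h'
        · exact Or.inr h
      · rintro (h | h)
        · rw [h]; exact Or.inl ⟨Or.inl rfl, b1⟩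
        · rw [h]; exact Or.inr ⟨Or.inr rfl, a2⟩
    have k2 : holes (swp (comp s t v) t s) = {p, y} := by
      rw [holes_swp, a4, b4]
      ext x
      simp only [mem_union, mem_inter, mem_sdiff, mem_insert, mem_singleton]
      constructor
      · rintro (⟨h | h, h'⟩ | ⟨h | h, h'⟩)
        · exact Or.inl h
        · rw [h] at h'; exact absurd h' a2
        · rw [h] at h'; exact absurd b1 h'
        · exact Or.inr h
      · rintro (h | h)
        · rw [h]; exact Or.inl ⟨Or.inl rfl, a1⟩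
        · rw [h]; exact Or.inr ⟨Or.inr rfl, b2⟩
    unfold cT
    simp only
    rw [jn_two a3 a4, jn_two b3 b4, jn_two hzq k1, jn_two hyp k2, ← mul_assoc]
    refine mul_le_mul_of_nonneg_right ?_ (sq_nonneg _)
    rw [mul_min_of_nonneg _ _ (by positivity), le_min_iff]
    have i1 := W_le_add hsym hpos hc hN a3 c1 c2
    have i2 := W_le_add hsym hpos hc hN b3 c3 c4
    have m1 : swp (comp s t v) s t q = q := mem_holes.1 (by rw [k1]; simp)
    have m2 : swp (comp s t v) s t z = z := mem_holes.1 (by rw [k1]; simp)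
    have m3 : swp (comp s t v) t s p = p := mem_holes.1 (by rw [k2]; simp)
    have m4 : swp (comp s t v) t s y = y := mem_holes.1 (by rw [k2]; simp)
    have i3 := W_le_add hsym hpos hc hN hzq m1 m2
    have i4 := W_le_add hsym hpos hc hN hyp m3 m4
    have hci : 0 ≤ c0⁻¹ := inv_nonneg.2 hc.le
    constructor
    · calc W g s * W g t ≤ (c0⁻¹ * W g (add s p z)) * (c0⁻¹ * W g (add t q y)) :=
            mul_le_mul i1 i2 (W_pos hpos _).le (mul_nonneg hci (W_pos hpos _).le)
        _ = _ := by ring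
    · rw [← W_swp_mul (A := comp s t v) (s := s) (t := t)]
      calc W g (swp (comp s t v) s t) * W g (swp (comp s t v) t s) ≤
            (c0⁻¹ * W g (add (swp (comp s t v) s t) q z)) *
              (c0⁻¹ * W g (add (swp (comp s t v) t s) p y)) :=
            mul_le_mul i3 i4 (W_pos hpos _).le (mul_nonneg hci (W_pos hpos _).le)
        _ = _ := by ring
  · intro y _
    split_ifs
    · exact mul_nonneg (le_min (mul_nonneg (W_pos hpos _).le (W_pos hpos _).le)
        (mul_nonneg (W_pos hpos _).le (W_pos hpos _).le)) (sq_nonneg _)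
    · exact le_rfl

/-- exchange energy at `v` -/
noncomputable def EexV (g : V → V → ℝ) (f : (V → V) → ℝ) (v : V) : ℝ :=
  ∑ s ∈ pms V, ∑ t ∈ pms V, W g s * W g t *
      (f s + f t - f (swp (comp s t v) s t) - f (swp (comp s t v) t s)) ^ 2

theorem sum_EexV : ∑ v, EexV g f v = Eex g f := by
  unfold EexV Eex
  rw [Finset.sum_comm]
  refine Finset.sum_congr rfl fun s _ => ?_
  rw [Finset.sum_comm]

include hpos in
theorem EexV_nonneg (v : V) : 0 ≤ EexV g f v :=
  Finset.sum_nonneg fun s _ => Finset.sum_nonneg fun t _ =>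
    mul_nonneg (mul_nonneg (W_pos hpos s).le (W_pos hpos t).le) (sq_nonneg _)

theorem exT_comm (v : V) (s t : V → V) : W g s * W g t *
      (f s + f t - f (swp (comp s t v) s t) - f (swp (comp s t v) t s)) ^ 2 =
      W g t * W g s *
      (f t + f s - f (swp (comp t s v) t s) - f (swp (comp t s v) s t)) ^ 2 := by
  rw [comp_comm]; ring

open Classical in
include hsym hpos hc hc1 hN in
theorem even_le (v : V) :
    ∑ N ∈ univ.filter (fun N => N ∈ EvenC V v), cT g f v N ≤
      c0⁻¹ * (Fintype.card V * EexV g f v) := by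
  have hst : ∀ N ∈ (univ.filter (fun N => N ∈ EvenC V v) : Finset ((V → V) × (V → V))),
      ∃ x : V × V, x.1 ∈ comp N.1 N.2 v ∧ x.2 ∈ comp N.1 N.2 v ∧ x.1 ≠ x.2 ∧
        holes N.1 = {x.1, x.2} := by
    intro N hN
    rw [mem_filter] at hN
    obtain ⟨-, h1, h2, h3, h4, h5, h6⟩ := hN
    obtain ⟨p, z, a1, a2, a3, a4⟩ := even_struct h3 h5
    exact ⟨(p, z), a1, a2, a3, a4⟩
  have : Nonempty V := ⟨v⟩
  choose! X hX using hst
  have e2 : (Fintype.card V * EexV g f v : ℝ) = ∑ y ∈ (pms V) ×ˢ ((pms V) ×ˢ (univ : Finset V)),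
      W g y.1 * W g y.2.1 * (f y.1 + f y.2.1 - f (swp (comp y.1 y.2.1 v) y.1 y.2.1) -
        f (swp (comp y.1 y.2.1 v) y.2.1 y.1)) ^ 2 := by
    unfold EexV
    rw [Finset.sum_product, Finset.mul_sum]
    refine Finset.sum_congr rfl fun s _ => ?_
    rw [Finset.sum_product, Finset.mul_sum]
    refine Finset.sum_congr rfl fun t _ => ?_
    simp only [Finset.sum_const, Finset.card_univ, nsmul_eq_mul]
  rw [e2]
  refine sum_dom _ _ (fun N => (add N.1 (X N).1 (X N).2, N.2, (X N).1)) _ _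
    (inv_nonneg.2 hc.le) ?_ ?_ ?_ ?_
  · intro N hmem
    obtain ⟨a1, a2, a3, a4⟩ := hX N hmem
    rw [mem_filter] at hmem
    obtain ⟨-, h1, h2, h3, h4, h5, h6⟩ := hmem
    simp only [mem_product, mem_univ, and_true]
    exact ⟨add_pm h1 a3 a4, pms_of_holes h2 (empty_struct h4 h6)⟩
  · intro N hmem N' hmem' heq
    obtain ⟨a1, a2, a3, a4⟩ := hX N hmem
    obtain ⟨a1', a2', a3', a4'⟩ := hX N' hmem'
    simp only [Prod.mk.injEq] at heq
    obtain ⟨e1, e2, e3⟩ := heq
    have c1 : N.1 (X N).1 = (X N).1 := mem_holes.1 (by rw [a4]; simp)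
    have c2 : N.1 (X N).2 = (X N).2 := mem_holes.1 (by rw [a4]; simp)
    have c1' : N'.1 (X N').1 = (X N').1 := mem_holes.1 (by rw [a4']; simp)
    have c2' : N'.1 (X N').2 = (X N').2 := mem_holes.1 (by rw [a4']; simp)
    have d1 := del_add c1 c2
    have d2 := del_add c1' c2'
    rw [e1, e3, d2] at d1
    exact Prod.ext d1.symm e2
  · intro N hmem
    obtain ⟨a1, a2, a3, a4⟩ := hX N hmem
    rw [mem_filter] at hmem
    obtain ⟨-, h1, h2, h3, h4, h5, h6⟩ := hmem
    obtain ⟨s, t⟩ := N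
    simp only at a1 a2 a3 a4 h1 h2 h3 h4 h5 h6 ⊢
    set p := (X (s, t)).1
    set z := (X (s, t)).2
    have c1 : s p = p := mem_holes.1 (by rw [a4]; simp)
    have c2 : s z = z := mem_holes.1 (by rw [a4]; simp)
    have ht0 : holes t = ∅ := empty_struct h4 h6
    have k1 : holes (swp (comp s t v) s t) = ∅ := by
      rw [holes_swp, ht0, Finset.empty_inter, Finset.empty_union]
      exact Finset.card_eq_zero.1 h5
    have k2 : holes (swp (comp s t v) t s) = {p, z} := by
      rw [holes_swp, ht0, Finset.empty_sdiff, Finset.union_empty, a4]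
      ext x
      rw [mem_inter, mem_insert, mem_singleton]
      constructor
      · exact fun h => h.1
      · rintro (h | h)
        · rw [h]; exact ⟨Or.inl rfl, a1⟩
        · rw [h]; exact ⟨Or.inr rfl, a2⟩
    unfold cT
    simp only
    rw [jn_two a3 a4, jn_zero ht0, jn_zero k1, jn_two a3 k2, comp_add_in c1 c2 a1 a2,
      swp_add_in a1 a2, swp_add_in' a1 a2, ← mul_assoc]
    refine mul_le_mul_of_nonneg_right ?_ (sq_nonneg _)
    have i1 := W_le_add hsym hpos hc hN a3 c1 c2
    calc W g s * W g t ≤ (c0⁻¹ * W g (add s p z)) * W g t :=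
          mul_le_mul_of_nonneg_right i1 (W_pos hpos _).le
      _ = _ := by ring
  · intro y _
    exact mul_nonneg (mul_nonneg (W_pos hpos _).le (W_pos hpos _).le) (sq_nonneg _)

theorem cT_comm (v : V) (N : (V → V) × (V → V)) : cT g f v N.swap = cT g f v N := by
  unfold cT
  simp only [Prod.fst_swap, Prod.snd_swap]
  rw [comp_comm (s := N.2)]
  ring

theorem mem_EvenC' (v : V) (N : (V → V) × (V → V)) : N ∈ EvenC' V v ↔ N.swap ∈ EvenC V v := by
  unfold EvenC' EvenC
  simp only [Set.mem_ofPred_eq, Prod.fst_swap, Prod.snd_swap]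
  rw [comp_comm (s := N.2)]
  tauto

open Classical in
theorem even'_eq (v : V) :
    ∑ N ∈ univ.filter (fun N => N ∈ EvenC' V v), cT g f v N =
    ∑ N ∈ univ.filter (fun N => N ∈ EvenC V v), cT g f v N := by
  refine Finset.sum_bij' (fun N _ => N.swap) (fun N _ => N.swap) ?_ ?_ ?_ ?_ ?_
  · intro N hN
    rw [mem_filter] at hN ⊢
    exact ⟨mem_univ _, (mem_EvenC' v N).1 hN.2⟩
  · intro N hN
    rw [mem_filter] at hN ⊢
    exact ⟨mem_univ _, (mem_EvenC' v _).2 (by rw [Prod.swap_swap]; exact hN.2)⟩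
  · intro N _; exact Prod.swap_swap N
  · intro N _; exact Prod.swap_swap N
  · intro N _; exact (cT_comm f v N).symm

/-- canonical pairs -/
def CanP (V : Type*) [Fintype V] [DecidableEq V] (v : V) : Set ((V → V) × (V → V)) :=
  {N | Inv N.1 ∧ N.2 ∈ CanT N.1 v}

theorem CanP_sub {v : V} {N : (V → V) × (V → V)} (h : N ∈ CanP V v) :
    N ∈ OddC V v ∨ N ∈ EvenC V v ∨ N ∈ EvenC' V v := by
  obtain ⟨h1, h2, h3, h4, h5⟩ := h
  have hd : (comp N.1 N.2 v ∩ holes N.1).card + (comp N.1 N.2 v ∩ holes N.2).card = 2 := by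
    rcases h3 with h | h
    · exact defects_left h1 h2 h
    · exact defects_right h1 h2 h
  have hr : rr N.1 N.2 v = (comp N.1 N.2 v ∩ holes N.1).card % 2 := rfl
  have hcases : (comp N.1 N.2 v ∩ holes N.1).card = 0 ∨ (comp N.1 N.2 v ∩ holes N.1).card = 1 ∨
      (comp N.1 N.2 v ∩ holes N.1).card = 2 := by omega
  rcases hcases with h | h | h
  · right; right
    exact ⟨h1, h2, h, by omega, by omega, by omega⟩
  · left
    exact ⟨h1, h2, h, by omega, by omega, by omega⟩
  · right; left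
    exact ⟨h1, h2, h, by omega, by omega, by omega⟩

open Classical in
include hsym hpos hc hc1 hN in
theorem can_le (v : V) :
    ∑ N ∈ univ.filter (fun N => N ∈ CanP V v), cT g f v N ≤
      c0⁻¹ ^ 2 * E2 g f + 2 * (c0⁻¹ * (Fintype.card V * EexV g f v)) := by
  have h1 := odd_le hsym hpos hc hc1 hN f v
  have h2 := even_le hsym hpos hc hc1 hN f v
  have h3 := even'_eq (g := g) f v
  have hsub : (univ.filter (fun N => N ∈ CanP V v) : Finset ((V → V) × (V → V))) ⊆
      univ.filter (fun N => N ∈ OddC V v) ∪ (univ.filter (fun N => N ∈ EvenC V v) ∪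
        univ.filter (fun N => N ∈ EvenC' V v)) := by
    intro N hN
    rw [mem_filter] at hN
    simp only [mem_union, mem_filter, mem_univ, true_and]
    exact CanP_sub hN.2
  have h4 := Finset.sum_le_sum_of_subset_of_nonneg hsub
    (f := fun N => cT g f v N) (fun N _ _ => cT_nonneg hpos f v N)
  have h5 : ∀ A B : Finset ((V → V) × (V → V)), ∑ N ∈ A ∪ B, cT g f v N ≤
      ∑ N ∈ A, cT g f v N + ∑ N ∈ B, cT g f v N := by
    intro A B
    rw [← Finset.sum_union_inter]
    have : 0 ≤ ∑ N ∈ A ∩ B, cT g f v N := Finset.sum_nonneg fun N _ => cT_nonneg hpos f v N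
    linarith
  have h6 := h5 (univ.filter (fun N => N ∈ OddC V v)) (univ.filter (fun N => N ∈ EvenC V v) ∪
        univ.filter (fun N => N ∈ EvenC' V v))
  have h7 := h5 (univ.filter (fun N => N ∈ EvenC V v)) (univ.filter (fun N => N ∈ EvenC' V v))
  linarith

end main

end CQ

end Crest.Agent.R304
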