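import Crest.Agent.R304.ConfQ5

/-!
# R304 / S0464: removing the holes outside the component
-/

set_option autoImplicit false
set_option linter.unusedSectionVars false
set_option linter.unusedVariables false

namespace Crest.Agent.R304

open Finset

namespace CQ

variable {V : Type*} [Fintype V] [DecidableEq V]

open Classical in
/-- pairs with a defect at `v`, `i` / `j` holes outside the component of `v` -/
noncomputable def DS (V : Type*) [Fintype V] [DecidableEq V] (v : V) (i j : ℕ) :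
    Finset ((V → V) × (V → V)) :=
  univ.filter fun N => Inv N.1 ∧ Inv N.2 ∧ Even (holes N.1).card ∧ Even (holes N.2).card ∧
    (N.1 v = v ∨ N.2 v = v) ∧ (holes N.1 \ comp N.1 N.2 v).card = i ∧
    (holes N.2 \ comp N.1 N.2 v).card = j

theorem mem_DS {v : V} {i j : ℕ} {N : (V → V) × (V → V)} : N ∈ DS V v i j ↔
    Inv N.1 ∧ Inv N.2 ∧ Even (holes N.1).card ∧ Even (holes N.2).card ∧
    (N.1 v = v ∨ N.2 v = v) ∧ (holes N.1 \ comp N.1 N.2 v).card = i ∧
    (holes N.2 \ comp N.1 N.2 v).card = j := by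
  simp [DS]

section main
variable {g : V → V → ℝ} {c0 : ℝ} (hsym : ∀ u v, g u v = g v u) (hpos : ∀ u v, 0 < g u v)
  (hc : 0 < c0) (hc1 : c0 ≤ 1) (hN : NodeA g c0) (f : (V → V) → ℝ)

/-- centred term -/
noncomputable def dT (g : V → V → ℝ) (f : (V → V) → ℝ) (v : V) (N : (V → V) × (V → V)) : ℝ :=
  W g N.1 * W g N.2 * (Gf f N.1 N.2 v - Db g f N.1 N.2 v) ^ 2

include hpos in
theorem dT_nonneg (v : V) (N : (V → V) × (V → V)) : 0 ≤ dT g f v N :=
  mul_nonneg (mul_nonneg (W_pos hpos _).le (W_pos hpos _).le) (sq_nonneg _)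

noncomputable def Sij (g : V → V → ℝ) (f : (V → V) → ℝ) (v : V) (i j : ℕ) : ℝ :=
  ∑ N ∈ DS V v i j, dT g f v N

include hpos in
theorem Sij_nonneg (v : V) (i j : ℕ) : 0 ≤ Sij g f v i j :=
  Finset.sum_nonneg fun N _ => dT_nonneg hpos f v N

open Classical in
include hpos in
/-- base case: canonical pairs -/
theorem can_var (v : V) : ∑ N ∈ univ.filter (fun N => N ∈ CanP V v), dT g f v N ≤
    ∑ N ∈ univ.filter (fun N => N ∈ CanP V v), cT g f v N := by
  have e : ∀ F : (V → V) × (V → V) → ℝ, ∑ N ∈ univ.filter (fun N => N ∈ CanP V v), F N =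
      ∑ s ∈ invs V, ∑ t ∈ univ.filter (fun t => t ∈ CanT s v), F (s, t) := by
    intro F
    rw [Finset.sum_sigma']
    refine Finset.sum_bij' (fun N _ => (⟨N.1, N.2⟩ : (_ : V → V) × (V → V)))
      (fun x _ => (x.1, x.2)) ?_ ?_ ?_ ?_ ?_
    · intro N hN
      rw [mem_filter] at hN
      rw [Finset.mem_sigma, mem_invs, mem_filter]
      exact ⟨hN.2.1, mem_univ _, hN.2.2⟩
    · intro x hx
      rw [Finset.mem_sigma, mem_invs, mem_filter] at hx
      rw [mem_filter]
      exact ⟨mem_univ _, hx.1, hx.2.2⟩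
    · intro N _; rfl
    · intro x _; rfl
    · intro N _; rfl
  rw [e, e]
  refine Finset.sum_le_sum fun s hs => ?_
  have h := var_le hpos f (mem_invs.1 hs) v
  have e1 : ∑ t ∈ univ.filter (fun t => t ∈ CanT s v), dT g f v (s, t) =
      W g s * ∑ t ∈ univ.filter (fun t => t ∈ CanT s v), W g t * (Gf f s t v - Db g f s t v) ^ 2 := by
    rw [Finset.mul_sum]
    refine Finset.sum_congr rfl fun t _ => ?_
    unfold dT; ring
  have e2 : ∑ t ∈ univ.filter (fun t => t ∈ CanT s v), cT g f v (s, t) =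
      W g s * ∑ t ∈ univ.filter (fun t => t ∈ CanT s v), W g t * (Gf f s t v - Hf f s t v) ^ 2 := by
    rw [Finset.mul_sum]
    refine Finset.sum_congr rfl fun t _ => ?_
    rw [← cT_eq]; ring
  rw [e1, e2]
  exact mul_le_mul_of_nonneg_left h (W_pos hpos s).le

/-- canonical bound -/
noncomputable def CB (g : V → V → ℝ) (c0 : ℝ) (f : (V → V) → ℝ) (v : V) : ℝ :=
  c0⁻¹ ^ 2 * E2 g f + 2 * (c0⁻¹ * (Fintype.card V * EexV g f v))

include hpos hc in
theorem CB_nonneg (v : V) : 0 ≤ CB g c0 f v := by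
  have h1 := E2_nonneg (g := g) f hpos
  have h2 := EexV_nonneg (g := g) hpos f v
  have h3 : 0 ≤ c0⁻¹ := inv_nonneg.2 hc.le
  unfold CB
  positivity

theorem card_split (s : V → V) (Y : Finset V) :
    (Y ∩ holes s).card + (holes s \ Y).card = (holes s).card := by
  rw [Finset.inter_comm]; exact Finset.card_inter_add_card_sdiff _ _

include hsym hpos hc hc1 hN in
theorem Sij_base (v : V) (i : ℕ) (hi : i ≤ 1) : Sij g f v i i ≤ CB g c0 f v := by
  classical
  refine le_trans ?_ (can_le hsym hpos hc hc1 hN f v)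
  refine le_trans ?_ (can_var hpos f v)
  refine Finset.sum_le_sum_of_subset_of_nonneg ?_ fun N _ _ => dT_nonneg hpos f v N
  intro N hN'
  obtain ⟨h1, h2, h3, h4, h5, h6, h7⟩ := mem_DS.1 hN'
  rw [mem_filter]
  refine ⟨mem_univ _, h1, h2, h5, ?_, ?_⟩
  · have := card_split N.1 (comp N.1 N.2 v)
    obtain ⟨k, hk⟩ := h3
    unfold rr
    omega
  · have := card_split N.1 (comp N.1 N.2 v)
    obtain ⟨k, hk⟩ := h3
    unfold rr
    omega

theorem card_V_inv_le_kap (hc : 0 < c0) (hc1 : c0 ≤ 1) : c0⁻¹ * (Fintype.card V : ℝ) ≤ kap V c0 := by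
  unfold kap
  have h := one_le_inv hc hc1
  have h1 : (Fintype.card V : ℝ) ≤ (Fintype.card V : ℝ) ^ 2 + 1 := by
    nlinarith [sq_nonneg ((Fintype.card V : ℝ) - 1), sq_nonneg ((Fintype.card V : ℝ))]
  rw [mul_comm]
  exact mul_le_mul_of_nonneg_right h1 (by linarith)

theorem holes_sdiff_add {s : V → V} {Y : Finset V} {u w : V} (huw : u ≠ w) (hu : u ∈ holes s \ Y)
    (hw : w ∈ holes s \ Y) : (holes (add s u w) \ Y).card + 2 = (holes s \ Y).card := by
  rw [holes_add huw]
  have hsub : ({u, w} : Finset V) ⊆ holes s \ Y := by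
    intro x hx
    rcases Finset.mem_insert.1 hx with h | h
    · rw [h]; exact hu
    · rw [Finset.mem_singleton.1 h]; exact hw
  have h2 : ({u, w} : Finset V).card = 2 := Finset.card_pair huw
  have h3 := Finset.card_sdiff_add_card_eq_card hsub
  have h4 : (holes s \ {u, w}) \ Y = (holes s \ Y) \ {u, w} := by
    ext x; simp only [mem_sdiff]; tauto
  rw [h4]; omega

/-- generic one-label domination step -/
theorem lab_dom (A B : Finset ((V → V) × (V → V))) (φ : (V → V) × (V → V) → (V → V) × (V → V))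
    (lab : (V → V) × (V → V) → V) (F G : (V → V) × (V → V) → ℝ) {K : ℝ} (hK : 0 ≤ K)
    (hmap : ∀ x ∈ A, φ x ∈ B)
    (hinj : ∀ x ∈ A, ∀ y ∈ A, φ x = φ y → lab x = lab y → x = y)
    (hle : ∀ x ∈ A, F x ≤ K * G (φ x)) (hG : ∀ y ∈ B, 0 ≤ G y) :
    ∑ x ∈ A, F x ≤ K * (Fintype.card V : ℝ) * ∑ y ∈ B, G y := by
  have h := sum_dom A (B ×ˢ (univ : Finset V)) (fun x => (φ x, lab x)) F (fun y => G y.1) hK
    (fun x hx => by rw [mem_product]; exact ⟨hmap x hx, mem_univ _⟩)
    (fun x hx y hy hxy => by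
      rw [Prod.mk.injEq] at hxy
      exact hinj x hx y hy hxy.1 hxy.2) hle
    (fun y hy => hG y.1 (mem_product.1 hy).1)
  refine h.trans (le_of_eq ?_)
  rw [Finset.sum_product]
  simp only [Finset.sum_const, Finset.card_univ, nsmul_eq_mul]
  rw [← Finset.mul_sum]; ring

include hsym hpos hc hc1 hN in
/-- holes of the second member outside the component can be removed for free -/
theorem Sij_right (v : V) (i j : ℕ) : Sij g f v i (j + 2) ≤ kap V c0 * Sij g f v i j := by
  have hp : ∀ N ∈ DS V v i (j + 2), ∃ x : V × V, x.1 ≠ x.2 ∧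
      x.1 ∈ holes N.2 \ comp N.1 N.2 v ∧ x.2 ∈ holes N.2 \ comp N.1 N.2 v := by
    intro N hmem
    obtain ⟨h1, h2, h3, h4, h5, h6, h7⟩ := mem_DS.1 hmem
    obtain ⟨a, ha, b, hb, hab⟩ := Finset.one_lt_card.1 (show 1 < (holes N.2 \ comp N.1 N.2 v).card by omega)
    exact ⟨(a, b), hab, ha, hb⟩
  have : Nonempty V := ⟨v⟩
  choose! X hX using hp
  have h := lab_dom (DS V v i (j + 2)) (DS V v i j) (fun N => (N.1, add N.2 (X N).1 (X N).2))
    (fun N => (X N).1) (dT g f v) (dT g f v) (inv_nonneg.2 hc.le) ?_ ?_ ?_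
    (fun N _ => dT_nonneg hpos f v N)
  · refine h.trans ?_
    exact mul_le_mul_of_nonneg_right (card_V_inv_le_kap hc hc1) (Sij_nonneg hpos f v i j)
  · intro N hmem
    obtain ⟨a1, a2, a3⟩ := hX N hmem
    obtain ⟨h1, h2, h3, h4, h5, h6, h7⟩ := mem_DS.1 hmem
    have b2 := mem_sdiff.1 a2
    have b3 := mem_sdiff.1 a3
    have e1 : comp N.1 (add N.2 (X N).1 (X N).2) v = comp N.1 N.2 v := by
      rw [comp_comm, comp_add (by rw [comp_comm]; exact b2.2) (by rw [comp_comm]; exact b3.2),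
        comp_comm]
    have e2 := holes_sdiff_add a1 a2 a3
    have e3 := card_holes_add a1 b2.1 b3.1
    rw [mem_DS]
    simp only
    rw [e1]
    refine ⟨h1, h2.add (mem_holes.1 b2.1) (mem_holes.1 b3.1), h3, ?_, ?_, h6, by omega⟩
    · obtain ⟨k, hk⟩ := h4
      exact ⟨k - 1, by omega⟩
    · rcases h5 with h | h
      · exact Or.inl h
      · right
        have n1 : v ≠ (X N).1 := fun e => b2.2 (by rw [← e]; exact self_mem_comp)
        have n2 : v ≠ (X N).2 := fun e => b3.2 (by rw [← e]; exact self_mem_comp)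
        rw [add_of_ne n1 n2]
        exact h
  · intro N hmem N' hmem' heq hlab
    obtain ⟨a1, a2, a3⟩ := hX N hmem
    obtain ⟨a1', a2', a3'⟩ := hX N' hmem'
    simp only [Prod.mk.injEq] at heq
    obtain ⟨e1, e2⟩ := heq
    have d1 := del_add (mem_holes.1 (mem_sdiff.1 a2).1) (mem_holes.1 (mem_sdiff.1 a3).1)
    have d2 := del_add (mem_holes.1 (mem_sdiff.1 a2').1) (mem_holes.1 (mem_sdiff.1 a3').1)
    rw [e2, hlab, d2] at d1
    exact Prod.ext e1 d1.symm
  · intro N hmem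
    obtain ⟨a1, a2, a3⟩ := hX N hmem
    have b2 := mem_sdiff.1 a2
    have b3 := mem_sdiff.1 a3
    have e1 : comp N.1 (add N.2 (X N).1 (X N).2) v = comp N.1 N.2 v := by
      rw [comp_comm, comp_add (by rw [comp_comm]; exact b2.2) (by rw [comp_comm]; exact b3.2),
        comp_comm]
    have e2 : Db g f N.1 (add N.2 (X N).1 (X N).2) v = Db g f N.1 N.2 v :=
      Db_congr g f fun x hx => ⟨rfl, add_of_ne (fun e => b2.2 (e ▸ hx)) (fun e => b3.2 (e ▸ hx))⟩
    have e3 : Gf f N.1 (add N.2 (X N).1 (X N).2) v = Gf f N.1 N.2 v := by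
      unfold Gf
      rw [e1, swp_add_out' b2.2 b3.2]
    unfold dT
    simp only
    rw [e2, e3, ← mul_assoc]
    refine mul_le_mul_of_nonneg_right ?_ (sq_nonneg _)
    have i1 := W_le_add hsym hpos hc hN a1 (mem_holes.1 b2.1) (mem_holes.1 b3.1)
    calc W g N.1 * W g N.2 ≤ W g N.1 * (c0⁻¹ * W g (add N.2 (X N).1 (X N).2)) :=
          mul_le_mul_of_nonneg_left i1 (W_pos hpos _).le
      _ = _ := by ring

/-- total repair term -/
noncomputable def rT (g : V → V → ℝ) (f : (V → V) → ℝ) (N : (V → V) × (V → V)) : ℝ :=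
  W g N.1 * W g N.2 * ∑ u, ∑ w, dU f N.1 u w

include hpos in
theorem rT_nonneg (N : (V → V) × (V → V)) : 0 ≤ rT g f N :=
  mul_nonneg (mul_nonneg (W_pos hpos _).le (W_pos hpos _).le)
    (Finset.sum_nonneg fun u _ => Finset.sum_nonneg fun w _ => dU_nonneg f _ u w)

theorem dU_le_sum {s : V → V} {u w : V} (hu : s u = u) (hw : s w = w) (huw : u ≠ w) :
    (f (jn (add s u w)) - f (jn s)) ^ 2 ≤ ∑ a, ∑ b, dU f s a b := by
  have h1 : (f (jn (add s u w)) - f (jn s)) ^ 2 = dU f s u w := by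
    unfold dU; rw [if_pos ⟨hu, hw, huw⟩]
  rw [h1]
  calc dU f s u w ≤ ∑ b, dU f s u b :=
        Finset.single_le_sum (f := fun b => dU f s u b) (fun b _ => dU_nonneg f s u b) (mem_univ w)
    _ ≤ _ := Finset.single_le_sum (f := fun a => ∑ b, dU f s a b)
        (fun a _ => Finset.sum_nonneg fun b _ => dU_nonneg f s a b) (mem_univ u)

theorem defects_of {v : V} {N : (V → V) × (V → V)} (h1 : Inv N.1) (h2 : Inv N.2)
    (h5 : N.1 v = v ∨ N.2 v = v) :
    (comp N.1 N.2 v ∩ holes N.1).card + (comp N.1 N.2 v ∩ holes N.2).card = 2 := by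
  rcases h5 with h | h
  · exact defects_left h1 h2 h
  · exact defects_right h1 h2 h

theorem DS_Conf {v : V} {i j : ℕ} (hij : i + j ≤ 4) {N : (V → V) × (V → V)}
    (h : N ∈ DS V v i j) : N ∈ Conf V := by
  obtain ⟨h1, h2, h3, h4, h5, h6, h7⟩ := mem_DS.1 h
  simp only [Conf, mem_filter, mem_product, mem_invs]
  refine ⟨⟨h1, h2⟩, h3, h4, ?_⟩
  have := defects_of h1 h2 h5
  have := card_split N.1 (comp N.1 N.2 v)
  have := card_split N.2 (comp N.1 N.2 v)
  omega

/-- swap of the component of `v` -/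
noncomputable def sq (v : V) (N : (V → V) × (V → V)) : (V → V) × (V → V) :=
  (swp (comp N.1 N.2 v) N.1 N.2, swp (comp N.1 N.2 v) N.2 N.1)

theorem comp_sq (v x : V) (N : (V → V) × (V → V)) :
    comp (sq v N).1 (sq v N).2 x = comp N.1 N.2 x := comp_swp

theorem sq_sq (v : V) (N : (V → V) × (V → V)) : sq v (sq v N) = N := by
  have h : comp (sq v N).1 (sq v N).2 v = comp N.1 N.2 v := comp_sq v v N
  unfold sq at h ⊢
  simp only at h ⊢
  rw [h, swp_swp, swp_swp]

theorem W_sq (g : V → V → ℝ) (v : V) (N : (V → V) × (V → V)) :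
    W g (sq v N).1 * W g (sq v N).2 = W g N.1 * W g N.2 := W_swp_mul g

theorem Inv_sq {v : V} {N : (V → V) × (V → V)} (h1 : Inv N.1) (h2 : Inv N.2) :
    Inv (sq v N).1 ∧ Inv (sq v N).2 :=
  ⟨h1.swp h2 comp_cl_left comp_cl_right, h2.swp h1 comp_cl_right comp_cl_left⟩

/-- the number of holes after the swap -/
theorem card_sq1 (v : V) (N : (V → V) × (V → V)) : (holes (sq v N).1).card =
    (comp N.1 N.2 v ∩ holes N.2).card + (holes N.1 \ comp N.1 N.2 v).card := by
  unfold sq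
  simp only
  rw [holes_swp, Finset.card_union_of_disjoint, Finset.inter_comm]
  rw [Finset.disjoint_left]
  intro x hx hx'
  exact (mem_sdiff.1 hx').2 (mem_inter.1 hx).2

theorem card_sq2 (v : V) (N : (V → V) × (V → V)) : (holes (sq v N).2).card =
    (comp N.1 N.2 v ∩ holes N.1).card + (holes N.2 \ comp N.1 N.2 v).card := by
  unfold sq
  simp only
  rw [holes_swp, Finset.card_union_of_disjoint, Finset.inter_comm]
  rw [Finset.disjoint_left]
  intro x hx hx'
  exact (mem_sdiff.1 hx').2 (mem_inter.1 hx).2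

/-- the parity inside a component is the same for both members -/
theorem par_comp {s t : V → V} (hs : Inv s) (ht : Inv t) (v : V) :
    (comp s t v ∩ holes s).card % 2 = (comp s t v ∩ holes t).card % 2 := by
  rw [card_inter_holes_mod hs comp_cl_left, card_inter_holes_mod ht comp_cl_right]

theorem sq_Conf {v : V} {N : (V → V) × (V → V)} (h : N ∈ Conf V) : sq v N ∈ Conf V := by
  simp only [Conf, mem_filter, mem_product, mem_invs] at h ⊢
  obtain ⟨⟨h1, h2⟩, ⟨k, hk⟩, ⟨l, hl⟩, h5⟩ := h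
  have a1 := card_sq1 v N
  have a2 := card_sq2 v N
  have a3 := card_split N.1 (comp N.1 N.2 v)
  have a4 := card_split N.2 (comp N.1 N.2 v)
  have a5 := par_comp h1 h2 v
  refine ⟨Inv_sq h1 h2, ?_, ?_, by omega⟩
  · rw [Nat.even_iff]; omega
  · rw [Nat.even_iff]; omega

include hpos in
theorem sum_sq_le (v : V) (A : Finset ((V → V) × (V → V))) (hA : A ⊆ Conf V) :
    ∑ N ∈ A, rT g f (sq v N) ≤ ∑ N ∈ Conf V, rT g f N := by
  rw [← Finset.sum_image (f := fun N => rT g f N) (g := sq v) (s := A)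
    (fun x _ y _ hxy => by
      have := congrArg (sq v) hxy
      rwa [sq_sq, sq_sq] at this)]
  refine Finset.sum_le_sum_of_subset_of_nonneg ?_ fun N _ _ => rT_nonneg hpos f N
  intro N hN'
  obtain ⟨M, hM, rfl⟩ := Finset.mem_image.1 hN'
  exact sq_Conf (hA hM)

/-- right-hand side of the re-pairing lemma -/
noncomputable def RB (g : V → V → ℝ) (c0 : ℝ) (f : (V → V) → ℝ) : ℝ :=
  Krep V c0 * (Zh g ∅ * Esw g f)

include hsym hpos hc hc1 hN in
/-- holes of the first member outside the component -/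
theorem Sij_left (v : V) (i j : ℕ) (hij : i + 2 + j ≤ 4) :
    Sij g f v (i + 2) j ≤ 3 * kap V c0 * Sij g f v i j + 6 * RB g c0 f := by
  have hp : ∀ N ∈ DS V v (i + 2) j, ∃ x : V × V, x.1 ≠ x.2 ∧
      x.1 ∈ holes N.1 \ comp N.1 N.2 v ∧ x.2 ∈ holes N.1 \ comp N.1 N.2 v := by
    intro N hmem
    obtain ⟨h1, h2, h3, h4, h5, h6, h7⟩ := mem_DS.1 hmem
    obtain ⟨a, ha, b, hb, hab⟩ := Finset.one_lt_card.1 (show 1 < (holes N.1 \ comp N.1 N.2 v).card by omega)
    exact ⟨(a, b), hab, ha, hb⟩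
  have : Nonempty V := ⟨v⟩
  choose! X hX using hp
  -- pointwise
  have hpt : ∀ N ∈ DS V v (i + 2) j, dT g f v N ≤
      3 * (W g N.1 * W g N.2 * (Gf f (add N.1 (X N).1 (X N).2) N.2 v -
        Db g f (add N.1 (X N).1 (X N).2) N.2 v) ^ 2) + 3 * rT g f N + 3 * rT g f (sq v N) := by
    intro N hmem
    obtain ⟨a1, a2, a3⟩ := hX N hmem
    have b2 := mem_sdiff.1 a2
    have b3 := mem_sdiff.1 a3
    have e1 : comp (add N.1 (X N).1 (X N).2) N.2 v = comp N.1 N.2 v := comp_add b2.2 b3.2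
    have e2 : Db g f (add N.1 (X N).1 (X N).2) N.2 v = Db g f N.1 N.2 v :=
      Db_congr g f fun x hx => ⟨add_of_ne (fun e => b2.2 (e ▸ hx)) (fun e => b3.2 (e ▸ hx)), rfl⟩
    have e3 : Gf f (add N.1 (X N).1 (X N).2) N.2 v =
        f (jn (add (swp (comp N.1 N.2 v) N.1 N.2) (X N).1 (X N).2)) -
          f (jn (add N.1 (X N).1 (X N).2)) := by
      unfold Gf
      rw [e1, swp_add_out b2.2 b3.2]
    have r1 := dU_le_sum f (mem_holes.1 b2.1) (mem_holes.1 b3.1) a1
    have m1 : swp (comp N.1 N.2 v) N.1 N.2 (X N).1 = (X N).1 := by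
      rw [swp_of_not_mem b2.2]; exact mem_holes.1 b2.1
    have m2 : swp (comp N.1 N.2 v) N.1 N.2 (X N).2 = (X N).2 := by
      rw [swp_of_not_mem b3.2]; exact mem_holes.1 b3.1
    have r2 := dU_le_sum f m1 m2 a1
    have hω : 0 ≤ W g N.1 * W g N.2 := mul_nonneg (W_pos hpos _).le (W_pos hpos _).le
    have q1 := mul_le_mul_of_nonneg_left r1 hω
    have q2 := mul_le_mul_of_nonneg_left r2 hω
    have e4 : rT g f (sq v N) = W g N.1 * W g N.2 *
        ∑ u, ∑ w, dU f (swp (comp N.1 N.2 v) N.1 N.2) u w := by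
      unfold rT
      rw [W_sq]
      rfl
    rw [e4]
    unfold dT rT
    rw [e2, e3]
    unfold Gf
    set P := swp (comp N.1 N.2 v) N.1 N.2
    set D := Db g f N.1 N.2 v
    set x1 := f (jn P)
    set x2 := f (jn N.1)
    set x3 := f (jn (add P (X N).1 (X N).2))
    set x4 := f (jn (add N.1 (X N).1 (X N).2))
    set ω := W g N.1 * W g N.2
    have key : (x1 - x2 - D) ^ 2 ≤ 3 * (x3 - x4 - D) ^ 2 + 3 * (x4 - x2) ^ 2 +
        3 * (x3 - x1) ^ 2 := by
      nlinarith [sq_nonneg ((x3 - x4 - D) - (x4 - x2)), sq_nonneg ((x3 - x4 - D) + (x3 - x1)),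
        sq_nonneg ((x4 - x2) + (x3 - x1))]
    have := mul_le_mul_of_nonneg_left key hω
    linarith
  have h1 : ∑ N ∈ DS V v (i + 2) j, W g N.1 * W g N.2 *
      (Gf f (add N.1 (X N).1 (X N).2) N.2 v - Db g f (add N.1 (X N).1 (X N).2) N.2 v) ^ 2 ≤
      kap V c0 * Sij g f v i j := by
    have h := lab_dom (DS V v (i + 2) j) (DS V v i j) (fun N => (add N.1 (X N).1 (X N).2, N.2))
      (fun N => (X N).1) (fun N => W g N.1 * W g N.2 *
      (Gf f (add N.1 (X N).1 (X N).2) N.2 v - Db g f (add N.1 (X N).1 (X N).2) N.2 v) ^ 2)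
      (dT g f v) (inv_nonneg.2 hc.le) ?_ ?_ ?_
      (fun N _ => dT_nonneg hpos f v N)
    · refine h.trans ?_
      exact mul_le_mul_of_nonneg_right (card_V_inv_le_kap hc hc1) (Sij_nonneg hpos f v i j)
    · intro N hmem
      obtain ⟨a1, a2, a3⟩ := hX N hmem
      obtain ⟨h1, h2, h3, h4, h5, h6, h7⟩ := mem_DS.1 hmem
      have b2 := mem_sdiff.1 a2
      have b3 := mem_sdiff.1 a3
      have e1 : comp (add N.1 (X N).1 (X N).2) N.2 v = comp N.1 N.2 v := comp_add b2.2 b3.2
      have e2 := holes_sdiff_add a1 a2 a3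
      have e3 := card_holes_add a1 b2.1 b3.1
      rw [mem_DS]
      simp only
      rw [e1]
      refine ⟨h1.add (mem_holes.1 b2.1) (mem_holes.1 b3.1), h2, ?_, h4, ?_, by omega, h7⟩
      · obtain ⟨k, hk⟩ := h3
        exact ⟨k - 1, by omega⟩
      · rcases h5 with h | h
        · left
          have n1 : v ≠ (X N).1 := fun e => b2.2 (by rw [← e]; exact self_mem_comp)
          have n2 : v ≠ (X N).2 := fun e => b3.2 (by rw [← e]; exact self_mem_comp)
          rw [add_of_ne n1 n2]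
          exact h
        · exact Or.inr h
    · intro N hmem N' hmem' heq hlab
      obtain ⟨a1, a2, a3⟩ := hX N hmem
      obtain ⟨a1', a2', a3'⟩ := hX N' hmem'
      simp only [Prod.mk.injEq] at heq
      obtain ⟨e1, e2⟩ := heq
      have d1 := del_add (mem_holes.1 (mem_sdiff.1 a2).1) (mem_holes.1 (mem_sdiff.1 a3).1)
      have d2 := del_add (mem_holes.1 (mem_sdiff.1 a2').1) (mem_holes.1 (mem_sdiff.1 a3').1)
      rw [e1, hlab, d2] at d1
      exact Prod.ext d1.symm e2
    · intro N hmem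
      obtain ⟨a1, a2, a3⟩ := hX N hmem
      have b2 := mem_sdiff.1 a2
      have b3 := mem_sdiff.1 a3
      unfold dT
      simp only
      rw [← mul_assoc]
      refine mul_le_mul_of_nonneg_right ?_ (sq_nonneg _)
      have i1 := W_le_add hsym hpos hc hN a1 (mem_holes.1 b2.1) (mem_holes.1 b3.1)
      calc W g N.1 * W g N.2 ≤ (c0⁻¹ * W g (add N.1 (X N).1 (X N).2)) * W g N.2 :=
            mul_le_mul_of_nonneg_right i1 (W_pos hpos _).le
        _ = _ := by ring
  have hsub : DS V v (i + 2) j ⊆ Conf V := fun N hN' => DS_Conf hij hN'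
  have hrep : ∑ N ∈ Conf V, rT g f N ≤ RB g c0 f := repair_aux hsym hpos hc hc1 hN f
  have h2 : ∑ N ∈ DS V v (i + 2) j, rT g f N ≤ RB g c0 f :=
    (Finset.sum_le_sum_of_subset_of_nonneg hsub fun N _ _ => rT_nonneg hpos f N).trans hrep
  have h3 : ∑ N ∈ DS V v (i + 2) j, rT g f (sq v N) ≤ RB g c0 f :=
    (sum_sq_le hpos f v _ hsub).trans hrep
  have h4 := Finset.sum_le_sum hpt
  rw [Finset.sum_add_distrib, Finset.sum_add_distrib, ← Finset.mul_sum, ← Finset.mul_sum,
    ← Finset.mul_sum] at h4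
  unfold Sij at h1 ⊢
  linarith

end main

end CQ

end Crest.Agent.R304
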