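import Crest.Agent.R304.ConfQ6

/-!
# R304 / S0464: Lemma Q
-/

set_option autoImplicit false
set_option linter.unusedSectionVars false
set_option linter.unusedVariables false

namespace Crest.Agent.R304

open Finset

namespace CQ

variable {V : Type*} [Fintype V] [DecidableEq V]

section main
variable {g : V → V → ℝ} {c0 : ℝ} (hsym : ∀ u v, g u v = g v u) (hpos : ∀ u v, 0 < g u v)
  (hc : 0 < c0) (hc1 : c0 ≤ 1) (hN : NodeA g c0) (f : (V → V) → ℝ)

/-- the nine classes -/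
def P9 : Finset (ℕ × ℕ) := {(0,0), (1,1), (2,0), (0,2), (2,2), (1,3), (3,1), (4,0), (0,4)}

theorem mem_P9 {i j : ℕ} (h : i + j ≤ 4) (hp : i % 2 = j % 2) : (i, j) ∈ P9 := by
  have hi : i ≤ 4 := by omega
  have hj : j ≤ 4 := by omega
  interval_cases i <;> interval_cases j <;> first | (exfalso; omega) | decide

/-- centred sum over the configurations with a defect at `v` -/
noncomputable def Tv (g : V → V → ℝ) (f : (V → V) → ℝ) (v : V) : ℝ :=
  ∑ N ∈ (Conf V).filter (fun N => N.1 v = v ∨ N.2 v = v), dT g f v N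

include hpos hc hc1 in
theorem RB_nonneg : 0 ≤ RB g c0 f := by
  have h1 := Zh_nn (g := g) hpos
  have h2 := Esw_nonneg (g := g) hpos f
  have h3 := kap_pos (V := V) hc hc1
  unfold RB Krep
  positivity

include hsym hpos hc hc1 hN in
theorem Sij_all (v : V) : ∀ p ∈ P9, Sij g f v p.1 p.2 ≤
    9 * kap V c0 ^ 2 * CB g c0 f v + 24 * kap V c0 * RB g c0 f := by
  have hk := one_le_kap (V := V) hc hc1
  have hR := RB_nonneg (V := V) (g := g) hpos hc hc1 f
  have hC := CB_nonneg (V := V) (g := g) hpos hc f v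
  set κ := kap V c0
  set R := RB g c0 f
  set C := CB g c0 f v
  have h00 : Sij g f v 0 0 ≤ C := Sij_base hsym hpos hc hc1 hN f v 0 (by norm_num)
  have h11 : Sij g f v 1 1 ≤ C := Sij_base hsym hpos hc hc1 hN f v 1 le_rfl
  have h20 : Sij g f v 2 0 ≤ 3 * κ * Sij g f v 0 0 + 6 * R :=
    Sij_left hsym hpos hc hc1 hN f v 0 0 (by norm_num)
  have h02 : Sij g f v 0 2 ≤ κ * Sij g f v 0 0 := Sij_right hsym hpos hc hc1 hN f v 0 0
  have h22 : Sij g f v 2 2 ≤ κ * Sij g f v 2 0 := Sij_right hsym hpos hc hc1 hN f v 2 0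
  have h13 : Sij g f v 1 3 ≤ κ * Sij g f v 1 1 := Sij_right hsym hpos hc hc1 hN f v 1 1
  have h31 : Sij g f v 3 1 ≤ 3 * κ * Sij g f v 1 1 + 6 * R :=
    Sij_left hsym hpos hc hc1 hN f v 1 1 (by norm_num)
  have h40 : Sij g f v 4 0 ≤ 3 * κ * Sij g f v 2 0 + 6 * R :=
    Sij_left hsym hpos hc hc1 hN f v 2 0 (by norm_num)
  have h04 : Sij g f v 0 4 ≤ κ * Sij g f v 0 2 := Sij_right hsym hpos hc hc1 hN f v 0 2
  have hκ0 : 0 ≤ κ := by linarith
  have a1 : C ≤ κ * C := by nlinarith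
  have a2 : κ * C ≤ κ ^ 2 * C := by
    rw [pow_two, mul_assoc]; exact le_mul_of_one_le_left (mul_nonneg hκ0 hC) hk
  have a3 : R ≤ κ * R := by nlinarith
  have b00 : κ * Sij g f v 0 0 ≤ κ * C := mul_le_mul_of_nonneg_left h00 hκ0
  have b11 : κ * Sij g f v 1 1 ≤ κ * C := mul_le_mul_of_nonneg_left h11 hκ0
  have b02 : κ * Sij g f v 0 2 ≤ κ * (κ * C) :=
    mul_le_mul_of_nonneg_left (h02.trans b00) hκ0
  have b20 : κ * Sij g f v 2 0 ≤ κ * (3 * (κ * C) + 6 * R) :=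
    mul_le_mul_of_nonneg_left (by linarith) hκ0
  have e1 : κ * (κ * C) = κ ^ 2 * C := by ring
  have e2 : κ * (3 * (κ * C) + 6 * R) = 3 * (κ ^ 2 * C) + 6 * (κ * R) := by ring
  have e3 : 9 * κ ^ 2 * C + 24 * κ * R = 9 * (κ ^ 2 * C) + 24 * (κ * R) := by ring
  rw [e1] at b02
  rw [e2] at b20
  intro p hp
  rw [e3]
  simp only [P9, mem_insert, mem_singleton] at hp
  rcases hp with h | h | h | h | h | h | h | h | h <;> subst h <;> simp only <;> linarith

include hsym hpos hc hc1 hN in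
theorem Tv_le (v : V) : Tv g f v ≤
    9 * (9 * kap V c0 ^ 2 * CB g c0 f v + 24 * kap V c0 * RB g c0 f) := by
  have hmaps : ∀ N ∈ (Conf V).filter (fun N => N.1 v = v ∨ N.2 v = v),
      ((holes N.1 \ comp N.1 N.2 v).card, (holes N.2 \ comp N.1 N.2 v).card) ∈ P9 := by
    intro N hN'
    rw [mem_filter] at hN'
    obtain ⟨h0, h5⟩ := hN'
    simp only [Conf, mem_filter, mem_product, mem_invs] at h0
    obtain ⟨⟨h1, h2⟩, ⟨k, hk⟩, ⟨l, hl⟩, h6⟩ := h0
    have d := defects_of h1 h2 h5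
    have c1 := card_split N.1 (comp N.1 N.2 v)
    have c2 := card_split N.2 (comp N.1 N.2 v)
    exact mem_P9 (by omega) (by omega)
  unfold Tv
  rw [← Finset.sum_fiberwise_of_maps_to hmaps]
  calc _ ≤ ∑ p ∈ P9, Sij g f v p.1 p.2 := by
        refine Finset.sum_le_sum fun p _ => ?_
        refine Finset.sum_le_sum_of_subset_of_nonneg ?_ fun N _ _ => dT_nonneg hpos f v N
        intro N hN'
        rw [mem_filter, mem_filter] at hN'
        obtain ⟨⟨h0, h5⟩, h6⟩ := hN'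
        simp only [Conf, mem_filter, mem_product, mem_invs] at h0
        obtain ⟨⟨h1, h2⟩, h3, h4, h7⟩ := h0
        rw [mem_DS, ← h6]
        exact ⟨h1, h2, h3, h4, h5, rfl, rfl⟩
    _ ≤ ∑ p ∈ P9, (9 * kap V c0 ^ 2 * CB g c0 f v + 24 * kap V c0 * RB g c0 f) :=
        Finset.sum_le_sum (Sij_all hsym hpos hc hc1 hN f v)
    _ = _ := by
        rw [Finset.sum_const, nsmul_eq_mul]
        have : P9.card = 9 := by decide
        rw [this]; norm_num

include hsym hpos hc hc1 hN in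
theorem sum_Tv_le : ∑ v, Tv g f v ≤ 72738 * kap V c0 ^ 9 * En g f := by
  have hk := one_le_kap (V := V) hc hc1
  have hk0 : 0 ≤ kap V c0 := by linarith
  have hE := En_nonneg (g := g) f hpos
  have hE2 := E2_nonneg (g := g) f hpos
  have hEx := Eex_nonneg (g := g) f hpos
  have hZE := ZEsw_le_En (g := g) f hpos
  have hZE0 : 0 ≤ Zh g ∅ * Esw g f := mul_nonneg (Zh_nn hpos) (Esw_nonneg hpos f)
  have hci : 0 ≤ c0⁻¹ := inv_nonneg.2 hc.le
  have h1 : ∑ v, CB g c0 f v = (Fintype.card V : ℝ) * (c0⁻¹ ^ 2 * E2 g f) +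
      2 * (c0⁻¹ * (Fintype.card V * Eex g f)) := by
    unfold CB
    rw [Finset.sum_add_distrib, ← Finset.mul_sum, ← Finset.mul_sum, ← Finset.mul_sum,
      ← Finset.mul_sum, sum_EexV]
    simp only [Finset.sum_const, Finset.card_univ, nsmul_eq_mul]
    ring
  have hn := card_V_inv_le_kap (V := V) hc hc1
  have hi := inv_le_kap (V := V) hc hc1
  have hn' : (Fintype.card V : ℝ) ≤ kap V c0 := by
    refine le_trans ?_ hn
    have := one_le_inv hc hc1
    have h0 : (0 : ℝ) ≤ Fintype.card V := Nat.cast_nonneg _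
    nlinarith
  have h2 : ∑ v, CB g c0 f v ≤ 2 * kap V c0 ^ 2 * En g f := by
    rw [h1]
    have q1 : (Fintype.card V : ℝ) * (c0⁻¹ ^ 2 * E2 g f) ≤ kap V c0 ^ 2 * E2 g f := by
      have : (Fintype.card V : ℝ) * (c0⁻¹ ^ 2 * E2 g f) =
          ((c0⁻¹ * Fintype.card V) * c0⁻¹) * E2 g f := by ring
      rw [this, pow_two]
      exact mul_le_mul_of_nonneg_right (mul_le_mul hn hi hci hk0) hE2
    have q2 : c0⁻¹ * (Fintype.card V * Eex g f) ≤ kap V c0 ^ 2 * Eex g f := by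
      have : c0⁻¹ * (Fintype.card V * Eex g f) = (c0⁻¹ * Fintype.card V) * Eex g f := by ring
      rw [this]
      refine mul_le_mul_of_nonneg_right (hn.trans ?_) hEx
      nlinarith
    have q3 : E2 g f + Eex g f ≤ En g f := by unfold En; linarith
    have q4 := mul_le_mul_of_nonneg_left q3 (show 0 ≤ kap V c0 ^ 2 by positivity)
    have q5 : 0 ≤ kap V c0 ^ 2 * E2 g f := by positivity
    linarith
  have h3 : ∑ v : V, RB g c0 f ≤ kap V c0 * (Krep V c0 * En g f) := by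
    simp only [Finset.sum_const, Finset.card_univ, nsmul_eq_mul]
    have hK : 0 ≤ Krep V c0 := by unfold Krep; positivity
    unfold RB
    exact mul_le_mul hn' (mul_le_mul_of_nonneg_left hZE hK) (mul_nonneg hK hZE0) hk0
  calc ∑ v, Tv g f v ≤ ∑ v, 9 * (9 * kap V c0 ^ 2 * CB g c0 f v + 24 * kap V c0 * RB g c0 f) :=
        Finset.sum_le_sum fun v _ => Tv_le hsym hpos hc hc1 hN f v
    _ = 81 * kap V c0 ^ 2 * ∑ v, CB g c0 f v + 216 * kap V c0 * ∑ v : V, RB g c0 f := by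
        rw [← Finset.mul_sum, Finset.sum_add_distrib, ← Finset.mul_sum, ← Finset.mul_sum]; ring
    _ ≤ 81 * kap V c0 ^ 2 * (2 * kap V c0 ^ 2 * En g f) +
        216 * kap V c0 * (kap V c0 * (Krep V c0 * En g f)) :=
        add_le_add (mul_le_mul_of_nonneg_left h2 (by positivity))
          (mul_le_mul_of_nonneg_left h3 (by positivity))
    _ = (162 * kap V c0 ^ 4 + 72576 * kap V c0 ^ 9) * En g f := by unfold Krep; ring
    _ ≤ _ := by
        refine mul_le_mul_of_nonneg_right ?_ hE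
        have : kap V c0 ^ 4 ≤ kap V c0 ^ 9 := pow_le_pow_right₀ hk (by norm_num)
        linarith

include hpos in
/-- the defect of the exchange of two components -/
theorem diff_eq {N : (V → V) × (V → V)} (h1 : Inv N.1) (h2 : Inv N.2) {x y : V}
    (hy : y ∉ comp N.1 N.2 x) :
    W g N.1 * W g N.2 * (f (jn N.1) + f (jn (swp (comp N.1 N.2 y) (swp (comp N.1 N.2 x) N.1 N.2)
      (swp (comp N.1 N.2 x) N.2 N.1))) - f (jn (swp (comp N.1 N.2 x) N.1 N.2)) -
      f (jn (swp (comp N.1 N.2 y) N.1 N.2))) ^ 2 ≤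
    2 * dT g f y (sq x N) + 2 * dT g f y N := by
  have hd := comp_disjoint h1 h2 hy
  have e1 : Db g f (sq x N).1 (sq x N).2 y = Db g f N.1 N.2 y := by
    refine Db_congr g f fun z hz => ?_
    have hz' : z ∉ comp N.1 N.2 x := Finset.disjoint_left.1 hd hz
    exact ⟨swp_of_not_mem hz', swp_of_not_mem hz'⟩
  have e2 : Gf f (sq x N).1 (sq x N).2 y = f (jn (swp (comp N.1 N.2 y)
      (swp (comp N.1 N.2 x) N.1 N.2) (swp (comp N.1 N.2 x) N.2 N.1))) -
      f (jn (swp (comp N.1 N.2 x) N.1 N.2)) := by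
    unfold Gf
    rw [comp_sq]
    rfl
  unfold dT
  rw [W_sq, e1, e2]
  unfold Gf
  have hω : 0 ≤ W g N.1 * W g N.2 := mul_nonneg (W_pos hpos _).le (W_pos hpos _).le
  set ω := W g N.1 * W g N.2
  set D := Db g f N.1 N.2 y
  set x1 := f (jn N.1)
  set x2 := f (jn (swp (comp N.1 N.2 y)
    (swp (comp N.1 N.2 x) N.1 N.2) (swp (comp N.1 N.2 x) N.2 N.1)))
  set x3 := f (jn (swp (comp N.1 N.2 x) N.1 N.2))
  set x4 := f (jn (swp (comp N.1 N.2 y) N.1 N.2))
  have key : (x1 + x2 - x3 - x4) ^ 2 ≤ 2 * (x2 - x3 - D) ^ 2 + 2 * (x4 - x1 - D) ^ 2 := by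
    nlinarith [sq_nonneg ((x2 - x3 - D) + (x4 - x1 - D))]
  have := mul_le_mul_of_nonneg_left key hω
  linarith

include hpos in
/-- for fixed `x`, `y` -/
theorem pair_le (x y : V) :
    ∑ N ∈ Conf V, (if (N.1 x = x ∨ N.2 x = x) ∧ (N.1 y = y ∨ N.2 y = y) ∧
        y ∉ comp N.1 N.2 x then
      W g N.1 * W g N.2 * (f (jn N.1) + f (jn (swp (comp N.1 N.2 y)
        (swp (comp N.1 N.2 x) N.1 N.2) (swp (comp N.1 N.2 x) N.2 N.1))) -
        f (jn (swp (comp N.1 N.2 x) N.1 N.2)) - f (jn (swp (comp N.1 N.2 y) N.1 N.2))) ^ 2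
      else 0) ≤ 4 * Tv g f y := by
  classical
  rw [← Finset.sum_filter]
  set A := (Conf V).filter (fun N => (N.1 x = x ∨ N.2 x = x) ∧ (N.1 y = y ∨ N.2 y = y) ∧
        y ∉ comp N.1 N.2 x) with hA
  have hmem : ∀ N ∈ A, N ∈ Conf V ∧ Inv N.1 ∧ Inv N.2 ∧ (N.1 y = y ∨ N.2 y = y) ∧
      y ∉ comp N.1 N.2 x := by
    intro N hN'
    rw [hA, mem_filter] at hN'
    obtain ⟨h0, h1, h2, h3⟩ := hN'
    have h0' := h0
    simp only [Conf, mem_filter, mem_product, mem_invs] at h0'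
    exact ⟨h0, h0'.1.1, h0'.1.2, h2, h3⟩
  have h1 : ∑ N ∈ A, (W g N.1 * W g N.2 * (f (jn N.1) + f (jn (swp (comp N.1 N.2 y)
        (swp (comp N.1 N.2 x) N.1 N.2) (swp (comp N.1 N.2 x) N.2 N.1))) -
        f (jn (swp (comp N.1 N.2 x) N.1 N.2)) - f (jn (swp (comp N.1 N.2 y) N.1 N.2))) ^ 2) ≤
      ∑ N ∈ A, (2 * dT g f y (sq x N) + 2 * dT g f y N) :=
    Finset.sum_le_sum fun N hN' => by
      obtain ⟨-, a1, a2, -, a3⟩ := hmem N hN'
      exact diff_eq hpos f a1 a2 a3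
  refine h1.trans ?_
  rw [Finset.sum_add_distrib, ← Finset.mul_sum, ← Finset.mul_sum]
  have h2 : ∑ N ∈ A, dT g f y N ≤ Tv g f y := by
    refine Finset.sum_le_sum_of_subset_of_nonneg ?_ fun N _ _ => dT_nonneg hpos f y N
    intro N hN'
    obtain ⟨a0, a1, a2, a3, a4⟩ := hmem N hN'
    rw [mem_filter]
    exact ⟨a0, a3⟩
  have h3 : ∑ N ∈ A, dT g f y (sq x N) ≤ Tv g f y := by
    rw [← Finset.sum_image (f := fun N => dT g f y N) (g := sq x) (s := A)
      (fun u _ w _ huw => by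
        have := congrArg (sq x) huw
        rwa [sq_sq, sq_sq] at this)]
    refine Finset.sum_le_sum_of_subset_of_nonneg ?_ fun N _ _ => dT_nonneg hpos f y N
    intro N hN'
    obtain ⟨M, hM, rfl⟩ := Finset.mem_image.1 hN'
    obtain ⟨a0, a1, a2, a3, a4⟩ := hmem M hM
    rw [mem_filter]
    refine ⟨sq_Conf a0, ?_⟩
    show swp (comp M.1 M.2 x) M.1 M.2 y = y ∨ swp (comp M.1 M.2 x) M.2 M.1 y = y
    rw [swp_of_not_mem a4, swp_of_not_mem a4]
    exact a3
  linarith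

/-- constant of Lemma Q -/
noncomputable def KQ (V : Type*) [Fintype V] (c0 : ℝ) : ℝ := 290952 * kap V c0 ^ 10

end main

end CQ

open CQ in
/-- **Lemma Q.** -/
theorem lemmaQ {V : Type*} [Fintype V] [DecidableEq V] {g : V → V → ℝ} {c0 : ℝ}
    (hsym : ∀ u v, g u v = g v u) (hpos : ∀ u v, 0 < g u v)
    (hc : 0 < c0) (hc1 : c0 ≤ 1) (hN : NodeA g c0) (f : (V → V) → ℝ) :
    ∑ N ∈ Conf V, ∑ x, ∑ y, (if (N.1 x = x ∨ N.2 x = x) ∧ (N.1 y = y ∨ N.2 y = y) ∧
        y ∉ comp N.1 N.2 x then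
      W g N.1 * W g N.2 * (f (jn N.1) + f (jn (swp (comp N.1 N.2 y)
        (swp (comp N.1 N.2 x) N.1 N.2) (swp (comp N.1 N.2 x) N.2 N.1))) -
        f (jn (swp (comp N.1 N.2 x) N.1 N.2)) - f (jn (swp (comp N.1 N.2 y) N.1 N.2))) ^ 2
      else 0) ≤ KQ V c0 * En g f := by
  have hk0 := kap_pos (V := V) hc hc1
  have hE := En_nonneg (g := g) f hpos
  have h1 := sum_Tv_le hsym hpos hc hc1 hN f
  have hn' : (Fintype.card V : ℝ) ≤ kap V c0 := by
    refine le_trans ?_ (card_V_inv_le_kap (V := V) hc hc1)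
    have := one_le_inv hc hc1
    have h0 : (0 : ℝ) ≤ Fintype.card V := Nat.cast_nonneg _
    nlinarith
  rw [Finset.sum_comm]
  calc _ ≤ ∑ x : V, ∑ y : V, 4 * Tv g f y := by
        refine Finset.sum_le_sum fun x _ => ?_
        rw [Finset.sum_comm]
        exact Finset.sum_le_sum fun y _ => pair_le hpos f x y
    _ = 4 * (Fintype.card V : ℝ) * ∑ y : V, Tv g f y := by
        simp only [Finset.sum_const, Finset.card_univ, nsmul_eq_mul, ← Finset.mul_sum]
        ring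
    _ ≤ 4 * (Fintype.card V : ℝ) * (72738 * kap V c0 ^ 9 * En g f) :=
        mul_le_mul_of_nonneg_left h1 (by positivity)
    _ ≤ 4 * kap V c0 * (72738 * kap V c0 ^ 9 * En g f) :=
        mul_le_mul_of_nonneg_right (by linarith) (by positivity)
    _ = KQ V c0 * En g f := by unfold KQ; ring

end Crest.Agent.R304
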