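import Crest.Agent.R304.Sim
import Crest.Agent.R304.Br555

/-!
# R304 / S0464 (START): the law of the sequentially sampled perfect matching
-/

set_option autoImplicit false

namespace Crest.Agent.R304.Start

open Finset Crest.Agent.R309.Tape Crest.Agent.R304.LM Crest.Agent.R304.Samp
  Crest.Agent.R304.Mov Crest.Agent.R304.Sim Crest.Agent.R304.L6
open Crest.Agent.Lib.PT.Arith (msb)

variable {n : ℕ}

/-- one step of the construction on encoded states -/
theorem matchStep_enc (a : Fin n) (L : List (Fin n)) (s : Fin n → Fin n) (l : List Bool)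
    (hL : 0 < L.length) :
    matchStep n (((a :: L).map (fun v : Fin n => (v : ℕ))), encF s) l =
      ((L.eraseIdx (msb l % L.length)).map (fun v : Fin n => (v : ℕ)),
        encF (join s a (L[msb l % L.length]'(Nat.mod_lt _ hL)))) := by
  unfold matchStep
  simp only [List.map_cons, List.tail_cons, List.headD_cons, List.length_map]
  have h1 : msb l % L.length < L.length := Nat.mod_lt _ hL
  have h2 : (L.map (fun v : Fin n => (v : ℕ))).getD (msb l % L.length) 0 =
      ((L[msb l % L.length] : Fin n) : ℕ) := by
    rw [List.getD_eq_getElem?_getD, List.getElem?_map, List.getElem?_eq_getElem h1]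
    simp
  rw [h2, joinL_enc, List.eraseIdx_map]

/-- the completions of a partial matching -/
def Ext (L : List (Fin n)) (s : Fin n → Fin n) (σ : Mov.Om (Fin n)) : Prop :=
  ∀ v, v ∉ L → σ.1 v = s v

instance (L : List (Fin n)) (s : Fin n → Fin n) (σ : Mov.Om (Fin n)) : Decidable (Ext L s σ) := by
  unfold Ext; infer_instance

/-- partial matching: `L` is the list of free vertices -/
structure Part (L : List (Fin n)) (s : Fin n → Fin n) : Prop where
  nodup : L.Nodup
  free : ∀ v ∈ L, s v = v
  inv : ∀ v, s (s v) = v
  ne : ∀ v, v ∉ L → s v ≠ v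

theorem Part.mem_iff {L : List (Fin n)} {s : Fin n → Fin n} (h : Part L s) {v : Fin n} :
    s v ∈ L ↔ v ∈ L := by
  constructor
  · intro h1
    have h2 := h.free _ h1
    rw [h.inv] at h2
    rw [h2]; exact h1
  · intro h1
    rw [h.free v h1]; exact h1

theorem mem_eraseIdx_iff {α : Type*} {L : List α} (hn : L.Nodup) {i : ℕ} (hi : i < L.length)
    (v : α) : v ∈ L.eraseIdx i ↔ v ∈ L ∧ v ≠ L[i] := by
  rw [List.mem_eraseIdx_iff_getElem]
  constructor
  · rintro ⟨j, hj, hji, rfl⟩
    refine ⟨List.getElem_mem _, fun h => hji ?_⟩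
    exact (List.Nodup.getElem_inj_iff hn).1 h
  · rintro ⟨h1, h2⟩
    obtain ⟨j, hj, rfl⟩ := List.mem_iff_getElem.1 h1
    exact ⟨j, hj, fun h => h2 (by subst h; rfl), rfl⟩

theorem Part.step {a : Fin n} {L : List (Fin n)} {s : Fin n → Fin n} (h : Part (a :: L) s)
    {i : ℕ} (hi : i < L.length) : Part (L.eraseIdx i) (join s a L[i]) := by
  have hnd := List.nodup_cons.1 h.nodup
  have hb : L[i] ∈ L := List.getElem_mem _
  have hab : a ≠ L[i] := fun h' => hnd.1 (h' ▸ hb)
  have hmem : ∀ v, v ∈ L.eraseIdx i ↔ v ∈ L ∧ v ≠ L[i] := mem_eraseIdx_iff hnd.2 hi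
  refine ⟨?_, ?_, ?_, ?_⟩
  · exact hnd.2.sublist (List.eraseIdx_sublist _ _)
  · intro v hv
    rw [hmem] at hv
    unfold join
    have hva : v ≠ a := by
      rintro rfl
      exact hnd.1 hv.1
    rw [if_neg hva, if_neg hv.2]
    exact h.free v (List.mem_cons_of_mem _ hv.1)
  · intro v
    have ha := h.free a (List.mem_cons_self ..)
    have hbb := h.free L[i] (List.mem_cons_of_mem _ hb)
    unfold join
    by_cases h1 : v = a
    · subst h1
      simp [hab.symm]
    · by_cases h2 : v = L[i]
      · rw [if_neg h1, if_pos h2, if_pos rfl, h2]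
      · have h3 : s v ≠ a := fun h' => h1 (by rw [← h.inv v, h', ha])
        have h4 : s v ≠ L[i] := fun h' => h2 (by rw [← h.inv v, h', hbb])
        rw [if_neg h1, if_neg h2, if_neg h3, if_neg h4, h.inv]
  · intro v hv
    rw [hmem] at hv
    unfold join
    by_cases h1 : v = a
    · rw [if_pos h1, h1]; exact hab.symm
    · by_cases h2 : v = L[i]
      · rw [if_neg h1, if_pos h2]; rw [h2]; exact hab
      · rw [if_neg h1, if_neg h2]
        apply h.ne
        rw [List.mem_cons]
        rintro (h' | h')
        · exact h1 h'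
        · exact hv ⟨h', h2⟩

/-- the law of the completion -/
noncomputable def lawE (L : List (Fin n)) (s : Fin n → Fin n) (σ : Mov.Om (Fin n)) : ℝ :=
  if Ext L s σ then 1 / ((L.length - 1).doubleFactorial : ℝ) else 0

/-- completions split according to the partner of the first free vertex -/
theorem ext_split {a : Fin n} {L : List (Fin n)} {s : Fin n → Fin n} (h : Part (a :: L) s)
    (σ : Mov.Om (Fin n)) :
    (∑ i ∈ range L.length, if Ext (L.eraseIdx i) (join s a (L.getD i a)) σ then (1:ℝ) else 0) =
      if Ext (a :: L) s σ then 1 else 0 := by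
  have hnd := List.nodup_cons.1 h.nodup
  by_cases hE : Ext (a :: L) s σ
  · rw [if_pos hE]
    -- the partner of `a` is in `L`
    have hσa : σ.1 a ∈ L := by
      by_contra hc
      have h1 : σ.1 a ∉ a :: L := by
        rw [List.mem_cons]
        rintro (h' | h')
        · exact (σ.2 a).2 h'
        · exact hc h'
      have h2 := hE _ h1
      rw [(σ.2 a).1] at h2
      have h3 : s (σ.1 a) ∉ a :: L := fun h' => h1 (h.mem_iff.1 h')
      rw [← h2] at h3
      exact h3 (List.mem_cons_self ..)
    obtain ⟨i, hi, hia⟩ := List.mem_iff_getElem.1 hσa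
    rw [Finset.sum_eq_single i]
    · rw [if_pos]
      intro v hv
      rw [mem_eraseIdx_iff hnd.2 hi] at hv
      have hg : L.getD i a = L[i] := by
        rw [List.getD_eq_getElem?_getD, List.getElem?_eq_getElem hi]; rfl
      rw [hg, hia]
      unfold join
      by_cases h1 : v = a
      · rw [if_pos h1, h1]
      · by_cases h2 : v = σ.1 a
        · rw [if_neg h1, if_pos h2, h2, (σ.2 a).1]
        · rw [if_neg h1, if_neg h2]
          apply hE
          rw [List.mem_cons]
          rintro (h' | h')
          · exact h1 h'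
          · exact hv ⟨h', fun h'' => h2 (by rw [h'', hia])⟩
    · intro j hj hji
      rw [Finset.mem_range] at hj
      rw [if_neg]
      intro hc
      have h1 : a ∉ L.eraseIdx j := fun h' => hnd.1 ((List.eraseIdx_sublist _ _).subset h')
      have h2 := hc a h1
      have hg : L.getD j a = L[j] := by
        rw [List.getD_eq_getElem?_getD, List.getElem?_eq_getElem hj]; rfl
      rw [hg] at h2
      unfold join at h2
      rw [if_pos rfl, ← hia] at h2
      exact hji ((List.Nodup.getElem_inj_iff hnd.2).1 h2).symm
    · intro hi'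
      exact absurd (Finset.mem_range.2 hi) hi'
  · rw [if_neg hE]
    apply Finset.sum_eq_zero
    intro i hi
    rw [Finset.mem_range] at hi
    rw [if_neg]
    intro hc
    apply hE
    intro v hv
    rw [List.mem_cons] at hv
    push Not at hv
    have h1 : v ∉ L.eraseIdx i := fun h' => hv.2 ((List.eraseIdx_sublist _ _).subset h')
    have h2 := hc v h1
    have hg : L.getD i a = L[i] := by
      rw [List.getD_eq_getElem?_getD, List.getElem?_eq_getElem hi]; rfl
    rw [hg] at h2
    unfold join at h2
    have hvi : v ≠ L[i] := by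
      rintro rfl
      exact hv.2 (List.getElem_mem _)
    rw [if_neg hv.1, if_neg hvi] at h2
    exact h2

theorem lawE_split {a : Fin n} {L : List (Fin n)} {s : Fin n → Fin n} (h : Part (a :: L) s)
    {m : ℕ} (hL : L.length = 2 * m + 1) (σ : Mov.Om (Fin n)) :
    lawE (a :: L) s σ =
      (∑ i ∈ range L.length, lawE (L.eraseIdx i) (join s a (L.getD i a)) σ) / L.length := by
  have e := ext_split h σ
  unfold lawE
  have hlen : ∀ i ∈ range L.length, (L.eraseIdx i).length = 2 * m := by
    intro i hi
    rw [Finset.mem_range] at hi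
    rw [List.length_eraseIdx_of_lt hi, hL]
    omega
  have e1 : ∑ i ∈ range L.length, (if Ext (L.eraseIdx i) (join s a (L.getD i a)) σ then
      1 / (((L.eraseIdx i).length - 1).doubleFactorial : ℝ) else 0) =
      (∑ i ∈ range L.length, (if Ext (L.eraseIdx i) (join s a (L.getD i a)) σ then (1:ℝ) else 0)) *
        (1 / ((2 * m - 1).doubleFactorial : ℝ)) := by
    rw [Finset.sum_mul]
    refine Finset.sum_congr rfl fun i hi => ?_
    rw [hlen i hi]
    split_ifs
    · rw [one_mul]
    · rw [zero_mul]
  rw [e1, e]
  have hd : (((a :: L).length - 1).doubleFactorial : ℝ) =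
      (L.length : ℝ) * ((2 * m - 1).doubleFactorial : ℝ) := by
    rw [List.length_cons, Nat.add_sub_cancel, hL]
    rcases Nat.eq_zero_or_pos m with h0 | h0
    · subst h0; simp [Nat.doubleFactorial]
    · have : 2 * m + 1 = (2 * m - 1) + 2 := by omega
      rw [this, Nat.doubleFactorial_add_two]
      push_cast
      ring
  have hLpos : (0:ℝ) < L.length := by rw [hL]; positivity
  have hDpos : (0:ℝ) < ((2 * m - 1).doubleFactorial : ℝ) := by
    exact_mod_cast Nat.doubleFactorial_pos _
  split_ifs with h1
  · rw [hd]
    field_simp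
  · simp

/-- **the sequential construction** from a partial matching -/
theorem approx_run (B : ℕ) (m : ℕ) : ∀ (L : List (Fin n)) (s : Fin n → Fin n),
    Part L s → L.length = 2 * m →
    Approx (fun l => (runSteps (matchStep n) B m
      (L.map (fun v : Fin n => (v : ℕ)), encF s) l).2) (m * B)
      (fun σ : Mov.Om (Fin n) => encF σ.1) (lawE L s) (m * (2 * n / 2 ^ B)) := by
  induction m with
  | zero =>
    intro L s h hL φ _
    have hL0 : L = [] := by
      rw [← List.length_eq_zero_iff]; omega
    subst hL0
    let σ0 : Mov.Om (Fin n) := ⟨s, fun v => ⟨h.inv v, h.ne v (List.not_mem_nil)⟩⟩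
    have e : ∑ σ : Mov.Om (Fin n), lawE [] s σ * φ (encF σ.1) = φ (encF s) := by
      rw [Finset.sum_eq_single σ0]
      · unfold lawE
        rw [if_pos (show Ext [] s σ0 from fun v _ => rfl)]
        simp [σ0]
      · intro σ _ hσ
        unfold lawE
        rw [if_neg, zero_mul]
        intro hc
        apply hσ
        apply Subtype.ext
        funext v
        exact hc v (List.not_mem_nil)
      · intro h'; exact absurd (Finset.mem_univ _) h'
    rw [e]
    simp [runSteps]
  | succ m ih =>
    intro L s h hL
    obtain ⟨a, L', rfl⟩ : ∃ a L', L = a :: L' := by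
      cases L with
      | nil => simp at hL
      | cons a L' => exact ⟨a, L', rfl⟩
    have hL' : L'.length = 2 * m + 1 := by
      rw [List.length_cons] at hL; omega
    have hpos : 0 < L'.length := by omega
    have hn : L'.length ≤ n := by
      have h1 : (a :: L').length ≤ Fintype.card (Fin n) := h.nodup.length_le_card
      rw [Fintype.card_fin, List.length_cons] at h1
      omega
    intro φ hφ
    set N := L'.length with hN
    -- the average of the rest after the choice `i`
    set G : ℕ → ℝ := fun i => avg (m * B) (fun l' => φ ((runSteps (matchStep n) B m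
      ((L'.eraseIdx i).map (fun v : Fin n => (v : ℕ)), encF (join s a (L'.getD i a))) l').2))
      with hG
    have e1 : avg ((m + 1) * B) (fun l => φ ((runSteps (matchStep n) B (m + 1)
        (((a :: L').map (fun v : Fin n => (v : ℕ))), encF s) l).2)) =
        avg B (fun l => G (msb l % N)) := by
      rw [show (m + 1) * B = B + m * B by ring]
      simp only [runSteps]
      rw [avg_take_drop B (m * B) (fun l l' => φ ((runSteps (matchStep n) B m
        (matchStep n (((a :: L').map (fun v : Fin n => (v : ℕ))), encF s) l) l').2))]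
      refine avg_congr fun l _ => ?_
      refine avg_congr fun l' _ => ?_
      rw [matchStep_enc a L' s l hpos]
      have hg : L'.getD (msb l % L'.length) a = L'[msb l % L'.length]'(Nat.mod_lt _ hpos) := by
        rw [List.getD_eq_getElem?_getD, List.getElem?_eq_getElem (Nat.mod_lt _ hpos)]; rfl
      rw [← hg]
    have hG1 : ∀ i < N, |G i| ≤ 1 := by
      intro i _
      exact (abs_avg_le _ _).trans (avg_le_const fun l _ => hφ _)
    have a1 := avg_msb_mod hpos B G hG1
    have hnd := List.nodup_cons.1 h.nodup
    have a2 : ∀ i ∈ range N, |G i - ∑ σ : Mov.Om (Fin n),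
        lawE (L'.eraseIdx i) (join s a (L'.getD i a)) σ * φ (encF σ.1)| ≤ m * (2 * n / 2 ^ B) := by
      intro i hi
      rw [Finset.mem_range] at hi
      have hg : L'.getD i a = L'[i] := by
        rw [List.getD_eq_getElem?_getD, List.getElem?_eq_getElem hi]; rfl
      have hp : Part (L'.eraseIdx i) (join s a (L'.getD i a)) := by
        rw [hg]; exact h.step hi
      exact ih (L'.eraseIdx i) (join s a (L'.getD i a)) hp (by
        rw [List.length_eraseIdx_of_lt hi]; omega) φ hφ
    have e2 : ∑ σ : Mov.Om (Fin n), lawE (a :: L') s σ * φ (encF σ.1) =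
        (∑ i ∈ range N, ∑ σ : Mov.Om (Fin n),
          lawE (L'.eraseIdx i) (join s a (L'.getD i a)) σ * φ (encF σ.1)) / N := by
      rw [Finset.sum_comm, Finset.sum_div]
      refine Finset.sum_congr rfl fun σ _ => ?_
      rw [lawE_split h hL', ← Finset.sum_mul]
      ring
    have hNR : (0:ℝ) < N := by exact_mod_cast hpos
    have a3 : |(∑ i ∈ range N, G i) / N - ∑ σ : Mov.Om (Fin n), lawE (a :: L') s σ *
        φ (encF σ.1)| ≤ m * (2 * n / 2 ^ B) := by
      rw [e2, ← sub_div, ← Finset.sum_sub_distrib, abs_div, abs_of_pos hNR, div_le_iff₀ hNR]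
      refine (Finset.abs_sum_le_sum_abs _ _).trans ((Finset.sum_le_sum a2).trans ?_)
      rw [Finset.sum_const, Finset.card_range, nsmul_eq_mul, mul_comm]
    rw [e1]
    have hNn : (2:ℝ) * N / 2 ^ B ≤ 2 * n / 2 ^ B := by
      have : (N:ℝ) ≤ n := by exact_mod_cast hn
      gcongr
    calc |avg B (fun l => G (msb l % N)) - ∑ σ : Mov.Om (Fin n), lawE (a :: L') s σ *
          φ (encF σ.1)|
        ≤ |avg B (fun l => G (msb l % N)) - (∑ i ∈ range N, G i) / N| +
          |(∑ i ∈ range N, G i) / N - ∑ σ : Mov.Om (Fin n), lawE (a :: L') s σ *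
            φ (encF σ.1)| := abs_sub_le _ _ _
      _ ≤ 2 * n / 2 ^ B + m * (2 * n / 2 ^ B) := add_le_add (a1.trans hNn) a3
      _ = ((m + 1 : ℕ) : ℝ) * (2 * n / 2 ^ B) := by push_cast; ring

/-- the initial state -/
theorem part_init : Part (List.finRange n) (fun v : Fin n => v) :=
  ⟨List.nodup_finRange n, fun _ _ => rfl, fun _ => rfl,
    fun v hv => absurd (List.mem_finRange v) hv⟩

theorem map_finRange : (List.finRange n).map (fun v : Fin n => (v : ℕ)) = List.range n := by
  refine List.ext_getElem (by simp) (fun i h1 h2 => ?_)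
  simp

theorem encF_id : encF (fun v : Fin n => v) = List.range n := by
  refine List.ext_getElem (by simp) (fun i h1 h2 => ?_)
  simp [encF]

/-- **(START)**: `pmInit` samples a uniform perfect matching. -/
theorem approx_pmInit (hn : Even n) (B : ℕ) :
    Approx (pmInit n B) (n / 2 * B) (fun s : Mov.Om (Fin n) => encF s.1)
      (fun _ => 1 / (Fintype.card (Mov.Om (Fin n)) : ℝ)) (n * (2 * n / 2 ^ B)) := by
  have h2 : n = 2 * (n / 2) := by
    obtain ⟨k, hk⟩ := hn
    omega
  have h := approx_run (n := n) B (n / 2) (List.finRange n) (fun v => v) part_init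
    (by rw [List.length_finRange]; exact h2)
  rw [map_finRange, encF_id] at h
  have hlaw : ∀ σ : Mov.Om (Fin n), 1 / (Fintype.card (Mov.Om (Fin n)) : ℝ) =
      lawE (List.finRange n) (fun v => v) σ := by
    intro σ
    unfold lawE
    rw [if_pos (show Ext (List.finRange n) (fun v => v) σ from
      fun v hv => absurd (List.mem_finRange v) hv), List.length_finRange,
      Br.card_Om (by rwa [Fintype.card_fin]), Fintype.card_fin]
  refine (h.congr_law hlaw).mono ?_
  have h3 : ((n / 2 : ℕ) : ℝ) ≤ n := by exact_mod_cast Nat.div_le_self _ _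
  exact mul_le_mul_of_nonneg_right h3 (by positivity)

/-- the law of a population -/
theorem approx_initL (hn : Even n) (k B : ℕ) :
    Approx (initL n k B) (k * (n / 2 * B))
      (fun x : Fin k → Mov.Om (Fin n) => List.ofFn (fun i => encF (x i).1))
      (prodLaw (fun _ : Mov.Om (Fin n) => 1 / (Fintype.card (Mov.Om (Fin n)) : ℝ)))
      (k * (n * (2 * n / 2 ^ B))) := by
  have hpos : 0 < Fintype.card (Mov.Om (Fin n)) := by
    rw [Br.card_Om (by rwa [Fintype.card_fin])]
    exact Nat.doubleFactorial_pos _
  have hR : (0:ℝ) < Fintype.card (Mov.Om (Fin n)) := by exact_mod_cast hpos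
  refine (approx_pmInit hn B).blocks (fun _ => by positivity) ?_ k
  rw [Finset.sum_const, Finset.card_univ, nsmul_eq_mul]
  field_simp

/-- the same with `Sim.encP` -/
theorem approx_initL' (hn : Even n) (k B : ℕ) :
    Approx (initL n k B) (k * (n / 2 * B)) (encP (n := n) (K := k))
      (prodLaw (fun _ : Mov.Om (Fin n) => 1 / (Fintype.card (Mov.Om (Fin n)) : ℝ)))
      (k * (n * (2 * n / 2 ^ B))) := approx_initL hn k B

end Crest.Agent.R304.Start
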