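import Crest.Agent.R309.PTSolve
import Crest.Agent.R309.Parse
import Crest.Prelude.Def_Matchings
import Crest.Prelude.Def_Randomized

/-!
# Row 304, S0464: the top layer

`Core` is the statement that one poly-time function of (input, tape), on typed input
`inp n G E = (n, adjacency bits, E)`, estimates the number of perfect matchings within `1 ± 1/E` with
probability `3/4`.  `S0464_of : Core → (statement of S0464)` does parsing, cutting of the tape,
median amplification and output.
-/

set_option autoImplicit false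

namespace Crest.Agent.R304.Top119

open Crest.Enc Crest.FinProb Crest.Randomized Crest.Matchings
open Crest.Agent.Lib.PT Crest.Agent.R309.Tape Crest.Agent.R309.PTX Crest.Agent.R309.Parse
open Crest.Agent.R287

/-- typed input of the core algorithm: number of vertices, adjacency bits row by row, accuracy -/
abbrev Inp := Un × List Bool × Un

/-- the adjacency bits of a graph, row by row -/
def adjBits (n : ℕ) (G : SimpleGraph (Fin n)) [DecidableRel G.Adj] : List Bool :=
  ((List.finRange n).map fun i => (List.finRange n).map fun j => decide (G.Adj i j)).flatten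

/-- the typed input -/
def inp (n : ℕ) (G : SimpleGraph (Fin n)) [DecidableRel G.Adj] (E : ℕ) : Inp :=
  (⟨n⟩, adjBits n G, ⟨E⟩)

/-- the core estimator -/
def Core : Prop :=
  ∃ (F : Inp × List Bool → ℚ) (len : Inp → ℕ), PTF F ∧ PTU len ∧
    ∀ (n : ℕ) (G : SimpleGraph (Fin n)) [DecidableRel G.Adj] (E : ℕ), 1 ≤ E →
      (∀ t : List Bool, t.length = len (inp n G E) → 0 ≤ F (inp n G E, t)) ∧
      (numPerfectMatchings G = 0 →
        ∀ t : List Bool, t.length = len (inp n G E) → F (inp n G E, t) = 0) ∧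
      3 / 4 ≤ pr (len (inp n G E)) (fun t =>
        (1 - 1 / (E : ℚ)) * numPerfectMatchings G ≤ F (inp n G E, t) ∧
        F (inp n G E, t) ≤ (1 + 1 / (E : ℚ)) * numPerfectMatchings G)

/-! ### parsing -/

theorem length_adjBits (n : ℕ) (G : SimpleGraph (Fin n)) [DecidableRel G.Adj] :
    (adjBits n G).length = n * n := by
  unfold adjBits
  rw [List.length_flatten, List.map_map]
  have h : (List.length ∘ fun i : Fin n => (List.finRange n).map fun j => decide (G.Adj i j)) =
      fun _ => n := by
    funext i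
    simp
  rw [h]
  simp

/-- read a graph: number of vertices, adjacency bits, rest -/
def parseG (l : List Bool) : (Un × List Bool) × List Bool :=
  ((⟨min (readNat l).1 l.length⟩, (readNat l).2.take ((readNat l).1 * (readNat l).1)),
    (readNat l).2.drop ((readNat l).1 * (readNat l).1))

theorem parseG_code (n : ℕ) (G : SimpleGraph (Fin n)) [DecidableRel G.Adj] (r : List Bool) :
    parseG (graphCode n G ++ r) = ((⟨n⟩, adjBits n G), r) := by
  have e : graphCode n G ++ r = natCode n ++ (adjBits n G ++ r) := by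
    unfold graphCode adjBits
    rw [List.append_assoc]
  rw [e]
  unfold parseG
  have hl := length_adjBits n G
  have hn : min n (natCode n ++ (adjBits n G ++ r)).length = n := by
    refine min_eq_left ?_
    simp only [List.length_append, hl]
    rcases Nat.eq_zero_or_pos n with h | h
    · omega
    · have : n ≤ n * n := Nat.le_mul_of_pos_left n h
      omega
  simp only [readNat_natCode, hn]
  rw [List.take_left' hl, List.drop_left' hl]

/-- the typed input, `δ` and the rest are read off the input string -/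
def parseTop (l : List Bool) : Inp :=
  ((parseG l).1.1, (parseG l).1.2, ⟨(readRat (readRat (parseG l).2).2).2.length⟩)

theorem parseTop_code (n : ℕ) (G : SimpleGraph (Fin n)) [DecidableRel G.Adj] (ε δ : ℚ) (k : ℕ) :
    parseTop (graphCode n G ++ ratCode ε ++ ratCode δ ++ List.replicate k true) =
      inp n G k := by
  unfold parseTop inp
  simp only [List.append_assoc]
  rw [parseG_code]
  simp only [readRat_code, List.length_replicate]

theorem ptf_parseG : PTF parseG := by
  have h0 := ptf_readNat (γ := List Bool) (l := fun l => l) PTF.id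
  have h1 := PTF.comp (g := fun p : ℕ × List Bool => p.1) (by fun_prop) h0
  have h2 := PTF.comp (g := fun p : ℕ × List Bool => p.2) (by fun_prop) h0
  have h3 := PTF.natMul h1 h1
  unfold parseG
  refine PTF.prodMk (PTF.prodMk ?_ ?_) ?_
  · exact PTF.natMinUn h1 (PTU.length PTF.id)
  · exact ptf_take' h3 h2
  · exact ptf_drop' h3 h2

theorem ptf_parseTop : PTF parseTop := by
  have h0 := ptf_parseG
  have h1 := PTF.comp (g := fun p : (Un × List Bool) × List Bool => p.1.1) (by fun_prop) h0
  have h2 := PTF.comp (g := fun p : (Un × List Bool) × List Bool => p.1.2) (by fun_prop) h0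
  have h3 := PTF.comp (g := fun p : (Un × List Bool) × List Bool => p.2) (by fun_prop) h0
  have h4 := PTF.comp (g := fun p : ℚ × List Bool => p.2) (by fun_prop) (ptf_readRat h3)
  have h5 := PTF.comp (g := fun p : ℚ × List Bool => p.2) (by fun_prop) (ptf_readRat h4)
  exact PTF.prodMk h1 (PTF.prodMk h2 (PTU.length h5))

/-! ### medians -/

theorem ptf_med : PTF med := by
  unfold med
  refine PTF.optionGetD (PTF.find? PTF.id ?_) (PTF.const 0)
  show PTF (fun p : List ℚ × ℚ => decide (2 * p.1.countP (fun x => decide (x < p.2)) ≤ p.1.length) &&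
    decide (2 * p.1.countP (fun x => decide (p.2 < x)) ≤ p.1.length))
  have h1 : PTF (fun p : List ℚ × ℚ => p.1.countP (fun x => decide (x < p.2))) := by pt_solve
  have h2 : PTF (fun p : List ℚ × ℚ => p.1.countP (fun x => decide (p.2 < x))) := by pt_solve
  have h3 : PTF (fun p : List ℚ × ℚ => p.1.length) := by pt_solve
  exact PTF.and (PTPred.toPTF (PTPred.natLe (PTF.natMul (PTF.const 2) h1) h3))
    (PTPred.toPTF (PTPred.natLe (PTF.natMul (PTF.const 2) h2) h3))

theorem med_all {l : List ℚ} {P : ℚ → Prop} (h0 : P 0) (h : ∀ z ∈ l, P z) : P (med l) := by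
  unfold med
  rcases hf : l.find? (fun z => decide (2 * l.countP (fun x => decide (x < z)) ≤ l.length) &&
    decide (2 * l.countP (fun x => decide (z < x)) ≤ l.length)) with _ | z
  · simpa using h0
  · simpa using h z (List.mem_of_find?_eq_some hf)

/-! ### the algorithm -/

/-- the algorithm after parsing; the last component is the number of repetitions -/
def core (F : Inp × List Bool → ℚ) (len : Inp → ℕ) (q : Inp × Un × List Bool) : List Bool :=
  ratCode (med ((blocks (len q.1) q.2.1.val q.2.2).map (fun t => F (q.1, t))))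

/-- the algorithm -/
def alg (F : Inp × List Bool → ℚ) (len : Inp → ℕ) (p : List Bool × List Bool) : List Bool :=
  core F len (parseTop p.1, ⟨2 * (3 * p.1.length)⟩, p.2)

theorem ptf_core {F : Inp × List Bool → ℚ} {len : Inp → ℕ} (hF : PTF F) (hl : PTU len) :
    PTF (core F len) := by
  unfold core
  refine ptf_ratCode (PTF.comp ptf_med (PTF.map (ptf_blocks ?_ ?_ ?_) ?_))
  · exact PTF.comp (PTU.toPTF hl) PTF.fst
  · fun_prop
  · fun_prop
  · exact PTF.comp hF (by fun_prop)

theorem ptf_alg {F : Inp × List Bool → ℚ} {len : Inp → ℕ} (hF : PTF F) (hl : PTU len) :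
    PTF (alg F len) := by
  unfold alg
  refine PTF.comp (ptf_core hF hl) (PTF.prodMk (PTF.comp ptf_parseTop PTF.fst) ?_)
  refine PTF.prodMk ?_ PTF.snd
  exact PTU.mul (PTU.const 2) (PTU.mul (PTU.const 3) (PTU.length PTF.fst))

/-- the number of bits used -/
def bits (len : Inp → ℕ) (x : List Bool) : ℕ := 2 * (3 * x.length) * len (parseTop x)

theorem pb_bits {len : Inp → ℕ} (hl : PTU len) : PB (bits len) := by
  unfold bits
  exact PTU.pb (PTU.mul (PTU.mul (PTU.const 2) (PTU.mul (PTU.const 3) (PTU.length PTF.id)))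
    (PTU.comp hl ptf_parseTop))

theorem pow_le_of_den (δ : ℚ) (hδ : 0 < δ) (L : ℕ) (hL : (ratCode δ).length ≤ L) :
    ((3 : ℝ) / 4) ^ (3 * L) ≤ δ := by
  have h1 : δ.den < 2 ^ L := by
    have h2 : δ.den.size ≤ L := by
      have h3 : (natCode δ.den).length = 2 * δ.den.size + 2 := by
        unfold natCode
        have e : ∀ l : List Bool, ((l.map fun b => [true, b]).flatten).length = 2 * l.length := by
          intro l
          induction l with
          | nil => rfl
          | cons a l ih => simp only [List.map_cons, List.flatten_cons, List.length_append, ih]; simp; ring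
        rw [List.length_append, e, ← Nat.size_eq_bits_len]
        rfl
      unfold ratCode at hL
      simp only [List.length_cons, List.length_append, h3] at hL
      omega
    exact Nat.size_le.1 h2
  have h2 : (1 : ℝ) / 2 ^ L ≤ δ := by
    have h3 : (1 : ℝ) / δ.den ≤ δ := by
      have hn : 1 ≤ δ.num := by
        have := Rat.num_pos.2 hδ
        omega
      have hd : (0 : ℝ) < δ.den := by exact_mod_cast δ.pos
      have e : (δ : ℝ) = (δ.num : ℝ) / (δ.den : ℝ) := Rat.cast_def δ
      rw [e]
      have : (1 : ℝ) ≤ (δ.num : ℝ) := by exact_mod_cast hn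
      gcongr
    refine le_trans ?_ h3
    have hd : (0 : ℝ) < δ.den := by exact_mod_cast δ.pos
    have : (δ.den : ℝ) ≤ 2 ^ L := by exact_mod_cast h1.le
    exact one_div_le_one_div_of_le hd this
  refine le_trans ?_ h2
  rw [pow_mul, one_div, ← inv_pow]
  refine pow_le_pow_left₀ (by positivity) (by norm_num) L

theorem blocks_take (r k : ℕ) (t : List Bool) : blocks r k (t.take (k * r)) = blocks r k t := by
  rw [blocks_eq_range, blocks_eq_range]
  refine List.map_congr_left fun i hi => ?_
  rw [List.mem_range] at hi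
  rw [List.drop_take, List.take_take]
  have h : r ≤ k * r - i * r := by
    have : (i + 1) * r ≤ k * r := Nat.mul_le_mul_right r hi
    have e : (i + 1) * r = i * r + r := by ring
    omega
  rw [min_eq_left h]

/-- the core of the argument, for one input string `x` -/
theorem main {F : Inp × List Bool → ℚ} {len : Inp → ℕ} (x : List Bool) (I : Inp) (R : ℕ)
    (N : ℕ) (ε δ e : ℚ) (hδ0 : 0 < δ) (hδ : (ratCode δ).length ≤ x.length)
    (hparse : parseTop x = I) (hbits : 2 * (3 * x.length) * len I ≤ R)
    (hee : e ≤ ε)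
    (Hnn : ∀ t : List Bool, t.length = len I → 0 ≤ F (I, t))
    (Hz : N = 0 → ∀ t : List Bool, t.length = len I → F (I, t) = 0)
    (Hp : 3 / 4 ≤ pr (len I) (fun t => (1 - e) * N ≤ F (I, t) ∧ F (I, t) ≤ (1 + e) * N)) :
    (∀ t : List Bool, t.length = R → ∃ z : ℚ, 0 ≤ z ∧ alg F len (x, t) = ratCode z) ∧
    (N = 0 → ∀ t : List Bool, t.length = R → alg F len (x, t) = ratCode 0) ∧
    1 - (δ : ℝ) ≤ pr R (fun t => ∃ z : ℚ, alg F len (x, t) = ratCode z ∧
      (1 - ε) * N ≤ z ∧ z ≤ (1 + ε) * N) := by
  have halg : ∀ t, alg F len (x, t) =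
      ratCode (med ((blocks (len I) (2 * (3 * x.length)) t).map (fun t => F (I, t)))) := by
    intro t
    unfold alg core
    simp only [hparse]
  have hblk : ∀ t : List Bool, t.length = R →
      ∀ l ∈ blocks (len I) (2 * (3 * x.length)) t, l.length = len I := by
    intro t ht l hl
    exact length_of_mem_blocks (by rw [ht]; exact hbits) hl
  refine ⟨?_, ?_, ?_⟩
  · intro t ht
    refine ⟨_, ?_, halg _⟩
    refine med_all (P := fun z => 0 ≤ z) le_rfl ?_
    intro z hz
    obtain ⟨l, hl, rfl⟩ := List.mem_map.1 hz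
    exact Hnn l (hblk _ ht l hl)
  · intro h0 t ht
    rw [halg]
    congr 1
    refine med_all (P := fun z => z = 0) rfl ?_
    intro z hz
    obtain ⟨l, hl, rfl⟩ := List.mem_map.1 hz
    exact Hz h0 l (hblk _ ht l hl)
  · have h1 := pr_med (len I) (3 * x.length) (fun t => F (I, t)) _ _ Hp
    have h2 : ((3 : ℝ) / 4) ^ (3 * x.length) ≤ δ := pow_le_of_den δ hδ0 x.length hδ
    have h3 : pr (2 * (3 * x.length) * len I) (fun t =>
        (1 - e) * N ≤ med ((blocks (len I) (2 * (3 * x.length)) t).map fun t => F (I, t)) ∧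
        med ((blocks (len I) (2 * (3 * x.length)) t).map fun t => F (I, t)) ≤ (1 + e) * N) ≤
        pr R (fun t => ∃ z : ℚ, alg F len (x, t) = ratCode z ∧
          (1 - ε) * N ≤ z ∧ z ≤ (1 + ε) * N) := by
      rw [← pr_take hbits]
      refine pr_mono fun t _ h => ?_
      refine ⟨_, halg t, ?_⟩
      have hN : (0 : ℚ) ≤ N := Nat.cast_nonneg _
      rw [blocks_take] at h
      constructor
      · refine le_trans ?_ h.1
        gcongr
      · refine le_trans h.2 ?_
        gcongr
    linarith

/-- **S0464 from the core estimator.** -/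
theorem S0464_of (H : Core) :
    ∃ (A : List Bool × List Bool → List Bool) (r : Polynomial ℕ), RandPolyTime A ∧
      ∀ (n : ℕ) (G : SimpleGraph (Fin n)) [DecidableRel G.Adj] (ε δ : ℚ),
        0 < ε → ε < 1 → 0 < δ → δ < 1 / 2 →
        (∀ ω : Fin (r.eval (graphCode n G ++ ratCode ε ++ ratCode δ ++ List.replicate ⌈ε⁻¹⌉₊ true).length) → Bool,
          ∃ z : ℚ, 0 ≤ z ∧ A (graphCode n G ++ ratCode ε ++ ratCode δ ++ List.replicate ⌈ε⁻¹⌉₊ true, List.ofFn ω) = ratCode z) ∧
        (numPerfectMatchings G = 0 →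
          ∀ ω : Fin (r.eval (graphCode n G ++ ratCode ε ++ ratCode δ ++
              List.replicate ⌈ε⁻¹⌉₊ true).length) → Bool,
            A (graphCode n G ++ ratCode ε ++ ratCode δ ++ List.replicate ⌈ε⁻¹⌉₊ true,
              List.ofFn ω) = ratCode 0) ∧
        1 - (δ : ℝ) ≤ uniformProb {ω : Fin (r.eval (graphCode n G ++ ratCode ε ++ ratCode δ ++
              List.replicate ⌈ε⁻¹⌉₊ true).length) → Bool |
            ∃ z : ℚ, A (graphCode n G ++ ratCode ε ++ ratCode δ ++ List.replicate ⌈ε⁻¹⌉₊ true,
              List.ofFn ω) = ratCode z ∧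
              (1 - ε) * numPerfectMatchings G ≤ z ∧ z ≤ (1 + ε) * numPerfectMatchings G} := by
  obtain ⟨F, len, hF, hlen, H⟩ := H
  obtain ⟨r, hr⟩ := (pb_bits hlen).exists_length
  refine ⟨alg F len, r, (ptf_alg hF hlen).polyTimeComputable_pairEnc, ?_⟩
  intro n G _ ε δ hε0 hε1 hδ0 hδ1
  have hparse := parseTop_code n G ε δ ⌈ε⁻¹⌉₊
  have hE1 : 1 ≤ ⌈ε⁻¹⌉₊ :=
    Nat.one_le_iff_ne_zero.2 (by rw [Ne, Nat.ceil_eq_zero, not_le]; positivity)
  have hEε : 1 / (⌈ε⁻¹⌉₊ : ℚ) ≤ ε := by
    have h1 : ε⁻¹ ≤ (⌈ε⁻¹⌉₊ : ℚ) := Nat.le_ceil _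
    have h2 : (0 : ℚ) < ε⁻¹ := by positivity
    rw [div_le_iff₀ (by positivity)]
    calc (1 : ℚ) = ε * ε⁻¹ := (mul_inv_cancel₀ hε0.ne').symm
      _ ≤ ε * (⌈ε⁻¹⌉₊ : ℚ) := by gcongr
  have hδl : (ratCode δ).length ≤
      (graphCode n G ++ ratCode ε ++ ratCode δ ++ List.replicate ⌈ε⁻¹⌉₊ true).length := by
    simp only [List.length_append]
    omega
  generalize graphCode n G ++ ratCode ε ++ ratCode δ ++ List.replicate ⌈ε⁻¹⌉₊ true = x at hparse hδl ⊢
  obtain ⟨Hnn, Hz, Hp⟩ := H n G ⌈ε⁻¹⌉₊ hE1
  have hbits : 2 * (3 * x.length) * len (inp n G ⌈ε⁻¹⌉₊) ≤ r.eval x.length := by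
    have := hr x
    unfold bits at this
    rwa [hparse] at this
  obtain ⟨h1, h2, h3⟩ := main (F := F) (len := len) x (inp n G ⌈ε⁻¹⌉₊) (r.eval x.length)
    (numPerfectMatchings G) ε δ (1 / (⌈ε⁻¹⌉₊ : ℚ)) hδ0 hδl hparse hbits hEε Hnn Hz Hp
  refine ⟨fun ω => h1 _ (List.length_ofFn ..), fun h0 ω => h2 h0 _ (List.length_ofFn ..), ?_⟩
  rw [← uniformProb_eq_pr] at h3
  exact h3

end Crest.Agent.R304.Top119
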