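import Crest.Agent.R304.Loop180
import Crest.Agent.R304.Start555
import Crest.Agent.R304.Top119

/-!
# R304 / S0464: from the probability statement about `Loop.est` to `Top119.Core`

* `popOf_enc`: every population of the program is (for every tape) the encoding of a population of
  perfect matchings;
* `est_eq_zero`: no perfect matching, then the estimate is `0` on every tape;
* `core_of`: the core estimator (with the cases `n = 0`, `n` odd, `n = 2`).
-/

set_option autoImplicit false
set_option linter.dupNamespace false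

namespace Crest.Agent.R304.Core180

open Crest.Agent.Lib.PT Crest.Agent.R309.Tape Crest.Agent.R309.PTX Crest.Agent.R304.LM
open Crest.Agent.R304.Samp Crest.Agent.R304.Sim Crest.Agent.R304.Start Crest.Agent.R304.Loop
open Crest.Agent.R304.Mov Crest.Agent.R304.Top119 Crest.Matchings
open Crest.Agent.Lib.PT.Arith (msb)

variable {n : ℕ}

/-! ### all populations are encodings -/

theorem run_enc (B : ℕ) (m : ℕ) : ∀ (L : List (Fin n)) (s : Fin n → Fin n),
    Part L s → L.length = 2 * m → ∀ l : List Bool, ∃ σ : Om (Fin n),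
      (runSteps (matchStep n) B m (L.map (fun v : Fin n => (v : ℕ)), encF s) l).2 =
        encF σ.1 := by
  induction m with
  | zero =>
    intro L s h hL l
    have hL0 : L = [] := by
      rw [← List.length_eq_zero_iff]; omega
    subst hL0
    exact ⟨⟨s, fun v => ⟨h.inv v, h.ne v (List.not_mem_nil)⟩⟩, rfl⟩
  | succ m ih =>
    intro L s h hL l
    obtain ⟨a, L', rfl⟩ : ∃ a L', L = a :: L' := by
      cases L with
      | nil => simp at hL
      | cons a L' => exact ⟨a, L', rfl⟩
    have hL' : L'.length = 2 * m + 1 := by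
      rw [List.length_cons] at hL; omega
    have hpos : 0 < L'.length := by omega
    simp only [runSteps]
    rw [matchStep_enc a L' s _ hpos]
    refine ih _ _ (h.step (Nat.mod_lt _ hpos)) ?_ _
    rw [List.length_eraseIdx_of_lt (Nat.mod_lt _ hpos)]
    omega

theorem pmInit_enc (hn : Even n) (B : ℕ) (t : List Bool) :
    ∃ σ : Om (Fin n), pmInit n B t = encF σ.1 := by
  have h2 : n = 2 * (n / 2) := by
    obtain ⟨k, hk⟩ := hn
    omega
  have h := run_enc (n := n) B (n / 2) (List.finRange n) (fun v => v) part_init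
    (by rw [List.length_finRange]; exact h2) t
  rw [map_finRange, encF_id] at h
  exact h

theorem initL_enc (hn : Even n) (k B : ℕ) (t : List Bool) :
    ∃ x : Fin k → Om (Fin n), initL n k B t = encP x := by
  have h : ∀ l : List Bool, ∃ σ : Om (Fin n), pmInit n B l = encF σ.1 := pmInit_enc hn B
  choose f hf using h
  have hl : (blocks (n / 2 * B) k t).length = k := length_blocks _ _ _
  refine ⟨fun i => f ((blocks (n / 2 * B) k t)[(i : ℕ)]'(by rw [hl]; exact i.2)), ?_⟩
  unfold initL encP
  refine List.ext_getElem (by simp) (fun i h1 h2 => ?_)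
  rw [List.getElem_map, List.getElem_ofFn, hf]

theorem stepL_enc {k : ℕ} [NeZero n] [NeZero k] (B0 B : ℕ) (lam : ℕ → ℕ → ℕ)
    (x : Fin k → Om (Fin n)) (l : List Bool) :
    ∃ y : Fin k → Om (Fin n), stepL n k B0 B lam (encP x) l = encP y := by
  unfold stepL L6.hbStep
  split_ifs
  · exact ⟨_, mvL_enc _ _⟩
  · exact ⟨x, rfl⟩

theorem runL_enc {k : ℕ} [NeZero n] [NeZero k] (B0 B r : ℕ) (lam : ℕ → ℕ → ℕ → ℕ)
    (ts : List ℕ) : ∀ (x : Fin k → Om (Fin n)) (l : List Bool),
    ∃ y : Fin k → Om (Fin n),
      L6.runL (fun s => stepL n k B0 B (lam s)) r ts (encP x) l = encP y := by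
  induction ts with
  | nil => intro x l; exact ⟨x, rfl⟩
  | cons a ts ih =>
    intro x l
    obtain ⟨y, hy⟩ := stepL_enc B0 B (lam a) x (l.take r)
    simp only [L6.runL, hy]
    exact ih y _

theorem sampL_enc {k : ℕ} (hn : Even n) (hn0 : 0 < n) (hk : 0 < k) (B0 B : ℕ)
    (lam : ℕ → ℕ → ℕ → ℕ) (ts : List ℕ) (t : List Bool) :
    ∃ x : Fin k → Om (Fin n), sampL n k B0 B lam ts t = encP x := by
  have : NeZero n := ⟨hn0.ne'⟩
  have : NeZero k := ⟨hk.ne'⟩
  unfold sampL
  obtain ⟨x, hx⟩ := initL_enc hn k B (t.take (k * (n / 2 * B)))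
  rw [hx]
  exact runL_enc B0 B _ lam ts x _

/-- **every population is an encoded population of perfect matchings** -/
theorem popOf_enc (P : Prm) (hn : Even P.n) (hn0 : 0 < P.n) (hk : 0 < P.k) (h : List Mv)
    (t : List Bool) : ∃ x : Fin P.k → Om (Fin P.n), popOf P h t = encP x :=
  sampL_enc hn hn0 hk _ _ _ _ _

/-! ### adjacency -/

theorem getD_flatten {α : Type*} (d : α) {n : ℕ} : ∀ (L : List (List α)),
    (∀ r ∈ L, r.length = n) → ∀ u v : ℕ, v < n →
    L.flatten.getD (u * n + v) d = (L.getD u []).getD v d := by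
  intro L
  induction L with
  | nil => intro _ u v _; simp
  | cons r L ih =>
    intro h u v hv
    have hr : r.length = n := h r (List.mem_cons_self ..)
    cases u with
    | zero =>
      simp only [List.flatten_cons, Nat.zero_mul, Nat.zero_add, List.getD_cons_zero]
      rw [List.getD_eq_getElem?_getD, List.getD_eq_getElem?_getD,
        List.getElem?_append_left (by omega)]
    | succ u =>
      simp only [List.flatten_cons, List.getD_cons_succ]
      rw [← ih (fun r hr => h r (List.mem_cons_of_mem _ hr)) u v hv,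
        List.getD_eq_getElem?_getD, List.getD_eq_getElem?_getD,
        List.getElem?_append_right (by rw [hr]; nlinarith)]
      congr 2
      rw [hr]
      have : (u + 1) * n + v = n + (u * n + v) := by ring
      omega

theorem adjBits_getD (G : SimpleGraph (Fin n)) [DecidableRel G.Adj] (u v : Fin n) :
    (adjBits n G).getD ((u : ℕ) * n + v) false = decide (G.Adj u v) := by
  unfold adjBits
  rw [getD_flatten false _ (by
    intro r hr
    obtain ⟨i, _, rfl⟩ := List.mem_map.1 hr
    simp) _ _ v.2]
  simp [List.getD_eq_getElem?_getD]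

theorem adj_iff (P : Prm) (G : SimpleGraph (Fin P.n)) [DecidableRel G.Adj]
    (hb : P.bits = adjBits P.n G) (u v : Fin P.n) :
    adj P (u : ℕ) (v : ℕ) = true ↔ G.Adj u v := by
  unfold adj
  rw [hb, adjBits_getD, decide_eq_true_iff]

/-! ### no perfect matching -/

theorem finW_eq_zero (P : Prm) (G : SimpleGraph (Fin P.n)) [DecidableRel G.Adj]
    (hb : P.bits = adjBits P.n G) (h : List Mv) (s : Om (Fin P.n))
    (hs : ¬ ∀ v, G.Adj v (s.1 v)) : finW P h (encF s.1) = 0 := by
  push Not at hs
  obtain ⟨v, hv⟩ := hs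
  have key : ∃ w : Fin P.n, w < s.1 w ∧ ¬ G.Adj w (s.1 w) := by
    rcases lt_trichotomy v (s.1 v) with h1 | h1 | h1
    · exact ⟨v, h1, hv⟩
    · exact absurd h1.symm (s.2 v).2
    · refine ⟨s.1 v, ?_, ?_⟩
      · rw [(s.2 v).1]; exact h1
      · rw [(s.2 v).1]
        exact fun h2 => hv h2.symm
  obtain ⟨w, hw1, hw2⟩ := key
  unfold finW
  refine Finset.prod_eq_zero (Finset.mem_range.2 w.2) ?_
  rw [ap_encF, if_pos (by exact hw1), if_neg]
  rw [adj_iff P G hb]
  exact hw2

theorem est_eq_zero (P : Prm) (G : SimpleGraph (Fin P.n)) [DecidableRel G.Adj]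
    (hb : P.bits = adjBits P.n G) (hn : Even P.n) (hn0 : 0 < P.n) (hk : 0 < P.k)
    (h0 : numPerfectMatchings G = 0) (t : List Bool) : est P t = 0 := by
  rw [Br.numPM_eq, Finset.card_eq_zero, Finset.filter_eq_empty_iff] at h0
  unfold est estOf
  obtain ⟨x, hx⟩ := popOf_enc P hn hn0 hk (loop P t).1 (t.drop (P.R * blk P))
  have : finM P (loop P t).1 (popOf P (loop P t).1 (t.drop (P.R * blk P))) = 0 := by
    unfold finM
    rw [hx]
    have e : (encP x).map (finW P (loop P t).1) = (encP x).map (fun _ => (0:ℚ)) := by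
      refine List.map_congr_left (fun s hs => ?_)
      unfold encP at hs
      rw [List.mem_ofFn] at hs
      obtain ⟨i, rfl⟩ := hs
      exact finW_eq_zero P G hb _ _ (h0 (Finset.mem_univ (x i)))
    rw [e]
    simp
  rw [this, mul_zero]

/-! ### small cases -/

theorem numPM_zero (G : SimpleGraph (Fin 0)) [DecidableRel G.Adj] :
    numPerfectMatchings G = 1 := by
  rw [Br.numPM_eq, Finset.filter_true_of_mem (fun s _ v => v.elim0), Finset.card_univ,
    Br.card_Om (by simp)]
  rfl

theorem numPM_odd (G : SimpleGraph (Fin n)) [DecidableRel G.Adj] (hn : ¬ Even n) :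
    numPerfectMatchings G = 0 := by
  have := Br.isEmpty_Om (V := Fin n) (by rwa [Fintype.card_fin])
  rw [Br.numPM_eq, Finset.card_eq_zero]
  exact Finset.eq_empty_of_isEmpty _

theorem numPM_two (G : SimpleGraph (Fin 2)) [DecidableRel G.Adj] :
    numPerfectMatchings G = if G.Adj 0 1 then 1 else 0 := by
  have hs : ∀ s : Om (Fin 2), s.1 0 = 1 ∧ s.1 1 = 0 := by
    intro s
    have h0 := (s.2 0).2
    have h1 := (s.2 1).2
    constructor
    · generalize s.1 0 = a at h0 ⊢
      fin_cases a
      · exact absurd rfl h0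
      · rfl
    · generalize s.1 1 = a at h1 ⊢
      fin_cases a
      · rfl
      · exact absurd rfl h1
  have hiff : ∀ s : Om (Fin 2), (∀ v, G.Adj v (s.1 v)) ↔ G.Adj 0 1 := by
    intro s
    rw [Fin.forall_fin_two, (hs s).1, (hs s).2]
    exact ⟨fun h => h.1, fun h => ⟨h, h.symm⟩⟩
  rw [Br.numPM_eq]
  simp only [hiff]
  split_ifs with h
  · rw [Finset.filter_true_of_mem (fun _ _ => h), Finset.card_univ,
      Br.card_Om (by simp)]
    simp [Nat.doubleFactorial]
  · rw [Finset.filter_false_of_mem (fun _ _ => h)]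
    rfl

/-! ### the core estimator -/

/-- the estimator with the small cases -/
def coreF (prm : Inp → Prm) (p : Inp × List Bool) : ℚ :=
  if p.1.1.val = 0 then 1
  else if p.1.1.val % 2 = 1 then 0
  else if p.1.1.val = 2 then (if adj (prm p.1) 0 1 = true then 1 else 0)
  else est (prm p.1) p.2

theorem ptf_coreF {prm : Inp → Prm} (hP : PrmPT prm) : PTF (coreF prm) := by
  unfold coreF
  have hn : PTF (fun p : Inp × List Bool => p.1.1.val) := PTU.toPTF (PTU.val (by fun_prop))
  have hP' : PrmPT (fun p : Inp × List Bool => prm p.1) :=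
    hP.comp (f := fun p : Inp × List Bool => p.1) PTF.fst
  refine PTF.ite (PTPred.natEq hn (PTF.const 0)) (PTF.const 1)
    (PTF.ite (PTPred.natEq (PTF.natMod hn (PTF.const 2)) (PTF.const 1)) (PTF.const 0)
      (PTF.ite (PTPred.natEq hn (PTF.const 2)) (PTF.ite (PTF.toPTPred ?_) (PTF.const 1)
        (PTF.const 0)) ?_))
  · exact ptf_adj hP' (PTF.const 0) (PTF.const 1)
  · exact ptf_est hP' PTF.snd

/-- **the core estimator from the probability statement about the control loop** -/
theorem core_of (prm : Inp → Prm) (hPT : PrmPT prm) (hn : ∀ I, (prm I).n = I.1.val)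
    (hb : ∀ I, (prm I).bits = I.2.1) (hk : ∀ I, 0 < (prm I).k)
    (H : ∀ (n : ℕ) (G : SimpleGraph (Fin n)) [DecidableRel G.Adj] (E : ℕ), Even n → 4 ≤ n →
      1 ≤ E → 0 < numPerfectMatchings G → 3 / 4 ≤ pr (estLen (prm (inp n G E))) (fun t =>
        (1 - 1 / (E : ℚ)) * numPerfectMatchings G ≤ est (prm (inp n G E)) t ∧
        est (prm (inp n G E)) t ≤ (1 + 1 / (E : ℚ)) * numPerfectMatchings G)) :
    Core := by
  refine ⟨coreF prm, fun I => estLen (prm I), ptf_coreF hPT, ptu_estLen hPT, ?_⟩
  intro n G _ E hE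
  have hpos : (0:ℚ) < E := by exact_mod_cast hE
  have hE1 : (1 - 1 / (E : ℚ)) ≤ 1 := by
    have : (0:ℚ) < 1 / E := by positivity
    linarith
  have hE2 : 1 ≤ (1 + 1 / (E : ℚ)) := by
    have : (0:ℚ) < 1 / E := by positivity
    linarith
  have hnn : ∀ I t, 0 ≤ coreF prm (I, t) := by
    intro I t
    unfold coreF
    split_ifs
    · exact zero_le_one
    · exact le_refl _
    · exact zero_le_one
    · exact le_refl _
    · exact est_nonneg _ _
  -- deterministic cases
  have hdet : (∀ t, coreF prm (inp n G E, t) = (numPerfectMatchings G : ℚ)) →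
      (∀ t : List Bool, t.length = estLen (prm (inp n G E)) → 0 ≤ coreF prm (inp n G E, t)) ∧
      (numPerfectMatchings G = 0 →
        ∀ t : List Bool, t.length = estLen (prm (inp n G E)) → coreF prm (inp n G E, t) = 0) ∧
      3 / 4 ≤ pr (estLen (prm (inp n G E))) (fun t =>
        (1 - 1 / (E : ℚ)) * numPerfectMatchings G ≤ coreF prm (inp n G E, t) ∧
        coreF prm (inp n G E, t) ≤ (1 + 1 / (E : ℚ)) * numPerfectMatchings G) := by
    intro h
    refine ⟨fun t _ => hnn _ _, fun h0 t _ => by rw [h, h0]; rfl, ?_⟩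
    have hN : (0:ℚ) ≤ (numPerfectMatchings G : ℚ) := Nat.cast_nonneg _
    have h1 : pr (estLen (prm (inp n G E))) (fun t =>
        (1 - 1 / (E : ℚ)) * numPerfectMatchings G ≤ coreF prm (inp n G E, t) ∧
        coreF prm (inp n G E, t) ≤ (1 + 1 / (E : ℚ)) * numPerfectMatchings G) = 1 := by
      refine pr_eq_one (fun t _ => ?_)
      rw [h]
      exact ⟨by nlinarith, by nlinarith⟩
    rw [h1]
    norm_num
  by_cases h0 : n = 0
  · subst h0
    refine hdet (fun t => ?_)
    rw [numPM_zero]
    unfold coreF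
    rw [if_pos (show (inp 0 G E).1.val = 0 from rfl)]
    rfl
  by_cases hodd : n % 2 = 1
  · refine hdet (fun t => ?_)
    rw [numPM_odd G (by rw [Nat.not_even_iff]; exact hodd)]
    unfold coreF
    rw [if_neg (show ¬ (inp n G E).1.val = 0 from h0),
      if_pos (show (inp n G E).1.val % 2 = 1 from hodd)]
    rfl
  by_cases h2 : n = 2
  · subst h2
    refine hdet (fun t => ?_)
    rw [numPM_two]
    unfold coreF
    rw [if_neg (show ¬ (inp 2 G E).1.val = 0 from h0),
      if_neg (show ¬ (inp 2 G E).1.val % 2 = 1 from hodd),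
      if_pos (show (inp 2 G E).1.val = 2 from rfl)]
    have e : adj (prm (inp 2 G E)) 0 1 = decide (G.Adj 0 1) := by
      unfold adj
      rw [hb, hn]
      exact adjBits_getD G 0 1
    simp only [e, decide_eq_true_iff]
    split_ifs <;> norm_num
  · have hev : Even n := Nat.even_iff.2 (by omega)
    have h4 : 4 ≤ n := by
      have := Nat.even_iff.1 hev
      omega
    have e : ∀ t, coreF prm (inp n G E, t) = est (prm (inp n G E)) t := by
      intro t
      unfold coreF
      rw [if_neg (show ¬ (inp n G E).1.val = 0 from h0),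
        if_neg (show ¬ (inp n G E).1.val % 2 = 1 from hodd),
        if_neg (show ¬ (inp n G E).1.val = 2 from h2)]
    have hz : numPerfectMatchings G = 0 → ∀ t, est (prm (inp n G E)) t = 0 := by
      intro hN t
      have hPn : (prm (inp n G E)).n = n := hn _
      have hPb : (prm (inp n G E)).bits = adjBits n G := hb _
      have hPk := hk (inp n G E)
      clear hdet hnn e
      generalize prm (inp n G E) = P at hPn hPb hPk
      subst hPn
      exact est_eq_zero P G hPb hev (by omega) hPk hN t
    simp only [e]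
    refine ⟨fun t _ => est_nonneg _ _, fun hN t _ => hz hN t, ?_⟩
    rcases Nat.eq_zero_or_pos (numPerfectMatchings G) with hN | hN
    · have h1 : pr (estLen (prm (inp n G E))) (fun t =>
          (1 - 1 / (E : ℚ)) * numPerfectMatchings G ≤ est (prm (inp n G E)) t ∧
          est (prm (inp n G E)) t ≤ (1 + 1 / (E : ℚ)) * numPerfectMatchings G) = 1 := by
        refine pr_eq_one (fun t _ => ?_)
        rw [hz hN, hN]
        simp
      rw [h1]
      norm_num
    · exact H n G E hev h4 hE hN

end Crest.Agent.R304.Core180
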