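import Mathlib

/-!
# R304 / L5 (helper787): the annealing controller, part A: definitions and the potential

Abstract setting: `Ω` = finite set of states (perfect matchings of `K_n`), `E` = pairs,
`mem M` = the edge set of `M`, all of cardinality `N`, and under the uniform law each `e` has
marginal `1 / d`.
-/

set_option autoImplicit false
set_option linter.unusedSectionVars false

namespace Crest.Agent.R304.Ctl

open Finset

variable {Ω E : Type*} [Fintype Ω] [Fintype E] [DecidableEq E]

/-- weight of a state. -/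
noncomputable def wt (mem : Ω → Finset E) (lam : E → ℝ) (M : Ω) : ℝ := ∏ e ∈ mem M, lam e

/-- partition function. -/
noncomputable def Z (mem : Ω → Finset E) (lam : E → ℝ) : ℝ := ∑ M, wt mem lam M

/-- Gibbs probability of a state. -/
noncomputable def gib (mem : Ω → Finset E) (lam : E → ℝ) (M : Ω) : ℝ := wt mem lam M / Z mem lam

/-- probability that `e ∈ M`. -/
noncomputable def marg (mem : Ω → Finset E) (lam : E → ℝ) (e : E) : ℝ :=
  (∑ M ∈ univ.filter (fun M => e ∈ mem M), wt mem lam M) / Z mem lam

/-- virtual marginal: `lam = A + om`. -/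
noncomputable def vmarg (mem : Ω → Finset E) (A om : E → ℝ) (e : E) : ℝ :=
  marg mem (fun e => A e + om e) e * (om e / (A e + om e))

/-- potential, `y = log om`. -/
noncomputable def Psi (mem : Ω → Finset E) (q : ℝ) (A y : E → ℝ) : ℝ :=
  Real.log (Z mem (fun e => A e + Real.exp (y e))) - (∑ e, y e) / q

section basic

variable (mem : Ω → Finset E)

lemma wt_pos {lam : E → ℝ} (h : ∀ e, 0 < lam e) (M : Ω) : 0 < wt mem lam M :=
  Finset.prod_pos fun e _ => h e

lemma Z_pos [Nonempty Ω] {lam : E → ℝ} (h : ∀ e, 0 < lam e) : 0 < Z mem lam :=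
  Finset.sum_pos (fun M _ => wt_pos mem h M) univ_nonempty

lemma marg_nonneg {lam : E → ℝ} (h : ∀ e, 0 < lam e) (e : E) : 0 ≤ marg mem lam e :=
  div_nonneg (Finset.sum_nonneg fun M _ => (wt_pos mem h M).le)
    (Finset.sum_nonneg fun M _ => (wt_pos mem h M).le)

lemma marg_le_one [Nonempty Ω] {lam : E → ℝ} (h : ∀ e, 0 < lam e) (e : E) :
    marg mem lam e ≤ 1 := by
  unfold marg
  rw [div_le_one (Z_pos mem h)]
  exact Finset.sum_le_sum_of_subset_of_nonneg (Finset.filter_subset _ _)
    (fun M _ _ => (wt_pos mem h M).le)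

end basic

/-- The key convexity inequality: `log Z(A + e^{y'}) ≥ log Z(A + e^y) + Σ x_e (y'_e - y_e)`. -/
theorem logZ_ge [Nonempty Ω] (mem : Ω → Finset E) (A y y' : E → ℝ) (hA : ∀ e, 0 < A e) :
    Real.log (Z mem (fun e => A e + Real.exp (y e))) +
      ∑ e, vmarg mem A (fun e => Real.exp (y e)) e * (y' e - y e) ≤
    Real.log (Z mem (fun e => A e + Real.exp (y' e))) := by
  classical
  set lam : E → ℝ := fun e => A e + Real.exp (y e) with hlam
  set lam' : E → ℝ := fun e => A e + Real.exp (y' e) with hlam'
  have hl : ∀ e, 0 < lam e := fun e => add_pos (hA e) (Real.exp_pos _)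
  have hl' : ∀ e, 0 < lam' e := fun e => add_pos (hA e) (Real.exp_pos _)
  have hZ := Z_pos mem hl
  have hZ' := Z_pos mem hl'
  -- pointwise: lam' e ≥ lam e * exp (p_e (y'_e - y_e)), p_e = e^y/lam
  have hpt : ∀ e, lam e * Real.exp (Real.exp (y e) / lam e * (y' e - y e)) ≤ lam' e := by
    intro e
    have h1 : Real.exp (A e / lam e * 0 + Real.exp (y e) / lam e * (y' e - y e)) ≤
        A e / lam e * Real.exp 0 + Real.exp (y e) / lam e * Real.exp (y' e - y e) := by
      have ha : (0:ℝ) ≤ A e / lam e := div_nonneg (hA e).le (hl e).le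
      have hb : (0:ℝ) ≤ Real.exp (y e) / lam e := div_nonneg (Real.exp_pos _).le (hl e).le
      have hab : A e / lam e + Real.exp (y e) / lam e = 1 := by
        rw [← add_div]; exact div_self (hl e).ne'
      have := convexOn_exp.2 (Set.mem_univ (0:ℝ)) (Set.mem_univ (y' e - y e)) ha hb hab
      simpa [smul_eq_mul] using this
    rw [mul_zero, zero_add, Real.exp_zero, mul_one, Real.exp_sub] at h1
    have h2 : lam e * Real.exp (Real.exp (y e) / lam e * (y' e - y e)) ≤
        lam e * (A e / lam e + Real.exp (y e) / lam e * (Real.exp (y' e) / Real.exp (y e))) :=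
      mul_le_mul_of_nonneg_left h1 (hl e).le
    refine h2.trans (le_of_eq ?_)
    have := (hl e).ne'
    have := (Real.exp_pos (y e)).ne'
    simp only [hlam']
    field_simp
  -- weights
  have hw : ∀ M, wt mem lam M * Real.exp (∑ e ∈ mem M, Real.exp (y e) / lam e * (y' e - y e)) ≤
      wt mem lam' M := by
    intro M
    unfold wt
    rw [Real.exp_sum, ← Finset.prod_mul_distrib]
    exact Finset.prod_le_prod (fun e _ => mul_nonneg (hl e).le (Real.exp_pos _).le)
      (fun e _ => hpt e)
  -- Jensen
  have hJ : Real.exp (∑ M, wt mem lam M / Z mem lam *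
        (∑ e ∈ mem M, Real.exp (y e) / lam e * (y' e - y e))) ≤
      ∑ M, wt mem lam M / Z mem lam *
        Real.exp (∑ e ∈ mem M, Real.exp (y e) / lam e * (y' e - y e)) := by
    have := convexOn_exp.map_sum_le (t := (univ : Finset Ω))
      (w := fun M => wt mem lam M / Z mem lam)
      (p := fun M => ∑ e ∈ mem M, Real.exp (y e) / lam e * (y' e - y e))
      (fun M _ => div_nonneg (wt_pos mem hl M).le hZ.le)
      (by rw [← Finset.sum_div]; exact div_self hZ.ne') (fun _ _ => Set.mem_univ _)
    simpa [smul_eq_mul] using this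
  have hsum : ∑ M, wt mem lam M / Z mem lam *
        (∑ e ∈ mem M, Real.exp (y e) / lam e * (y' e - y e)) =
      ∑ e, vmarg mem A (fun e => Real.exp (y e)) e * (y' e - y e) := by
    have h3 : ∀ M, (∑ e ∈ mem M, Real.exp (y e) / lam e * (y' e - y e)) =
        ∑ e, if e ∈ mem M then Real.exp (y e) / lam e * (y' e - y e) else 0 := by
      intro M
      rw [← Finset.sum_filter]
      apply Finset.sum_congr _ (fun _ _ => rfl)
      ext e; simp
    simp_rw [h3, Finset.mul_sum]
    rw [Finset.sum_comm]
    apply Finset.sum_congr rfl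
    intro e _
    unfold vmarg marg
    rw [Finset.sum_filter, Finset.sum_div, Finset.sum_mul, Finset.sum_mul]
    apply Finset.sum_congr rfl
    intro M _
    split_ifs with h
    · simp only [hlam]; ring
    · simp
  rw [hsum] at hJ
  have h4 : Z mem lam * Real.exp (∑ e, vmarg mem A (fun e => Real.exp (y e)) e * (y' e - y e)) ≤
      Z mem lam' := by
    calc Z mem lam * Real.exp (∑ e, vmarg mem A (fun e => Real.exp (y e)) e * (y' e - y e))
        ≤ Z mem lam * ∑ M, wt mem lam M / Z mem lam *
          Real.exp (∑ e ∈ mem M, Real.exp (y e) / lam e * (y' e - y e)) :=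
          mul_le_mul_of_nonneg_left hJ hZ.le
      _ = ∑ M, wt mem lam M *
          Real.exp (∑ e ∈ mem M, Real.exp (y e) / lam e * (y' e - y e)) := by
          rw [Finset.mul_sum]
          apply Finset.sum_congr rfl
          intro M _
          field_simp
      _ ≤ ∑ M, wt mem lam' M := Finset.sum_le_sum fun M _ => hw M
      _ = Z mem lam' := rfl
  have h5 := Real.log_le_log (mul_pos hZ (Real.exp_pos _)) h4
  rwa [Real.log_mul hZ.ne' (Real.exp_pos _).ne', Real.log_exp] at h5

end Crest.Agent.R304.Ctl
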