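import Crest.Agent.R304.Ctl787A

/-!
# R304 / L5 (helper787): the annealing controller, part B: analysis of the potential
-/

set_option autoImplicit false
set_option linter.unusedSectionVars false

namespace Crest.Agent.R304.Ctl

open Finset

variable {Ω E : Type*} [Fintype Ω] [Fintype E] [DecidableEq E]

/-- the abstract set system: every `mem M` has `N` elements, every `e` is in a fraction `1/d`. -/
structure Sys (mem : Ω → Finset E) (N d : ℕ) : Prop where
  card_mem : ∀ M, (mem M).card = N
  unif : ∀ e, d * (univ.filter (fun M => e ∈ mem M)).card = Fintype.card Ω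
  dpos : 0 < d

lemma sum_sum_mem (mem : Ω → Finset E) (f : E → ℝ) :
    ∑ M, ∑ e ∈ mem M, f e = ∑ e, ((univ.filter (fun M => e ∈ mem M)).card : ℝ) * f e := by
  have h3 : ∀ M, (∑ e ∈ mem M, f e) = ∑ e, if e ∈ mem M then f e else 0 := by
    intro M
    rw [← Finset.sum_filter]
    apply Finset.sum_congr _ (fun _ _ => rfl)
    ext e; simp
  simp_rw [h3]
  rw [Finset.sum_comm]
  apply Finset.sum_congr rfl
  intro e _
  rw [← Finset.sum_filter, Finset.sum_const, nsmul_eq_mul]

lemma Sys.unif_real {mem : Ω → Finset E} {N d : ℕ} (h : Sys mem N d) (e : E) :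
    ((univ.filter (fun M => e ∈ mem M)).card : ℝ) = (Fintype.card Ω : ℝ) / d := by
  have hd : (d : ℝ) ≠ 0 := by exact_mod_cast h.dpos.ne'
  rw [eq_div_iff hd, mul_comm]
  exact_mod_cast h.unif e

lemma Sys.card_E [Nonempty Ω] {mem : Ω → Finset E} {N d : ℕ} (h : Sys mem N d) :
    (Fintype.card E : ℝ) = N * d := by
  have h1 := sum_sum_mem mem (fun _ => (1:ℝ))
  simp only [Finset.sum_const, nsmul_eq_mul, mul_one, h.card_mem, h.unif_real,
    Finset.card_univ] at h1
  have hd : (d : ℝ) ≠ 0 := by exact_mod_cast h.dpos.ne'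
  have hO : (Fintype.card Ω : ℝ) ≠ 0 := by exact_mod_cast Fintype.card_ne_zero
  field_simp at h1
  nlinarith [h1]

/-- Jensen under the uniform law. -/
lemma logZ_ge_unif [Nonempty Ω] {mem : Ω → Finset E} {N d : ℕ} (h : Sys mem N d)
    {lam : E → ℝ} (hl : ∀ e, 0 < lam e) :
    (∑ e, Real.log (lam e)) / d ≤ Real.log (Z mem lam) := by
  have hO : (0:ℝ) < Fintype.card Ω := by exact_mod_cast Fintype.card_pos
  have hd : (0:ℝ) < d := by exact_mod_cast h.dpos
  have hZ := Z_pos mem hl
  have hJ : Real.exp (∑ M : Ω, (1 / (Fintype.card Ω : ℝ)) * (∑ e ∈ mem M, Real.log (lam e))) ≤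
      ∑ M : Ω, (1 / (Fintype.card Ω : ℝ)) * Real.exp (∑ e ∈ mem M, Real.log (lam e)) := by
    have := convexOn_exp.map_sum_le (t := (univ : Finset Ω))
      (w := fun _ => 1 / (Fintype.card Ω : ℝ))
      (p := fun M => ∑ e ∈ mem M, Real.log (lam e))
      (fun M _ => by positivity)
      (by rw [Finset.sum_const, nsmul_eq_mul, Finset.card_univ]; field_simp)
      (fun _ _ => Set.mem_univ _)
    simpa [smul_eq_mul] using this
  rw [← Finset.mul_sum, sum_sum_mem] at hJ
  simp only [h.unif_real] at hJ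
  rw [← Finset.mul_sum, ← mul_assoc] at hJ
  have e1 : 1 / (Fintype.card Ω : ℝ) * ((Fintype.card Ω : ℝ) / d) = 1 / d := by
    field_simp
  rw [e1] at hJ
  have e2 : ∑ M : Ω, Real.exp (∑ e ∈ mem M, Real.log (lam e)) = Z mem lam := by
    unfold Z wt
    apply Finset.sum_congr rfl
    intro M _
    rw [Real.exp_sum]
    exact Finset.prod_congr rfl (fun e _ => Real.exp_log (hl e))
  rw [← Finset.mul_sum, e2] at hJ
  have h1 : (1 : ℝ) / Fintype.card Ω ≤ 1 := by
    rw [div_le_one hO]; exact_mod_cast Fintype.card_pos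
  have h2 : Real.exp (1 / (d:ℝ) * ∑ e, Real.log (lam e)) ≤ Z mem lam :=
    hJ.trans (by nlinarith)
  have h3 := Real.log_le_log (Real.exp_pos _) h2
  rw [Real.log_exp] at h3
  calc (∑ e, Real.log (lam e)) / d = 1 / (d:ℝ) * ∑ e, Real.log (lam e) := by ring
    _ ≤ _ := h3

/-- coercivity: `‖y‖₁ ≤ q (Ψ(y) + N L)`. -/
lemma Psi_coercive [Nonempty Ω] {mem : Ω → Finset E} {N d : ℕ} (h : Sys mem N d)
    {q : ℝ} (hq : 2 * (d:ℝ) ≤ q) {A : E → ℝ} {L : ℝ} (hL : 0 ≤ L)
    (hA : ∀ e, Real.exp (-L) ≤ A e) (y : E → ℝ) :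
    (∑ e, |y e|) / q - N * L ≤ Psi mem q A y := by
  have hd : (0:ℝ) < d := by exact_mod_cast h.dpos
  have hq0 : 0 < q := by linarith
  have hA0 : ∀ e, 0 < A e := fun e => (Real.exp_pos _).trans_le (hA e)
  have hl : ∀ e, 0 < A e + Real.exp (y e) := fun e => add_pos (hA0 e) (Real.exp_pos _)
  have h1 := logZ_ge_unif h hl
  unfold Psi
  have h2 : (∑ e, |y e|) / q - N * L ≤
      (∑ e, Real.log (A e + Real.exp (y e))) / d - (∑ e, y e) / q := by
    have h3 : (N : ℝ) * L = ∑ _e : E, L / d := by
      rw [Finset.sum_const, nsmul_eq_mul, Finset.card_univ, h.card_E]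
      field_simp
    rw [h3, Finset.sum_div, Finset.sum_div, Finset.sum_div, ← Finset.sum_sub_distrib,
      ← Finset.sum_sub_distrib]
    apply Finset.sum_le_sum
    intro e _
    have hy1 : y e ≤ Real.log (A e + Real.exp (y e)) := by
      rw [Real.le_log_iff_exp_le (hl e)]; linarith [hA0 e]
    have hy2 : -L ≤ Real.log (A e + Real.exp (y e)) := by
      rw [Real.le_log_iff_exp_le (hl e)]; linarith [hA e, Real.exp_pos (y e)]
    rcases le_or_gt 0 (y e) with hy | hy
    · rw [abs_of_nonneg hy]
      have h4 : y e / q ≤ y e / (2 * d) := div_le_div_of_nonneg_left hy (by positivity) hq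
      have h5 : y e / d ≤ Real.log (A e + Real.exp (y e)) / d := by gcongr
      have h6 : y e / d = y e / (2 * d) + y e / (2 * d) := by field_simp; ring
      have h7 : 0 ≤ L / d := by positivity
      linarith
    · rw [abs_of_neg hy]
      have h5 : -L / d ≤ Real.log (A e + Real.exp (y e)) / d := by gcongr
      have h6 : -L / d = -(L / d) := by ring
      have h7 : -y e / q = -(y e / q) := by ring
      linarith
  linarith

/-- gradient inequality. -/
lemma Psi_sub_le [Nonempty Ω] (mem : Ω → Finset E) {q : ℝ} (A y y' : E → ℝ)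
    (hA : ∀ e, 0 < A e) {η : ℝ}
    (hη : ∀ e, |vmarg mem A (fun e => Real.exp (y e)) e - 1 / q| ≤ η) :
    Psi mem q A y - Psi mem q A y' ≤ η * ((∑ e, |y e|) + ∑ e, |y' e|) := by
  have h1 := logZ_ge mem A y y' hA
  have h2 : Psi mem q A y - Psi mem q A y' ≤
      ∑ e, (vmarg mem A (fun e => Real.exp (y e)) e - 1 / q) * (y e - y' e) := by
    unfold Psi
    have : ∑ e, (vmarg mem A (fun e => Real.exp (y e)) e - 1 / q) * (y e - y' e) =
        - (∑ e, vmarg mem A (fun e => Real.exp (y e)) e * (y' e - y e)) -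
          (∑ e, y e) / q + (∑ e, y' e) / q := by
      rw [Finset.sum_div, Finset.sum_div, ← Finset.sum_neg_distrib, ← Finset.sum_sub_distrib,
        ← Finset.sum_add_distrib]
      apply Finset.sum_congr rfl
      intro e _
      ring
    rw [this]; linarith
  refine h2.trans ?_
  rw [mul_add, Finset.mul_sum, Finset.mul_sum, ← Finset.sum_add_distrib]
  apply Finset.sum_le_sum
  intro e _
  have hη0 : 0 ≤ η := (abs_nonneg _).trans (hη e)
  calc (vmarg mem A (fun e => Real.exp (y e)) e - 1 / q) * (y e - y' e)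
      ≤ |(vmarg mem A (fun e => Real.exp (y e)) e - 1 / q) * (y e - y' e)| := le_abs_self _
    _ = |vmarg mem A (fun e => Real.exp (y e)) e - 1 / q| * |y e - y' e| := abs_mul _ _
    _ ≤ η * (|y e| + |y' e|) :=
        mul_le_mul (hη e) (abs_sub _ _) (abs_nonneg _) hη0
    _ = η * |y e| + η * |y' e| := by ring

/-- small gradient implies small `β`. -/
lemma beta_small [Nonempty Ω] {mem : Ω → Finset E} {N d : ℕ} (h : Sys mem N d)
    {q : ℝ} (hq : 2 * (d:ℝ) ≤ q) {A : E → ℝ} {L : ℝ} (hL : 0 ≤ L)
    (hA : ∀ e, Real.exp (-L) ≤ A e) (y : E → ℝ) {η P0 : ℝ} (hη0 : 0 ≤ η)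
    (hη : ∀ e, |vmarg mem A (fun e => Real.exp (y e)) e - 1 / q| ≤ η)
    (hP : Psi mem q A y ≤ P0) (y' : E → ℝ) :
    Psi mem q A y - Psi mem q A y' ≤ η * (2 * q * (P0 + N * L)) := by
  have hd : (0:ℝ) < d := by exact_mod_cast h.dpos
  have hq0 : 0 < q := by linarith
  have hA0 : ∀ e, 0 < A e := fun e => (Real.exp_pos _).trans_le (hA e)
  have hc := Psi_coercive h hq hL hA y
  have hs : ∑ e, |y e| ≤ q * (P0 + N * L) := by
    have : (∑ e, |y e|) / q ≤ P0 + N * L := by linarith
    rw [div_le_iff₀ hq0] at this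
    linarith
  have hnn : 0 ≤ ∑ e, |y e| := Finset.sum_nonneg fun _ _ => abs_nonneg _
  rcases le_or_gt (Psi mem q A y') (Psi mem q A y) with hy | hy
  · have hc' := Psi_coercive h hq hL hA y'
    have hs' : ∑ e, |y' e| ≤ q * (P0 + N * L) := by
      have : (∑ e, |y' e|) / q ≤ P0 + N * L := by linarith
      rw [div_le_iff₀ hq0] at this
      linarith
    refine (Psi_sub_le mem A y y' hA0 hη).trans ?_
    refine mul_le_mul_of_nonneg_left ?_ hη0
    linarith
  · have : 0 ≤ η * (2 * q * (P0 + N * L)) := by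
      apply mul_nonneg hη0
      have : 0 ≤ q * (P0 + N * L) := hnn.trans hs
      linarith
    linarith

/-- `Z` is affine in each `ω_e`. -/
lemma Z_update [Nonempty Ω] (mem : Ω → Finset E) (A om : E → ℝ) (hl : ∀ e, 0 < A e + om e)
    (e : E) (r : ℝ) :
    Z mem (fun f => A f + Function.update om e (om e * r) f) =
      Z mem (fun f => A f + om f) * (1 + vmarg mem A om e * (r - 1)) := by
  classical
  set lam : E → ℝ := fun f => A f + om f with hlam
  have hZ := Z_pos mem hl
  have key : ∀ M, wt mem (fun f => A f + Function.update om e (om e * r) f) M =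
      wt mem lam M + if e ∈ mem M then wt mem lam M * (om e / lam e) * (r - 1) else 0 := by
    intro M
    unfold wt
    split_ifs with he
    · rw [← Finset.mul_prod_erase (mem M) _ he, ← Finset.mul_prod_erase (mem M) lam he]
      have h1 : ∏ x ∈ (mem M).erase e, (A x + Function.update om e (om e * r) x) =
          ∏ x ∈ (mem M).erase e, lam x := by
        apply Finset.prod_congr rfl
        intro x hx
        rw [Function.update_of_ne (Finset.ne_of_mem_erase hx)]
      rw [h1, Function.update_self]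
      have : lam e ≠ 0 := (hl e).ne'
      have h2 : lam e = A e + om e := rfl
      field_simp
      rw [h2]; ring
    · rw [add_zero]
      apply Finset.prod_congr rfl
      intro x hx
      have hne : x ≠ e := by rintro rfl; exact he hx
      simp only [hlam, Function.update_of_ne hne]
  have : Z mem (fun f => A f + Function.update om e (om e * r) f) =
      Z mem lam + (∑ M ∈ univ.filter (fun M => e ∈ mem M), wt mem lam M) *
        (om e / lam e) * (r - 1) := by
    unfold Z
    rw [Finset.sum_congr rfl (fun M _ => key M), Finset.sum_add_distrib, ← Finset.sum_filter,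
      Finset.sum_mul, Finset.sum_mul]
  rw [this]
  have hv : vmarg mem A om e = (∑ M ∈ univ.filter (fun M => e ∈ mem M), wt mem lam M) / Z mem lam *
      (om e / lam e) := rfl
  rw [hv]
  have hZ' : Z mem lam ≠ 0 := hZ.ne'
  have hl' : lam e ≠ 0 := (hl e).ne'
  field_simp

lemma Psi_update [Nonempty Ω] (mem : Ω → Finset E) {q : ℝ} (A y : E → ℝ) (hA : ∀ e, 0 < A e)
    (e : E) (t : ℝ) :
    Psi mem q A (Function.update y e (y e + t)) = Psi mem q A y +
      Real.log (1 + vmarg mem A (fun e => Real.exp (y e)) e * (Real.exp t - 1)) - t / q := by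
  have hl : ∀ f, 0 < A f + (fun e => Real.exp (y e)) f :=
    fun f => add_pos (hA f) (Real.exp_pos _)
  have hl' : ∀ f, 0 < A f + Function.update (fun e => Real.exp (y e)) e
      ((fun e => Real.exp (y e)) e * Real.exp t) f := by
    intro f
    apply add_pos (hA f)
    by_cases hf : f = e
    · subst hf; rw [Function.update_self]; positivity
    · rw [Function.update_of_ne hf]; positivity
  have hZ := Z_pos mem hl
  have hZ' := Z_pos mem hl'
  have h1 := Z_update mem A (fun e => Real.exp (y e)) hl e (Real.exp t)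
  have hpos : 0 < 1 + vmarg mem A (fun e => Real.exp (y e)) e * (Real.exp t - 1) := by
    rw [h1] at hZ'
    exact (pos_iff_pos_of_mul_pos hZ').mp hZ
  have h2 : (fun f => A f + Real.exp (Function.update y e (y e + t) f)) =
      fun f => A f + Function.update (fun e => Real.exp (y e)) e
        ((fun e => Real.exp (y e)) e * Real.exp t) f := by
    funext f
    by_cases hf : f = e
    · subst hf; rw [Function.update_self, Function.update_self, Real.exp_add]
    · rw [Function.update_of_ne hf, Function.update_of_ne hf]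
  unfold Psi
  rw [h2, h1, Real.log_mul hZ.ne' hpos.ne']
  have h3 : ∑ f, Function.update y e (y e + t) f = (∑ f, y f) + t := by
    rw [Finset.sum_update_of_mem (Finset.mem_univ e), ← Finset.add_sum_erase univ y (mem_univ e),
      Finset.sdiff_singleton_eq_erase]
    ring
  rw [h3]
  ring

lemma vmarg_nonneg (mem : Ω → Finset E) (A om : E → ℝ) (hA : ∀ e, 0 < A e)
    (ho : ∀ e, 0 < om e) (e : E) : 0 ≤ vmarg mem A om e :=
  mul_nonneg (marg_nonneg mem (fun e => add_pos (hA e) (ho e)) e)
    (div_nonneg (ho e).le (add_pos (hA e) (ho e)).le)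

lemma vmarg_le_marg (mem : Ω → Finset E) (A om : E → ℝ) (hA : ∀ e, 0 < A e)
    (ho : ∀ e, 0 < om e) (e : E) :
    vmarg mem A om e ≤ marg mem (fun e => A e + om e) e := by
  unfold vmarg
  apply mul_le_of_le_one_right (marg_nonneg mem (fun e => add_pos (hA e) (ho e)) e)
  rw [div_le_one (add_pos (hA e) (ho e))]
  linarith [hA e]

lemma vmarg_le_one [Nonempty Ω] (mem : Ω → Finset E) (A om : E → ℝ) (hA : ∀ e, 0 < A e)
    (ho : ∀ e, 0 < om e) (e : E) : vmarg mem A om e ≤ 1 :=
  (vmarg_le_marg mem A om hA ho e).trans (marg_le_one mem (fun e => add_pos (hA e) (ho e)) e)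

/-- the one-coordinate test. -/
lemma x_bounds [Nonempty Ω] (mem : Ω → Finset E) {q : ℝ} (hq : 0 < q) (A y : E → ℝ)
    (hA : ∀ e, 0 < A e) (hβ : ∀ y', Psi mem q A y - Psi mem q A y' ≤ 1 / q) (e : E) :
    1 / (8 * q) ≤ vmarg mem A (fun e => Real.exp (y e)) e ∧
      vmarg mem A (fun e => Real.exp (y e)) e ≤ 4 / q := by
  set x := vmarg mem A (fun e => Real.exp (y e)) e with hx
  have hx0 : 0 ≤ x := vmarg_nonneg mem A _ hA (fun e => Real.exp_pos _) e
  have hx1 : x ≤ 1 := vmarg_le_one mem A _ hA (fun e => Real.exp_pos _) e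
  constructor
  · have h1 := hβ (Function.update y e (y e + 2))
    rw [Psi_update mem A y hA e 2] at h1
    have h2 : 1 / q ≤ Real.log (1 + x * (Real.exp 2 - 1)) := by
      have : (2:ℝ) / q = 1 / q + 1 / q := by ring
      linarith
    have he1 : 0 ≤ Real.exp 2 - 1 := by
      have := Real.add_one_le_exp (2:ℝ); linarith
    have he2 : Real.exp 2 - 1 ≤ 8 := by
      have h5 : Real.exp 1 < 2.7182818286 := Real.exp_one_lt_d9
      have h6 : Real.exp 2 = Real.exp 1 * Real.exp 1 := by rw [← Real.exp_add]; norm_num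
      have := Real.exp_pos 1
      rw [h6]; nlinarith
    have h3 : Real.log (1 + x * (Real.exp 2 - 1)) ≤ x * (Real.exp 2 - 1) := by
      have h4 : 0 < 1 + x * (Real.exp 2 - 1) := by positivity
      have := Real.log_le_sub_one_of_pos h4
      linarith
    have h7 : 1 / q ≤ x * 8 := h2.trans (h3.trans (mul_le_mul_of_nonneg_left he2 hx0))
    have h8 : 1 / (8 * q) = (1 / q) / 8 := by field_simp
    rw [h8]; linarith
  · have h1 := hβ (Function.update y e (y e + (-1)))
    rw [Psi_update mem A y hA e (-1)] at h1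
    have h2 : -(2 / q) ≤ Real.log (1 + x * (Real.exp (-1) - 1)) := by
      have : (2:ℝ) / q = 1 / q + 1 / q := by ring
      have h0 : (-1:ℝ) / q = - (1 / q) := by ring
      linarith
    have he : Real.exp (-1) ≤ 1 / 2 := by
      have h5 : (2.7182818283 : ℝ) < Real.exp 1 := Real.exp_one_gt_d9
      rw [Real.exp_neg, inv_eq_one_div]
      apply one_div_le_one_div_of_le (by norm_num)
      linarith
    have h4 : 0 < 1 + x * (Real.exp (-1) - 1) := by
      have := Real.exp_pos (-1)
      nlinarith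
    have h3 := Real.log_le_sub_one_of_pos h4
    have h5 : x * (1 - Real.exp (-1)) ≤ 2 / q := by nlinarith
    have h6 : x * (1 / 2) ≤ 2 / q := le_trans (mul_le_mul_of_nonneg_left (by linarith) hx0) h5
    have h7 : (4:ℝ) / q = 2 / q + 2 / q := by ring
    linarith

end Crest.Agent.R304.Ctl
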