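import Crest.Agent.R304.Ctl787B

/-!
# R304 / L5 (helper787): the annealing controller, part C: the run theorem
-/

set_option autoImplicit false
set_option linter.unusedSectionVars false

namespace Crest.Agent.R304.Ctl

open Finset

variable {Ω E : Type*} [Fintype Ω] [Fintype E] [DecidableEq E]

/-- controller state: `s` theta-steps made, exponents `a`. -/
structure St (E : Type*) where
  s : ℕ
  a : E → ℤ

/-- real weights: `1` on `G`, `(m/(m+1))^s` off `G`. -/
noncomputable def Aw (G : E → Prop) [DecidablePred G] (m s : ℕ) (e : E) : ℝ :=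
  if G e then 1 else ((m : ℝ) / (m + 1)) ^ s

/-- virtual weights `w0 ((m+1)/m)^{a_e}`. -/
noncomputable def omw (w0 : ℝ) (m : ℕ) (a : E → ℤ) (e : E) : ℝ :=
  w0 * (((m : ℝ) + 1) / m) ^ (a e)

/-- total weights of a controller state. -/
noncomputable def lamw (G : E → Prop) [DecidablePred G] (w0 : ℝ) (m : ℕ) (st : St E) (e : E) : ℝ :=
  Aw G m st.s e + omw w0 m st.a e

/-- virtual marginals of a controller state. -/
noncomputable def xv (mem : Ω → Finset E) (G : E → Prop) [DecidablePred G] (w0 : ℝ) (m : ℕ)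
    (st : St E) (e : E) : ℝ :=
  vmarg mem (Aw G m st.s) (omw w0 m st.a) e

lemma xv_eq (mem : Ω → Finset E) (G : E → Prop) [DecidablePred G] (w0 : ℝ) (m : ℕ)
    (st : St E) (e : E) :
    xv mem G w0 m st e = marg mem (lamw G w0 m st) e * (omw w0 m st.a e / lamw G w0 m st e) := rfl

/-- One step of the controller, from estimates `xh` of the virtual marginals. -/
def CStep (q gd S : ℕ) (xh : E → ℝ) (st st' : St E) : Prop :=
  (∃ e, xh e ≤ 1 / q - 1 / gd ∧ st' = ⟨st.s, Function.update st.a e (st.a e + 1)⟩) ∨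
  (∃ e, 1 / q + 1 / gd ≤ xh e ∧ st' = ⟨st.s, Function.update st.a e (st.a e - 1)⟩) ∨
  ((∀ e, |xh e - 1 / q| ≤ 1 / gd) ∧ st' = ⟨min (st.s + 1) S, st.a⟩)

/-- Parameters: `|Ω| ≤ 2^W`, `D = W + 6N + NW`. -/
structure Par (Ω : Type*) [Fintype Ω] (N d q m W gd : ℕ) : Prop where
  hN : 1 ≤ N
  hd : 1 ≤ d
  hq : 16 * (N * d) ≤ q
  hW : Fintype.card Ω ≤ 2 ^ W
  hgd : 6 * q ^ 2 * (W + 6 * N + N * W) ≤ gd
  hm1 : 2 * q * N ≤ m
  hm2 : 4 * gd ≤ q * m

/-- the number of theta-steps. -/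
def Smax (m W : ℕ) : ℕ := m * (W + 4)

/-- number of rounds. -/
def Rounds (N m W gd : ℕ) : ℕ := Smax m W + 4 * gd * (m + 1) * (W + 6 * N + N * W) + 1

lemma Aw_pos (G : E → Prop) [DecidablePred G] {m : ℕ} (hm : 0 < m) (s : ℕ) (e : E) :
    0 < Aw G m s e := by
  unfold Aw; split_ifs
  · exact one_pos
  · positivity

lemma Aw_le_one (G : E → Prop) [DecidablePred G] (m s : ℕ) (e : E) :
    Aw G m s e ≤ 1 := by
  unfold Aw; split_ifs
  · exact le_rfl
  · apply pow_le_one₀ (by positivity)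
    rw [div_le_one (by positivity)]; linarith

lemma omw_pos {w0 : ℝ} (hw : 0 < w0) {m : ℕ} (hm : 0 < m) (a : E → ℤ) (e : E) :
    0 < omw w0 m a e := by
  unfold omw
  have : (0:ℝ) < m := by exact_mod_cast hm
  positivity

lemma log_omw {w0 : ℝ} (hw : 0 < w0) {m : ℕ} (hm : 0 < m) (a : E → ℤ) (e : E) :
    Real.log (omw w0 m a e) = Real.log w0 + a e * Real.log (((m : ℝ) + 1) / m) := by
  unfold omw
  have : (0:ℝ) < m := by exact_mod_cast hm
  rw [Real.log_mul hw.ne' (by positivity), Real.log_zpow]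

/-- the log-parameters -/
noncomputable def yv (w0 : ℝ) (m : ℕ) (a : E → ℤ) (e : E) : ℝ := Real.log (omw w0 m a e)

lemma exp_yv {w0 : ℝ} (hw : 0 < w0) {m : ℕ} (hm : 0 < m) (a : E → ℤ) :
    (fun e => Real.exp (yv w0 m a e)) = omw w0 m a := by
  funext e; exact Real.exp_log (omw_pos hw hm a e)

lemma yv_update {w0 : ℝ} (hw : 0 < w0) {m : ℕ} (hm : 0 < m) (a : E → ℤ) (e : E) (j : ℤ) :
    yv w0 m (Function.update a e (a e + j)) =
      Function.update (yv w0 m a) e (yv w0 m a e + j * Real.log (((m : ℝ) + 1) / m)) := by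
  funext f
  unfold yv
  by_cases hf : f = e
  · subst hf
    rw [Function.update_self, log_omw hw hm, log_omw hw hm, Function.update_self]
    push_cast; ring
  · rw [Function.update_of_ne hf, log_omw hw hm, log_omw hw hm, Function.update_of_ne hf]

/-! ### elementary estimates for `h = log((m+1)/m)` -/

lemma h_le {m : ℕ} (hm : 0 < m) : Real.log (((m : ℝ) + 1) / m) ≤ 1 / m := by
  have hm' : (0:ℝ) < m := by exact_mod_cast hm
  have := Real.log_le_sub_one_of_pos (show (0:ℝ) < ((m:ℝ) + 1) / m by positivity)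
  refine this.trans (le_of_eq ?_)
  field_simp; ring

lemma h_ge {m : ℕ} (hm : 0 < m) : 1 / ((m:ℝ) + 1) ≤ Real.log (((m : ℝ) + 1) / m) := by
  have hm' : (0:ℝ) < m := by exact_mod_cast hm
  have := Real.log_le_sub_one_of_pos (show (0:ℝ) < (m:ℝ) / (m + 1) by positivity)
  have h2 : Real.log ((m:ℝ) / (m + 1)) = - Real.log (((m : ℝ) + 1) / m) := by
    rw [← Real.log_inv, inv_div]
  have h3 : (m:ℝ) / (m + 1) - 1 = - (1 / (m + 1)) := by field_simp; ring
  linarith

lemma h_nonneg {m : ℕ} (hm : 0 < m) : 0 ≤ Real.log (((m : ℝ) + 1) / m) :=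
  le_trans (by positivity) (h_ge hm)

lemma exp_h {m : ℕ} (hm : 0 < m) : Real.exp (Real.log (((m : ℝ) + 1) / m)) = ((m : ℝ) + 1) / m := by
  have hm' : (0:ℝ) < m := by exact_mod_cast hm
  exact Real.exp_log (by positivity)

/-- `A ≥ exp(-(W+4))` for `s ≤ S`. -/
lemma Aw_ge (G : E → Prop) [DecidablePred G] {m W : ℕ} (hm : 0 < m) {s : ℕ}
    (hs : s ≤ Smax m W) (e : E) : Real.exp (-((W:ℝ) + 4)) ≤ Aw G m s e := by
  have hm' : (0:ℝ) < m := by exact_mod_cast hm
  unfold Aw; split_ifs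
  · rw [Real.exp_le_one_iff]
    have : (0:ℝ) ≤ W := by positivity
    linarith
  · have h1 : ((m:ℝ) / (m + 1)) ^ Smax m W ≤ ((m:ℝ) / (m + 1)) ^ s := by
      apply pow_le_pow_of_le_one (by positivity) _ hs
      rw [div_le_one (by positivity)]; linarith
    refine le_trans ?_ h1
    have h2 : Real.exp (-(1 / (m:ℝ))) ≤ (m:ℝ) / (m + 1) := by
      rw [← Real.exp_log (show (0:ℝ) < (m:ℝ) / (m + 1) by positivity)]
      apply Real.exp_le_exp.mpr
      have h2 : Real.log ((m:ℝ) / (m + 1)) = - Real.log (((m : ℝ) + 1) / m) := by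
        rw [← Real.log_inv, inv_div]
      rw [h2]
      linarith [h_le hm]
    calc Real.exp (-((W:ℝ) + 4)) = Real.exp (-(1 / (m:ℝ))) ^ Smax m W := by
          rw [← Real.exp_nat_mul]
          congr 1
          unfold Smax
          push_cast
          field_simp
      _ ≤ ((m:ℝ) / (m + 1)) ^ Smax m W := by
          apply pow_le_pow_left₀ (Real.exp_pos _).le h2

/-- `|Ω| θ_S ≤ 1/16`. -/
lemma theta_small {m W : ℕ} (hm : 0 < m) :
    (2:ℝ) ^ W * ((m:ℝ) / (m + 1)) ^ Smax m W ≤ 1 / 16 := by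
  have hm' : (0:ℝ) < m := by exact_mod_cast hm
  have h1 : ((m:ℝ) / (m + 1)) ^ m ≤ 1 / 2 := by
    have h2 : (2:ℝ) ≤ (1 + 1 / (m:ℝ)) ^ m := by
      have := one_add_mul_le_pow (a := 1 / (m:ℝ)) (by
        have : (0:ℝ) ≤ 1 / m := by positivity
        linarith) m
      have h3 : 1 + (m:ℝ) * (1 / m) = 2 := by field_simp; norm_num
      linarith
    have h4 : ((m:ℝ) / (m + 1)) = (1 + 1 / (m:ℝ))⁻¹ := by
      field_simp
    rw [h4, inv_pow, inv_eq_one_div]
    exact one_div_le_one_div_of_le (by norm_num) h2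
  have h5 : ((m:ℝ) / (m + 1)) ^ Smax m W ≤ (1 / 2) ^ (W + 4) := by
    unfold Smax
    rw [pow_mul]
    exact pow_le_pow_left₀ (by positivity) h1 _
  calc (2:ℝ) ^ W * ((m:ℝ) / (m + 1)) ^ Smax m W ≤ 2 ^ W * (1 / 2) ^ (W + 4) := by
        apply mul_le_mul_of_nonneg_left h5 (by positivity)
    _ = 1 / 16 := by
        rw [pow_add, ← mul_assoc, ← mul_pow]; norm_num

/-! ### monotonicity in `A` -/

lemma Z_mono (mem : Ω → Finset E) {lam lam' : E → ℝ} (h0 : ∀ e, 0 ≤ lam e)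
    (h : ∀ e, lam e ≤ lam' e) : Z mem lam ≤ Z mem lam' :=
  Finset.sum_le_sum fun _ _ => Finset.prod_le_prod (fun e _ => h0 e) (fun e _ => h e)

lemma wt_scale {mem : Ω → Finset E} {N d : ℕ} (hs : Sys mem N d) {lam lam' : E → ℝ}
    (h0 : ∀ e, 0 ≤ lam e) {c : ℝ} (h : ∀ e, lam e ≤ c * lam' e) (M : Ω) :
    wt mem lam M ≤ c ^ N * wt mem lam' M := by
  unfold wt
  calc ∏ e ∈ mem M, lam e ≤ ∏ e ∈ mem M, (c * lam' e) :=
        Finset.prod_le_prod (fun e _ => h0 e) (fun e _ => h e)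
    _ = c ^ N * ∏ e ∈ mem M, lam' e := by
        rw [Finset.prod_mul_distrib, Finset.prod_const, hs.card_mem]

lemma Z_scale {mem : Ω → Finset E} {N d : ℕ} (hs : Sys mem N d) {lam lam' : E → ℝ}
    (h0 : ∀ e, 0 ≤ lam e) {c : ℝ} (h : ∀ e, lam e ≤ c * lam' e) :
    Z mem lam ≤ c ^ N * Z mem lam' := by
  unfold Z
  rw [Finset.mul_sum]
  exact Finset.sum_le_sum fun M _ => wt_scale hs h0 h M

/-! ### the invariant -/

section inv

variable (mem : Ω → Finset E) (G : E → Prop) [DecidablePred G]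

/-- the potential of a controller state -/
noncomputable def PsiSt (q : ℕ) (w0 : ℝ) (m : ℕ) (st : St E) : ℝ :=
  Psi mem q (Aw G m st.s) (yv w0 m st.a)

/-- `w0 = d / (q - d)`. -/
noncomputable def w0 (q d : ℕ) : ℝ := (d : ℝ) / ((q : ℝ) - d)

end inv

section par

variable {mem : Ω → Finset E} {N d q m W gd : ℕ}

lemma Par.mpos (hp : Par Ω N d q m W gd) : 0 < m := by
  have h1 := hp.hm1
  have hN := hp.hN
  have hd := hp.hd
  have h2 := hp.hq
  have : 1 ≤ N * d := Nat.one_le_iff_ne_zero.mpr (Nat.mul_ne_zero (by omega) (by omega))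
  have hq : 1 ≤ q := by omega
  have : 0 < 2 * q * N := by positivity
  omega

lemma Par.qpos (hp : Par Ω N d q m W gd) : 0 < q := by
  have hN := hp.hN
  have hd := hp.hd
  have h2 := hp.hq
  have : 1 ≤ N * d := Nat.one_le_iff_ne_zero.mpr (Nat.mul_ne_zero (by omega) (by omega))
  omega

lemma Par.q_ge (hp : Par Ω N d q m W gd) : 16 * d ≤ q := by
  have hN := hp.hN
  have h2 := hp.hq
  have : d ≤ N * d := Nat.le_mul_of_pos_left d hN
  omega

lemma Par.gdpos (hp : Par Ω N d q m W gd) : 0 < gd := by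
  have h := hp.hgd
  have hq := hp.qpos
  have hN := hp.hN
  have : 0 < 6 * q ^ 2 * (W + 6 * N + N * W) := by positivity
  omega

lemma Par.w0_pos (hp : Par Ω N d q m W gd) : 0 < w0 q d := by
  unfold w0
  have h1 : (16:ℝ) * d ≤ q := by exact_mod_cast hp.q_ge
  have h2 : (1:ℝ) ≤ d := by exact_mod_cast hp.hd
  apply div_pos (by linarith) (by linarith)

end par

end Crest.Agent.R304.Ctl
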