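import Crest.Agent.R304.Ctl787C

/-!
# R304 / L5 (helper787): the annealing controller, part D: invariant and run theorem
-/

set_option autoImplicit false
set_option linter.unusedSectionVars false

namespace Crest.Agent.R304.Ctl

open Finset

variable {Ω E : Type*} [Fintype Ω] [Fintype E] [DecidableEq E]

variable {mem : Ω → Finset E} {N d q m W gd : ℕ}

/-! ### the starting state -/

/-- the starting state -/
def st0 : St E := ⟨0, fun _ => 0⟩

lemma lamw_st0 (G : E → Prop) [DecidablePred G] (w : ℝ) (m : ℕ) :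
    lamw G w m (st0 : St E) = fun _ => 1 + w := by
  funext e
  unfold lamw Aw omw st0
  simp

lemma Z_const (hs : Sys mem N d) (c : ℝ) :
    Z mem (fun _ => c) = (Fintype.card Ω : ℝ) * c ^ N := by
  unfold Z wt
  simp [hs.card_mem]

lemma gib_const [Nonempty Ω] (hs : Sys mem N d) {c : ℝ} (hc : 0 < c) (M : Ω) :
    gib mem (fun _ => c) M = 1 / (Fintype.card Ω : ℝ) := by
  have hO : (Fintype.card Ω : ℝ) ≠ 0 := by exact_mod_cast Fintype.card_ne_zero
  unfold gib
  rw [Z_const hs]
  unfold wt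
  rw [Finset.prod_const, hs.card_mem]
  field_simp

lemma marg_const [Nonempty Ω] (hs : Sys mem N d) {c : ℝ} (hc : 0 < c) (e : E) :
    marg mem (fun _ => c) e = 1 / d := by
  have hO : (Fintype.card Ω : ℝ) ≠ 0 := by exact_mod_cast Fintype.card_ne_zero
  have hd : (d : ℝ) ≠ 0 := by exact_mod_cast hs.dpos.ne'
  unfold marg
  rw [Z_const hs]
  unfold wt
  rw [Finset.sum_congr rfl (fun M _ => by rw [Finset.prod_const, hs.card_mem])]
  rw [Finset.sum_const, nsmul_eq_mul, hs.unif_real]
  field_simp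

lemma xv_st0 [Nonempty Ω] (hs : Sys mem N d) (hp : Par Ω N d q m W gd)
    (G : E → Prop) [DecidablePred G] (e : E) :
    xv mem G (w0 q d) m st0 e = 1 / q := by
  have hw := hp.w0_pos
  have h1 : (16:ℝ) * d ≤ q := by exact_mod_cast hp.q_ge
  have h2 : (1:ℝ) ≤ d := by exact_mod_cast hp.hd
  have h3 : (0:ℝ) < q - d := by linarith
  have h4 : (0:ℝ) < q := by linarith
  rw [xv_eq, lamw_st0, marg_const hs (by linarith)]
  have h5 : omw (w0 q d) m (st0 : St E).a e = w0 q d := by
    unfold omw st0; simp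
  rw [h5]
  simp only
  have h6 : 1 + w0 q d = q / (q - d) := by
    unfold w0; field_simp; ring
  rw [h6]
  unfold w0
  field_simp

lemma Par.Smax_pos (hp : Par Ω N d q m W gd) : 0 < Smax m W := by
  unfold Smax
  have := hp.mpos
  positivity

/-- `β ≤ b` -/
def Beta (mem : Ω → Finset E) (G : E → Prop) [DecidablePred G] (q d m : ℕ) (b : ℝ)
    (st : St E) : Prop :=
  ∀ y', Psi mem q (Aw G m st.s) (yv (w0 q d) m st.a) - Psi mem q (Aw G m st.s) y' ≤ b

/-- the bound for the starting potential -/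
lemma Psi_st0_le [Nonempty Ω] (hs : Sys mem N d) (hp : Par Ω N d q m W gd)
    (G : E → Prop) [DecidablePred G] :
    PsiSt mem G q (w0 q d) m st0 ≤ W + 2 * N := by
  have hw := hp.w0_pos
  have hm := hp.mpos
  have h1 : (16:ℝ) * d ≤ q := by exact_mod_cast hp.q_ge
  have h2 : (1:ℝ) ≤ d := by exact_mod_cast hp.hd
  have h3 : (0:ℝ) < q - d := by linarith
  have h4 : (0:ℝ) < q := by linarith
  have hO : (0:ℝ) < (Fintype.card Ω : ℝ) := by exact_mod_cast Fintype.card_pos
  unfold PsiSt Psi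
  have e1 : (fun e => Aw G m (st0 : St E).s e + Real.exp (yv (w0 q d) m (st0 : St E).a e)) =
      fun _ => 1 + w0 q d := by
    have := lamw_st0 (E := E) G (w0 q d) m
    rw [← this]
    funext e
    unfold lamw
    rw [← exp_yv hw hm]
  rw [e1, Z_const hs, Real.log_mul hO.ne' (by positivity), Real.log_pow]
  have e2 : ∑ e : E, yv (w0 q d) m (st0 : St E).a e = (N * d : ℝ) * Real.log (w0 q d) := by
    rw [← hs.card_E, ← Finset.card_univ, ← nsmul_eq_mul, ← Finset.sum_const]
    apply Finset.sum_congr rfl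
    intro e _
    unfold yv omw st0
    simp
  rw [e2]
  have h5 : Real.log (Fintype.card Ω : ℝ) ≤ W := by
    have h6 : (Fintype.card Ω : ℝ) ≤ 2 ^ W := by exact_mod_cast hp.hW
    have h7 := Real.log_le_log hO h6
    rw [Real.log_pow] at h7
    have h8 : Real.log 2 ≤ 1 := by
      have := Real.log_two_lt_d9; linarith
    have h9 : (W:ℝ) * Real.log 2 ≤ W * 1 := mul_le_mul_of_nonneg_left h8 (by positivity)
    linarith
  have h6 : Real.log (1 + w0 q d) ≤ 1 := by
    have h7 := Real.log_le_sub_one_of_pos (show (0:ℝ) < 1 + w0 q d by linarith)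
    have h8 : w0 q d ≤ 1 := by
      unfold w0; rw [div_le_one h3]; linarith
    linarith
  have h7 : (N:ℝ) * Real.log (1 + w0 q d) ≤ N * 1 := mul_le_mul_of_nonneg_left h6 (by positivity)
  have h8 : - Real.log (w0 q d) ≤ q / d := by
    have h9 : - Real.log (w0 q d) = Real.log ((q - d) / d) := by
      unfold w0; rw [← Real.log_inv, inv_div]
    rw [h9]
    have h10 := Real.log_le_sub_one_of_pos (show (0:ℝ) < ((q:ℝ) - d) / d by positivity)
    have h11 : ((q:ℝ) - d) / d = q / d - 1 := by field_simp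
    linarith
  have h9 : -((N * d : ℝ) * Real.log (w0 q d) / q) ≤ N := by
    have h10 : (N * d : ℝ) / q * (- Real.log (w0 q d)) ≤ (N * d : ℝ) / q * (q / d) :=
      mul_le_mul_of_nonneg_left h8 (by positivity)
    have h11 : (N * d : ℝ) / q * (q / d) = N := by field_simp
    have h12 : (N * d : ℝ) / q * (- Real.log (w0 q d)) = -((N * d : ℝ) * Real.log (w0 q d) / q) := by
      ring
    linarith
  linarith

/-- `β = 0` at the starting state. -/
lemma Beta_st0 [Nonempty Ω] (hs : Sys mem N d) (hp : Par Ω N d q m W gd)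
    (G : E → Prop) [DecidablePred G] : Beta mem G q d m 0 st0 := by
  intro y'
  have hw := hp.w0_pos
  have hm := hp.mpos
  have h := Psi_sub_le mem (q := q) (Aw G m (st0 : St E).s) (yv (w0 q d) m (st0 : St E).a) y'
    (fun e => Aw_pos G hm _ e) (η := 0) (by
      intro e
      have h1 := xv_st0 hs hp G e
      unfold xv at h1
      rw [exp_yv hw hm, h1]
      simp)
  simpa using h

/-! ### the effect of the three kinds of steps -/

/-- accuracy of the estimates -/
def Acc (mem : Ω → Finset E) (G : E → Prop) [DecidablePred G] (q d m gd : ℕ) (xh : E → ℝ)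
    (st : St E) : Prop :=
  ∀ e, |xh e - xv mem G (w0 q d) m st e| ≤ 1 / (2 * gd)

/-- the decrease per move -/
noncomputable def cdec (m gd : ℕ) : ℝ := 1 / (4 * gd * (m + 1))

lemma Psi_up [Nonempty Ω] (hp : Par Ω N d q m W gd) (G : E → Prop) [DecidablePred G]
    (st : St E) (e : E) (hx : xv mem G (w0 q d) m st e ≤ 1 / q - 1 / (2 * gd)) :
    PsiSt mem G q (w0 q d) m ⟨st.s, Function.update st.a e (st.a e + 1)⟩ ≤
      PsiSt mem G q (w0 q d) m st - cdec m gd := by
  have hw := hp.w0_pos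
  have hm := hp.mpos
  have hm' : (0:ℝ) < m := by exact_mod_cast hm
  have hq : (0:ℝ) < q := by exact_mod_cast hp.qpos
  have hg : (0:ℝ) < gd := by exact_mod_cast hp.gdpos
  unfold PsiSt
  simp only
  rw [yv_update hw hm, Int.cast_one, one_mul, Psi_update mem _ _ (fun e => Aw_pos G hm _ e) e,
    exp_h hm, exp_yv hw hm]
  set x := vmarg mem (Aw G m st.s) (omw (w0 q d) m st.a) e with hxdef
  have hx' : x ≤ 1 / q - 1 / (2 * gd) := hx
  have hx0 : 0 ≤ x := vmarg_nonneg mem _ _ (fun e => Aw_pos G hm _ e)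
    (fun e => omw_pos hw hm _ e) e
  have e1 : ((m:ℝ) + 1) / m - 1 = 1 / m := by field_simp; ring
  rw [e1]
  have h1 : Real.log (1 + x * (1 / m)) ≤ x * (1 / m) := by
    have := Real.log_le_sub_one_of_pos (show (0:ℝ) < 1 + x * (1 / m) by positivity)
    linarith
  have h2 : x * (1 / m) ≤ (1 / q - 1 / (2 * gd)) * (1 / m) :=
    mul_le_mul_of_nonneg_right hx' (by positivity)
  have h3 : 1 / ((m:ℝ) + 1) / q ≤ Real.log (((m:ℝ) + 1) / m) / q := by
    apply div_le_div_of_nonneg_right (h_ge hm) hq.le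
  have h4 : (1 / (q:ℝ) - 1 / (2 * gd)) * (1 / m) - 1 / ((m:ℝ) + 1) / q ≤ - cdec m gd := by
    unfold cdec
    have h5 : 4 * (gd:ℝ) ≤ q * m := by exact_mod_cast hp.hm2
    rw [← sub_nonneg]
    have : -(1 / (4 * (gd:ℝ) * (m + 1))) - ((1 / (q:ℝ) - 1 / (2 * gd)) * (1 / m) -
        1 / ((m:ℝ) + 1) / q) = ((q:ℝ) * (m + 2) - 4 * gd) / (4 * q * gd * m * (m + 1)) := by
      field_simp; ring
    rw [this]
    apply div_nonneg _ (by positivity)
    nlinarith
  linarith

lemma Psi_down [Nonempty Ω] (hp : Par Ω N d q m W gd) (G : E → Prop) [DecidablePred G]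
    (st : St E) (e : E) (hx : 1 / q + 1 / (2 * gd) ≤ xv mem G (w0 q d) m st e) :
    PsiSt mem G q (w0 q d) m ⟨st.s, Function.update st.a e (st.a e - 1)⟩ ≤
      PsiSt mem G q (w0 q d) m st - cdec m gd := by
  have hw := hp.w0_pos
  have hm := hp.mpos
  have hm' : (0:ℝ) < m := by exact_mod_cast hm
  have hq : (0:ℝ) < q := by exact_mod_cast hp.qpos
  have hg : (0:ℝ) < gd := by exact_mod_cast hp.gdpos
  unfold PsiSt
  simp only
  rw [sub_eq_add_neg (st.a e), yv_update hw hm, Int.cast_neg, Int.cast_one, neg_mul, one_mul,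
    Psi_update mem _ _ (fun e => Aw_pos G hm _ e) e, Real.exp_neg, exp_h hm, exp_yv hw hm]
  set x := vmarg mem (Aw G m st.s) (omw (w0 q d) m st.a) e with hxdef
  have hx' : 1 / q + 1 / (2 * gd) ≤ x := hx
  have hx0 : 0 ≤ x := vmarg_nonneg mem _ _ (fun e => Aw_pos G hm _ e)
    (fun e => omw_pos hw hm _ e) e
  have hx1 : x ≤ 1 := vmarg_le_one mem _ _ (fun e => Aw_pos G hm _ e)
    (fun e => omw_pos hw hm _ e) e
  have e1 : (((m:ℝ) + 1) / m)⁻¹ - 1 = - (1 / (m + 1)) := by
    rw [inv_div]; field_simp; ring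
  rw [e1]
  have h1 : Real.log (1 + x * (-(1 / (m + 1)))) ≤ x * (-(1 / (m + 1))) := by
    have h2 : (1:ℝ) / (m + 1) < 1 := by
      rw [div_lt_one (by positivity)]; linarith
    have h3 : 0 < (1:ℝ) / (m + 1) := by positivity
    have := Real.log_le_sub_one_of_pos (show (0:ℝ) < 1 + x * (-(1 / (m + 1))) by nlinarith)
    linarith
  have h2 : x * (-(1 / ((m:ℝ) + 1))) ≤ (1 / q + 1 / (2 * gd)) * (-(1 / (m + 1))) := by
    have h3 : 0 < (1:ℝ) / (m + 1) := by positivity
    nlinarith
  have h3 : Real.log (((m:ℝ) + 1) / m) / q ≤ 1 / m / q := by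
    apply div_le_div_of_nonneg_right (h_le hm) hq.le
  have h4 : (1 / (q:ℝ) + 1 / (2 * gd)) * (-(1 / (m + 1))) + 1 / (m:ℝ) / q ≤ - cdec m gd := by
    unfold cdec
    have h5 : 4 * (gd:ℝ) ≤ q * m := by exact_mod_cast hp.hm2
    rw [← sub_nonneg]
    have : -(1 / (4 * (gd:ℝ) * (m + 1))) - ((1 / (q:ℝ) + 1 / (2 * gd)) * (-(1 / (m + 1))) +
        1 / (m:ℝ) / q) = ((q:ℝ) * m - 4 * gd) / (4 * q * gd * m * (m + 1)) := by
      field_simp; ring
    rw [this]
    apply div_nonneg _ (by positivity)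
    linarith
  have h5 : -Real.log (((m:ℝ) + 1) / m) / q = - (Real.log (((m:ℝ) + 1) / m) / q) := by ring
  rw [h5]
  linarith

/-- a theta-step changes the potential by at most `N/m`. -/
lemma Psi_theta [Nonempty Ω] (hs : Sys mem N d) (hm : 0 < m) (Q : ℝ)
    (G : E → Prop) [DecidablePred G] (s : ℕ) (y : E → ℝ) :
    Psi mem Q (Aw G m (s + 1)) y ≤ Psi mem Q (Aw G m s) y ∧
      Psi mem Q (Aw G m s) y ≤ Psi mem Q (Aw G m (s + 1)) y + N / m := by
  have hm' : (0:ℝ) < m := by exact_mod_cast hm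
  have hpos : ∀ s e, 0 < Aw G m s e + Real.exp (y e) :=
    fun s e => add_pos (Aw_pos G hm s e) (Real.exp_pos _)
  have hr1 : (m:ℝ) / (m + 1) ≤ 1 := by rw [div_le_one (by positivity)]; linarith
  have hle : ∀ e, Aw G m (s + 1) e ≤ Aw G m s e := by
    intro e
    unfold Aw; split_ifs
    · exact le_rfl
    · rw [pow_succ]
      exact mul_le_of_le_one_right (by positivity) hr1
  have hge : ∀ e, Aw G m s e ≤ ((m:ℝ) + 1) / m * Aw G m (s + 1) e := by
    intro e
    unfold Aw; split_ifs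
    · rw [mul_one, le_div_iff₀ hm']; linarith
    · rw [pow_succ]
      apply le_of_eq
      field_simp
  have hk1 : (1:ℝ) ≤ ((m:ℝ) + 1) / m := by rw [le_div_iff₀ hm']; linarith
  unfold Psi
  constructor
  · have h1 : Z mem (fun e => Aw G m (s + 1) e + Real.exp (y e)) ≤
        Z mem (fun e => Aw G m s e + Real.exp (y e)) :=
      Z_mono mem (fun e => (hpos _ e).le) (fun e => by linarith [hle e])
    have := Real.log_le_log (Z_pos mem (hpos (s + 1))) h1
    linarith
  · have h1 : Z mem (fun e => Aw G m s e + Real.exp (y e)) ≤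
        (((m:ℝ) + 1) / m) ^ N * Z mem (fun e => Aw G m (s + 1) e + Real.exp (y e)) := by
      apply Z_scale hs (fun e => (hpos _ e).le)
      intro e
      have h2 := hge e
      have h3 : Real.exp (y e) ≤ ((m:ℝ) + 1) / m * Real.exp (y e) :=
        le_mul_of_one_le_left (Real.exp_pos _).le hk1
      rw [mul_add]; linarith
    have h2 := Real.log_le_log (Z_pos mem (hpos s)) h1
    rw [Real.log_mul (by positivity) (Z_pos mem (hpos (s + 1))).ne', Real.log_pow] at h2
    have h3 : (N:ℝ) * Real.log (((m:ℝ) + 1) / m) ≤ N * (1 / m) :=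
      mul_le_mul_of_nonneg_left (h_le hm) (by positivity)
    have h4 : (N:ℝ) * (1 / m) = N / m := by ring
    linarith

end Crest.Agent.R304.Ctl
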