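import Crest.Agent.R304.Ctl787D

/-!
# R304 / L5 (helper787): the annealing controller, part E: the run theorem and its consequences

Main results:
* `run_good`: along every accurate run all visited states are `Good`;
* `run_final`: after `Rounds N m W gd` accurate rounds, `s = Smax m W`;
* `Good.vmarg`, `Good.marg`: bounds for the marginals;
* `final_count`: `0 < N(G) → Z ≤ 2 N(G)` at a good state with `s = Smax`.
-/

set_option autoImplicit false
set_option linter.unusedSectionVars false

namespace Crest.Agent.R304.Ctl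

open Finset

variable {Ω E : Type*} [Fintype Ω] [Fintype E] [DecidableEq E]

variable {mem : Ω → Finset E} {N d q m W gd : ℕ}

/-- invariant: `s ≤ S`, `β ≤ 1/q`, `Ψ ≤ W + 2N`. -/
structure Good (mem : Ω → Finset E) (G : E → Prop) [DecidablePred G] (N d q m W : ℕ)
    (st : St E) : Prop where
  s_le : st.s ≤ Smax m W
  beta : Beta mem G q d m (1 / q) st
  psi : PsiSt mem G q (w0 q d) m st ≤ W + 2 * N

lemma good_st0 [Nonempty Ω] (hs : Sys mem N d) (hp : Par Ω N d q m W gd)
    (G : E → Prop) [DecidablePred G] : Good mem G N d q m W st0 where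
  s_le := Nat.zero_le _
  beta := fun y' => (Beta_st0 hs hp G y').trans (by positivity)
  psi := Psi_st0_le hs hp G

/-- one accurate controller step. -/
theorem step_good [Nonempty Ω] (hs : Sys mem N d) (hp : Par Ω N d q m W gd)
    (G : E → Prop) [DecidablePred G] {st st' : St E} {xh : E → ℝ}
    (hg : Good mem G N d q m W st) (hacc : Acc mem G q d m gd xh st)
    (hst : CStep q gd (Smax m W) xh st st') :
    Good mem G N d q m W st' ∧
      ((PsiSt mem G q (w0 q d) m st' ≤ PsiSt mem G q (w0 q d) m st - cdec m gd ∧ st'.s = st.s) ∨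
       (PsiSt mem G q (w0 q d) m st' ≤ PsiSt mem G q (w0 q d) m st ∧
        st'.s = min (st.s + 1) (Smax m W))) := by
  have hw := hp.w0_pos
  have hm := hp.mpos
  have hm' : (0:ℝ) < m := by exact_mod_cast hm
  have hq : (0:ℝ) < q := by exact_mod_cast hp.qpos
  have hgd : (0:ℝ) < gd := by exact_mod_cast hp.gdpos
  have hc0 : 0 < cdec m gd := by unfold cdec; positivity
  rcases hst with ⟨e, hxe, rfl⟩ | ⟨e, hxe, rfl⟩ | ⟨hxe, rfl⟩
  · have h1 : xv mem G (w0 q d) m st e ≤ 1 / q - 1 / (2 * gd) := by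
      have h2 := abs_le.mp (hacc e)
      have h3 : (1:ℝ) / gd = 1 / (2 * gd) + 1 / (2 * gd) := by field_simp; norm_num
      linarith [h2.1]
    have h2 := Psi_up hp G st e h1
    refine ⟨⟨hg.s_le, ?_, by linarith [hg.psi]⟩, Or.inl ⟨h2, rfl⟩⟩
    intro y'
    have h3 := hg.beta y'
    have h4 : PsiSt mem G q (w0 q d) m ⟨st.s, Function.update st.a e (st.a e + 1)⟩ ≤
      PsiSt mem G q (w0 q d) m st := by linarith
    unfold PsiSt at h4
    simp only at h4 ⊢
    linarith
  · have h1 : 1 / q + 1 / (2 * gd) ≤ xv mem G (w0 q d) m st e := by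
      have h2 := abs_le.mp (hacc e)
      have h3 : (1:ℝ) / gd = 1 / (2 * gd) + 1 / (2 * gd) := by field_simp; norm_num
      linarith [h2.2]
    have h2 := Psi_down hp G st e h1
    refine ⟨⟨hg.s_le, ?_, by linarith [hg.psi]⟩, Or.inl ⟨h2, rfl⟩⟩
    intro y'
    have h3 := hg.beta y'
    have h4 : PsiSt mem G q (w0 q d) m ⟨st.s, Function.update st.a e (st.a e - 1)⟩ ≤
      PsiSt mem G q (w0 q d) m st := by linarith
    unfold PsiSt at h4
    simp only at h4 ⊢
    linarith
  · -- theta step
    have hη : ∀ e, |vmarg mem (Aw G m st.s) (fun e => Real.exp (yv (w0 q d) m st.a e)) e - 1 / q|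
        ≤ 3 / (2 * gd) := by
      intro e
      rw [exp_yv hw hm]
      have h1 := hacc e
      have h2 := hxe e
      unfold xv at h1
      have h3 : (3:ℝ) / (2 * gd) = 1 / (2 * gd) + 1 / gd := by field_simp; norm_num
      rw [h3]
      calc _ = |-(xh e - vmarg mem (Aw G m st.s) (omw (w0 q d) m st.a) e) + (xh e - 1 / q)| := by
            congr 1; ring
        _ ≤ |-(xh e - vmarg mem (Aw G m st.s) (omw (w0 q d) m st.a) e)| + |xh e - 1 / q| :=
            abs_add_le _ _
        _ ≤ _ := by rw [abs_neg]; exact add_le_add h1 h2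
    have hq2 : 2 * (d:ℝ) ≤ q := by
      have : 16 * d ≤ q := hp.q_ge
      have : 2 * d ≤ q := by omega
      exact_mod_cast this
    have hb : ∀ y', Psi mem q (Aw G m st.s) (yv (w0 q d) m st.a) -
        Psi mem q (Aw G m st.s) y' ≤ 1 / (2 * q) := by
      intro y'
      have h1 := beta_small hs hq2 (L := (W:ℝ) + 4) (by positivity)
        (fun e => Aw_ge G hm hg.s_le e) (yv (w0 q d) m st.a) (η := 3 / (2 * gd)) (by positivity)
        hη hg.psi y'
      refine h1.trans ?_
      have h2 : 6 * (q:ℝ) ^ 2 * (W + 6 * N + N * W) ≤ gd := by exact_mod_cast hp.hgd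
      have h3 : (W:ℝ) + 2 * N + N * (W + 4) = W + 6 * N + N * W := by ring
      rw [h3]
      rw [div_mul_eq_mul_div, div_le_div_iff₀ (by positivity) (by positivity)]
      nlinarith
    rcases Nat.lt_or_ge st.s (Smax m W) with hlt | hge
    · have hmin : min (st.s + 1) (Smax m W) = st.s + 1 := min_eq_left hlt
      rw [hmin]
      have h1 := Psi_theta hs hm q G st.s (yv (w0 q d) m st.a)
      have h2 : PsiSt mem G q (w0 q d) m ⟨st.s + 1, st.a⟩ ≤ PsiSt mem G q (w0 q d) m st := h1.1
      refine ⟨⟨hlt, ?_, by linarith [hg.psi]⟩, Or.inr ⟨h2, rfl⟩⟩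
      intro y'
      have h3 := Psi_theta hs hm q G st.s y'
      have h4 := hb y'
      simp only
      have h5 : (N:ℝ) / m ≤ 1 / (2 * q) := by
        have : (2:ℝ) * q * N ≤ m := by exact_mod_cast hp.hm1
        rw [div_le_div_iff₀ hm' (by positivity)]; linarith
      have h6 : (1:ℝ) / q = 1 / (2 * q) + 1 / (2 * q) := by field_simp; norm_num
      linarith [h1.1, h3.2]
    · have hmin : min (st.s + 1) (Smax m W) = st.s := by
        have := hg.s_le
        omega
      rw [hmin]
      exact ⟨hg, Or.inr ⟨le_rfl, rfl⟩⟩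

/-- lower bound for the potential of a good state -/
lemma Good.psi_ge [Nonempty Ω] (hs : Sys mem N d) (hp : Par Ω N d q m W gd)
    {G : E → Prop} [DecidablePred G] {st : St E} (hg : Good mem G N d q m W st) :
    -((N:ℝ) * (W + 4)) ≤ PsiSt mem G q (w0 q d) m st := by
  have hq2 : 2 * (d:ℝ) ≤ q := by
    have : 16 * d ≤ q := hp.q_ge
    have : 2 * d ≤ q := by omega
    exact_mod_cast this
  have h1 := Psi_coercive hs hq2 (L := (W:ℝ) + 4) (by positivity)
    (fun e => Aw_ge G hp.mpos hg.s_le e) (yv (w0 q d) m st.a)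
  have h2 : 0 ≤ (∑ e, |yv (w0 q d) m st.a e|) / q :=
    div_nonneg (Finset.sum_nonneg fun _ _ => abs_nonneg _) (by positivity)
  unfold PsiSt
  linarith

/-- Accurate runs stay good. -/
theorem run_good [Nonempty Ω] (hs : Sys mem N d) (hp : Par Ω N d q m W gd)
    (G : E → Prop) [DecidablePred G] (st : ℕ → St E) (xh : ℕ → E → ℝ) (h0 : st 0 = st0)
    (T : ℕ) (hstep : ∀ t < T, CStep q gd (Smax m W) (xh t) (st t) (st (t + 1)))
    (hacc : ∀ t < T, Acc mem G q d m gd (xh t) (st t)) :
    Good mem G N d q m W (st T) ∧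
      ((st T).s < Smax m W → (st T).s ≤ T ∧
        PsiSt mem G q (w0 q d) m (st T) ≤ W + 2 * N - ((T:ℝ) - (st T).s) * cdec m gd) := by
  have hgd : (0:ℝ) < gd := by exact_mod_cast hp.gdpos
  have hc0 : 0 < cdec m gd := by unfold cdec; positivity
  induction T with
  | zero =>
    rw [h0]
    refine ⟨good_st0 hs hp G, fun _ => ⟨le_rfl, ?_⟩⟩
    have := Psi_st0_le hs hp G
    simpa [st0] using this
  | succ T ih =>
    obtain ⟨hg, ihs⟩ := ih (fun t ht => hstep t (by omega)) (fun t ht => hacc t (by omega))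
    have h1 := step_good hs hp G hg (hacc T (by omega)) (hstep T (by omega))
    refine ⟨h1.1, fun hlt => ?_⟩
    rcases h1.2 with ⟨h2, h3⟩ | ⟨h2, h3⟩
    · rw [h3] at hlt ⊢
      obtain ⟨h4, h5⟩ := ihs hlt
      refine ⟨by omega, ?_⟩
      push_cast
      nlinarith
    · have h4 : (st T).s < Smax m W := by
        by_contra hcon
        push Not at hcon
        rw [h3, min_eq_right (by omega)] at hlt
        exact lt_irrefl _ hlt
      rw [h3, min_eq_left (by omega)]
      obtain ⟨h5, h6⟩ := ihs h4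
      refine ⟨by omega, ?_⟩
      push_cast
      have : ((T:ℝ) + 1 - ((st T).s + 1)) = (T:ℝ) - (st T).s := by ring
      rw [this]
      linarith

/-- after `Rounds` accurate rounds, `s = Smax`. -/
theorem run_final [Nonempty Ω] (hs : Sys mem N d) (hp : Par Ω N d q m W gd)
    (G : E → Prop) [DecidablePred G] (st : ℕ → St E) (xh : ℕ → E → ℝ) (h0 : st 0 = st0)
    (T : ℕ) (hT : Rounds N m W gd ≤ T)
    (hstep : ∀ t < T, CStep q gd (Smax m W) (xh t) (st t) (st (t + 1)))
    (hacc : ∀ t < T, Acc mem G q d m gd (xh t) (st t)) :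
    (st T).s = Smax m W := by
  obtain ⟨hg, h1⟩ := run_good hs hp G st xh h0 T hstep hacc
  by_contra hne
  have hlt : (st T).s < Smax m W := lt_of_le_of_ne hg.s_le hne
  obtain ⟨h2, h3⟩ := h1 hlt
  have h4 := hg.psi_ge hs hp
  have hgd : (0:ℝ) < gd := by exact_mod_cast hp.gdpos
  have hT' : (Smax m W : ℝ) + 4 * gd * (m + 1) * (W + 6 * N + N * W) + 1 ≤ T := by
    have : Smax m W + 4 * gd * (m + 1) * (W + 6 * N + N * W) + 1 ≤ T := hT
    exact_mod_cast this
  have h5 : ((st T).s : ℝ) ≤ Smax m W := by exact_mod_cast hg.s_le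
  have h6 : 4 * (gd:ℝ) * (m + 1) * (W + 6 * N + N * W) + 1 ≤ (T:ℝ) - (st T).s := by linarith
  have hc0 : 0 < cdec m gd := by unfold cdec; positivity
  have h7 : (4 * (gd:ℝ) * (m + 1) * (W + 6 * N + N * W) + 1) * cdec m gd ≤
      ((T:ℝ) - (st T).s) * cdec m gd := mul_le_mul_of_nonneg_right h6 hc0.le
  have h8 : (4 * (gd:ℝ) * (m + 1) * (W + 6 * N + N * W) + 1) * cdec m gd =
      (W + 6 * N + N * W) + cdec m gd := by
    have : 4 * (gd:ℝ) * (m + 1) * cdec m gd = 1 := by
      unfold cdec; field_simp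
    calc (4 * (gd:ℝ) * (m + 1) * (W + 6 * N + N * W) + 1) * cdec m gd =
        (4 * (gd:ℝ) * (m + 1) * cdec m gd) * (W + 6 * N + N * W) + cdec m gd := by ring
      _ = _ := by rw [this, one_mul]
  nlinarith

/-! ### consequences of `Good` -/

/-- virtual marginals of a good state -/
theorem Good.vmarg [Nonempty Ω] (hp : Par Ω N d q m W gd)
    {G : E → Prop} [DecidablePred G] {st : St E} (hg : Good mem G N d q m W st) (e : E) :
    1 / (8 * (q:ℝ)) ≤ xv mem G (w0 q d) m st e ∧ xv mem G (w0 q d) m st e ≤ 4 / q := by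
  have hq : (0:ℝ) < q := by exact_mod_cast hp.qpos
  have h := x_bounds mem hq (Aw G m st.s) (yv (w0 q d) m st.a) (fun e => Aw_pos G hp.mpos _ e)
    hg.beta e
  rwa [exp_yv hp.w0_pos hp.mpos] at h

lemma lamw_pos (hp : Par Ω N d q m W gd) (G : E → Prop) [DecidablePred G] (st : St E) (e : E) :
    0 < lamw G (w0 q d) m st e :=
  add_pos (Aw_pos G hp.mpos _ e) (omw_pos hp.w0_pos hp.mpos _ e)

/-- total marginals of a good state: the well-conditioning `WC_{8q}`. -/
theorem Good.marg_ge [Nonempty Ω] (hp : Par Ω N d q m W gd)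
    {G : E → Prop} [DecidablePred G] {st : St E} (hg : Good mem G N d q m W st) (e : E) :
    1 / (8 * (q:ℝ)) ≤ marg mem (lamw G (w0 q d) m st) e := by
  have h := vmarg_le_marg mem (Aw G m st.s) (omw (w0 q d) m st.a)
    (fun e => Aw_pos G hp.mpos _ e) (fun e => omw_pos hp.w0_pos hp.mpos _ e) e
  exact (hg.vmarg hp e).1.trans h

/-- the weights change by at most the factor `(m+1)/m` in one controller step. -/
theorem lamw_step (hp : Par Ω N d q m W gd) (G : E → Prop) [DecidablePred G] {S : ℕ}
    {st st' : St E} {xh : E → ℝ} (hst : CStep q gd S xh st st') (hs' : st.s ≤ S) (e : E) :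
    lamw G (w0 q d) m st' e ≤ ((m:ℝ) + 1) / m * lamw G (w0 q d) m st e ∧
    lamw G (w0 q d) m st e ≤ ((m:ℝ) + 1) / m * lamw G (w0 q d) m st' e := by
  have hw := hp.w0_pos
  have hm := hp.mpos
  have hm' : (0:ℝ) < m := by exact_mod_cast hm
  have hk1 : (1:ℝ) ≤ ((m:ℝ) + 1) / m := by rw [le_div_iff₀ hm']; linarith
  have hA : ∀ (s : ℕ) (e : E), 0 < Aw G m s e := fun s e => Aw_pos G hm s e
  have ho : ∀ (a : E → ℤ) (e : E), 0 < omw (w0 q d) m a e := fun a e => omw_pos hw hm a e
  have hle : ∀ x : ℝ, 0 ≤ x → x ≤ ((m:ℝ) + 1) / m * x := fun x hx =>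
    le_mul_of_one_le_left hx hk1
  have hup : ∀ (a : E → ℤ) (f : E),
      omw (w0 q d) m (Function.update a f (a f + 1)) e ≤ ((m:ℝ) + 1) / m * omw (w0 q d) m a e ∧
      omw (w0 q d) m a e ≤ ((m:ℝ) + 1) / m * omw (w0 q d) m (Function.update a f (a f + 1)) e := by
    intro a f
    by_cases hf : e = f
    · subst hf
      unfold omw
      rw [Function.update_self, zpow_add_one₀ (by positivity)]
      have hpos : 0 < w0 q d * (((m:ℝ) + 1) / m) ^ (a e) := by positivity
      constructor
      · apply le_of_eq; ring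
      · have h1 := hle _ hpos.le
        have h2 := hle (((m:ℝ) + 1) / m * (w0 q d * (((m:ℝ) + 1) / m) ^ (a e))) (by positivity)
        calc _ ≤ _ := h1
          _ ≤ _ := h2
          _ = _ := by ring
    · unfold omw
      rw [Function.update_of_ne hf]
      have hpos : 0 < w0 q d * (((m:ℝ) + 1) / m) ^ (a e) := by positivity
      exact ⟨hle _ hpos.le, hle _ hpos.le⟩
  rcases hst with ⟨f, _, rfl⟩ | ⟨f, _, rfl⟩ | ⟨_, rfl⟩
  · unfold lamw
    simp only
    have h1 := hup st.a f
    have h2 := hle _ (hA st.s e).le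
    constructor <;> rw [mul_add] <;> linarith [h1.1, h1.2]
  · unfold lamw
    simp only
    have h1 := hup (Function.update st.a f (st.a f - 1)) f
    have h3 : Function.update (Function.update st.a f (st.a f - 1)) f
        (Function.update st.a f (st.a f - 1) f + 1) = st.a := by
      funext x
      by_cases hx : x = f
      · subst hx; simp
      · rw [Function.update_of_ne hx, Function.update_of_ne hx]
    rw [h3] at h1
    have h2 := hle _ (hA st.s e).le
    constructor <;> rw [mul_add] <;> linarith [h1.1, h1.2]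
  · unfold lamw
    simp only
    have h2 := hle _ (ho st.a e).le
    have h3 : Aw G m (min (st.s + 1) S) e ≤ Aw G m st.s e ∧
        Aw G m st.s e ≤ ((m:ℝ) + 1) / m * Aw G m (min (st.s + 1) S) e := by
      rcases Nat.lt_or_ge st.s S with hlt | hge
      · rw [min_eq_left (by omega)]
        unfold Aw; split_ifs
        · exact ⟨le_rfl, by rw [mul_one]; exact hk1⟩
        · rw [pow_succ]
          constructor
          · apply mul_le_of_le_one_right (by positivity)
            rw [div_le_one (by positivity)]; linarith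
          · apply le_of_eq; field_simp
      · have : min (st.s + 1) S = st.s := by omega
        rw [this]
        exact ⟨le_rfl, hle _ (hA st.s e).le⟩
    have h4 := hle _ (hA st.s e).le
    constructor <;> rw [mul_add] <;> linarith [h3.1, h3.2]

/-- exponents are bounded by the number of steps. -/
theorem a_bound {S : ℕ} (st : ℕ → St E) (xh : ℕ → E → ℝ)
    (h0 : st 0 = st0) (T : ℕ) (hstep : ∀ t < T, CStep q gd S (xh t) (st t) (st (t + 1)))
    (e : E) : |(st T).a e| ≤ T ∧ (st T).s ≤ T := by
  induction T with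
  | zero => rw [h0]; simp [st0]
  | succ T ih =>
    have ih' := ih (fun t ht => hstep t (by omega))
    have h1 := hstep T (by omega)
    have key : ∀ (f : E) (j : ℤ), |j| ≤ 1 →
        |Function.update (st T).a f ((st T).a f + j) e| ≤ ((T:ℤ) + 1) := by
      intro f j hj
      by_cases hf : e = f
      · subst hf
        rw [Function.update_self]
        calc |(st T).a e + j| ≤ |(st T).a e| + |j| := abs_add_le _ _
          _ ≤ _ := by linarith [ih'.1]
      · rw [Function.update_of_ne hf]; linarith [ih'.1]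
    rcases h1 with ⟨f, _, h⟩ | ⟨f, _, h⟩ | ⟨_, h⟩
    · rw [h]; push_cast
      exact ⟨key f 1 (by norm_num), by have := ih'.2; omega⟩
    · rw [h]; push_cast
      refine ⟨?_, by have := ih'.2; omega⟩
      have := key f (-1) (by norm_num)
      rwa [← sub_eq_add_neg] at this
    · rw [h]; push_cast
      refine ⟨by linarith [ih'.1], ?_⟩
      have := ih'.2
      omega

/-- transfer of the marginal lower bound to comparable weights. -/
theorem marg_ge_of_ratio [Nonempty Ω] (hs : Sys mem N d) {lam lam' : E → ℝ} {c : ℝ} (hc : 0 < c)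
    (hl : ∀ e, 0 < lam e) (hl' : ∀ e, 0 < lam' e)
    (h1 : ∀ e, lam e ≤ c * lam' e) (h2 : ∀ e, lam' e ≤ c * lam e) (e : E) :
    marg mem lam e ≤ c ^ (2 * N) * marg mem lam' e := by
  unfold marg
  have hZ := Z_pos mem hl
  have hZ' := Z_pos mem hl'
  have h3 : Z mem lam' ≤ c ^ N * Z mem lam := Z_scale hs (fun e => (hl' e).le) h2
  have h4 : ∑ M ∈ univ.filter (fun M => e ∈ mem M), wt mem lam M ≤
      c ^ N * ∑ M ∈ univ.filter (fun M => e ∈ mem M), wt mem lam' M := by
    rw [Finset.mul_sum]
    exact Finset.sum_le_sum fun M _ => wt_scale hs (fun e => (hl e).le) h1 M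
  rw [← mul_div_assoc, div_le_div_iff₀ hZ hZ']
  have h5 : 0 ≤ ∑ M ∈ univ.filter (fun M => e ∈ mem M), wt mem lam' M :=
    Finset.sum_nonneg fun M _ => (wt_pos mem hl' M).le
  calc _ ≤ (c ^ N * ∑ M ∈ univ.filter (fun M => e ∈ mem M), wt mem lam' M) *
        (c ^ N * Z mem lam) :=
        mul_le_mul h4 h3 hZ'.le (by positivity)
    _ = _ := by ring

/-! ### the final count -/

/-- the number of states inside `G`. -/
def cntG (mem : Ω → Finset E) (G : E → Prop) [DecidablePred G] : ℕ :=
  (univ.filter (fun M => ∀ e ∈ mem M, G e)).card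

lemma prod_one_sub_ge {ι : Type*} (s : Finset ι) (u : ι → ℝ) (h0 : ∀ i ∈ s, 0 ≤ u i)
    (h1 : ∀ i ∈ s, u i ≤ 1) : 1 - ∑ i ∈ s, u i ≤ ∏ i ∈ s, (1 - u i) := by
  classical
  induction s using Finset.induction_on with
  | empty => simp
  | insert i s hi ih =>
    rw [Finset.sum_insert hi, Finset.prod_insert hi]
    have h2 := ih (fun j hj => h0 j (Finset.mem_insert_of_mem hj))
      (fun j hj => h1 j (Finset.mem_insert_of_mem hj))
    have h3 := h0 i (Finset.mem_insert_self _ _)
    have h4 := h1 i (Finset.mem_insert_self _ _)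
    have h5 : ∏ j ∈ s, (1 - u j) ≤ 1 :=
      Finset.prod_le_one (fun j hj => by linarith [h1 j (Finset.mem_insert_of_mem hj)])
        (fun j hj => by linarith [h0 j (Finset.mem_insert_of_mem hj)])
    nlinarith

/-- the mass of the states without virtual edges. -/
theorem sum_prodA_ge [Nonempty Ω] (hp : Par Ω N d q m W gd) (hs : Sys mem N d)
    {G : E → Prop} [DecidablePred G] {st : St E} (hg : Good mem G N d q m W st) :
    3 / 4 * Z mem (lamw G (w0 q d) m st) ≤ ∑ M, ∏ e ∈ mem M, Aw G m st.s e := by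
  have hq : (0:ℝ) < q := by exact_mod_cast hp.qpos
  have hlpos := lamw_pos hp G st
  have hZ := Z_pos mem hlpos
  have h1 : ∀ M, wt mem (lamw G (w0 q d) m st) M -
      ∑ e ∈ mem M, wt mem (lamw G (w0 q d) m st) M *
        (omw (w0 q d) m st.a e / lamw G (w0 q d) m st e) ≤ ∏ e ∈ mem M, Aw G m st.s e := by
    intro M
    have h2 := prod_one_sub_ge (mem M) (fun e => omw (w0 q d) m st.a e / lamw G (w0 q d) m st e)
      (fun e _ => div_nonneg (omw_pos hp.w0_pos hp.mpos _ e).le (hlpos e).le)
      (fun e _ => by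
        rw [div_le_one (hlpos e)]; unfold lamw; linarith [Aw_pos G hp.mpos st.s e])
    have h3 : ∏ e ∈ mem M, Aw G m st.s e = wt mem (lamw G (w0 q d) m st) M *
        ∏ e ∈ mem M, (1 - omw (w0 q d) m st.a e / lamw G (w0 q d) m st e) := by
      unfold wt
      rw [← Finset.prod_mul_distrib]
      apply Finset.prod_congr rfl
      intro e _
      have := (hlpos e).ne'
      rw [mul_sub, mul_one, mul_div_cancel₀ _ this]
      unfold lamw; ring
    rw [h3, ← Finset.mul_sum]
    have h4 := mul_le_mul_of_nonneg_left h2 (wt_pos mem hlpos M).le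
    linarith
  have h5 : ∑ M, ∑ e ∈ mem M, wt mem (lamw G (w0 q d) m st) M *
        (omw (w0 q d) m st.a e / lamw G (w0 q d) m st e) =
      Z mem (lamw G (w0 q d) m st) * ∑ e, xv mem G (w0 q d) m st e := by
    have h6 : ∀ M, (∑ e ∈ mem M, wt mem (lamw G (w0 q d) m st) M *
        (omw (w0 q d) m st.a e / lamw G (w0 q d) m st e)) = ∑ e, if e ∈ mem M then
          wt mem (lamw G (w0 q d) m st) M *
        (omw (w0 q d) m st.a e / lamw G (w0 q d) m st e) else 0 := by
      intro M
      rw [← Finset.sum_filter]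
      apply Finset.sum_congr _ (fun _ _ => rfl)
      ext e; simp
    simp_rw [h6]
    rw [Finset.sum_comm, Finset.mul_sum]
    apply Finset.sum_congr rfl
    intro e _
    rw [← Finset.sum_filter, xv_eq, ← Finset.sum_mul]
    unfold marg
    field_simp
  have h7 : ∑ e, xv mem G (w0 q d) m st e ≤ 1 / 4 := by
    calc ∑ e, xv mem G (w0 q d) m st e ≤ ∑ _e : E, 4 / (q:ℝ) :=
          Finset.sum_le_sum fun e _ => (hg.vmarg hp e).2
      _ = (N * d : ℝ) * (4 / q) := by
          rw [Finset.sum_const, nsmul_eq_mul, Finset.card_univ, hs.card_E]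
      _ ≤ 1 / 4 := by
          have : (16:ℝ) * (N * d) ≤ q := by exact_mod_cast hp.hq
          rw [← mul_div_assoc, div_le_div_iff₀ hq (by norm_num)]
          linarith
  calc 3 / 4 * Z mem (lamw G (w0 q d) m st) ≤ Z mem (lamw G (w0 q d) m st) -
        Z mem (lamw G (w0 q d) m st) * ∑ e, xv mem G (w0 q d) m st e := by nlinarith
    _ = ∑ M, (wt mem (lamw G (w0 q d) m st) M - ∑ e ∈ mem M, wt mem (lamw G (w0 q d) m st) M *
        (omw (w0 q d) m st.a e / lamw G (w0 q d) m st e)) := by
        rw [Finset.sum_sub_distrib, h5]; rfl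
    _ ≤ _ := Finset.sum_le_sum fun M _ => h1 M

/-- **Final count**: at a good state with `s = Smax`, if `G` contains at least one state then
`Z ≤ 2 N(G)`. -/
theorem final_count [Nonempty Ω] (hp : Par Ω N d q m W gd) (hs : Sys mem N d)
    {G : E → Prop} [DecidablePred G] {st : St E} (hg : Good mem G N d q m W st)
    (hS : st.s = Smax m W) (hpos : 0 < cntG mem G) :
    Z mem (lamw G (w0 q d) m st) ≤ 2 * cntG mem G := by
  have h1 := sum_prodA_ge hp hs hg
  have hm := hp.mpos
  have h2 : ∑ M, ∏ e ∈ mem M, Aw G m st.s e ≤ cntG mem G + 1 / 16 := by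
    have h3 : ∀ M, ∏ e ∈ mem M, Aw G m st.s e ≤ (if (∀ e ∈ mem M, G e) then (1:ℝ) else 0) +
        ((m:ℝ) / (m + 1)) ^ Smax m W := by
      intro M
      split_ifs with h
      · have : ∏ e ∈ mem M, Aw G m st.s e ≤ 1 :=
          Finset.prod_le_one (fun e _ => (Aw_pos G hm _ e).le) (fun e _ => Aw_le_one G m _ e)
        have h4 : 0 ≤ ((m:ℝ) / (m + 1)) ^ Smax m W := by positivity
        linarith
      · push Not at h
        obtain ⟨e, he, hne⟩ := h
        rw [← Finset.mul_prod_erase (mem M) _ he, zero_add]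
        have h5 : Aw G m st.s e = ((m:ℝ) / (m + 1)) ^ Smax m W := by
          unfold Aw; rw [if_neg hne, hS]
        rw [h5]
        apply mul_le_of_le_one_right (by positivity)
        exact Finset.prod_le_one (fun e _ => (Aw_pos G hm _ e).le) (fun e _ => Aw_le_one G m _ e)
    calc ∑ M, ∏ e ∈ mem M, Aw G m st.s e ≤ ∑ M : Ω, ((if (∀ e ∈ mem M, G e) then (1:ℝ) else 0) +
          ((m:ℝ) / (m + 1)) ^ Smax m W) := Finset.sum_le_sum fun M _ => h3 M
      _ = cntG mem G + (Fintype.card Ω : ℝ) * ((m:ℝ) / (m + 1)) ^ Smax m W := by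
          rw [Finset.sum_add_distrib, Finset.sum_const, nsmul_eq_mul, Finset.card_univ]
          congr 1
          rw [← Finset.sum_filter, Finset.sum_const, nsmul_eq_mul, mul_one]
          rfl
      _ ≤ cntG mem G + 1 / 16 := by
          have h4 := theta_small (W := W) hm
          have h5 : (Fintype.card Ω : ℝ) ≤ 2 ^ W := by exact_mod_cast hp.hW
          have h6 : (Fintype.card Ω : ℝ) * ((m:ℝ) / (m + 1)) ^ Smax m W ≤
              2 ^ W * ((m:ℝ) / (m + 1)) ^ Smax m W :=
            mul_le_mul_of_nonneg_right h5 (by positivity)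
          linarith
  have h3 : (1:ℝ) ≤ cntG mem G := by exact_mod_cast hpos
  linarith

/-- the identity behind the final estimator. -/
theorem final_identity [Nonempty Ω] (hp : Par Ω N d q m W gd)
    (G : E → Prop) [DecidablePred G] (st : St E) :
    (cntG mem G : ℝ) = Z mem (lamw G (w0 q d) m st) *
      ∑ M, gib mem (lamw G (w0 q d) m st) M *
        ∏ e ∈ mem M, (if G e then (lamw G (w0 q d) m st e)⁻¹ else 0) := by
  have hlpos := lamw_pos hp G st
  have hZ := Z_pos mem hlpos
  rw [Finset.mul_sum]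
  have h1 : ∀ M, Z mem (lamw G (w0 q d) m st) * (gib mem (lamw G (w0 q d) m st) M *
        ∏ e ∈ mem M, (if G e then (lamw G (w0 q d) m st e)⁻¹ else 0)) =
      if (∀ e ∈ mem M, G e) then 1 else 0 := by
    intro M
    have h2 : Z mem (lamw G (w0 q d) m st) * gib mem (lamw G (w0 q d) m st) M =
        wt mem (lamw G (w0 q d) m st) M := by
      unfold gib; field_simp
    rw [← mul_assoc, h2]
    unfold wt
    rw [← Finset.prod_mul_distrib]
    split_ifs with h
    · apply Finset.prod_eq_one
      intro e he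
      rw [if_pos (h e he), mul_inv_cancel₀ (hlpos e).ne']
    · push Not at h
      obtain ⟨e, he, hne⟩ := h
      apply Finset.prod_eq_zero he
      rw [if_neg hne, mul_zero]
  rw [Finset.sum_congr rfl (fun M _ => h1 M), ← Finset.sum_filter, Finset.sum_const,
    nsmul_eq_mul, mul_one]
  rfl

end Crest.Agent.R304.Ctl
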