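import Crest.Agent.R304.Ctl787E
import Crest.Agent.R304.Moves

/-!
# R304 / L5 (helper787), part F: the instance for perfect matchings of `K_n`

`Ω = Mov.Om (Fin n)`, `E = Pr n = {p : Fin n × Fin n // p.1 < p.2}`, `prs s = {(u,v) : u < v, s u = v}`.
-/

set_option autoImplicit false
set_option linter.unusedSectionVars false

namespace Crest.Agent.R304.Ctl

open Finset

/-- pairs `u < v` -/
abbrev Pr (n : ℕ) : Type := {p : Fin n × Fin n // p.1 < p.2}

/-- the edge set of a perfect matching -/
def prs {n : ℕ} (s : Mov.Om (Fin n)) : Finset (Pr n) :=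
  univ.filter fun p => s.1 p.1.1 = p.1.2

variable {n : ℕ}

@[simp] lemma mem_prs {s : Mov.Om (Fin n)} {p : Pr n} : p ∈ prs s ↔ s.1 p.1.1 = p.1.2 := by
  simp [prs]

/-- products over the edge set -/
lemma prod_prs {β : Type*} [CommMonoid β] (s : Mov.Om (Fin n)) (g : Fin n → Fin n → β) :
    ∏ p ∈ prs s, g p.1.1 p.1.2 = ∏ v ∈ univ.filter (fun v => v < s.1 v), g v (s.1 v) := by
  refine Finset.prod_bij' (fun p _ => p.1.1) (fun v hv => ⟨(v, s.1 v), (mem_filter.mp hv).2⟩)
    ?_ ?_ ?_ ?_ ?_
  · intro p hp
    rw [mem_prs] at hp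
    simp only [mem_filter, mem_univ, true_and]
    rw [hp]; exact p.2
  · intro v hv
    simp
  · intro p hp
    rw [mem_prs] at hp
    apply Subtype.ext
    simp only
    rw [hp]
  · intro v hv
    rfl
  · intro p hp
    rw [mem_prs] at hp
    rw [hp]

/-- the weight in the two forms -/
lemma wt_prs (lam : Fin n → Fin n → ℝ) (s : Mov.Om (Fin n)) :
    wt prs (fun p : Pr n => lam p.1.1 p.1.2) s =
      ∏ v ∈ univ.filter (fun v => v < s.1 v), lam v (s.1 v) :=
  prod_prs s lam

lemma card_prs (s : Mov.Om (Fin n)) : 2 * (prs s).card = n := by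
  have h1 : (prs s).card = (univ.filter (fun v => v < s.1 v)).card := by
    have := prod_prs s (fun _ _ => Multiplicative.ofAdd (1:ℕ))
    simpa using congrArg Multiplicative.toAdd this
  have h2 : (univ.filter (fun v => v < s.1 v)).card = (univ.filter (fun v => s.1 v < v)).card := by
    refine Finset.card_bij' (fun v _ => s.1 v) (fun v _ => s.1 v) ?_ ?_ ?_ ?_
    · intro v hv
      simp only [mem_filter, mem_univ, true_and] at hv ⊢
      rw [(s.2 v).1]; exact hv
    · intro v hv
      simp only [mem_filter, mem_univ, true_and] at hv ⊢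
      rw [(s.2 v).1]; exact hv
    · intro v _; exact (s.2 v).1
    · intro v _; exact (s.2 v).1
  have h3 : (univ.filter (fun v => v < s.1 v)).card + (univ.filter (fun v => s.1 v < v)).card =
      n := by
    rw [← Finset.card_union_of_disjoint]
    · have : univ.filter (fun v => v < s.1 v) ∪ univ.filter (fun v => s.1 v < v) = univ := by
        ext v
        simp only [mem_union, mem_filter, mem_univ, true_and, iff_true]
        exact (lt_or_gt_of_ne (s.2 v).2).symm
      rw [this]; simp
    · rw [Finset.disjoint_left]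
      intro v h h'
      simp only [mem_filter, mem_univ, true_and] at h h'
      exact lt_asymm h h'
  omega

/-- conjugation of a perfect matching by a permutation -/
def conj (e : Equiv.Perm (Fin n)) (s : Mov.Om (Fin n)) : Mov.Om (Fin n) :=
  ⟨fun v => e (s.1 (e.symm v)), fun v => by
    constructor
    · simp [(s.2 (e.symm v)).1]
    · intro h
      apply (s.2 (e.symm v)).2
      apply e.injective
      simpa using h⟩

/-- number of perfect matchings containing a given pair, independent of the second point. -/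
lemma card_fiber (u v v' : Fin n) (hv : v ≠ u) (hv' : v' ≠ u) :
    (univ.filter fun s : Mov.Om (Fin n) => s.1 u = v).card =
      (univ.filter fun s : Mov.Om (Fin n) => s.1 u = v').card := by
  have hcc : ∀ s : Mov.Om (Fin n), conj (Equiv.swap v v') (conj (Equiv.swap v v') s) = s := by
    intro s
    apply Subtype.ext
    funext x
    simp [conj]
  have hu : (Equiv.swap v v') u = u := Equiv.swap_apply_of_ne_of_ne hv.symm hv'.symm
  refine Finset.card_bij' (fun s _ => conj (Equiv.swap v v') s)
    (fun s _ => conj (Equiv.swap v v') s) ?_ ?_ ?_ ?_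
  · intro s hs
    simp only [mem_filter, mem_univ, true_and] at hs ⊢
    simp [conj, hu, hs]
  · intro s hs
    simp only [mem_filter, mem_univ, true_and] at hs ⊢
    simp [conj, hu, hs]
  · intro s _; exact hcc s
  · intro s _; exact hcc s

lemma card_fiber_mul (u v : Fin n) (hv : v ≠ u) :
    (n - 1) * (univ.filter fun s : Mov.Om (Fin n) => s.1 u = v).card =
      Fintype.card (Mov.Om (Fin n)) := by
  have h1 : Fintype.card (Mov.Om (Fin n)) =
      ∑ w ∈ univ.erase u, (univ.filter fun s : Mov.Om (Fin n) => s.1 u = w).card := by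
    rw [← Finset.card_univ]
    rw [Finset.card_eq_sum_card_fiberwise (f := fun s : Mov.Om (Fin n) => s.1 u)
      (t := univ.erase u)]
    intro s _
    simp [(s.2 u).2]
  rw [h1, Finset.sum_congr rfl (fun w hw => card_fiber u w v (Finset.ne_of_mem_erase hw) hv),
    Finset.sum_const, Finset.card_erase_of_mem (mem_univ u), Finset.card_univ, Fintype.card_fin,
    smul_eq_mul]

/-- **the instance** -/
theorem sys_prs (hn : 2 ≤ n) : Sys (prs (n := n)) (n / 2) (n - 1) where
  card_mem := fun s => by have := card_prs s; omega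
  unif := fun p => by
    have h := card_fiber_mul p.1.1 p.1.2 (ne_of_gt p.2)
    rw [← h]
    congr 2
    ext s; simp
  dpos := by omega

lemma card_Om_le : Fintype.card (Mov.Om (Fin n)) ≤ 2 ^ (n ^ 2) := by
  calc Fintype.card (Mov.Om (Fin n)) ≤ Fintype.card (Fin n → Fin n) :=
        Fintype.card_subtype_le _
    _ = n ^ n := by simp
    _ ≤ (2 ^ n) ^ n := Nat.pow_le_pow_left Nat.lt_two_pow_self.le n
    _ = 2 ^ (n ^ 2) := by rw [← pow_mul, sq]

/-- existence of a perfect matching of `K_n`, `n` even -/
theorem nonempty_Om (hn : Even n) : Nonempty (Mov.Om (Fin n)) := by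
  obtain ⟨k, hk⟩ := hn
  subst hk
  -- v ↦ v+1 for v even, v-1 for v odd
  refine ⟨⟨fun v => if h : v.1 % 2 = 0 then ⟨v.1 + 1, by have := v.2; omega⟩ else
    ⟨v.1 - 1, by have := v.2; omega⟩, fun v => ?_⟩⟩
  by_cases h : v.1 % 2 = 0
  · constructor
    · apply Fin.ext
      simp only [h, dite_true]
      rw [dif_neg (by omega)]
      simp
    · simp only [h, dite_true]
      intro h'
      have := congrArg Fin.val h'
      simp at this
  · constructor
    · apply Fin.ext
      simp only [h, dite_false]
      rw [dif_pos (by omega)]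
      show v.1 - 1 + 1 = v.1
      omega
    · simp only [h, dite_false]
      intro h'
      have := congrArg Fin.val h'
      simp only at this
      omega

/-- the count in the two forms -/
theorem cntG_prs (R : Fin n → Fin n → Prop) [DecidableRel R] (hR : ∀ u v, R u v → R v u) :
    cntG prs (fun p : Pr n => R p.1.1 p.1.2) =
      (univ.filter fun s : Mov.Om (Fin n) => ∀ v, R v (s.1 v)).card := by
  unfold cntG
  congr 1
  ext s
  simp only [mem_filter, mem_univ, true_and]
  constructor
  · intro h v
    rcases lt_or_gt_of_ne (s.2 v).2 with hlt | hgt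
    · apply hR
      have := h ⟨(s.1 v, v), hlt⟩ (by simp [(s.2 v).1])
      exact this
    · exact h ⟨(v, s.1 v), hgt⟩ (by simp)
  · intro h p hp
    rw [mem_prs] at hp
    have := h p.1.1
    rwa [hp] at this

/-- admissible parameters for `K_n`: `q = 8 n²`, `W = n²`, ... -/
theorem par_prs (hn : 2 ≤ n) {q m gd : ℕ} (hq : 8 * n ^ 2 ≤ q)
    (hgd : 6 * q ^ 2 * (n ^ 2 + 6 * (n / 2) + (n / 2) * n ^ 2) ≤ gd)
    (hm1 : 2 * q * (n / 2) ≤ m) (hm2 : 4 * gd ≤ q * m) :
    Par (Mov.Om (Fin n)) (n / 2) (n - 1) q m (n ^ 2) gd where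
  hN := by omega
  hd := by omega
  hq := by
    refine le_trans ?_ hq
    have h1 : n / 2 * (n - 1) ≤ n / 2 * n := Nat.mul_le_mul_left _ (by omega)
    have h2 : 2 * (n / 2) ≤ n := by omega
    have h3 : 2 * (n / 2) * n ≤ n * n := Nat.mul_le_mul_right _ h2
    nlinarith
  hW := card_Om_le
  hgd := hgd
  hm1 := hm1
  hm2 := hm2

end Crest.Agent.R304.Ctl
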