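import Mathlib

/-!
# R304 / S0464 : the max-level recursion (abstract)

`L i` = level of the edge `d_i`, `P i o` = "the path of `d_i` contains the node `o`",
`top i` = top node of `d_i`.  `g i j` = value of `f` at the arc `[i, j)`.
-/

set_option autoImplicit false

namespace Crest.Agent.R304

/-- the max-level recursion: all arcs inside `[0, N)` whose inner edges have smaller level than the
two outer ones have `g i j` close to `g0`. -/
theorem ear_recursion {O : Type*} (N : ℕ) (L : ℕ → ℝ) (P : ℕ → O → Prop) (top : ℕ → O)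
    (g : ℕ → ℕ → ℝ) (g0 M : ℝ)
    (hmeet : ∀ i < N, ∃ o, P i o ∧ P (i + 1) o)
    (htop : ∀ i ≤ N, P i (top i))
    (hear : ∀ i j, i ≤ N → j ≤ N → L i ≤ L j → (∃ o, P i o ∧ P j o) → P j (top i))
    (hg : ∀ i < N, g i (i + 1) = g0)
    (hrel : ∀ i k j, i < k → k < j → j ≤ N → ∀ o, P i o → P k o → P j o →
      |g0 + g i j - g i k - g k j| ≤ M) :
    ∀ (m i j : ℕ), j = i + m → 0 < m → j ≤ N →
      (∀ k, i < k → k < j → L k ≤ L i ∧ L k ≤ L j) →
      |g i j - g0| ≤ (m - 1 : ℕ) * M ∧ ∃ o, P i o ∧ P j o := by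
  intro m
  induction m using Nat.strong_induction_on with
  | _ m ih =>
    intro i j hj hm hN hL
    rcases Nat.lt_or_ge m 2 with h2 | h2
    · have hm1 : m = 1 := by omega
      subst hm1
      subst hj
      rw [hg i (by omega)]
      refine ⟨by simp, hmeet i (by omega)⟩
    · -- choose the index of maximal level strictly inside
      obtain ⟨k, hk, hkmax⟩ := Finset.exists_max_image (Finset.Ioo i j) L
        ⟨i + 1, Finset.mem_Ioo.2 ⟨by omega, by omega⟩⟩
      rw [Finset.mem_Ioo] at hk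
      have hLk := hL k hk.1 hk.2
      obtain ⟨h1, o1, ho1, ho1'⟩ := ih (k - i) (by omega) i k (by omega) (by omega) (by omega)
        (fun l hl hl' => ⟨(hL l hl (by omega)).1,
          hkmax l (Finset.mem_Ioo.2 ⟨hl, by omega⟩)⟩)
      obtain ⟨h2', o2, ho2, ho2'⟩ := ih (j - k) (by omega) k j (by omega) (by omega) (by omega)
        (fun l hl hl' => ⟨hkmax l (Finset.mem_Ioo.2 ⟨by omega, hl'⟩),
          (hL l (by omega) hl').2⟩)
      have e1 : P i (top k) := hear k i (by omega) (by omega) hLk.1 ⟨o1, ho1', ho1⟩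
      have e2 : P j (top k) := hear k j (by omega) (by omega) hLk.2 ⟨o2, ho2, ho2'⟩
      have e3 : P k (top k) := htop k (by omega)
      refine ⟨?_, top k, e1, e2⟩
      have h3 := hrel i k j hk.1 hk.2 hN (top k) e1 e3 e2
      have hc : ((m - 1 : ℕ) : ℝ) = ((k - i - 1 : ℕ) : ℝ) + ((j - k - 1 : ℕ) : ℝ) + 1 := by
        have : m - 1 = (k - i - 1) + (j - k - 1) + 1 := by omega
        rw [this]; push_cast; ring
      rw [hc]
      have e : g i j - g0 = (g0 + g i j - g i k - g k j) + (g i k - g0) + (g k j - g0) := by ring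
      rw [e]
      calc _ ≤ |g0 + g i j - g i k - g k j| + |g i k - g0| + |g k j - g0| := abs_add_three _ _ _
        _ ≤ M + ((k - i - 1 : ℕ) : ℝ) * M + ((j - k - 1 : ℕ) : ℝ) * M := by gcongr
        _ = _ := by ring

/-- the value at the full cycle -/
theorem ear_conclusion {O : Type*} (N : ℕ) (hN : 0 < N) (L : ℕ → ℝ) (P : ℕ → O → Prop)
    (top : ℕ → O) (g : ℕ → ℕ → ℝ) (g0 M : ℝ)
    (hmeet : ∀ i < N, ∃ o, P i o ∧ P (i + 1) o)
    (htop : ∀ i ≤ N, P i (top i))
    (hear : ∀ i j, i ≤ N → j ≤ N → L i ≤ L j → (∃ o, P i o ∧ P j o) → P j (top i))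
    (hg : ∀ i < N, g i (i + 1) = g0)
    (hrel : ∀ i k j, i < k → k < j → j ≤ N → ∀ o, P i o → P k o → P j o →
      |g0 + g i j - g i k - g k j| ≤ M)
    (h0 : ∀ k, k ≤ N → L k ≤ L 0) (h0N : L N = L 0) :
    |g 0 N - g0| ≤ (N - 1 : ℕ) * M :=
  (ear_recursion N L P top g g0 M hmeet htop hear hg hrel N 0 N (by simp) hN le_rfl
    (fun k _ hk => ⟨h0 k hk.le, h0N ▸ h0 k hk.le⟩)).1

end Crest.Agent.R304
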