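import Mathlib
import Crest.Agent.R304.Hyb

/-!
# R304 / S0464 : flipping the components one after another
-/

set_option autoImplicit false
set_option linter.unusedSectionVars false

namespace Crest.Agent.R304

open Finset

variable {V : Type*} [Fintype V] [DecidableEq V]

theorem swp_mem_pms {s t : V → V} {A : Finset V} (hs : s ∈ pms V) (ht : t ∈ pms V)
    (h1 : Cl A s) (h2 : Cl A t) : swp A s t ∈ pms V := by
  rw [mem_pms] at *
  refine ⟨hs.1.swp ht.1 h1 h2, fun v => ?_⟩
  by_cases h : v ∈ A
  · rw [swp_of_mem h]; exact ht.2 v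
  · rw [swp_of_not_mem h]; exact hs.2 v

/-- weight preserving change of variables: swap both replicas on a closed set `A s t` that only
depends on the superposition -/
theorem sum_flip (a : V → V → ℝ) (A : (V → V) → (V → V) → Finset V)
    (hA1 : ∀ s ∈ pms V, ∀ t ∈ pms V, Cl (A s t) s) (hA2 : ∀ s ∈ pms V, ∀ t ∈ pms V, Cl (A s t) t)
    (hinv : ∀ s ∈ pms V, ∀ t ∈ pms V, A (swp (A s t) s t) (swp (A s t) t s) = A s t)
    (F : (V → V) → (V → V) → ℝ) :
    ∑ s ∈ pms V, ∑ t ∈ pms V, W a s * W a t * F (swp (A s t) s t) (swp (A s t) t s)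
      = ∑ s ∈ pms V, ∑ t ∈ pms V, W a s * W a t * F s t := by
  rw [← Finset.sum_product', ← Finset.sum_product']
  refine Finset.sum_nbij' (fun p => (swp (A p.1 p.2) p.1 p.2, swp (A p.1 p.2) p.2 p.1))
    (fun p => (swp (A p.1 p.2) p.1 p.2, swp (A p.1 p.2) p.2 p.1)) ?_ ?_ ?_ ?_ ?_
  · rintro ⟨s, t⟩ hp
    obtain ⟨hs, ht⟩ := Finset.mem_product.1 hp
    exact Finset.mem_product.2 ⟨swp_mem_pms hs ht (hA1 s hs t ht) (hA2 s hs t ht),
      swp_mem_pms ht hs (hA2 s hs t ht) (hA1 s hs t ht)⟩
  · rintro ⟨s, t⟩ hp
    obtain ⟨hs, ht⟩ := Finset.mem_product.1 hp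
    exact Finset.mem_product.2 ⟨swp_mem_pms hs ht (hA1 s hs t ht) (hA2 s hs t ht),
      swp_mem_pms ht hs (hA2 s hs t ht) (hA1 s hs t ht)⟩
  · rintro ⟨s, t⟩ hp
    obtain ⟨hs, ht⟩ := Finset.mem_product.1 hp
    simp only
    rw [hinv s hs t ht, swp_swp, swp_swp]
  · rintro ⟨s, t⟩ hp
    obtain ⟨hs, ht⟩ := Finset.mem_product.1 hp
    simp only
    rw [hinv s hs t ht, swp_swp, swp_swp]
  · rintro ⟨s, t⟩ hp
    simp only
    rw [W_swp_mul]

/-- union of the components of the points of `S` -/
noncomputable def comps (S : Finset V) (s t : V → V) : Finset V := S.biUnion (comp s t)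

theorem comps_cl_left {S : Finset V} {s t : V → V} : Cl (comps S s t) s := fun v hv => by
  obtain ⟨x, hx, hv⟩ := Finset.mem_biUnion.1 hv
  exact Finset.mem_biUnion.2 ⟨x, hx, comp_cl_left v hv⟩

theorem comps_cl_right {S : Finset V} {s t : V → V} : Cl (comps S s t) t := fun v hv => by
  obtain ⟨x, hx, hv⟩ := Finset.mem_biUnion.1 hv
  exact Finset.mem_biUnion.2 ⟨x, hx, comp_cl_right v hv⟩

theorem comps_swp {S : Finset V} {s t : V → V} {A : Finset V} :
    comps S (swp A s t) (swp A t s) = comps S s t := by
  unfold comps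
  congr 1
  funext v
  exact comp_swp

/-- energy of flipping the component of `v` -/
noncomputable def flipE (a : V → V → ℝ) (f : (V → V) → ℝ) (v : V) : ℝ :=
  ∑ s ∈ pms V, ∑ t ∈ pms V, W a s * W a t * (f s - f (swp (comp s t v) s t)) ^ 2

theorem flipE_nonneg {a : V → V → ℝ} (ha : ∀ u v, 0 < a u v) (f : (V → V) → ℝ) (v : V) :
    0 ≤ flipE a f v :=
  Finset.sum_nonneg fun _ _ => Finset.sum_nonneg fun _ _ =>
    mul_nonneg (mul_nonneg (W_pos ha _).le (W_pos ha _).le) (sq_nonneg _)

theorem add_sq_le (m x y : ℝ) (hm : 0 < m) : (x + y) ^ 2 ≤ (1 + 1 / m) * x ^ 2 + (1 + m) * y ^ 2 := by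
  have h : 0 ≤ (x - m * y) ^ 2 / m := div_nonneg (sq_nonneg _) hm.le
  have e : (x - m * y) ^ 2 / m = (1 + 1 / m) * x ^ 2 + (1 + m) * y ^ 2 - (x + y) ^ 2 := by
    field_simp; ring
  linarith

theorem var_le_flip_aux {a : V → V → ℝ} (ha : ∀ u v, 0 < a u v) (f : (V → V) → ℝ) (S : Finset V) :
    ∑ s ∈ pms V, ∑ t ∈ pms V, W a s * W a t * (f s - f (swp (comps S s t) s t)) ^ 2
      ≤ S.card * ∑ v ∈ S, flipE a f v := by
  induction S using Finset.induction_on with
  | empty => simp [comps, swp_empty]
  | @insert v S hv ih =>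
    rw [Finset.sum_insert hv, Finset.card_insert_of_notMem hv]
    -- second step
    have h2 : ∑ s ∈ pms V, ∑ t ∈ pms V, W a s * W a t *
        (f (swp (comps S s t) s t) - f (swp (comps (insert v S) s t) s t)) ^ 2 ≤ flipE a f v := by
      have e := sum_flip a (comps S) (fun s _ t _ => comps_cl_left) (fun s _ t _ => comps_cl_right)
        (fun s _ t _ => comps_swp) (fun s t => (f s - f (swp (comp s t v) s t)) ^ 2)
      unfold flipE
      rw [← e]
      refine Finset.sum_le_sum fun s hs => Finset.sum_le_sum fun t ht => ?_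
      rw [mem_pms] at hs ht
      refine mul_le_mul_of_nonneg_left ?_ (mul_nonneg (W_pos ha _).le (W_pos ha _).le)
      rw [comp_swp]
      by_cases hvS : v ∈ comps S s t
      · have hsub : comp s t v ⊆ comps S s t := comp_subset hvS comps_cl_left comps_cl_right
        have : comps (insert v S) s t = comps S s t := by
          unfold comps
          rw [Finset.biUnion_insert]
          exact Finset.union_eq_right.2 hsub
        rw [this]
        simpa using sq_nonneg _
      · have hdis : Disjoint (comps S s t) (comp s t v) := by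
          rw [Finset.disjoint_left]
          intro x hx hx'
          obtain ⟨y, hy, hxy⟩ := Finset.mem_biUnion.1 hx
          exact hvS (Finset.mem_biUnion.2 ⟨y, hy,
            comp_trans (comp_symm hs.1 ht.1 hx') hxy⟩)
        have : comps (insert v S) s t = comps S s t ∪ comp s t v := by
          unfold comps
          rw [Finset.biUnion_insert, Finset.union_comm]
        rw [this, ← swp_swp_union hdis]
    rcases Finset.eq_empty_or_nonempty S with hS | hS
    · subst hS
      have : ∀ s t : V → V, swp (comps ∅ s t) s t = s := fun s t => by simp [comps, swp_empty]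
      simp only [this] at h2
      simpa using h2
    · have hm : (0 : ℝ) < S.card := by exact_mod_cast hS.card_pos
      have hkey : ∑ s ∈ pms V, ∑ t ∈ pms V,
          W a s * W a t * (f s - f (swp (comps (insert v S) s t) s t)) ^ 2
          ≤ (1 + 1 / (S.card : ℝ)) * (∑ s ∈ pms V, ∑ t ∈ pms V,
              W a s * W a t * (f s - f (swp (comps S s t) s t)) ^ 2)
            + (1 + (S.card : ℝ)) * (∑ s ∈ pms V, ∑ t ∈ pms V, W a s * W a t *
              (f (swp (comps S s t) s t) - f (swp (comps (insert v S) s t) s t)) ^ 2) := by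
        simp only [Finset.mul_sum]
        rw [← Finset.sum_add_distrib]
        refine Finset.sum_le_sum fun s _ => ?_
        rw [← Finset.sum_add_distrib]
        refine Finset.sum_le_sum fun t _ => ?_
        have hw : 0 ≤ W a s * W a t := mul_nonneg (W_pos ha _).le (W_pos ha _).le
        have := mul_le_mul_of_nonneg_left (add_sq_le (S.card : ℝ)
          (f s - f (swp (comps S s t) s t))
          (f (swp (comps S s t) s t) - f (swp (comps (insert v S) s t) s t)) hm) hw
        calc _ = W a s * W a t * ((f s - f (swp (comps S s t) s t))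
              + (f (swp (comps S s t) s t) - f (swp (comps (insert v S) s t) s t))) ^ 2 := by
              congr 2; ring
          _ ≤ _ := this
          _ = _ := by ring
      calc _ ≤ _ := hkey
        _ ≤ (1 + 1 / (S.card : ℝ)) * (S.card * ∑ v ∈ S, flipE a f v)
            + (1 + (S.card : ℝ)) * flipE a f v := by gcongr
        _ = _ := by
          push_cast
          field_simp
          ring

/-- flipping the components one after another -/
theorem var_le_flip {a : V → V → ℝ} (ha : ∀ u v, 0 < a u v) (f : (V → V) → ℝ) :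
    ∑ s ∈ pms V, ∑ t ∈ pms V, W a s * W a t * (f s - f t) ^ 2
      ≤ Fintype.card V * ∑ v, flipE a f v := by
  have h := var_le_flip_aux ha f (univ : Finset V)
  have e : ∀ s t : V → V, comps univ s t = univ := fun s t =>
    Finset.eq_univ_iff_forall.2 fun x => Finset.mem_biUnion.2 ⟨x, Finset.mem_univ x, self_mem_comp⟩
  simp only [e, swp_univ] at h
  rwa [Finset.card_univ] at h

end Crest.Agent.R304
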