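import Crest.Agent.R304.RelB147

/-!
# R304 / S0464, block (iv), final form

`rel_of`: the relations (Rear) (three cut edges) and (Rpair) (two cut edges) in one statement,
for pairs of perfect matchings, with one weight function `g` (node weights on the diagonal),
from the bounds of `repair` and `lemmaQ` (in the form of `ConfDefs`).
-/

set_option autoImplicit false
set_option linter.unusedSectionVars false

namespace Crest.Agent.R304.Rel

open Finset

variable {V : Type*} [Fintype V] [DecidableEq V]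

/-- the edge with label `c` is present in the pair -/
def pres (c : Bool × V × V) (p : (V → V) × (V → V)) : Prop :=
  c.2.1 ≠ c.2.2 ∧ (if c.1 then p.2 c.2.1 = c.2.2 else p.1 c.2.1 = c.2.2)

/-- remove all edges of the list -/
def cutL : List (Bool × V × V) → (V → V) × (V → V) → (V → V) × (V → V)
  | [], p => p
  | c :: L, p => cutL L (cutp c p)

/-- all edges are present, each one after the previous ones have been removed -/
def presL : List (Bool × V × V) → (V → V) × (V → V) → Prop
  | [], _ => True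
  | c :: L, p => pres c p ∧ presL L (cutp c p)

theorem pres_iff {c : Bool × V × V} {p : (V → V) × (V → V)} : pres c p ↔ has c p := by
  unfold pres has
  split_ifs <;> exact and_comm

theorem cutL_eq (L : List (Bool × V × V)) (p : (V → V) × (V → V)) : cutL L p = cutAll L p := by
  induction L generalizing p with
  | nil => rfl
  | cons c L ih => exact ih _

theorem presL_iff {L : List (Bool × V × V)} {p : (V → V) × (V → V)} :
    presL L p ↔ hasAll L p := by
  induction L generalizing p with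
  | nil => exact Iff.rfl
  | cons c L ih =>
    change pres c p ∧ presL L (cutp c p) ↔ has c p ∧ hasAll L (cutp c p)
    rw [pres_iff, ih]

/-- off-diagonal part of the weight function -/
def offd (g : V → V → ℝ) (u v : V) : ℝ := if u = v then 1 else g u v

theorem offd_pos {g : V → V → ℝ} (hpos : ∀ u v, 0 < g u v) (u v : V) : 0 < offd g u v := by
  unfold offd
  split_ifs
  · exact one_pos
  · exact hpos u v

theorem offd_self {g : V → V → ℝ} (v : V) : offd g v v = 1 := by simp [offd]

theorem lam_offd {g : V → V → ℝ} (hsym : ∀ u v, g u v = g v u) {u v : V} (h : u ≠ v) :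
    lam (offd g) u v = g u v ^ 2 := by
  unfold lam offd
  rw [if_neg h, if_neg h.symm, hsym v u]
  ring

theorem om_offd {g : V → V → ℝ} (s : V → V) :
    om (offd g) (fun v => g v v) s = W g s := by
  unfold om W holes
  rw [Finset.prod_filter, ← Finset.prod_mul_distrib]
  refine Finset.prod_congr rfl fun v _ => ?_
  unfold offd
  by_cases h : s v = v
  · rw [if_pos h.symm, if_pos h, h]
    ring
  · rw [if_neg (Ne.symm h), if_neg h]
    ring

theorem om2_offd {g : V → V → ℝ} (p : (V → V) × (V → V)) :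
    om2 (offd g) (fun v => g v v) p = W g p.1 * W g p.2 := by
  unfold om2
  rw [om_offd, om_offd]

theorem dom_nil_eq : dom (V := V) [] = Conf V := by
  ext p
  rw [mem_dom]
  simp only [Conf, Finset.mem_filter, Finset.mem_product, invs, Finset.mem_univ, true_and, Inv2, nh,
    List.length_nil, Nat.mul_zero, Nat.add_zero, hasAll_nil, and_true]

theorem pm_mem_dom {L : List (Bool × V × V)} (hL : L.length ≤ 3) {s t : V → V} (hs : s ∈ pms V)
    (ht : t ∈ pms V) (hp : presL L (s, t)) : (s, t) ∈ dom L := by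
  have h1 := (mem_pms.1 hs)
  have h2 := (mem_pms.1 ht)
  have e1 : holes s = ∅ := holes_eq_empty.2 h1.2
  have e2 : holes t = ∅ := holes_eq_empty.2 h2.2
  rw [mem_dom]
  refine ⟨⟨h1.1, h2.1⟩, ?_, ?_, ?_, presL_iff.1 hp⟩
  · rw [e1]; exact ⟨0, rfl⟩
  · rw [e2]; exact ⟨0, rfl⟩
  · simp only [nh, e1, e2, Finset.card_empty]
    omega

open Classical in
/-- (Rear) and (Rpair) in one statement, from the bounds of `repair` (`hR`) and `lemmaQ` (`hQ`) -/
theorem rel_of {g : V → V → ℝ} (hsym : ∀ u v, g u v = g v u) (hpos : ∀ u v, 0 < g u v)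
    (f : (V → V) → ℝ) {CR CQ : ℝ}
    (hR : ∑ N ∈ Conf V, ∑ u : V, ∑ w : V, (if u ∈ holes N.1 ∧ w ∈ holes N.1 ∧ u ≠ w then
      W g N.1 * W g N.2 * (f (jn (add N.1 u w)) - f (jn N.1)) ^ 2 else 0) ≤ CR)
    (hQ : ∑ N ∈ Conf V, ∑ x : V, ∑ y : V,
      (if (N.1 x = x ∨ N.2 x = x) ∧ (N.1 y = y ∨ N.2 y = y) ∧ y ∉ comp N.1 N.2 x then
        W g N.1 * W g N.2 *
          (f (jn N.1) + f (jn (swp (comp N.1 N.2 y) (swp (comp N.1 N.2 x) N.1 N.2)
              (swp (comp N.1 N.2 x) N.2 N.1)))
            - f (jn (swp (comp N.1 N.2 x) N.1 N.2)) - f (jn (swp (comp N.1 N.2 y) N.1 N.2))) ^ 2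
        else 0) ≤ CQ)
    {path : V → V → Prop} (hpath : ∀ u v, u ≠ v → path u v → g u v ^ 2 ≤ g u u * g v v)
    (L : List (Bool × V × V)) (hL : L.length ≤ 3) :
    ∑ s ∈ pms V, ∑ t ∈ pms V, ∑ x : V, ∑ y : V,
      (if presL L (s, t) ∧ (∀ c ∈ L, path c.2.1 c.2.2) ∧
          ((cutL L (s, t)).1 x = x ∨ (cutL L (s, t)).2 x = x) ∧
          ((cutL L (s, t)).1 y = y ∨ (cutL L (s, t)).2 y = y) ∧
          y ∉ comp (cutL L (s, t)).1 (cutL L (s, t)).2 x then
        W g s * W g t *
          (f s + f (jn (hyb (comp (cutL L (s, t)).1 (cutL L (s, t)).2 x ∪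
                comp (cutL L (s, t)).1 (cutL L (s, t)).2 y) s t))
            - f (jn (hyb (comp (cutL L (s, t)).1 (cutL L (s, t)).2 x) s t))
            - f (jn (hyb (comp (cutL L (s, t)).1 (cutL L (s, t)).2 y) s t))) ^ 2
        else 0)
      ≤ 5 * (CQ + 96 * (Fintype.card V : ℝ) ^ 2 * CR) := by
  have hCR : 0 ≤ CR := by
    refine le_trans (Finset.sum_nonneg fun p _ => Finset.sum_nonneg fun u _ =>
      Finset.sum_nonneg fun v _ => ?_) hR
    split_ifs
    · exact mul_nonneg (mul_nonneg (W_pos hpos _).le (W_pos hpos _).le) (sq_nonneg _)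
    · exact le_refl _
  have hCQ : 0 ≤ CQ := by
    refine le_trans (Finset.sum_nonneg fun p _ => Finset.sum_nonneg fun u _ =>
      Finset.sum_nonneg fun v _ => ?_) hQ
    split_ifs
    · exact mul_nonneg (mul_nonneg (W_pos hpos _).le (W_pos hpos _).le) (sq_nonneg _)
    · exact le_refl _
  by_cases hp : ∀ c ∈ L, path c.2.1 c.2.2
  swap
  · refine le_trans (le_of_eq ?_) (by positivity)
    refine Finset.sum_eq_zero fun s _ => Finset.sum_eq_zero fun t _ =>
      Finset.sum_eq_zero fun x _ => Finset.sum_eq_zero fun y _ => ?_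
    rw [if_neg (fun h => hp h.2.1)]
  by_cases hne : ∀ c ∈ L, c.2.1 ≠ c.2.2
  swap
  · refine le_trans (le_of_eq ?_) (by positivity)
    refine Finset.sum_eq_zero fun s _ => Finset.sum_eq_zero fun t _ =>
      Finset.sum_eq_zero fun x _ => Finset.sum_eq_zero fun y _ => ?_
    rw [if_neg]
    rintro ⟨h, -⟩
    apply hne
    have : ∀ (l : List (Bool × V × V)) (q : (V → V) × (V → V)), presL l q →
        ∀ c ∈ l, c.2.1 ≠ c.2.2 := by
      intro l
      induction l with
      | nil => intro q _ c hc; simp at hc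
      | cons d l ih =>
        intro q hq c hc
        rcases List.mem_cons.1 hc with rfl | hc
        · exact hq.1.1
        · exact ih _ hq.2 c hc
    exact this L _ h
  have hR' : ∑ p ∈ dom (V := V) [], ∑ u, ∑ v, (if u ≠ v ∧ p.1 u = u ∧ p.1 v = v then
      om2 (offd g) (fun v => g v v) p * (f (jn (add p.1 u v)) - f (jn p.1)) ^ 2 else 0) ≤ CR := by
    rw [dom_nil_eq]
    refine le_trans (le_of_eq ?_) hR
    refine Finset.sum_congr rfl fun N _ => Finset.sum_congr rfl fun u _ =>
      Finset.sum_congr rfl fun v _ => ?_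
    rw [om2_offd]
    refine if_congr ?_ rfl rfl
    rw [mem_holes, mem_holes]
    tauto
  have hQ' : ∑ N ∈ dom (V := V) [], ∑ x, ∑ y, (if (N.1 x = x ∨ N.2 x = x) ∧
        (N.1 y = y ∨ N.2 y = y) ∧ y ∉ comp N.1 N.2 x then
        om2 (offd g) (fun v => g v v) N *
        (f (jn N.1) + f (jn (swp (comp N.1 N.2 x ∪ comp N.1 N.2 y) N.1 N.2))
          - f (jn (swp (comp N.1 N.2 x) N.1 N.2)) - f (jn (swp (comp N.1 N.2 y) N.1 N.2))) ^ 2
        else 0) ≤ CQ := by
    rw [dom_nil_eq]
    refine le_trans (le_of_eq ?_) hQ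
    refine Finset.sum_congr rfl fun N hN => Finset.sum_congr rfl fun x _ =>
      Finset.sum_congr rfl fun y _ => ?_
    rw [om2_offd]
    by_cases hc : (N.1 x = x ∨ N.2 x = x) ∧ (N.1 y = y ∨ N.2 y = y) ∧ y ∉ comp N.1 N.2 x
    · rw [if_pos hc, if_pos hc]
      have hN2 : Inv2 N := by
        rw [← dom_nil_eq, mem_dom] at hN
        exact hN.1
      have hd : Disjoint (comp N.1 N.2 x) (comp N.1 N.2 y) :=
        (comp_disjoint hN2.1 hN2.2 hc.2.2).symm
      rw [swp_swp_union hd]
    · rw [if_neg hc, if_neg hc]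
  have hle : ∀ c ∈ L, lam (offd g) c.2.1 c.2.2 ≤ (fun v => g v v) c.2.1 * (fun v => g v v) c.2.2 := by
    intro c hc
    rw [lam_offd hsym (hne c hc)]
    exact hpath _ _ (hne c hc) (hp c hc)
  have hmain := rel_core (a := offd g) (b := fun v => g v v) (offd_pos hpos) (fun v => hpos v v)
    offd_self (fun s => f (jn s)) hR' hQ' L hL hle
  refine le_trans ?_ hmain
  rw [← Finset.sum_product']
  refine le_trans (le_of_eq (Finset.sum_filter_of_ne (p := fun p => presL L p) ?_).symm) ?_
  · intro p _ h0 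
    by_contra hcon
    apply h0
    refine Finset.sum_eq_zero fun x _ => Finset.sum_eq_zero fun y _ => ?_
    rw [if_neg]
    rintro ⟨h, -⟩
    exact hcon h
  have hsub : ((pms V ×ˢ pms V).filter fun p => presL L p) ⊆ dom L := by
    intro p hp'
    rw [Finset.mem_filter, Finset.mem_product] at hp'
    exact pm_mem_dom hL hp'.1.1 hp'.1.2 hp'.2
  refine le_trans ?_ (Finset.sum_le_sum_of_subset_of_nonneg hsub ?_)
  · refine Finset.sum_le_sum fun p hp' => Finset.sum_le_sum fun x _ =>
      Finset.sum_le_sum fun y _ => ?_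
    rw [Finset.mem_filter, Finset.mem_product] at hp'
    obtain ⟨⟨h1, h2⟩, h3⟩ := hp'
    obtain ⟨s, t⟩ := p
    simp only [cutL_eq] at *
    refine le_of_eq ?_
    rw [om2_offd]
    have e1 : jn s = s := jn_of_le (by rw [holes_eq_empty.2 (mem_pms.1 h1).2]; simp)
    simp only [e1]
    refine if_congr ?_ rfl rfl
    constructor
    · rintro ⟨-, -, h⟩; exact h
    · intro h; exact ⟨h3, hp, h⟩
  · intro p _ _
    refine Finset.sum_nonneg fun x _ => Finset.sum_nonneg fun y _ => ?_
    split_ifs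
    · rw [om2_offd]
      exact mul_nonneg (mul_nonneg (W_pos hpos _).le (W_pos hpos _).le) (sq_nonneg _)
    · exact le_refl _

open Classical in
/-- the form for fixed `x`, `y` -/
theorem rel_of_xy {g : V → V → ℝ} (hsym : ∀ u v, g u v = g v u) (hpos : ∀ u v, 0 < g u v)
    (f : (V → V) → ℝ) {CR CQ : ℝ}
    (hR : ∑ N ∈ Conf V, ∑ u : V, ∑ w : V, (if u ∈ holes N.1 ∧ w ∈ holes N.1 ∧ u ≠ w then
      W g N.1 * W g N.2 * (f (jn (add N.1 u w)) - f (jn N.1)) ^ 2 else 0) ≤ CR)
    (hQ : ∑ N ∈ Conf V, ∑ x : V, ∑ y : V,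
      (if (N.1 x = x ∨ N.2 x = x) ∧ (N.1 y = y ∨ N.2 y = y) ∧ y ∉ comp N.1 N.2 x then
        W g N.1 * W g N.2 *
          (f (jn N.1) + f (jn (swp (comp N.1 N.2 y) (swp (comp N.1 N.2 x) N.1 N.2)
              (swp (comp N.1 N.2 x) N.2 N.1)))
            - f (jn (swp (comp N.1 N.2 x) N.1 N.2)) - f (jn (swp (comp N.1 N.2 y) N.1 N.2))) ^ 2
        else 0) ≤ CQ)
    {path : V → V → Prop} (hpath : ∀ u v, u ≠ v → path u v → g u v ^ 2 ≤ g u u * g v v)
    (L : List (Bool × V × V)) (hL : L.length ≤ 3) (x y : V) :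
    ∑ s ∈ pms V, ∑ t ∈ pms V,
      (if presL L (s, t) ∧ (∀ c ∈ L, path c.2.1 c.2.2) ∧
          ((cutL L (s, t)).1 x = x ∨ (cutL L (s, t)).2 x = x) ∧
          ((cutL L (s, t)).1 y = y ∨ (cutL L (s, t)).2 y = y) ∧
          y ∉ comp (cutL L (s, t)).1 (cutL L (s, t)).2 x then
        W g s * W g t *
          (f s + f (jn (hyb (comp (cutL L (s, t)).1 (cutL L (s, t)).2 x ∪
                comp (cutL L (s, t)).1 (cutL L (s, t)).2 y) s t))
            - f (jn (hyb (comp (cutL L (s, t)).1 (cutL L (s, t)).2 x) s t))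
            - f (jn (hyb (comp (cutL L (s, t)).1 (cutL L (s, t)).2 y) s t))) ^ 2
        else 0)
      ≤ 5 * (CQ + 96 * (Fintype.card V : ℝ) ^ 2 * CR) := by
  refine le_trans ?_ (rel_of hsym hpos f hR hQ hpath L hL)
  refine Finset.sum_le_sum fun s _ => Finset.sum_le_sum fun t _ => ?_
  set F : V → V → ℝ := fun x y => (if presL L (s, t) ∧ (∀ c ∈ L, path c.2.1 c.2.2) ∧
          ((cutL L (s, t)).1 x = x ∨ (cutL L (s, t)).2 x = x) ∧
          ((cutL L (s, t)).1 y = y ∨ (cutL L (s, t)).2 y = y) ∧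
          y ∉ comp (cutL L (s, t)).1 (cutL L (s, t)).2 x then
        W g s * W g t *
          (f s + f (jn (hyb (comp (cutL L (s, t)).1 (cutL L (s, t)).2 x ∪
                comp (cutL L (s, t)).1 (cutL L (s, t)).2 y) s t))
            - f (jn (hyb (comp (cutL L (s, t)).1 (cutL L (s, t)).2 x) s t))
            - f (jn (hyb (comp (cutL L (s, t)).1 (cutL L (s, t)).2 y) s t))) ^ 2
        else 0) with hF
  have hF0 : ∀ x y, 0 ≤ F x y := by
    intro x y
    simp only [hF]
    split_ifs
    · exact mul_nonneg (mul_nonneg (W_pos hpos _).le (W_pos hpos _).le) (sq_nonneg _)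
    · exact le_refl _
  calc F x y ≤ ∑ y, F x y :=
        Finset.single_le_sum (f := fun y => F x y) (fun y _ => hF0 x y) (Finset.mem_univ y)
    _ ≤ ∑ x, ∑ y, F x y :=
        Finset.single_le_sum (f := fun x => ∑ y, F x y)
          (fun x _ => Finset.sum_nonneg fun y _ => hF0 x y) (Finset.mem_univ x)

end Crest.Agent.R304.Rel
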