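import Mathlib
import Crest.Agent.R304.Hyb
import Crest.Agent.R304.Walk
import Crest.Agent.R304.Flip
import Crest.Agent.R304.Ear
import Crest.Agent.R304.ConfDefs
import Crest.Agent.R304.Nodes
import Crest.Agent.R304.RelC147

/-!
# R304 / S0464 : Theorem L from the relations for arcs

`Rel.cutp c p` deletes the edge of the label `c = (r, u, v)` (`r = false` : first replica,
`r = true` : second replica), `Rel.pres c p` : the edge `u v` is present.
-/

set_option autoImplicit false
set_option linter.unusedSectionVars false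

namespace Crest.Agent.R304

open Finset
open _root_.Crest.Agent.R304.Rel (cutp pres cutL presL)

section Cut
variable {V : Type*} [DecidableEq V]

/-- exchange the two replicas in a label -/
def flipc (c : Bool × V × V) : Bool × V × V := (!c.1, c.2)

theorem cutp_flip (c : Bool × V × V) (p : (V → V) × (V → V)) :
    cutp (flipc c) p.swap = (cutp c p).swap := by
  rcases c with ⟨b, u, v⟩
  cases b <;> simp [cutp, flipc]

theorem pres_flip (c : Bool × V × V) (p : (V → V) × (V → V)) :
    pres (flipc c) p.swap ↔ pres c p := by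
  rcases c with ⟨b, u, v⟩
  cases b <;> simp [pres, flipc]

theorem cutL_flip (L : List (Bool × V × V)) : ∀ p : (V → V) × (V → V),
    cutL (L.map flipc) p.swap = (cutL L p).swap := by
  induction L with
  | nil => intro p; rfl
  | cons c L ih =>
    intro p
    simp only [List.map_cons, cutL]
    rw [cutp_flip, ih]

theorem presL_flip (L : List (Bool × V × V)) : ∀ p : (V → V) × (V → V),
    presL (L.map flipc) p.swap ↔ presL L p := by
  induction L with
  | nil => intro p; rfl
  | cons c L ih =>
    intro p
    simp only [List.map_cons, presL]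
    rw [cutp_flip, ih, pres_flip]

end Cut

section WalkCut
variable {V : Type*} [Fintype V] [DecidableEq V] {s t : V → V} {v : V}

/-- the other end of the edge at position `i` -/
noncomputable def prv (s t : V → V) (v : V) (i : ℕ) : V := wk s t v (i + per s t v - 1)

/-- label of the edge at position `i` -/
noncomputable def lab (s t : V → V) (v : V) (i : ℕ) : Bool × V × V :=
  (decide (Even i), prv s t v i, wk s t v i)

theorem wk_add_per_mul (i m : ℕ) (_hs : Inv s) (_ht : Inv t) :
    wk s t v (i + m * per s t v) = wk s t v i := by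
  induction m with
  | zero => simp
  | succ m ih => rw [Nat.succ_mul, ← Nat.add_assoc, wk_add_per, ih]

theorem wk_mod (hs : Inv s) (ht : Inv t) (i : ℕ) : wk s t v (i % per s t v) = wk s t v i := by
  conv_rhs => rw [← Nat.mod_add_div' i (per s t v)]
  rw [wk_add_per_mul _ _ hs ht]

theorem wk_eq_mod (hs : Inv s) (ht : Inv t) (hs' : ∀ v, s v ≠ v) (ht' : ∀ v, t v ≠ v)
    {i j : ℕ} (h : wk s t v i = wk s t v j) : i % per s t v = j % per s t v := by
  have h2 := two_le_per (v := v) hs ht
  rw [← wk_mod hs ht i, ← wk_mod hs ht j] at h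
  exact wk_inj hs ht hs' ht' (Nat.mod_lt _ (by omega)) (Nat.mod_lt _ (by omega)) h

theorem wk_eq_parity (hs : Inv s) (ht : Inv t) (hs' : ∀ v, s v ≠ v) (ht' : ∀ v, t v ≠ v)
    {i j : ℕ} (h : wk s t v i = wk s t v j) : Even i ↔ Even j := by
  have h1 := wk_eq_mod hs ht hs' ht' h
  have hp : Even (per s t v) := even_per
  rw [Nat.even_iff, Nat.even_iff]
  have e1 : i % per s t v % 2 = i % 2 := Nat.mod_mod_of_dvd _ hp.two_dvd
  have e2 : j % per s t v % 2 = j % 2 := Nat.mod_mod_of_dvd _ hp.two_dvd
  rw [← e1, ← e2, h1]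

theorem t_wk_even (hs : Inv s) (ht : Inv t) {i : ℕ} (h : Even i) :
    t (wk s t v i) = prv s t v i := by
  have h2 := two_le_per (v := v) hs ht
  have hp : Even (per s t v) := even_per
  have e : wk s t v i = wk s t v (i + per s t v - 1 + 1) := by
    rw [Nat.sub_add_cancel (by omega), wk_add_per]
  rw [e, t_wk_succ ht]
  · rfl
  · rcases hp with ⟨a, ha⟩
    rcases h with ⟨b, hb⟩
    exact ⟨b + a - 1, by omega⟩

theorem t_prv (hs : Inv s) (ht : Inv t) {i : ℕ} (h : Even i) :
    t (prv s t v i) = wk s t v i := by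
  rw [← t_wk_even hs ht h, ht]

theorem s_wk_odd (hs : Inv s) (ht : Inv t) {i : ℕ} (h : Odd i) :
    s (wk s t v i) = prv s t v i := by
  have h2 := two_le_per (v := v) hs ht
  have hp : Even (per s t v) := even_per
  have e : wk s t v i = wk s t v (i + per s t v - 1 + 1) := by
    rw [Nat.sub_add_cancel (by omega), wk_add_per]
  rw [e, s_wk_succ hs]
  · rfl
  · rcases hp with ⟨a, ha⟩
    rcases h with ⟨b, hb⟩
    exact ⟨b + a, by omega⟩

theorem s_prv (hs : Inv s) (ht : Inv t) {i : ℕ} (h : Odd i) :
    s (prv s t v i) = wk s t v i := by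
  rw [← s_wk_odd hs ht h, hs]

theorem prv_ne (hs : Inv s) (ht : Inv t) (hs' : ∀ v, s v ≠ v) (ht' : ∀ v, t v ≠ v) (i : ℕ) :
    prv s t v i ≠ wk s t v i := by
  rcases Nat.even_or_odd i with h | h
  · rw [← t_wk_even hs ht h]; exact ht' _
  · rw [← s_wk_odd hs ht h]; exact hs' _

theorem prv_succ (i : ℕ) : prv s t v (i + 1) = wk s t v i := by
  unfold prv
  rw [show i + 1 + per s t v - 1 = i + per s t v by omega, wk_add_per]

theorem prv_ne_wk (hs : Inv s) (ht : Inv t) (hs' : ∀ v, s v ≠ v) (ht' : ∀ v, t v ≠ v) {i m : ℕ}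
    (h : Even i ↔ Even m) : prv s t v i ≠ wk s t v m := by
  intro h'
  have h2 := two_le_per (v := v) hs ht
  have hp : Even (per s t v) := even_per
  have h3 := wk_eq_parity hs ht hs' ht' h'
  rw [← h, Nat.even_sub (by omega), Nat.even_add] at h3
  simp only [hp, iff_true, Nat.not_even_one, iff_false] at h3
  tauto

/-- one more cut -/
theorem CutAt.step (hs : Inv s) (ht : Inv t) (hs' : ∀ v, s v ≠ v) (ht' : ∀ v, t v ≠ v)
    {D : Finset ℕ} {p : (V → V) × (V → V)} (h : CutAt s t v D p.1 p.2) {i : ℕ}
    (hi : i ≤ per s t v) (hD : ∀ m ∈ D, wk s t v m ≠ wk s t v i) :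
    CutAt s t v (insert i D) (cutp (lab s t v i) p).1 (cutp (lab s t v i) p).2 ∧
      pres (lab s t v i) p := by
  rcases Nat.even_or_odd i with he | ho
  · have hodd : ¬ Odd i := Nat.not_odd_iff_even.2 he
    have hkeep : p.2 (prv s t v i) = wk s t v i := by
      rw [h.keep2 (prv s t v i) (fun m hm hme => ⟨prv_ne_wk hs ht hs' ht' (by simp [he, hme]), by
        rw [t_prv hs ht he]; exact (hD m hm).symm⟩), t_prv hs ht he]
    have ec : cutp (lab s t v i) p = (p.1, del p.2 (prv s t v i)) := by
      simp [cutp, lab, he]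
    refine ⟨?_, prv_ne hs ht hs' ht' i, by simp [lab, he, hkeep]⟩
    rw [ec]
    refine ⟨?_, ?_, ?_, ?_, ?_⟩
    · intro m hm
      rcases Finset.mem_insert.1 hm with h1 | h1
      · rw [h1]; exact hi
      · exact h.le m h1
    · intro m hm hmo x hx
      rcases Finset.mem_insert.1 hm with h1 | h1
      · exact absurd (h1 ▸ hmo) hodd
      · exact h.fix1 m h1 hmo x hx
    · intro x hx
      exact h.keep1 x fun m hm hmo => hx m (Finset.mem_insert_of_mem hm) hmo
    · intro m hm hme x hx
      show del p.2 (prv s t v i) x = x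
      unfold del
      by_cases hc : x = prv s t v i ∨ x = p.2 (prv s t v i)
      · rw [if_pos hc]
      · rw [if_neg hc]
        rcases Finset.mem_insert.1 hm with h1 | h1
        · exfalso
          apply hc
          subst h1
          rcases hx with hx | hx
          · right; rw [hkeep, hx]
          · left; rw [← t_wk_even hs ht he, ← hx, ht]
        · exact h.fix2 m h1 hme x hx
    · intro x hx
      show del p.2 (prv s t v i) x = t x
      have h1 := hx i (Finset.mem_insert_self _ _) he
      rw [del_of_ne]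
      · exact h.keep2 x fun m hm hme => hx m (Finset.mem_insert_of_mem hm) hme
      · intro h3
        apply h1.2
        rw [h3, t_prv hs ht he]
      · rw [hkeep]; exact h1.1
  · have heven : ¬ Even i := Nat.not_even_iff_odd.2 ho
    have hkeep : p.1 (prv s t v i) = wk s t v i := by
      rw [h.keep1 (prv s t v i) (fun m hm hme => ⟨prv_ne_wk hs ht hs' ht'
        (by simp [heven, Nat.not_even_iff_odd.2 hme]), by
        rw [s_prv hs ht ho]; exact (hD m hm).symm⟩), s_prv hs ht ho]
    have ec : cutp (lab s t v i) p = (del p.1 (prv s t v i), p.2) := by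
      simp [cutp, lab, heven]
    refine ⟨?_, prv_ne hs ht hs' ht' i, by simp [lab, heven, hkeep]⟩
    rw [ec]
    refine ⟨?_, ?_, ?_, ?_, ?_⟩
    · intro m hm
      rcases Finset.mem_insert.1 hm with h1 | h1
      · rw [h1]; exact hi
      · exact h.le m h1
    · intro m hm hme x hx
      show del p.1 (prv s t v i) x = x
      unfold del
      by_cases hc : x = prv s t v i ∨ x = p.1 (prv s t v i)
      · rw [if_pos hc]
      · rw [if_neg hc]
        rcases Finset.mem_insert.1 hm with h1 | h1
        · exfalso
          apply hc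
          subst h1
          rcases hx with hx | hx
          · right; rw [hkeep, hx]
          · left; rw [← s_wk_odd hs ht ho, ← hx, hs]
        · exact h.fix1 m h1 hme x hx
    · intro x hx
      show del p.1 (prv s t v i) x = s x
      have h1 := hx i (Finset.mem_insert_self _ _) ho
      rw [del_of_ne]
      · exact h.keep1 x fun m hm hme => hx m (Finset.mem_insert_of_mem hm) hme
      · intro h3
        apply h1.2
        rw [h3, s_prv hs ht ho]
      · rw [hkeep]; exact h1.1
    · intro m hm hmo x hx
      rcases Finset.mem_insert.1 hm with h1 | h1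
      · exact absurd (h1 ▸ hmo) heven
      · exact h.fix2 m h1 hmo x hx
    · intro x hx
      exact h.keep2 x fun m hm hmo => hx m (Finset.mem_insert_of_mem hm) hmo

theorem CutAt.defect {D : Finset ℕ} {N1 N2 : V → V} (h : CutAt s t v D N1 N2) {i : ℕ}
    (hi : i ∈ D) : N1 (wk s t v i) = wk s t v i ∨ N2 (wk s t v i) = wk s t v i := by
  rcases Nat.even_or_odd i with he | ho
  · exact Or.inr (h.fix2 i hi he _ (Or.inl rfl))
  · exact Or.inl (h.fix1 i hi ho _ (Or.inl rfl))

/-- the recursion in the frame `(s, t)`, root edge `{v, t v}` -/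
theorem frame_bound {O : Type*} (hs : Inv s) (ht : Inv t) (hs' : ∀ v, s v ≠ v)
    (ht' : ∀ v, t v ≠ v) (path : O → V → V → Prop) (level : V → V → ℝ) (top : V → V → O)
    (path_symm : ∀ o u v, path o u v → path o v u)
    (top_mem : ∀ u v, u ≠ v → path (top u v) u v)
    (ear : ∀ u v x y, u ≠ v → x ≠ y → level u v ≤ level x y →
      (∃ o, path o u v ∧ path o x y) → path (top u v) x y)
    (share : ∀ u v x, u ≠ v → u ≠ x → ∃ o, path o u v ∧ path o u x)
    (G : Finset V → ℝ) (g0 M : ℝ) (hG : ∀ y, G {y} = g0)
    (hrel : ∀ o, ∀ L : List (Bool × V × V), L.length = 2 ∨ L.length = 3 → presL L (s, t) →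
      (∀ c ∈ L, path o c.2.1 c.2.2) → ∀ x y,
      ((cutL L (s, t)).1 x = x ∨ (cutL L (s, t)).2 x = x) →
      ((cutL L (s, t)).1 y = y ∨ (cutL L (s, t)).2 y = y) →
      y ∉ comp (cutL L (s, t)).1 (cutL L (s, t)).2 x →
      |g0 + G (comp (cutL L (s, t)).1 (cutL L (s, t)).2 x ∪
          comp (cutL L (s, t)).1 (cutL L (s, t)).2 y)
        - G (comp (cutL L (s, t)).1 (cutL L (s, t)).2 x)
        - G (comp (cutL L (s, t)).1 (cutL L (s, t)).2 y)| ≤ M)
    (hmax : ∀ k, k ≤ per s t v →
      level (prv s t v k) (wk s t v k) ≤ level (prv s t v 0) (wk s t v 0)) :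
    |G (comp s t v) - g0| ≤ (per s t v - 1 : ℕ) * M := by
  have h2 := two_le_per (v := v) hs ht
  have hp : Even (per s t v) := even_per
  have hwper : wk s t v (per s t v) = wk s t v 0 := by rw [wk_per, wk_zero]
  have hpper : prv s t v (per s t v) = prv s t v 0 := by
    rw [← t_wk_even hs ht hp, hwper, t_wk_even hs ht (by decide)]
  rw [← arc_full (v := v) hs ht]
  refine ear_conclusion (per s t v) (by omega)
    (fun i => level (prv s t v i) (wk s t v i))
    (fun i o => path o (prv s t v i) (wk s t v i))
    (fun i => top (prv s t v i) (wk s t v i))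
    (fun i j => G (arc s t v i j)) g0 M ?_ ?_ ?_ ?_ ?_ hmax (by rw [hpper, hwper])
  · intro i _
    obtain ⟨o, h1, h2⟩ := share (wk s t v i) (prv s t v i) (wk s t v (i + 1))
      (prv_ne hs ht hs' ht' i).symm (by
        have := prv_ne (v := v) hs ht hs' ht' (i + 1)
        rwa [prv_succ] at this)
    refine ⟨o, path_symm _ _ _ h1, ?_⟩
    rw [prv_succ]; exact h2
  · intro i _
    exact top_mem _ _ (prv_ne hs ht hs' ht' i)
  · intro i j _ _ hl ho
    exact ear _ _ _ _ (prv_ne hs ht hs' ht' i) (prv_ne hs ht hs' ht' j) hl ho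
  · intro i _
    rw [arc_single, hG]
  · intro i k j hik hkj hj o h1 h2' h3
    by_cases hroot : i = 0 ∧ j = per s t v
    · obtain ⟨hi0, hjp⟩ := hroot
      subst hi0
      -- two cuts
      have c0 : CutAt s t v ∅ (s, t).1 (s, t).2 := cutAt_empty
      obtain ⟨c1, p1⟩ := c0.step hs ht hs' ht' (i := 0) (by omega) (by simp)
      obtain ⟨c2, p2⟩ := c1.step hs ht hs' ht' (i := k) (by omega) (by
        intro m hm
        simp only [Finset.mem_insert, Finset.notMem_empty, or_false] at hm
        subst hm
        intro h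
        have := wk_inj hs ht hs' ht' (by omega) (by omega) h
        omega)
      have hrel' := hrel o [lab s t v 0, lab s t v k] (Or.inl rfl) ⟨p1, p2, trivial⟩
        (by
          intro c hc
          simp only [List.mem_cons, List.not_mem_nil, or_false] at hc
          rcases hc with hc | hc
          · subst hc; exact h1
          · subst hc; exact h2')
        (wk s t v 0) (wk s t v k)
        (c2.defect (by simp)) (c2.defect (by simp))
      have e1 := c2.comp_eq_arc hs ht hs' ht' (i := 0) (j := k) hik (by omega)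
        (Or.inl (by simp)) (Or.inl (by simp)) (by
          intro m hm
          simp only [Finset.mem_insert, Finset.notMem_empty, or_false] at hm
          omega)
      have e2 := c2.comp_eq_arc hs ht hs' ht' (i := k) (j := j) hkj hj
        (Or.inl (by simp)) (Or.inr ⟨hjp, by simp⟩) (by
          intro m hm
          simp only [Finset.mem_insert, Finset.notMem_empty, or_false] at hm
          omega)
      simp only [cutL] at hrel'
      rw [e1, e2, arc_union hik.le hkj.le] at hrel'
      exact hrel' (fun h => by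
        have := (wk_mem_arc hs ht hs' ht' (by omega) (by omega)).1 h
        omega)
    · have hij : wk s t v i ≠ wk s t v j := by
        intro h
        rcases hj.lt_or_eq with h5 | h5
        · have := wk_inj hs ht hs' ht' (by omega) h5 h
          omega
        · rw [h5, hwper] at h
          have := wk_inj hs ht hs' ht' (by omega) (by omega) h
          exact hroot ⟨this, h5⟩
      have hkj' : wk s t v k ≠ wk s t v j := by
        intro h
        rcases hj.lt_or_eq with h5 | h5
        · have := wk_inj hs ht hs' ht' (by omega) h5 h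
          omega
        · rw [h5, hwper] at h
          have := wk_inj hs ht hs' ht' (by omega) (by omega) h
          omega
      have hik' : wk s t v i ≠ wk s t v k := by
        intro h
        have := wk_inj hs ht hs' ht' (by omega) (by omega) h
        omega
      have c0 : CutAt s t v ∅ (s, t).1 (s, t).2 := cutAt_empty
      obtain ⟨c1, p1⟩ := c0.step hs ht hs' ht' (i := i) (by omega) (by simp)
      obtain ⟨c2, p2⟩ := c1.step hs ht hs' ht' (i := k) (by omega) (by
        intro m hm
        simp only [Finset.mem_insert, Finset.notMem_empty, or_false] at hm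
        subst hm
        exact hik')
      obtain ⟨c3, p3⟩ := c2.step hs ht hs' ht' (i := j) hj (by
        intro m hm
        simp only [Finset.mem_insert, Finset.notMem_empty, or_false] at hm
        rcases hm with hm | hm
        · subst hm; exact hkj'
        · subst hm; exact hij)
      have hrel' := hrel o [lab s t v i, lab s t v k, lab s t v j] (Or.inr rfl)
        ⟨p1, p2, p3, trivial⟩
        (by
          intro c hc
          simp only [List.mem_cons, List.not_mem_nil, or_false] at hc
          rcases hc with hc | hc | hc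
          · subst hc; exact h1
          · subst hc; exact h2'
          · subst hc; exact h3)
        (wk s t v i) (wk s t v k)
        (c3.defect (by simp)) (c3.defect (by simp))
      have e1 := c3.comp_eq_arc hs ht hs' ht' (i := i) (j := k) hik (by omega)
        (Or.inl (by simp)) (Or.inl (by simp)) (by
          intro m hm
          simp only [Finset.mem_insert, Finset.notMem_empty, or_false] at hm
          omega)
      have e2 := c3.comp_eq_arc hs ht hs' ht' (i := k) (j := j) hkj hj
        (Or.inl (by simp)) (Or.inl (by simp)) (by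
          intro m hm
          simp only [Finset.mem_insert, Finset.notMem_empty, or_false] at hm
          omega)
      simp only [cutL] at hrel'
      rw [e1, e2, arc_union hik.le hkj.le] at hrel'
      exact hrel' (fun h => by
        have := (wk_mem_arc hs ht hs' ht' (by omega) (by omega)).1 h
        omega)

theorem wk_mem_comp (i : ℕ) : wk s t v i ∈ comp s t v := by
  induction i with
  | zero => exact self_mem_comp
  | succ i ih =>
    rcases Nat.even_or_odd i with h | h
    · rw [wk_succ_even h]; exact comp_cl_left _ ih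
    · rw [wk_succ_odd h]; exact comp_cl_right _ ih

end WalkCut

section Final
variable {V : Type} [Fintype V] [DecidableEq V]

theorem jn_of_pm {s : V → V} (h : ∀ v, s v ≠ v) : jn s = s :=
  jn_of_le (by rw [holes_eq_empty.2 h]; simp)

theorem hyb_singleton {s t : V → V} (hs : Inv s) (ht' : ∀ v, t v ≠ v) (y : V) :
    hyb {y} s t = del s y := by
  funext x
  unfold hyb del
  by_cases hx : x = y
  · subst hx
    simp [ht' x]
  · have e : s x = y ↔ x = s y := hs.eq_iff
    simp [hx, e]

theorem jn_hyb_singleton {s t : V → V} (hs : Inv s) (hs' : ∀ v, s v ≠ v) (ht' : ∀ v, t v ≠ v)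
    (y : V) : jn (hyb {y} s t) = s := by
  rw [hyb_singleton hs ht']
  have hh : holes (del s y) = {y, s y} := by
    rw [holes_del, holes_eq_empty.2 hs', Finset.empty_union]
  have h1 : 1 < (holes (del s y)).card := by
    rw [hh, Finset.card_pair (hs' y).symm]; norm_num
  rw [jn_of_lt h1]
  have a1 := pick_fst _ h1
  have a2 := pick_snd _ h1
  have a3 := pick_ne _ h1
  generalize (pick (holes (del s y)) h1).1 = u at *
  generalize (pick (holes (del s y)) h1).2 = w at *
  rw [hh] at a1 a2
  simp only [Finset.mem_insert, Finset.mem_singleton] at a1 a2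
  have e : add (del s y) u w = s := by
    rcases a1 with rfl | rfl
    · rcases a2 with rfl | rfl
      · exact absurd rfl a3
      · exact add_del hs
    · rcases a2 with rfl | rfl
      · rw [add_comm' , add_del hs]
      · exact absurd rfl a3
  rw [e, jn_of_pm hs']

theorem jn_hyb_comp {s t : V → V} (hs : Inv s) (ht : Inv t) (hs' : ∀ v, s v ≠ v)
    (ht' : ∀ v, t v ≠ v) (v : V) : jn (hyb (comp s t v) s t) = swp (comp s t v) s t := by
  rw [hyb_eq_swp hs comp_cl_left comp_cl_right, jn_of_pm]
  have h := swp_mem_pms (mem_pms.2 ⟨hs, hs'⟩) (mem_pms.2 ⟨ht, ht'⟩)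
    (comp_cl_left (v := v)) comp_cl_right
  exact (mem_pms.1 h).2

open Classical in
/-- the relation defect of `(L, x, y)` at `(s, t)` -/
noncomputable def relT (path : V → V → Prop) (f : (V → V) → ℝ) (L : List (Bool × V × V))
    (x y : V) (s t : V → V) : ℝ :=
  if presL L (s, t) ∧ (∀ c ∈ L, path c.2.1 c.2.2) ∧
      ((cutL L (s, t)).1 x = x ∨ (cutL L (s, t)).2 x = x) ∧
      ((cutL L (s, t)).1 y = y ∨ (cutL L (s, t)).2 y = y) ∧
      y ∉ comp (cutL L (s, t)).1 (cutL L (s, t)).2 x then
    (f s + f (jn (hyb (comp (cutL L (s, t)).1 (cutL L (s, t)).2 x ∪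
          comp (cutL L (s, t)).1 (cutL L (s, t)).2 y) s t))
        - f (jn (hyb (comp (cutL L (s, t)).1 (cutL L (s, t)).2 x) s t))
        - f (jn (hyb (comp (cutL L (s, t)).1 (cutL L (s, t)).2 y) s t))) ^ 2
  else 0

theorem relT_nonneg (path : V → V → Prop) (f : (V → V) → ℝ) (L : List (Bool × V × V))
    (x y : V) (s t : V → V) : 0 ≤ relT path f L x y s t := by
  unfold relT
  split_ifs
  · exact sq_nonneg _
  · exact le_rfl

/-- total relation defect at `(s, t)` -/
noncomputable def totT {O : Type*} [Fintype O] (path : O → V → V → Prop) (f : (V → V) → ℝ)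
    (s t : V → V) : ℝ :=
  ∑ o, ∑ x, ∑ y, ((∑ c1, ∑ c2, relT (path o) f [c1, c2] x y s t) +
    ∑ c1, ∑ c2, ∑ c3, relT (path o) f [c1, c2, c3] x y s t)

theorem relT_le_totT {O : Type*} [Fintype O] (path : O → V → V → Prop) (f : (V → V) → ℝ)
    (s t : V → V) (o : O) (L : List (Bool × V × V)) (hL : L.length = 2 ∨ L.length = 3)
    (x y : V) : relT (path o) f L x y s t ≤ totT path f s t := by
  have nn := fun (o : O) (L : List (Bool × V × V)) (x y : V) =>
    relT_nonneg (path o) f L x y s t
  have n2 : ∀ o x y, 0 ≤ ∑ c1, ∑ c2, relT (path o) f [c1, c2] x y s t := fun o x y =>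
    Finset.sum_nonneg fun _ _ => Finset.sum_nonneg fun _ _ => nn _ _ _ _
  have n3 : ∀ o x y, 0 ≤ ∑ c1, ∑ c2, ∑ c3, relT (path o) f [c1, c2, c3] x y s t :=
    fun o x y => Finset.sum_nonneg fun _ _ => Finset.sum_nonneg fun _ _ =>
      Finset.sum_nonneg fun _ _ => nn _ _ _ _
  have step : relT (path o) f L x y s t ≤ (∑ c1, ∑ c2, relT (path o) f [c1, c2] x y s t) +
      ∑ c1, ∑ c2, ∑ c3, relT (path o) f [c1, c2, c3] x y s t := by
    rcases hL with hL | hL
    · obtain ⟨c1, c2, rfl⟩ := List.length_eq_two.1 hL
      have h1 : relT (path o) f [c1, c2] x y s t ≤ ∑ c2, relT (path o) f [c1, c2] x y s t :=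
        Finset.single_le_sum (f := fun c2 => relT (path o) f [c1, c2] x y s t)
          (fun _ _ => nn _ _ _ _) (Finset.mem_univ c2)
      have h2 : ∑ c2, relT (path o) f [c1, c2] x y s t
          ≤ ∑ c1, ∑ c2, relT (path o) f [c1, c2] x y s t :=
        Finset.single_le_sum (f := fun c1 => ∑ c2, relT (path o) f [c1, c2] x y s t)
          (fun _ _ => Finset.sum_nonneg fun _ _ => nn _ _ _ _) (Finset.mem_univ c1)
      linarith [n3 o x y]
    · obtain ⟨c1, c2, c3, rfl⟩ := List.length_eq_three.1 hL
      have h1 : relT (path o) f [c1, c2, c3] x y s t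
          ≤ ∑ c3, relT (path o) f [c1, c2, c3] x y s t :=
        Finset.single_le_sum (f := fun c3 => relT (path o) f [c1, c2, c3] x y s t)
          (fun _ _ => nn _ _ _ _) (Finset.mem_univ c3)
      have h2 : ∑ c3, relT (path o) f [c1, c2, c3] x y s t
          ≤ ∑ c2, ∑ c3, relT (path o) f [c1, c2, c3] x y s t :=
        Finset.single_le_sum (f := fun c2 => ∑ c3, relT (path o) f [c1, c2, c3] x y s t)
          (fun _ _ => Finset.sum_nonneg fun _ _ => nn _ _ _ _) (Finset.mem_univ c2)
      have h3 : ∑ c2, ∑ c3, relT (path o) f [c1, c2, c3] x y s t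
          ≤ ∑ c1, ∑ c2, ∑ c3, relT (path o) f [c1, c2, c3] x y s t :=
        Finset.single_le_sum (f := fun c1 => ∑ c2, ∑ c3, relT (path o) f [c1, c2, c3] x y s t)
          (fun _ _ => Finset.sum_nonneg fun _ _ => Finset.sum_nonneg fun _ _ => nn _ _ _ _)
          (Finset.mem_univ c1)
      linarith [n2 o x y]
  refine step.trans ?_
  have i1 := Finset.single_le_sum (f := fun y =>
      ((∑ c1, ∑ c2, relT (path o) f [c1, c2] x y s t) +
        ∑ c1, ∑ c2, ∑ c3, relT (path o) f [c1, c2, c3] x y s t))
    (fun y _ => add_nonneg (n2 o x y) (n3 o x y)) (Finset.mem_univ y)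
  have i2 := Finset.single_le_sum (f := fun x => ∑ y,
      ((∑ c1, ∑ c2, relT (path o) f [c1, c2] x y s t) +
        ∑ c1, ∑ c2, ∑ c3, relT (path o) f [c1, c2, c3] x y s t))
    (fun x _ => Finset.sum_nonneg fun y _ => add_nonneg (n2 o x y) (n3 o x y)) (Finset.mem_univ x)
  have i3 := Finset.single_le_sum (f := fun o => ∑ x, ∑ y,
      ((∑ c1, ∑ c2, relT (path o) f [c1, c2] x y s t) +
        ∑ c1, ∑ c2, ∑ c3, relT (path o) f [c1, c2, c3] x y s t))
    (fun o _ => Finset.sum_nonneg fun x _ => Finset.sum_nonneg fun y _ =>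
      add_nonneg (n2 o x y) (n3 o x y)) (Finset.mem_univ o)
  exact (i1.trans i2).trans i3

theorem totT_nonneg {O : Type*} [Fintype O] (path : O → V → V → Prop) (f : (V → V) → ℝ)
    (s t : V → V) : 0 ≤ totT path f s t :=
  Finset.sum_nonneg fun _ _ => Finset.sum_nonneg fun _ _ => Finset.sum_nonneg fun _ _ =>
    add_nonneg (Finset.sum_nonneg fun _ _ => Finset.sum_nonneg fun _ _ => relT_nonneg _ _ _ _ _ _ _)
      (Finset.sum_nonneg fun _ _ => Finset.sum_nonneg fun _ _ => Finset.sum_nonneg fun _ _ =>
        relT_nonneg _ _ _ _ _ _ _)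

/-- flipping one component is controlled by the relation defects -/
theorem flip_term_le {lamv : V → V → ℝ} {c0 : ℝ} (N : Nodes.NodeSys V lamv c0)
    (f : (V → V) → ℝ) {s t : V → V} (hs : Inv s) (ht : Inv t) (hs' : ∀ v, s v ≠ v)
    (ht' : ∀ v, t v ≠ v) (v : V) :
    (f s - f (swp (comp s t v) s t)) ^ 2 ≤
      (Fintype.card V : ℝ) ^ 2 * (letI := N.finO; totT N.path f s t) := by
  let _ := N.finO
  show _ ≤ (Fintype.card V : ℝ) ^ 2 * totT N.path f s t
  set T := totT N.path f s t with hT
  have hT0 : 0 ≤ T := totT_nonneg _ _ _ _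
  have key : |f (swp (comp s t v) s t) - f s| ≤ (Fintype.card V : ℝ) * Real.sqrt T := by
    obtain ⟨⟨z, b⟩, hz, hzmax⟩ := Finset.exists_max_image
      (comp s t v ×ˢ (Finset.univ : Finset Bool))
      (fun q : V × Bool => N.level q.1 (if q.2 then t q.1 else s q.1))
      ⟨(v, true), Finset.mem_product.2 ⟨self_mem_comp, Finset.mem_univ _⟩⟩
    have hzc : z ∈ comp s t v := (Finset.mem_product.1 hz).1
    have hcz : comp s t z = comp s t v := comp_eq hs ht hzc
    have hmx : ∀ y ∈ comp s t v, ∀ b' : Bool,
        N.level y (if b' then t y else s y) ≤ N.level z (if b then t z else s z) :=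
      fun y hy b' => hzmax (y, b') (Finset.mem_product.2 ⟨hy, Finset.mem_univ _⟩)
    have hG : ∀ y, f (jn (hyb {y} s t)) = f s := fun y => by rw [jn_hyb_singleton hs hs' ht']
    have hcv : f (jn (hyb (comp s t v) s t)) = f (swp (comp s t v) s t) := by
      rw [jn_hyb_comp hs ht hs' ht']
    have fin : ∀ p : ℕ, p ≤ Fintype.card V → ((p - 1 : ℕ) : ℝ) * Real.sqrt T
        ≤ (Fintype.card V : ℝ) * Real.sqrt T := by
      intro p hp
      refine mul_le_mul_of_nonneg_right ?_ (Real.sqrt_nonneg _)
      have : p - 1 ≤ Fintype.card V := by omega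
      exact_mod_cast this
    cases b with
    | true =>
      have h := frame_bound (s := s) (t := t) (v := z) hs ht hs' ht' N.path N.level N.top
        N.path_symm N.top_mem N.ear N.share (fun A => f (jn (hyb A s t))) (f s) (Real.sqrt T) hG
        (by
          intro o L hL hpres hpath x y hx hy hny
          refine Real.abs_le_sqrt ?_
          refine le_trans (le_of_eq ?_) (relT_le_totT N.path f s t o L hL x y)
          unfold relT
          rw [if_pos ⟨hpres, hpath, hx, hy, hny⟩])
        (by
          intro k _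
          have e0 : prv s t z 0 = t z := (t_wk_even hs ht (by decide)).symm
          rw [e0, wk_zero, N.level_symm (t z) z]
          have hk : wk s t z k ∈ comp s t v := hcz ▸ wk_mem_comp k
          rcases Nat.even_or_odd k with h | h
          · rw [← t_wk_even hs ht h, N.level_symm (t (wk s t z k))]
            exact hmx _ hk true
          · rw [← s_wk_odd hs ht h, N.level_symm (s (wk s t z k))]
            exact hmx _ hk false)
      simp only [hcz, hcv] at h
      exact h.trans (fin _ (per_le_card hs ht hs' ht'))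
    | false =>
      have h := frame_bound (s := t) (t := s) (v := z) ht hs ht' hs' N.path N.level N.top
        N.path_symm N.top_mem N.ear N.share (fun A => f (jn (hyb A s t))) (f s) (Real.sqrt T) hG
        (by
          intro o L hL hpres hpath x y hx hy hny
          refine Real.abs_le_sqrt ?_
          refine le_trans (le_of_eq ?_) (relT_le_totT N.path f s t o (L.map flipc)
            (by simpa using hL) x y)
          have e1 : cutL (L.map flipc) (s, t) = (cutL L (t, s)).swap := cutL_flip L (t, s)
          have e2 : presL (L.map flipc) (s, t) ↔ presL L (t, s) := presL_flip L (t, s)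
          unfold relT
          rw [e1]
          simp only [Prod.fst_swap, Prod.snd_swap]
          have e3 : ∀ x, comp (cutL L (t, s)).2 (cutL L (t, s)).1 x
              = comp (cutL L (t, s)).1 (cutL L (t, s)).2 x := fun x => comp_comm
          rw [if_pos]
          · rw [e3, e3]
          refine ⟨e2.2 hpres, ?_, hx.symm, hy.symm, by rw [e3]; exact hny⟩
          intro c hc
          obtain ⟨c', hc', rfl⟩ := List.mem_map.1 hc
          exact hpath c' hc')
        (by
          intro k _
          have e0 : prv t s z 0 = s z := (t_wk_even ht hs (by decide)).symm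
          rw [e0, wk_zero, N.level_symm (s z) z]
          have hk : wk t s z k ∈ comp s t v := by
            rw [← hcz, comp_comm]; exact wk_mem_comp k
          rcases Nat.even_or_odd k with h | h
          · rw [← t_wk_even ht hs h, N.level_symm (s (wk t s z k))]
            exact hmx _ hk false
          · rw [← s_wk_odd ht hs h, N.level_symm (t (wk t s z k))]
            exact hmx _ hk true)
      have hcz' : comp t s z = comp s t v := by rw [comp_comm, hcz]
      simp only [hcz', hcv] at h
      exact h.trans (fin _ (per_le_card ht hs ht' hs'))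
  have h1 := pow_le_pow_left₀ (abs_nonneg _) key 2
  rw [sq_abs, mul_pow, Real.sq_sqrt hT0] at h1
  calc _ = (f (swp (comp s t v) s t) - f s) ^ 2 := by ring
    _ ≤ _ := h1

/-- **Theorem L** from the relations -/
theorem thmL {lamv : V → V → ℝ} {c0 : ℝ} (N : Nodes.NodeSys V lamv c0) {a : V → V → ℝ}
    (ha : ∀ u v, 0 < a u v) (f : (V → V) → ℝ) {E : ℝ} (hE : 0 ≤ E)
    (hrel : ∀ o, ∀ L : List (Bool × V × V), L.length ≤ 3 → ∀ x y,
      ∑ s ∈ pms V, ∑ t ∈ pms V, W a s * W a t * relT (N.path o) f L x y s t ≤ E) :
    ∑ s ∈ pms V, ∑ t ∈ pms V, W a s * W a t * (f s - f t) ^ 2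
      ≤ 12 * (Fintype.card V : ℝ) ^ 14 * E := by
  let _ := N.finO
  have hW : ∀ s t : V → V, 0 ≤ W a s * W a t := fun s t => mul_nonneg (W_pos ha _).le (W_pos ha _).le
  rcases Nat.eq_zero_or_pos (Fintype.card V) with h0 | h0
  · have hemp : IsEmpty V := Fintype.card_eq_zero_iff.1 h0
    have : ∀ s t : V → V, s = t := fun s t => funext fun v => (hemp.false v).elim
    have hz : ∑ s ∈ pms V, ∑ t ∈ pms V, W a s * W a t * (f s - f t) ^ 2 = 0 :=
      Finset.sum_eq_zero fun s _ => Finset.sum_eq_zero fun t _ => by
        rw [this s t]; ring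
    rw [hz]
    positivity
  set n : ℝ := (Fintype.card V : ℝ) with hn
  have hn1 : 1 ≤ n := by
    rw [hn]; exact_mod_cast (show 1 ≤ Fintype.card V from h0)
  set c : ℝ := (Fintype.card (Bool × V × V) : ℝ) with hc
  have hcn : c = 2 * n ^ 2 := by
    rw [hc, Fintype.card_prod, Fintype.card_prod, Fintype.card_bool]
    push_cast; ring
  -- the sum of totT
  have htot : ∑ s ∈ pms V, ∑ t ∈ pms V, W a s * W a t * totT N.path f s t
      ≤ (Fintype.card N.O : ℝ) * (n * (n * ((c * (c * E)) + c * (c * (c * E))))) := by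
    have e : ∑ s ∈ pms V, ∑ t ∈ pms V, W a s * W a t * totT N.path f s t
        = ∑ o, ∑ x, ∑ y, ((∑ c1, ∑ c2, ∑ s ∈ pms V, ∑ t ∈ pms V,
            W a s * W a t * relT (N.path o) f [c1, c2] x y s t) +
          ∑ c1, ∑ c2, ∑ c3, ∑ s ∈ pms V, ∑ t ∈ pms V,
            W a s * W a t * relT (N.path o) f [c1, c2, c3] x y s t) := by
      have hpr : ∀ F : (V → V) → (V → V) → ℝ, ∑ s ∈ pms V, ∑ t ∈ pms V, F s t
          = ∑ p ∈ pms V ×ˢ pms V, F p.1 p.2 := fun F => (Finset.sum_product' _ _ _).symm
      simp only [totT, hpr]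
      simp only [Finset.mul_sum, mul_add]
      rw [Finset.sum_comm]
      refine Finset.sum_congr rfl fun o _ => ?_
      rw [Finset.sum_comm]
      refine Finset.sum_congr rfl fun x _ => ?_
      rw [Finset.sum_comm]
      refine Finset.sum_congr rfl fun y _ => ?_
      rw [Finset.sum_add_distrib]
      congr 1
      · rw [Finset.sum_comm]
        refine Finset.sum_congr rfl fun c1 _ => ?_
        rw [Finset.sum_comm]
      · rw [Finset.sum_comm]
        refine Finset.sum_congr rfl fun c1 _ => ?_
        rw [Finset.sum_comm]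
        refine Finset.sum_congr rfl fun c2 _ => ?_
        rw [Finset.sum_comm]
    rw [e]
    have hsum : ∀ {ι : Type} [Fintype ι] (g : ι → ℝ) (B : ℝ), (∀ i, g i ≤ B) →
        ∑ i, g i ≤ (Fintype.card ι : ℝ) * B := by
      intro ι _ g B h
      calc ∑ i, g i ≤ ∑ _i : ι, B := Finset.sum_le_sum fun i _ => h i
        _ = _ := by rw [Finset.sum_const, Finset.card_univ, nsmul_eq_mul]
    refine hsum _ _ fun o => hsum _ _ fun x => hsum _ _ fun y => add_le_add ?_ ?_
    · exact hsum _ _ fun c1 => hsum _ _ fun c2 => hrel o [c1, c2] (by simp) x y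
    · exact hsum _ _ fun c1 => hsum _ _ fun c2 => hsum _ _ fun c3 =>
        hrel o [c1, c2, c3] (by simp) x y
  have hO : (Fintype.card N.O : ℝ) ≤ n ^ 2 := by
    have := N.card_le
    rw [hn]
    exact_mod_cast this
  have hflip : ∀ v, flipE a f v ≤ n ^ 2 * ∑ s ∈ pms V, ∑ t ∈ pms V,
      W a s * W a t * totT N.path f s t := by
    intro v
    unfold flipE
    rw [Finset.mul_sum]
    refine Finset.sum_le_sum fun s hs => ?_
    rw [Finset.mul_sum]
    refine Finset.sum_le_sum fun t ht => ?_
    rw [mem_pms] at hs ht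
    calc W a s * W a t * (f s - f (swp (comp s t v) s t)) ^ 2
        ≤ W a s * W a t * (n ^ 2 * totT N.path f s t) :=
          mul_le_mul_of_nonneg_left (flip_term_le N f hs.1 ht.1 hs.2 ht.2 v) (hW s t)
      _ = _ := by ring
  set R : ℝ := ∑ s ∈ pms V, ∑ t ∈ pms V, W a s * W a t * totT N.path f s t with hR
  have hR0 : 0 ≤ R := Finset.sum_nonneg fun s _ => Finset.sum_nonneg fun t _ =>
    mul_nonneg (hW s t) (totT_nonneg _ _ _ _)
  have hRle : R ≤ 12 * n ^ 10 * E := by
    calc R ≤ (Fintype.card N.O : ℝ) * (n * (n * ((c * (c * E)) + c * (c * (c * E))))) := htot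
      _ ≤ n ^ 2 * (n * (n * ((c * (c * E)) + c * (c * (c * E))))) := by
          refine mul_le_mul_of_nonneg_right hO ?_
          rw [hcn]; positivity
      _ = (4 * n ^ 8 + 8 * n ^ 10) * E := by rw [hcn]; ring
      _ ≤ 12 * n ^ 10 * E := by
          refine mul_le_mul_of_nonneg_right ?_ hE
          have : n ^ 8 ≤ n ^ 10 := pow_le_pow_right₀ hn1 (by norm_num)
          linarith
  calc ∑ s ∈ pms V, ∑ t ∈ pms V, W a s * W a t * (f s - f t) ^ 2
      ≤ n * ∑ v, flipE a f v := var_le_flip ha f
    _ ≤ n * ∑ _v : V, n ^ 2 * R := by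
        refine mul_le_mul_of_nonneg_left (Finset.sum_le_sum fun v _ => hflip v) (by linarith)
    _ = n ^ 4 * R := by
        rw [Finset.sum_const, Finset.card_univ, nsmul_eq_mul, ← hn]; ring
    _ ≤ n ^ 4 * (12 * n ^ 10 * E) := mul_le_mul_of_nonneg_left hRle (by positivity)
    _ = 12 * n ^ 14 * E := by ring

end Final

end Crest.Agent.R304
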