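import Crest.Agent.R304.EntG

/-!
R304 / S0467, analysis file A: the logarithm of the weighted number of perfect matchings and the
functional `G(x) = ∑ (x log w - x log x)`: `log N ≤ G(x*) + m` for the marginals `x*` of the Gibbs law
and `G(x) - 2 m ≤ log N` for all marginals `x` (the latter from S0465).
-/

set_option autoImplicit false

namespace Crest.Agent.R304.Ded316A

open Finset Crest.Agent.R304.EntA Crest.Agent.R304.EntB Crest.Agent.R304.EntC
  Crest.Agent.R304.EntF Crest.Agent.R304.EntG Crest.Matchings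

/-- the statement of S0465 -/
def S0465stmt : Prop :=
  ∀ (m : ℕ), 1 ≤ m → ∀ (k : ℕ) (ends : Fin k → Fin (2 * m) × Fin (2 * m)),
    (∀ e, (ends e).1 ≠ (ends e).2) → ∀ (p : Finset (Fin k) → ℝ), IsMatchingLaw ends p →
    ∃ q : Finset (Fin k) → ℝ, IsMatchingLaw ends q ∧ (∀ e, marginal q e = marginal p e) ∧
      ∑ e, Real.negMulLog (marginal p e) - (2 - 2 / (m : ℝ)) * ∑ e, Real.negMulLog (1 - marginal p e)
        ≤ lawEntropy q

/-- Gibbs' inequality -/
theorem gibbs_ineq {Ω : Type*} [Fintype Ω] {b r : Ω → ℝ} (hb : ∀ ω, 0 ≤ b ω)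
    (hb1 : ∑ ω, b ω = 1) (hr : ∀ ω, 0 ≤ r ω) (hS : ∀ ω, b ω ≠ 0 → r ω ≠ 0) :
    H b + ∑ ω, b ω * Real.log (r ω) ≤ Real.log (∑ ω, r ω) := by
  classical
  set Z := ∑ ω, r ω with hZ
  have hZpos : 0 < Z := by
    have : ∃ ω, b ω ≠ 0 := by
      by_contra h
      push Not at h
      simp [h] at hb1
    obtain ⟨ω, hω⟩ := this
    exact sum_pos' (fun ω _ => hr ω) ⟨ω, mem_univ _, lt_of_le_of_ne (hr ω) (Ne.symm (hS ω hω))⟩
  have key : ∀ ω, Real.negMulLog (b ω) + b ω * Real.log (r ω) - b ω * Real.log Z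
      ≤ r ω / Z - b ω := by
    intro ω
    by_cases h : b ω = 0
    · simp only [h, Real.negMulLog_zero, zero_mul, add_zero, sub_zero]
      exact div_nonneg (hr ω) hZpos.le
    · have hb0 : 0 < b ω := lt_of_le_of_ne (hb ω) (Ne.symm h)
      have hr0 : 0 < r ω := lt_of_le_of_ne (hr ω) (Ne.symm (hS ω h))
      have hy0 : 0 < r ω / (Z * b ω) := by positivity
      have h1 := Real.log_le_sub_one_of_pos hy0
      rw [Real.log_div hr0.ne' (by positivity), Real.log_mul hZpos.ne' hb0.ne'] at h1
      have h4 := mul_le_mul_of_nonneg_left h1 hb0.le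
      have h5 : b ω * (r ω / (Z * b ω) - 1) = r ω / Z - b ω := by
        field_simp
      rw [h5] at h4
      unfold Real.negMulLog
      linarith
  have hs := sum_le_sum fun ω (_ : ω ∈ univ) => key ω
  rw [sum_sub_distrib, sum_add_distrib, sum_sub_distrib, ← sum_div, ← hZ,
    div_self hZpos.ne', hb1, ← sum_mul, hb1] at hs
  unfold H
  linarith

variable {m k : ℕ}

open Classical in
/-- weighted number of perfect matchings -/
noncomputable def NPM {v : ℕ} (ends : Fin k → Fin v × Fin v) (w : Fin k → ℕ) : ℕ :=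
  ∑ M ∈ univ.filter (fun M : Finset (Fin k) => IsPerfectMatching ends M), ∏ e ∈ M, w e

/-- the functional `G` -/
noncomputable def Gf (w : Fin k → ℕ) (x : Fin k → ℝ) : ℝ :=
  ∑ e, (x e * Real.log (w e) + Real.negMulLog (x e))

open Classical in
/-- Gibbs weights -/
noncomputable def gw {v : ℕ} (ends : Fin k → Fin v × Fin v) (w : Fin k → ℕ)
    (M : Finset (Fin k)) : ℝ :=
  if IsPerfectMatching ends M then ∏ e ∈ M, (w e : ℝ) else 0

theorem sum_gw {v : ℕ} (ends : Fin k → Fin v × Fin v) (w : Fin k → ℕ) :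
    ∑ M, gw ends w M = NPM ends w := by
  classical
  unfold gw NPM
  rw [← sum_filter]
  push_cast
  exact sum_congr (by congr) fun M _ => rfl

theorem gw_pos {v : ℕ} {ends : Fin k → Fin v × Fin v} {w : Fin k → ℕ} (hw : ∀ e, 1 ≤ w e)
    {M : Finset (Fin k)} (hM : IsPerfectMatching ends M) : 0 < gw ends w M := by
  classical
  unfold gw
  rw [if_pos hM]
  exact prod_pos fun e _ => by exact_mod_cast hw e

theorem gw_nonneg {v : ℕ} (ends : Fin k → Fin v × Fin v) (w : Fin k → ℕ)
    (M : Finset (Fin k)) : 0 ≤ gw ends w M := by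
  classical
  unfold gw
  split_ifs
  · exact prod_nonneg fun e _ => by positivity
  · exact le_refl _

theorem log_gw {v : ℕ} {ends : Fin k → Fin v × Fin v} {w : Fin k → ℕ} (hw : ∀ e, 1 ≤ w e)
    {M : Finset (Fin k)} (hM : IsPerfectMatching ends M) :
    Real.log (gw ends w M) = dot inc (fun e => Real.log (w e)) M := by
  classical
  unfold gw dot inc
  rw [if_pos hM, Real.log_prod fun e _ => by
    have := hw e
    have : (0:ℝ) < w e := by exact_mod_cast this
    exact this.ne']
  simp only [mul_ite, mul_one, mul_zero]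
  rw [← sum_filter]
  congr 1
  ext e; simp

/-- variational lower bound -/
theorem law_le_log {ends : Fin k → Fin (2 * m) × Fin (2 * m)} {w : Fin k → ℕ}
    (hw : ∀ e, 1 ≤ w e) {q : Finset (Fin k) → ℝ} (hq : q ∈ Law (PMs ends)) :
    H q + ∑ e, marg inc q e * Real.log (w e) ≤ Real.log (NPM ends w) := by
  have h1 := gibbs_ineq hq.1 hq.2.1 (gw_nonneg ends w) (fun M hM => (gw_pos hw (hq.2.2 M hM)).ne')
  rw [sum_gw] at h1
  have h2 : ∑ M, q M * Real.log (gw ends w M) = ∑ e, marg inc q e * Real.log (w e) := by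
    have h3 := sum_dot (inc (k := k)) (fun e => Real.log (w e)) q
    rw [sum_congr rfl fun e _ => mul_comm (marg inc q e) (Real.log (w e)), ← h3]
    refine sum_congr rfl fun M _ => ?_
    by_cases h : q M = 0
    · simp [h]
    · rw [log_gw hw (hq.2.2 M h)]
  rw [h2] at h1
  exact h1

theorem negMulLog_one_sub_le {x : ℝ} (h0 : 0 ≤ x) (h1 : x ≤ 1) : Real.negMulLog (1 - x) ≤ x := by
  rcases eq_or_lt_of_le h1 with h | h
  · rw [h]; simp
  · have hpos : 0 < 1 - x := by linarith
    have h2 := Real.log_le_sub_one_of_pos (inv_pos.2 hpos)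
    rw [Real.log_inv] at h2
    have h3 := mul_le_mul_of_nonneg_left h2 hpos.le
    have h4 : (1 - x) * ((1 - x)⁻¹ - 1) = x := by field_simp; ring
    rw [h4] at h3
    unfold Real.negMulLog
    linarith

theorem sum_negMulLog_one_sub_le {ends : Fin k → Fin (2 * m) × Fin (2 * m)}
    (hends : ∀ e, (ends e).1 ≠ (ends e).2) {q : Finset (Fin k) → ℝ} (hq : q ∈ Law (PMs ends)) :
    ∑ e, Real.negMulLog (1 - marg inc q e) ≤ m := by
  have hA : ∀ (M : Finset (Fin k)) (e : Fin k), 0 ≤ inc M e ∧ inc M e ≤ 1 := fun M e => by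
    rcases inc_zero_or_one M e with h | h <;> rw [h] <;> norm_num
  rw [← sum_marg ends hends hq]
  exact sum_le_sum fun e _ =>
    negMulLog_one_sub_le (marg_mem hq hA e).1 (marg_mem hq hA e).2

theorem sum_negMulLog_one_sub_nonneg {ends : Fin k → Fin (2 * m) × Fin (2 * m)}
    {q : Finset (Fin k) → ℝ} (hq : q ∈ Law (PMs ends)) :
    0 ≤ ∑ e, Real.negMulLog (1 - marg inc q e) := by
  have hA : ∀ (M : Finset (Fin k)) (e : Fin k), 0 ≤ inc M e ∧ inc M e ≤ 1 := fun M e => by
    rcases inc_zero_or_one M e with h | h <;> rw [h] <;> norm_num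
  refine sum_nonneg fun e _ => Real.negMulLog_nonneg ?_ ?_
  · linarith [(marg_mem hq hA e).2]
  · linarith [(marg_mem hq hA e).1]

/-- lower bound from S0465 -/
theorem G_le_log (h65 : S0465stmt) (hm : 1 ≤ m) {ends : Fin k → Fin (2 * m) × Fin (2 * m)}
    (hends : ∀ e, (ends e).1 ≠ (ends e).2) {w : Fin k → ℕ}
    (hw : ∀ e, 1 ≤ w e) {p : Finset (Fin k) → ℝ} (hp : p ∈ Law (PMs ends)) :
    Gf w (marg inc p) - 2 * m ≤ Real.log (NPM ends w) := by
  obtain ⟨q, hq, hqm, hqH⟩ := h65 m hm k ends hends p hp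
  have hq' : q ∈ Law (PMs ends) := hq
  have hmarg : marg inc q = marg inc p := by
    funext e; rw [marg_inc, marg_inc, hqm]
  have h1 := law_le_log hw hq'
  rw [hmarg] at h1
  have h2 : ∑ e, Real.negMulLog (marg inc p e)
      - (2 - 2 / (m : ℝ)) * ∑ e, Real.negMulLog (1 - marg inc p e) ≤ H q := by
    simp only [marg_inc]; exact hqH
  have hB := sum_negMulLog_one_sub_le hends hp
  have hB0 := sum_negMulLog_one_sub_nonneg hp
  have hm0 : (1:ℝ) ≤ m := by exact_mod_cast hm
  have hc : 0 ≤ 2 / (m:ℝ) := by positivity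
  have h3 : (2 - 2 / (m : ℝ)) * ∑ e, Real.negMulLog (1 - marg inc p e) ≤ 2 * m := by
    have h4 : (2 - 2 / (m : ℝ)) * ∑ e, Real.negMulLog (1 - marg inc p e)
        ≤ 2 * ∑ e, Real.negMulLog (1 - marg inc p e) :=
      mul_le_mul_of_nonneg_right (by linarith) hB0
    linarith
  unfold Gf
  rw [sum_add_distrib]
  linarith

/-- the Gibbs law -/
noncomputable def gibbs {v : ℕ} (ends : Fin k → Fin v × Fin v) (w : Fin k → ℕ)
    (M : Finset (Fin k)) : ℝ := gw ends w M / NPM ends w

theorem gibbs_law {v : ℕ} {ends : Fin k → Fin v × Fin v} {w : Fin k → ℕ}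
    (hN : 0 < NPM ends w) : gibbs ends w ∈ Law (PMs ends) := by
  classical
  have hN' : (0:ℝ) < NPM ends w := by exact_mod_cast hN
  refine ⟨fun M => div_nonneg (gw_nonneg _ _ _) hN'.le, ?_, fun M hM => ?_⟩
  · unfold gibbs
    rw [← sum_div, sum_gw, div_self hN'.ne']
  · by_contra h
    apply hM
    have h' : ¬ IsPerfectMatching ends M := h
    unfold gibbs gw
    rw [if_neg h', zero_div]

/-- entropy is subadditive -/
theorem H_le_sum {q : Finset (Fin k) → ℝ} (hq0 : ∀ M, 0 ≤ q M) (hq1 : ∑ M, q M = 1) :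
    H q ≤ ∑ e, (Real.negMulLog (marg inc q e) + Real.negMulLog (1 - marg inc q e)) := by
  classical
  have hq : q ∈ Law (Set.univ : Set (Finset (Fin k))) := ⟨hq0, hq1, fun _ _ => Set.mem_univ _⟩
  have hA : ∀ (M : Finset (Fin k)) (e : Fin k), 0 ≤ inc M e ∧ inc M e ≤ 1 := fun M e => by
    rcases inc_zero_or_one M e with h | h <;> rw [h] <;> norm_num
  set x := marg inc q with hx
  have hx01 : ∀ e, 0 ≤ x e ∧ x e ≤ 1 := marg_mem hq hA
  set r : Finset (Fin k) → ℝ := fun M => (∏ e ∈ M, x e) * ∏ e ∈ univ \ M, (1 - x e) with hr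
  have hr0 : ∀ M, 0 ≤ r M := fun M => mul_nonneg (prod_nonneg fun e _ => (hx01 e).1)
    (prod_nonneg fun e _ => by linarith [(hx01 e).2])
  have hpos1 : ∀ M, q M ≠ 0 → ∀ e ∈ M, x e ≠ 0 := by
    intro M hM e he h0
    have h1 : inc M e = 0 := marg_eq_zero hq hA h0 M hM
    rw [inc, if_pos he] at h1
    exact one_ne_zero h1
  have hpos2 : ∀ M, q M ≠ 0 → ∀ e ∉ M, 1 - x e ≠ 0 := by
    intro M hM e he h0
    have h1 : inc M e = 1 := marg_eq_one hq hA (by linarith : marg inc q e = 1) M hM
    rw [inc, if_neg he] at h1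
    exact zero_ne_one h1
  have hS : ∀ M, q M ≠ 0 → r M ≠ 0 := by
    intro M hM
    refine mul_ne_zero (prod_ne_zero_iff.2 fun e he => hpos1 M hM e he)
      (prod_ne_zero_iff.2 fun e he => hpos2 M hM e (mem_sdiff.1 he).2)
  have hrsum : ∑ M, r M = 1 := by
    have h1 := Finset.prod_add (fun e : Fin k => x e) (fun e => 1 - x e) univ
    rw [powerset_univ] at h1
    rw [hr]
    rw [← h1]
    simp
  have h1 := gibbs_ineq hq0 hq1 hr0 hS
  rw [hrsum, Real.log_one] at h1
  have h2 : ∑ M, q M * Real.log (r M)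
      = -∑ e, (Real.negMulLog (x e) + Real.negMulLog (1 - x e)) := by
    have h3 : ∀ M, q M * Real.log (r M)
        = ∑ e, q M * (inc M e * Real.log (x e) + (1 - inc M e) * Real.log (1 - x e)) := by
      intro M
      by_cases h : q M = 0
      · simp [h]
      · rw [hr]
        simp only
        rw [Real.log_mul (prod_ne_zero_iff.2 fun e he => hpos1 M h e he)
          (prod_ne_zero_iff.2 fun e he => hpos2 M h e (mem_sdiff.1 he).2),
          Real.log_prod fun e he => hpos1 M h e he,
          Real.log_prod fun e he => hpos2 M h e (mem_sdiff.1 he).2, ← mul_sum,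
          sum_add_distrib]
        congr 2
        · unfold inc
          simp only [ite_mul, one_mul, zero_mul]
          rw [← sum_filter]
          congr 1
          ext e; simp
        · unfold inc
          rw [← sum_subset (subset_univ (univ \ M))]
          · refine sum_congr rfl fun e he => ?_
            rw [if_neg (mem_sdiff.1 he).2]; ring
          · intro e _ he
            have : e ∈ M := by
              by_contra h'
              exact he (mem_sdiff.2 ⟨mem_univ _, h'⟩)
            rw [if_pos this]; ring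
    rw [sum_congr rfl fun M _ => h3 M, sum_comm, ← sum_neg_distrib]
    refine sum_congr rfl fun e _ => ?_
    have h4 : ∀ M, q M * (inc M e * Real.log (x e) + (1 - inc M e) * Real.log (1 - x e))
        = q M * inc M e * Real.log (x e) + (q M - q M * inc M e) * Real.log (1 - x e) :=
      fun M => by ring
    rw [sum_congr rfl fun M _ => h4 M, sum_add_distrib, ← sum_mul, ← sum_mul, sum_sub_distrib,
      hq1]
    change x e * Real.log (x e) + (1 - x e) * Real.log (1 - x e) = _
    unfold Real.negMulLog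
    ring
  rw [h2] at h1
  linarith

/-- upper bound -/
theorem log_le_G {ends : Fin k → Fin (2 * m) × Fin (2 * m)}
    (hends : ∀ e, (ends e).1 ≠ (ends e).2) {w : Fin k → ℕ} (hw : ∀ e, 1 ≤ w e)
    (hN : 0 < NPM ends w) :
    Real.log (NPM ends w) ≤ Gf w (marg inc (gibbs ends w)) + m := by
  classical
  have hN' : (0:ℝ) < NPM ends w := by exact_mod_cast hN
  have hq := gibbs_law hN
  have h1 : H (gibbs ends w) = Real.log (NPM ends w)
      - ∑ e, marg inc (gibbs ends w) e * Real.log (w e) := by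
    have h3 := sum_dot (inc (k := k)) (fun e => Real.log (w e)) (gibbs ends w)
    rw [sum_congr rfl fun e _ => mul_comm (marg inc (gibbs ends w) e) (Real.log (w e)), ← h3]
    have h4 : Real.log (NPM ends w) = ∑ M, gibbs ends w M * Real.log (NPM ends w) := by
      rw [← sum_mul, hq.2.1, one_mul]
    rw [h4, ← sum_sub_distrib]
    unfold H
    refine sum_congr rfl fun M _ => ?_
    by_cases h : gibbs ends w M = 0
    · simp [h]
    · have hM : IsPerfectMatching ends M := hq.2.2 M h
      have hg := gw_pos hw hM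
      have h5 : Real.log (gibbs ends w M) = Real.log (gw ends w M) - Real.log (NPM ends w) := by
        unfold gibbs
        rw [Real.log_div hg.ne' hN'.ne']
      unfold Real.negMulLog
      rw [h5, log_gw hw hM]
      ring
  have h2 := H_le_sum hq.1 hq.2.1
  have h3 := sum_negMulLog_one_sub_le hends hq
  rw [sum_add_distrib] at h2
  unfold Gf
  rw [sum_add_distrib]
  linarith

end Crest.Agent.R304.Ded316A
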