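import Crest.Agent.R304.Ded316A

/-!
R304 / S0467, analysis file B: the multiplicative-update scheme with integer weights
`size (w e) + (τ + 2) - size (c e + 1)`, `2 ^ τ ≥ k` rounds, gives the exponent of a `512 ^ n`
approximation.
-/

set_option autoImplicit false

namespace Crest.Agent.R304.Ded316B

open Finset Crest.Agent.R304.EntA Crest.Agent.R304.EntB Crest.Agent.R304.EntC
  Crest.Agent.R304.EntF Crest.Agent.R304.EntG Crest.Agent.R304.Ded316A Crest.Matchings

/-- the integer weight of an edge with multiplicity `x` and count `c` -/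
def wt (τ x c : ℕ) : ℕ := Nat.size x + (τ + 2) - Nat.size (c + 1)

theorem log_lt_size (n : ℕ) (hn : 1 ≤ n) : Real.log n ≤ Nat.size n * Real.log 2 := by
  have h1 : (n : ℝ) ≤ (2:ℝ) ^ Nat.size n := by exact_mod_cast (Nat.lt_size_self n).le
  have h2 := Real.log_le_log (by exact_mod_cast hn) h1
  rwa [Real.log_pow] at h2

theorem size_le_log (n : ℕ) (hn : 1 ≤ n) :
    (Nat.size n : ℝ) * Real.log 2 ≤ Real.log n + Real.log 2 := by
  obtain ⟨s, hs⟩ : ∃ s, Nat.size n = s + 1 := by
    have : 0 < Nat.size n := Nat.size_pos.2 hn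
    exact ⟨Nat.size n - 1, by omega⟩
  have h1 : 2 ^ s ≤ n := by
    rw [← Nat.lt_size, hs]; exact Nat.lt_succ_self s
  have h1' : ((2:ℝ) ^ s) ≤ n := by exact_mod_cast h1
  have h2 := Real.log_le_log (by positivity) h1'
  rw [Real.log_pow] at h2
  rw [hs]
  push_cast
  linarith

theorem size_le_of_le_pow {τ c : ℕ} (hc : c ≤ 2 ^ τ) : Nat.size (c + 1) ≤ τ + 2 := by
  rw [Nat.size_le]
  have : 2 ^ τ + 1 < 2 ^ (τ + 2) := by
    have : 1 ≤ 2 ^ τ := Nat.one_le_two_pow
    rw [pow_add]; omega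
  omega

theorem wt_cast {τ x c : ℕ} (hc : c ≤ 2 ^ τ) :
    ((wt τ x c : ℕ) : ℝ) = Nat.size x + (τ + 2) - Nat.size (c + 1) := by
  unfold wt
  have := size_le_of_le_pow hc
  rw [Nat.cast_sub (by omega)]
  push_cast
  ring

/-- `c log c - c` -/
noncomputable def gg (c : ℕ) : ℝ := c * Real.log c - c

theorem gg_zero : gg 0 = 0 := by simp [gg]

theorem gg_step (c : ℕ) : gg (c + 1) - gg c ≤ Real.log ((c + 1 : ℕ) : ℝ) := by
  unfold gg
  rcases Nat.eq_zero_or_pos c with h | h
  · subst h; simp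
  · have hc : (0:ℝ) < c := by exact_mod_cast h
    have h1 : Real.log ((c:ℝ) + 1) - Real.log c ≤ 1 / c := by
      rw [← Real.log_div (by positivity) hc.ne']
      have h2 := Real.log_le_sub_one_of_pos (show (0:ℝ) < (c + 1) / c by positivity)
      have h3 : ((c:ℝ) + 1) / c - 1 = 1 / c := by field_simp; ring
      linarith
    have h4 := mul_le_mul_of_nonneg_left h1 hc.le
    rw [mul_one_div_cancel hc.ne'] at h4
    push_cast
    nlinarith

variable {m k : ℕ}

section run

variable {ends : Fin k → Fin (2 * m) × Fin (2 * m)} {w : Fin k → ℕ} {τ : ℕ}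
  {M : ℕ → Finset (Fin k)} {c : ℕ → Fin k → ℕ}

theorem c_eq (hc0 : ∀ e, c 0 e = 0)
    (hc : ∀ t < 2 ^ τ, ∀ e, c (t + 1) e = c t e + if e ∈ M t then 1 else 0) {t : ℕ}
    (ht : t ≤ 2 ^ τ) (e : Fin k) : (c t e : ℝ) = ∑ s ∈ range t, inc (M s) e := by
  induction t with
  | zero => simp [hc0]
  | succ t ih =>
    rw [sum_range_succ, ← ih (by omega), hc t (by omega)]
    unfold inc
    push_cast
    rfl

theorem c_le (hc0 : ∀ e, c 0 e = 0)
    (hc : ∀ t < 2 ^ τ, ∀ e, c (t + 1) e = c t e + if e ∈ M t then 1 else 0) {t : ℕ}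
    (ht : t ≤ 2 ^ τ) (e : Fin k) : c t e ≤ t := by
  induction t with
  | zero => simp [hc0]
  | succ t ih =>
    rw [hc t (by omega)]
    have := ih (by omega)
    split_ifs <;> omega

theorem sum_c (hends : ∀ e, (ends e).1 ≠ (ends e).2)
    (hM : ∀ t < 2 ^ τ, IsPerfectMatching ends (M t)) (hc0 : ∀ e, c 0 e = 0)
    (hc : ∀ t < 2 ^ τ, ∀ e, c (t + 1) e = c t e + if e ∈ M t then 1 else 0) {t : ℕ}
    (ht : t ≤ 2 ^ τ) : ∑ e, (c t e : ℝ) = m * t := by
  rw [sum_congr rfl fun e _ => c_eq hc0 hc ht e, sum_comm]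
  rw [sum_congr rfl fun s hs => by
    rw [sum_inc, card_pm ends hends (hM s (by have := mem_range.1 hs; omega))]]
  simp; ring

/-- upper bound for the accumulated weight -/
theorem acc_le (hends : ∀ e, (ends e).1 ≠ (ends e).2) (hw : ∀ e, 1 ≤ w e)
    (hM : ∀ t < 2 ^ τ, IsPerfectMatching ends (M t)) (hc0 : ∀ e, c 0 e = 0)
    (hc : ∀ t < 2 ^ τ, ∀ e, c (t + 1) e = c t e + if e ∈ M t then 1 else 0) {t : ℕ}
    (ht : t ≤ 2 ^ τ) :
    Real.log 2 * ∑ s ∈ range t, ∑ e ∈ M s, (wt τ (w e) (c s e) : ℝ) ≤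
      ∑ e, (c t e * (Real.log (w e) + Real.log 2) - gg (c t e))
        + (τ + 2) * Real.log 2 * (m * t) := by
  have hl2 : 0 < Real.log 2 := Real.log_pos (by norm_num)
  induction t with
  | zero => simp [hc0, gg_zero]
  | succ t ih =>
    have ih' := ih (by omega)
    rw [sum_range_succ, mul_add]
    have hcard : ((M t).card : ℝ) = m := by rw [card_pm ends hends (hM t (by omega))]
    have h1 : Real.log 2 * ∑ e ∈ M t, (wt τ (w e) (c t e) : ℝ)
        ≤ ∑ e ∈ M t, (Real.log (w e) + Real.log 2 - (gg (c t e + 1) - gg (c t e)))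
          + (τ + 2) * Real.log 2 * m := by
      have h2 : (τ + 2) * Real.log 2 * (m:ℝ) = ∑ e ∈ M t, (τ + 2) * Real.log 2 := by
        rw [sum_const, nsmul_eq_mul, hcard]; ring
      rw [h2, mul_sum, ← sum_add_distrib]
      refine sum_le_sum fun e _ => ?_
      rw [wt_cast ((c_le hc0 hc (by omega : t ≤ 2 ^ τ) e).trans (by omega))]
      have a1 := size_le_log (w e) (hw e)
      have a2 := log_lt_size (c t e + 1) (by omega)
      have a3 := gg_step (c t e)
      nlinarith
    have h3 : ∑ e, (c (t + 1) e * (Real.log (w e) + Real.log 2) - gg (c (t + 1) e))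
        = ∑ e, (c t e * (Real.log (w e) + Real.log 2) - gg (c t e))
          + ∑ e ∈ M t, (Real.log (w e) + Real.log 2 - (gg (c t e + 1) - gg (c t e))) := by
      rw [← sum_filter_add_sum_filter_not univ (fun e => e ∈ M t)
        (fun e => (c (t + 1) e * (Real.log (w e) + Real.log 2) - gg (c (t + 1) e))),
        ← sum_filter_add_sum_filter_not univ (fun e => e ∈ M t)
        (fun e => (c t e * (Real.log (w e) + Real.log 2) - gg (c t e)))]
      have h4 : univ.filter (fun e => e ∈ M t) = M t := by ext; simp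
      rw [h4]
      have h5 : ∑ e ∈ univ.filter (fun e => e ∉ M t),
          (c (t + 1) e * (Real.log (w e) + Real.log 2) - gg (c (t + 1) e))
          = ∑ e ∈ univ.filter (fun e => e ∉ M t),
          (c t e * (Real.log (w e) + Real.log 2) - gg (c t e)) := by
        refine sum_congr rfl fun e he => ?_
        rw [hc t (by omega), if_neg (mem_filter.1 he).2, add_zero]
      have h6 : ∑ e ∈ M t, (c (t + 1) e * (Real.log (w e) + Real.log 2) - gg (c (t + 1) e))
          = ∑ e ∈ M t, (c t e * (Real.log (w e) + Real.log 2) - gg (c t e))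
          + ∑ e ∈ M t, (Real.log (w e) + Real.log 2 - (gg (c t e + 1) - gg (c t e))) := by
        rw [← sum_add_distrib]
        refine sum_congr rfl fun e he => ?_
        rw [hc t (by omega), if_pos he]
        push_cast
        ring
      rw [h5, h6]; ring
    rw [h3]
    push_cast
    nlinarith

open Classical in
/-- the empirical law -/
noncomputable def emp (M : ℕ → Finset (Fin k)) (T : ℕ) (N : Finset (Fin k)) : ℝ :=
  (∑ t ∈ range T, if M t = N then (1:ℝ) else 0) / T

theorem emp_law {T : ℕ} (hT : 0 < T) (hM : ∀ t < T, IsPerfectMatching ends (M t)) :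
    emp M T ∈ Law (PMs ends) := by
  classical
  have hT' : (0:ℝ) < T := by exact_mod_cast hT
  refine ⟨fun N => div_nonneg (sum_nonneg fun t _ => by split_ifs <;> norm_num) hT'.le, ?_,
    fun N hN => ?_⟩
  · unfold emp
    rw [← sum_div, sum_comm]
    simp [hT'.ne']
  · by_contra h
    apply hN
    unfold emp
    rw [sum_eq_zero, zero_div]
    intro t ht
    rw [if_neg]
    rintro rfl
    exact h (hM t (mem_range.1 ht))

theorem marg_emp {T : ℕ} (e : Fin k) :
    marg inc (emp M T) e = (∑ t ∈ range T, inc (M t) e) / T := by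
  classical
  unfold marg emp
  simp only [div_mul_eq_mul_div]
  rw [← sum_div]
  congr 1
  simp only [sum_mul]
  rw [sum_comm]
  refine sum_congr rfl fun t _ => ?_
  simp

theorem T_mul_G {T : ℕ} (hT : 0 < T) (x : Fin k → ℕ) :
    (T : ℝ) * Gf w (fun e => (x e : ℝ) / T)
      = ∑ e, (x e * Real.log (w e) - x e * Real.log (x e)) + (∑ e, (x e : ℝ)) * Real.log T := by
  have hT' : (T : ℝ) ≠ 0 := by positivity
  unfold Gf
  rw [mul_sum, sum_mul, ← sum_add_distrib]
  refine sum_congr rfl fun e _ => ?_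
  by_cases h : x e = 0
  · simp [h]
  · have h1 : (x e : ℝ) ≠ 0 := by exact_mod_cast h
    unfold Real.negMulLog
    rw [Real.log_div h1 hT']
    field_simp
    ring

theorem log_two_ge : (0.6 : ℝ) ≤ Real.log 2 := by
  have := Real.log_two_gt_d9
  linarith

/-- lower bound on `log N` -/
theorem lower (h65 : S0465stmt) (hm : 1 ≤ m) (hends : ∀ e, (ends e).1 ≠ (ends e).2)
    (hw : ∀ e, 1 ≤ w e) (hM : ∀ t < 2 ^ τ, IsPerfectMatching ends (M t)) (hc0 : ∀ e, c 0 e = 0)
    (hc : ∀ t < 2 ^ τ, ∀ e, c (t + 1) e = c t e + if e ∈ M t then 1 else 0) :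
    Real.log 2 * (((∑ s ∈ range (2 ^ τ), ∑ e ∈ M s, wt τ (w e) (c s e) : ℕ) : ℝ) / 2 ^ τ - 8 * m)
      ≤ Real.log (NPM ends w) := by
  set T : ℕ := 2 ^ τ with hT
  have hT0 : 0 < T := by rw [hT]; positivity
  have hT' : (0:ℝ) < T := by exact_mod_cast hT0
  have hlaw := emp_law (M := M) hT0 hM
  have hG := G_le_log h65 hm hends hw hlaw
  have hmarg : marg inc (emp M T) = fun e => (c T e : ℝ) / T := by
    funext e; rw [marg_emp, ← c_eq hc0 hc (le_refl _)]
  rw [hmarg] at hG
  have h1 := T_mul_G (w := w) hT0 (c T)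
  have h2 := acc_le hends hw hM hc0 hc (le_refl T)
  have h3 := sum_c hends hM hc0 hc (le_refl T)
  have hlogT : Real.log T = τ * Real.log 2 := by
    rw [hT]; push_cast; rw [Real.log_pow]
  rw [h3, hlogT] at h1
  have h4 : ∑ e, (c T e * (Real.log (w e) + Real.log 2) - gg (c T e))
      = ∑ e, (c T e * Real.log (w e) - c T e * Real.log (c T e))
        + (m * T) * (Real.log 2 + 1) := by
    rw [← h3, sum_mul, ← sum_add_distrib]
    refine sum_congr rfl fun e _ => ?_
    unfold gg; ring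
  rw [h4] at h2
  have hl := log_two_ge
  have hS : ((∑ s ∈ range T, ∑ e ∈ M s, wt τ (w e) (c s e) : ℕ) : ℝ)
      = ∑ s ∈ range T, ∑ e ∈ M s, (wt τ (w e) (c s e) : ℝ) := by push_cast; rfl
  rw [hS]
  have hTT : ((2:ℝ) ^ τ) = T := by rw [hT]; push_cast; rfl
  rw [hTT]
  set S := ∑ s ∈ range T, ∑ e ∈ M s, (wt τ (w e) (c s e) : ℝ) with hSdef
  have h5 : Real.log 2 * S ≤ T * (Gf w (fun e => (c T e : ℝ) / T) + m * (3 * Real.log 2 + 1)) := by
    nlinarith
  have h6 : Real.log 2 * (S / T) ≤ Gf w (fun e => (c T e : ℝ) / T) + m * (3 * Real.log 2 + 1) := by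
    rw [mul_div_assoc', div_le_iff₀ hT']
    linarith
  have hm0 : (0:ℝ) ≤ m := by positivity
  nlinarith

/-- pointwise Jensen -/
theorem point_jensen {x y s : ℝ} (hx : 0 ≤ x) (hy : 0 < y) (hs : 0 < s) :
    Real.negMulLog x + x * Real.log y ≤ y / s - x + x * Real.log s := by
  rcases eq_or_lt_of_le hx with h | h
  · rw [← h]
    simp only [Real.negMulLog_zero, zero_mul, add_zero, sub_zero]
    positivity
  · have h1 := Real.log_le_sub_one_of_pos (show 0 < y / (x * s) by positivity)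
    rw [Real.log_div hy.ne' (by positivity), Real.log_mul h.ne' hs.ne'] at h1
    have h2 := mul_le_mul_of_nonneg_left h1 h.le
    have h3 : x * (y / (x * s) - 1) = y / s - x := by field_simp
    rw [h3] at h2
    unfold Real.negMulLog
    linarith

/-- upper bound on `log N` -/
theorem upper (hm : 1 ≤ m) (hends : ∀ e, (ends e).1 ≠ (ends e).2)
    (hw : ∀ e, 1 ≤ w e) (hk : k ≤ 2 ^ τ)
    (hM : ∀ t < 2 ^ τ, IsPerfectMatching ends (M t)) (hc0 : ∀ e, c 0 e = 0)
    (hc : ∀ t < 2 ^ τ, ∀ e, c (t + 1) e = c t e + if e ∈ M t then 1 else 0)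
    (hopt : ∀ t < 2 ^ τ, ∀ M' : Finset (Fin k), IsPerfectMatching ends M' →
      ∑ e ∈ M', wt τ (w e) (c t e) ≤ ∑ e ∈ M t, wt τ (w e) (c t e) + 6 * m)
    (hN : 0 < NPM ends w) :
    Real.log (NPM ends w) ≤
      Real.log 2 * (((∑ s ∈ range (2 ^ τ), ∑ e ∈ M s, wt τ (w e) (c s e) : ℕ) : ℝ) / 2 ^ τ
        + 8 * m) := by
  set T : ℕ := 2 ^ τ with hT
  have hT0 : 0 < T := by rw [hT]; positivity
  have hT' : (0:ℝ) < T := by exact_mod_cast hT0
  have hl2 : 0 < Real.log 2 := Real.log_pos (by norm_num)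
  have hq := gibbs_law hN
  set q := gibbs ends w with hqdef
  have hA : ∀ (M : Finset (Fin k)) (e : Fin k), 0 ≤ inc M e ∧ inc M e ≤ 1 := fun M e => by
    rcases inc_zero_or_one M e with h | h <;> rw [h] <;> norm_num
  have hx01 : ∀ e, 0 ≤ marg inc q e ∧ marg inc q e ≤ 1 := marg_mem hq hA
  have hsum := sum_marg ends hends hq
  have hlogT : Real.log (2 * T) = (τ + 1) * Real.log 2 := by
    rw [Real.log_mul (by norm_num) hT'.ne', hT]; push_cast; rw [Real.log_pow]; ring
  -- one round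
  have hround : ∀ t < T, Gf w (marg inc q) ≤
      Real.log 2 * (∑ e ∈ M t, (wt τ (w e) (c t e) : ℝ) + 6 * m) := by
    intro t ht
    have h1 : ∑ e, marg inc q e * (wt τ (w e) (c t e) : ℝ)
        ≤ ∑ e ∈ M t, (wt τ (w e) (c t e) : ℝ) + 6 * m := by
      have h2 := sum_dot (inc (k := k)) (fun e => (wt τ (w e) (c t e) : ℝ)) q
      rw [sum_congr rfl fun e _ => mul_comm (marg inc q e) (wt τ (w e) (c t e) : ℝ), ← h2]
      have h3 : ∀ N ∈ (univ : Finset (Finset (Fin k))),
          q N * dot inc (fun e => (wt τ (w e) (c t e) : ℝ)) N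
          ≤ q N * (∑ e ∈ M t, (wt τ (w e) (c t e) : ℝ) + 6 * m) := by
        intro N _
        by_cases h : q N = 0
        · simp [h]
        · refine mul_le_mul_of_nonneg_left ?_ (hq.1 N)
          have h4 := hopt t ht N (hq.2.2 N h)
          have h5 : dot inc (fun e => (wt τ (w e) (c t e) : ℝ)) N
              = ∑ e ∈ N, (wt τ (w e) (c t e) : ℝ) := by
            unfold dot inc
            simp only [mul_ite, mul_one, mul_zero]
            rw [← sum_filter]
            congr 1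
            ext e; simp
          rw [h5]
          exact_mod_cast h4
      refine (sum_le_sum h3).trans ?_
      rw [← sum_mul, hq.2.1, one_mul]
    have h6 : ∀ e, marg inc q e * Real.log (w e) + Real.negMulLog (marg inc q e)
        + ((τ + 1) * Real.log 2) * marg inc q e
        ≤ Real.log 2 * (marg inc q e * (wt τ (w e) (c t e) : ℝ))
          + (((c t e : ℝ) + 1) / (2 * T) - marg inc q e
            + marg inc q e * ((τ + 1) * Real.log 2)) := by
      intro e
      have hx := (hx01 e).1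
      have hcle := c_le hc0 hc (le_of_lt ht) e
      rw [wt_cast (hcle.trans (le_of_lt ht))]
      have a1 := log_lt_size (w e) (hw e)
      have a2 := size_le_log (c t e + 1) (by omega)
      have a3 := point_jensen hx (show (0:ℝ) < (c t e : ℝ) + 1 by positivity)
        (show (0:ℝ) < 2 * T by positivity)
      rw [hlogT] at a3
      have a4 : marg inc q e * Real.log (w e) ≤ marg inc q e * (Nat.size (w e) * Real.log 2) :=
        mul_le_mul_of_nonneg_left a1 hx
      have a5 : marg inc q e * ((Nat.size (c t e + 1) : ℝ) * Real.log 2)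
          ≤ marg inc q e * (Real.log ((c t e : ℝ) + 1) + Real.log 2) := by
        refine mul_le_mul_of_nonneg_left ?_ hx
        push_cast at a2
        exact a2
      nlinarith
    have h7 := sum_le_sum fun e (_ : e ∈ univ) => h6 e
    have h8 : ∑ e, (((c t e : ℝ) + 1) / (2 * T)) ≤ m := by
      rw [← sum_div, sum_add_distrib, sum_c hends hM hc0 hc (le_of_lt ht)]
      simp only [sum_const, card_univ, Fintype.card_fin, nsmul_eq_mul, mul_one]
      rw [div_le_iff₀ (by positivity)]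
      have ht' : (t : ℝ) ≤ T := by exact_mod_cast ht.le
      have hk' : (k : ℝ) ≤ T := by exact_mod_cast hk
      have hm' : (1:ℝ) ≤ m := by exact_mod_cast hm
      nlinarith
    simp only [sum_add_distrib, sum_sub_distrib, ← mul_sum, ← sum_mul] at h7
    rw [hsum] at h7
    unfold Gf
    rw [sum_add_distrib]
    have h9 := mul_le_mul_of_nonneg_left h1 hl2.le
    linarith
  have hG := log_le_G hends hw hN
  have hsumG : T * Gf w (marg inc q) ≤
      Real.log 2 * (∑ s ∈ range T, ∑ e ∈ M s, (wt τ (w e) (c s e) : ℝ) + T * (6 * m)) := by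
    have h1 := sum_le_sum fun t (ht : t ∈ range T) => hround t (mem_range.1 ht)
    rw [sum_const, card_range, nsmul_eq_mul, ← mul_sum, sum_add_distrib, sum_const, card_range,
      nsmul_eq_mul] at h1
    exact h1
  have hS : ((∑ s ∈ range T, ∑ e ∈ M s, wt τ (w e) (c s e) : ℕ) : ℝ)
      = ∑ s ∈ range T, ∑ e ∈ M s, (wt τ (w e) (c s e) : ℝ) := by push_cast; rfl
  rw [hS]
  have hTT : ((2:ℝ) ^ τ) = T := by rw [hT]; push_cast; rfl
  rw [hTT]
  set S := ∑ s ∈ range T, ∑ e ∈ M s, (wt τ (w e) (c s e) : ℝ) with hSdef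
  have h5 : Gf w (marg inc q) ≤ Real.log 2 * (S / T + 6 * m) := by
    have h6 : Real.log 2 * (S / T + 6 * m) = (Real.log 2 * (S + T * (6 * m))) / T := by
      field_simp
    rw [h6, le_div_iff₀ hT']
    linarith
  have hl := log_two_ge
  have hm0 : (0:ℝ) ≤ m := by positivity
  nlinarith

/-- main analysis theorem -/
theorem ded_main (h65 : S0465stmt) (hm : 1 ≤ m) (hends : ∀ e, (ends e).1 ≠ (ends e).2)
    (hw : ∀ e, 1 ≤ w e) (hk : k ≤ 2 ^ τ)
    (hM : ∀ t < 2 ^ τ, IsPerfectMatching ends (M t)) (hc0 : ∀ e, c 0 e = 0)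
    (hc : ∀ t < 2 ^ τ, ∀ e, c (t + 1) e = c t e + if e ∈ M t then 1 else 0)
    (hopt : ∀ t < 2 ^ τ, ∀ M' : Finset (Fin k), IsPerfectMatching ends M' →
      ∑ e ∈ M', wt τ (w e) (c t e) ≤ ∑ e ∈ M t, wt τ (w e) (c t e) + 6 * m) {S : ℕ}
    (hS : S = ∑ s ∈ range (2 ^ τ), ∑ e ∈ M s, wt τ (w e) (c s e)) :
    NPM ends w ≤ 512 ^ (2 * m) * 2 ^ (S / 2 ^ τ - 8 * m) ∧
      2 ^ (S / 2 ^ τ - 8 * m) ≤ NPM ends w := by
  have hl2 : 0 < Real.log 2 := Real.log_pos (by norm_num)
  have hT0 : 0 < 2 ^ τ := by positivity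
  have hNpos : 0 < NPM ends w := by
    classical
    have h0 := hM 0 hT0
    have h1 : (0:ℝ) < NPM ends w := by
      rw [← sum_gw]
      exact sum_pos' (fun M _ => gw_nonneg _ _ M) ⟨M 0, mem_univ _, gw_pos hw h0⟩
    exact_mod_cast h1
  have hN' : (0:ℝ) < NPM ends w := by exact_mod_cast hNpos
  have hlow := lower h65 hm hends hw hM hc0 hc
  have hup := upper hm hends hw hk hM hc0 hc hopt hNpos
  rw [← hS] at hlow hup
  have hdiv1 : ((S / 2 ^ τ : ℕ) : ℝ) ≤ (S:ℝ) / 2 ^ τ := by
    have := @Nat.cast_div_le ℝ _ _ _ S (2 ^ τ)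
    push_cast at this ⊢
    exact this
  have hdiv2 : (S:ℝ) / 2 ^ τ ≤ ((S / 2 ^ τ : ℕ) : ℝ) + 1 := by
    rw [div_le_iff₀ (by positivity)]
    have : S < (S / 2 ^ τ + 1) * 2 ^ τ := by
      have := Nat.lt_div_mul_add (a := S) hT0
      rw [add_mul, one_mul]; exact this
    have h2 : (S:ℝ) < (((S / 2 ^ τ + 1) * 2 ^ τ : ℕ) : ℝ) := by exact_mod_cast this
    push_cast at h2
    linarith
  constructor
  · -- upper
    have h1 : Real.log (NPM ends w) ≤ Real.log (((512 ^ (2 * m) * 2 ^ (S / 2 ^ τ - 8 * m) : ℕ)) : ℝ) := by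
      push_cast
      rw [Real.log_mul (by positivity) (by positivity), Real.log_pow, Real.log_pow]
      have h512 : Real.log 512 = 9 * Real.log 2 := by
        rw [show (512:ℝ) = 2 ^ 9 by norm_num, Real.log_pow]; norm_num
      rw [h512]
      have h3 : ((S / 2 ^ τ : ℕ) : ℝ) - 8 * m ≤ ((S / 2 ^ τ - 8 * m : ℕ) : ℝ) := by
        have := @Nat.sub_le_iff_le_add (S / 2 ^ τ) (8 * m) (S / 2 ^ τ - 8 * m)
        have h4 : S / 2 ^ τ ≤ (S / 2 ^ τ - 8 * m) + 8 * m := by omega
        have h5 : ((S / 2 ^ τ : ℕ) : ℝ) ≤ (((S / 2 ^ τ - 8 * m) + 8 * m : ℕ) : ℝ) := by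
          exact_mod_cast h4
        push_cast at h5
        linarith
      have hm' : (1:ℝ) ≤ m := by exact_mod_cast hm
      push_cast at h3 ⊢
      nlinarith
    have h2 := (Real.log_le_log_iff hN' (by positivity)).1 h1
    exact_mod_cast h2
  · rcases Nat.le_total (S / 2 ^ τ) (8 * m) with h | h
    · rw [Nat.sub_eq_zero_of_le h, pow_zero]; exact hNpos
    · have h1 : Real.log ((2 ^ (S / 2 ^ τ - 8 * m) : ℕ) : ℝ) ≤ Real.log (NPM ends w) := by
        push_cast
        rw [Real.log_pow, Nat.cast_sub h]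
        push_cast
        nlinarith
      have h2 := (Real.log_le_log_iff (by positivity) hN').1 h1
      exact_mod_cast h2

end run

end Crest.Agent.R304.Ded316B
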