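import Crest.Agent.Lib.PT.Core
import Crest.Agent.Lib.PT.Iter

/-!
R304 / S0467: interface between the matching routine and the outer algorithm.

`MW` : one poly-time function `mw` which, on a unary `2 m` and a list of entries `(i, j, weight)` with
`i < j < 2 m`, distinct pairs and unary weights, returns `none` when no subset of the pairs is a
perfect matching of `{0, .., 2m - 1}`, and otherwise (some list of the pairs of) a perfect matching
of weight at least the maximum minus `6 m`.
-/

set_option autoImplicit false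

namespace Crest.Agent.R304.MWTop

open Crest.Agent.Lib.PT

/-- entries `(i, j, weight)` -/
abbrev Ent := ℕ × ℕ × Un

/-- the pairs of a list of entries -/
def prs (L : List Ent) : List (ℕ × ℕ) := L.map fun e => (e.1, e.2.1)

/-- a list of pairs covers every vertex `< n` by exactly one pair (as a set of pairs) -/
def IsPML (n : ℕ) (R : List (ℕ × ℕ)) : Prop := ∀ v < n, ∃! q : ℕ × ℕ, q ∈ R ∧ (q.1 = v ∨ q.2 = v)

/-- total weight of the entries of `L` whose pair is in `R` -/
def tot (L : List Ent) (R : List (ℕ × ℕ)) : ℕ :=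
  ((L.filter fun e => decide ((e.1, e.2.1) ∈ R)).map fun e => e.2.2.val).sum

/-- admissible inputs -/
structure Good (m : ℕ) (L : List Ent) : Prop where
  pos : 1 ≤ m
  lt : ∀ e ∈ L, e.1 < e.2.1 ∧ e.2.1 < 2 * m
  nodup : (prs L).Nodup

/-- specification of the matching routine -/
def MWSpec (mw : Un × List Ent → Option (List (ℕ × ℕ))) : Prop :=
  ∀ (m : ℕ) (L : List Ent), Good m L →
    (mw (⟨2 * m⟩, L) = none → ∀ R : List (ℕ × ℕ), (∀ q ∈ R, q ∈ prs L) → ¬ IsPML (2 * m) R) ∧
    (∀ R, mw (⟨2 * m⟩, L) = some R → (∀ q ∈ R, q ∈ prs L) ∧ IsPML (2 * m) R ∧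
      ∀ R' : List (ℕ × ℕ), (∀ q ∈ R', q ∈ prs L) → IsPML (2 * m) R' → tot L R' ≤ tot L R + 6 * m)

/-- the interface -/
def MW : Prop := ∃ mw : Un × List Ent → Option (List (ℕ × ℕ)), PTF mw ∧ MWSpec mw

end Crest.Agent.R304.MWTop
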