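import Crest.Agent.R304.Ded316B
import Crest.Agent.R304.MWTop
import Crest.Prelude.Def_MultiplicityCount

/-!
R304 / S0467, file C: the outer algorithm as a pure function, its correctness, and the bridge to
`multNumPerfectMatchings`.
-/

set_option autoImplicit false

namespace Crest.Agent.R304.Ded316C

open Finset Crest.Agent.R304.EntF Crest.Agent.R304.Ded316A Crest.Agent.R304.Ded316B
  Crest.Agent.R304.MWTop Crest.Matchings
open Crest.Agent.Lib.PT (Un)

/-! ### the algorithm -/

/-- an edge with multiplicity -/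
abbrev Edge := ℕ × ℕ × ℕ

/-- the weighted entries of a round -/
def entsOf (τ : ℕ) (E : List Edge) (cs : List ℕ) : List Ent :=
  List.zipWith (fun e c => ((e.1, e.2.1, (⟨wt τ e.2.2 c⟩ : Un)) : Ent)) E cs

/-- the new counts -/
def updOf (E : List Edge) (cs : List ℕ) (R : List (ℕ × ℕ)) : List ℕ :=
  List.zipWith (fun e c => if (e.1, e.2.1) ∈ R then c + 1 else c) E cs

/-- the state of the outer loop: counts, accumulated weight, flag -/
abbrev St := List ℕ × ℕ × Bool

/-- one round -/
def stepS (mw : Un × List Ent → Option (List (ℕ × ℕ))) (n τ : ℕ) (E : List Edge) (s : St) : St :=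
  match mw (⟨n⟩, entsOf τ E s.1) with
  | none => (s.1, s.2.1, false)
  | some R => (updOf E s.1 R, s.2.1 + tot (entsOf τ E s.1) R, s.2.2)

/-- the whole loop -/
def runS (mw : Un × List Ent → Option (List (ℕ × ℕ))) (n τ : ℕ) (E : List Edge) (t : ℕ) : St :=
  (stepS mw n τ E)^[t] (List.replicate E.length 0, 0, true)

/-- the output -/
def outS (mw : Un × List Ent → Option (List (ℕ × ℕ))) (n : ℕ) (E : List Edge) : ℕ :=
  if n = 0 then 1
  else if n % 2 = 1 ∨ 2 * E.length < n then 0
  else
    bif (runS mw (2 * (min n (2 * E.length) / 2)) (Nat.size E.length) E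
        (2 ^ Nat.size E.length)).2.2 then
      2 ^ ((runS mw (2 * (min n (2 * E.length) / 2)) (Nat.size E.length) E
        (2 ^ Nat.size E.length)).2.1 / 2 ^ Nat.size E.length - 8 * (min n (2 * E.length) / 2))
    else 0

/-! ### correctness of the loop -/

section corr

variable {m k : ℕ} (ends : Fin k → Fin (2 * m) × Fin (2 * m)) (w : Fin k → ℕ)

/-- the pair of an edge -/
def pr (e : Fin k) : ℕ × ℕ := (((ends e).1 : ℕ), ((ends e).2 : ℕ))

/-- the list of edges -/
def EL : List Edge := List.ofFn fun e => ((((ends e).1 : ℕ), ((ends e).2 : ℕ), w e) : Edge)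

/-- entries from a weight function -/
def LL (x : Fin k → ℕ) : List Ent :=
  List.ofFn fun e => ((((ends e).1 : ℕ), ((ends e).2 : ℕ), (⟨x e⟩ : Un)) : Ent)

/-- the set of edges whose pair is in `R` -/
def MR (R : List (ℕ × ℕ)) : Finset (Fin k) := univ.filter fun e => pr ends e ∈ R

variable {ends w}

theorem prs_LL (x : Fin k → ℕ) : prs (LL ends x) = List.ofFn (pr ends) := by
  unfold prs LL
  rw [List.map_ofFn]
  rfl

theorem mem_prs_LL (x : Fin k → ℕ) (q : ℕ × ℕ) : q ∈ prs (LL ends x) ↔ ∃ e, pr ends e = q := by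
  rw [prs_LL, List.mem_ofFn]

theorem good_LL (hm : 1 ≤ m) (hlt : ∀ e, (ends e).1 < (ends e).2) (hinj : Function.Injective ends)
    (x : Fin k → ℕ) : Good m (LL ends x) := by
  refine ⟨hm, ?_, ?_⟩
  · intro e he
    unfold LL at he
    rw [List.mem_ofFn] at he
    obtain ⟨e, rfl⟩ := he
    exact ⟨hlt e, (ends e).2.2⟩
  · rw [prs_LL, List.nodup_ofFn]
    intro a b hab
    apply hinj
    unfold pr at hab
    rw [Prod.mk.injEq] at hab
    exact Prod.ext (Fin.ext hab.1) (Fin.ext hab.2)

theorem pr_inj (hinj : Function.Injective ends) : Function.Injective (pr ends) := by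
  intro a b hab
  apply hinj
  unfold pr at hab
  rw [Prod.mk.injEq] at hab
  exact Prod.ext (Fin.ext hab.1) (Fin.ext hab.2)

theorem sum_filter_ofFn {α : Type} {k : ℕ} (f : Fin k → α) (p : α → Bool) (g : α → ℕ) :
    (((List.ofFn f).filter p).map g).sum = ∑ e ∈ univ.filter (fun e => p (f e) = true), g (f e) := by
  have h1 : ∀ l : List α, ((l.filter p).map g).sum = (l.map fun a => if p a then g a else 0).sum := by
    intro l
    induction l with
    | nil => simp
    | cons a l ih =>
      by_cases h : p a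
      · simp [h, ih]
      · simp [h, ih]
  rw [h1, List.map_ofFn, List.sum_ofFn, sum_filter]
  rfl

theorem tot_LL (x : Fin k → ℕ) (R : List (ℕ × ℕ)) :
    tot (LL ends x) R = ∑ e ∈ MR ends R, x e := by
  unfold tot LL
  rw [sum_filter_ofFn]
  unfold MR pr
  simp only [decide_eq_true_eq]

theorem isPM_of_isPML (hinj : Function.Injective ends) {x : Fin k → ℕ} {R : List (ℕ × ℕ)}
    (hsub : ∀ q ∈ R, q ∈ prs (LL ends x)) (hR : IsPML (2 * m) R) :
    IsPerfectMatching ends (MR ends R) := by
  intro v
  obtain ⟨q, ⟨hq1, hq2⟩, huniq⟩ := hR v v.2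
  obtain ⟨e, he⟩ := (mem_prs_LL x q).1 (hsub q hq1)
  rw [card_eq_one]
  refine ⟨e, ?_⟩
  ext f
  rw [mem_filter, mem_singleton, MR, mem_filter]
  constructor
  · rintro ⟨⟨_, hf1⟩, hf2⟩
    have h1 : pr ends f = q := huniq _ ⟨hf1, by
      unfold pr
      rcases hf2 with h | h
      · left; rw [h]
      · right; rw [h]⟩
    exact pr_inj hinj (h1.trans he.symm)
  · rintro rfl
    refine ⟨⟨mem_univ _, by rw [he]; exact hq1⟩, ?_⟩
    rw [← he] at hq2
    unfold pr at hq2
    rcases hq2 with h | h
    · left; exact Fin.ext h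
    · right; exact Fin.ext h

/-- the list of pairs of a finset of edges -/
noncomputable def RM (ends : Fin k → Fin (2 * m) × Fin (2 * m)) (M : Finset (Fin k)) :
    List (ℕ × ℕ) := M.toList.map (pr ends)

theorem MR_RM (hinj : Function.Injective ends) (M : Finset (Fin k)) :
    MR ends (RM ends M) = M := by
  ext e
  unfold MR RM
  rw [mem_filter, List.mem_map]
  constructor
  · rintro ⟨_, f, hf, hfe⟩
    rw [← pr_inj hinj hfe]
    exact mem_toList.1 hf
  · intro he
    exact ⟨mem_univ _, e, mem_toList.2 he, rfl⟩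

theorem RM_sub (x : Fin k → ℕ) (M : Finset (Fin k)) : ∀ q ∈ RM ends M, q ∈ prs (LL ends x) := by
  intro q hq
  unfold RM at hq
  rw [List.mem_map] at hq
  obtain ⟨e, _, rfl⟩ := hq
  exact (mem_prs_LL x _).2 ⟨e, rfl⟩

theorem isPML_of_isPM {M : Finset (Fin k)} (hM : IsPerfectMatching ends M) :
    IsPML (2 * m) (RM ends M) := by
  intro v hv
  have h := hM ⟨v, hv⟩
  rw [card_eq_one] at h
  obtain ⟨e, he⟩ := h
  have he1 : e ∈ M.filter fun e => (ends e).1 = (⟨v, hv⟩ : Fin (2 * m)) ∨ (ends e).2 = ⟨v, hv⟩ := by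
    rw [he]; exact mem_singleton_self e
  rw [mem_filter] at he1
  refine ⟨pr ends e, ⟨?_, ?_⟩, ?_⟩
  · unfold RM
    exact List.mem_map.2 ⟨e, mem_toList.2 he1.1, rfl⟩
  · unfold pr
    rcases he1.2 with h | h
    · left; rw [h]
    · right; rw [h]
  · rintro q ⟨hq1, hq2⟩
    unfold RM at hq1
    obtain ⟨f, hf, rfl⟩ := List.mem_map.1 hq1
    have hf1 : f ∈ M.filter fun e => (ends e).1 = (⟨v, hv⟩ : Fin (2 * m)) ∨ (ends e).2 = ⟨v, hv⟩ := by
      rw [mem_filter]
      refine ⟨mem_toList.1 hf, ?_⟩
      unfold pr at hq2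
      rcases hq2 with h | h
      · left; exact Fin.ext h
      · right; exact Fin.ext h
    rw [he, mem_singleton] at hf1
    rw [hf1]

/-- the invariant form of the state -/
theorem entsOf_ofFn (τ : ℕ) (c : Fin k → ℕ) :
    entsOf τ (EL ends w) (List.ofFn c) = LL ends (fun e => wt τ (w e) (c e)) := by
  unfold entsOf EL LL
  apply List.ext_getElem
  · simp
  · intro i h1 h2
    simp

theorem updOf_ofFn (c : Fin k → ℕ) (R : List (ℕ × ℕ)) :
    updOf (EL ends w) (List.ofFn c) R
      = List.ofFn (fun e => c e + if e ∈ MR ends R then 1 else 0) := by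
  unfold updOf EL
  apply List.ext_getElem
  · simp
  · intro i h1 h2
    have h3 : ∀ e : Fin k, (e ∈ MR ends R) ↔ (((ends e).1 : ℕ), ((ends e).2 : ℕ)) ∈ R := by
      intro e
      unfold MR pr
      simp
    simp only [List.getElem_zipWith, List.getElem_ofFn, h3]
    split_ifs <;> rfl

theorem length_EL : (EL ends w).length = k := by unfold EL; simp

/-- the matching returned in the state with counts `c` -/
def ans (mw : Un × List Ent → Option (List (ℕ × ℕ))) (ends : Fin k → Fin (2 * m) × Fin (2 * m))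
    (w : Fin k → ℕ) (τ : ℕ) (c : Fin k → ℕ) : Option (List (ℕ × ℕ)) :=
  mw (⟨2 * m⟩, LL ends (fun e => wt τ (w e) (c e)))

/-- the counts -/
def cs (mw : Un × List Ent → Option (List (ℕ × ℕ))) (ends : Fin k → Fin (2 * m) × Fin (2 * m))
    (w : Fin k → ℕ) (τ : ℕ) : ℕ → Fin k → ℕ
  | 0 => fun _ => 0
  | t + 1 => fun e => cs mw ends w τ t e +
      if e ∈ MR ends ((ans mw ends w τ (cs mw ends w τ t)).getD []) then 1 else 0

theorem run_eq (mw : Un × List Ent → Option (List (ℕ × ℕ))) (τ : ℕ)
    (hall : ∀ c : Fin k → ℕ, (ans mw ends w τ c).isSome = true) (t : ℕ) :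
    runS mw (2 * m) τ (EL ends w) t = (List.ofFn (cs mw ends w τ t),
      ∑ s ∈ range t, ∑ e ∈ MR ends ((ans mw ends w τ (cs mw ends w τ s)).getD []),
        wt τ (w e) (cs mw ends w τ s e), true) := by
  induction t with
  | zero =>
    unfold runS
    rw [Function.iterate_zero, id, length_EL]
    simp only [range_zero, sum_empty, cs]
    rw [← List.ofFn_const]
  | succ t ih =>
    unfold runS at ih ⊢
    rw [Function.iterate_succ_apply', ih]
    unfold stepS
    simp only
    rw [entsOf_ofFn]
    have h := hall (cs mw ends w τ t)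
    unfold ans at h
    obtain ⟨R, hR⟩ := Option.isSome_iff_exists.1 h
    rw [hR]
    simp only
    rw [updOf_ofFn, tot_LL, sum_range_succ]
    have h2 : (ans mw ends w τ (cs mw ends w τ t)).getD [] = R := by
      unfold ans; rw [hR]; rfl
    rw [h2]
    have h3 : cs mw ends w τ (t + 1) = fun e => cs mw ends w τ t e +
        if e ∈ MR ends R then 1 else 0 := by
      funext e
      rw [cs, h2]
    rw [h3]

theorem run_false (mw : Un × List Ent → Option (List (ℕ × ℕ))) (τ : ℕ)
    (hnone : ∀ c : Fin k → ℕ, ans mw ends w τ c = none) {t : ℕ} (ht : 0 < t) :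
    (runS mw (2 * m) τ (EL ends w) t).2.2 = false := by
  have key : ∀ t, (runS mw (2 * m) τ (EL ends w) t).1 = List.ofFn (fun _ : Fin k => 0) ∧
      (0 < t → (runS mw (2 * m) τ (EL ends w) t).2.2 = false) := by
    intro t
    induction t with
    | zero =>
      refine ⟨?_, fun h => absurd h (lt_irrefl _)⟩
      unfold runS
      rw [Function.iterate_zero, id, length_EL, List.ofFn_const]
    | succ t ih =>
      have h1 : runS mw (2 * m) τ (EL ends w) (t + 1)
          = stepS mw (2 * m) τ (EL ends w) (runS mw (2 * m) τ (EL ends w) t) := by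
        unfold runS; rw [Function.iterate_succ_apply']
      rw [h1]
      unfold stepS
      rw [ih.1, entsOf_ofFn]
      have h2 := hnone (fun _ => 0)
      unfold ans at h2
      rw [h2]
      exact ⟨rfl, fun _ => rfl⟩
  exact (key t).2 ht

theorem NPM_eq_zero {v : ℕ} {ends : Fin k → Fin v × Fin v} {w : Fin k → ℕ}
    (h : ∀ M : Finset (Fin k), ¬ IsPerfectMatching ends M) : NPM ends w = 0 := by
  classical
  unfold NPM
  rw [sum_eq_zero]
  intro M hM
  exact absurd (mem_filter.1 hM).2 (h M)

/-- correctness of the output in the case `n = 2 m`, `1 ≤ m`, `2 m ≤ 2 k` -/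
theorem out_correct (h65 : S0465stmt) {mw : Un × List Ent → Option (List (ℕ × ℕ))}
    (hmw : MWSpec mw) (hm : 1 ≤ m) (hlt : ∀ e, (ends e).1 < (ends e).2)
    (hinj : Function.Injective ends) (hw : ∀ e, 1 ≤ w e) (hk : 2 * m ≤ 2 * k) :
    NPM ends w ≤ 512 ^ (2 * m) * outS mw (2 * m) (EL ends w) ∧
      outS mw (2 * m) (EL ends w) ≤ NPM ends w := by
  set τ := Nat.size k with hτ
  have hkτ : k ≤ 2 ^ τ := (Nat.lt_size_self k).le
  have hends : ∀ e, (ends e).1 ≠ (ends e).2 := fun e => (hlt e).ne
  have hout : outS mw (2 * m) (EL ends w) =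
      bif (runS mw (2 * m) τ (EL ends w) (2 ^ τ)).2.2 then
        2 ^ ((runS mw (2 * m) τ (EL ends w) (2 ^ τ)).2.1 / 2 ^ τ - 8 * m) else 0 := by
    unfold outS
    rw [length_EL, if_neg (by omega), if_neg (by omega), min_eq_left hk,
      Nat.mul_div_cancel_left m (by norm_num : 0 < 2)]
  by_cases hex : ∃ M : Finset (Fin k), IsPerfectMatching ends M
  · obtain ⟨M₀, hM₀⟩ := hex
    have hall : ∀ c : Fin k → ℕ, (ans mw ends w τ c).isSome = true := by
      intro c
      unfold ans
      rw [Option.isSome_iff_ne_none]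
      intro hnone
      exact (hmw m _ (good_LL hm hlt hinj _)).1 hnone (RM ends M₀) (RM_sub _ M₀)
        (isPML_of_isPM hM₀)
    have hrun := run_eq (ends := ends) (w := w) mw τ hall (2 ^ τ)
    rw [hout, hrun]
    simp only [cond_true]
    have hspec : ∀ c : Fin k → ℕ,
        IsPerfectMatching ends (MR ends ((ans mw ends w τ c).getD [])) ∧
        ∀ M' : Finset (Fin k), IsPerfectMatching ends M' → ∑ e ∈ M', wt τ (w e) (c e) ≤
          ∑ e ∈ MR ends ((ans mw ends w τ c).getD []), wt τ (w e) (c e) + 6 * m := by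
      intro c
      obtain ⟨R, hR⟩ := Option.isSome_iff_exists.1 (hall c)
      rw [hR, Option.getD_some]
      unfold ans at hR
      obtain ⟨h1, h2, h3⟩ := (hmw m _ (good_LL hm hlt hinj _)).2 R hR
      refine ⟨isPM_of_isPML hinj h1 h2, fun M' hM' => ?_⟩
      have h4 := h3 (RM ends M') (RM_sub _ M') (isPML_of_isPM hM')
      rw [tot_LL, tot_LL, MR_RM hinj] at h4
      exact h4
    exact ded_main h65 hm hends hw hkτ
      (M := fun t => MR ends ((ans mw ends w τ (cs mw ends w τ t)).getD []))
      (c := cs mw ends w τ) (fun t _ => (hspec _).1) (fun e => rfl) (fun t _ e => rfl)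
      (fun t _ M' hM' => (hspec _).2 M' hM') rfl
  · push Not at hex
    have hN : NPM ends w = 0 := NPM_eq_zero hex
    have hnone : ∀ c : Fin k → ℕ, ans mw ends w τ c = none := by
      intro c
      by_contra h
      obtain ⟨R, hR⟩ := Option.ne_none_iff_exists'.1 h
      unfold ans at hR
      obtain ⟨h1, h2, _⟩ := (hmw m _ (good_LL hm hlt hinj _)).2 R hR
      exact hex _ (isPM_of_isPML hinj h1 h2)
    rw [hout, run_false mw τ hnone (by positivity), hN]
    simp

end corr

/-! ### bridge -/

section bridge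

variable {n : ℕ} (w : Fin n → Fin n → ℕ)

theorem mem_posPairs (q : Fin n × Fin n) : q ∈ posPairs n w ↔ q.1 < q.2 ∧ 0 < w q.1 q.2 := by
  unfold posPairs
  rw [List.mem_filter]
  simp only [decide_eq_true_eq]
  constructor
  · intro h; exact h.2
  · intro h
    refine ⟨?_, h⟩
    exact List.mem_product.2 ⟨List.mem_finRange _, List.mem_finRange _⟩

theorem nodup_posPairs : (posPairs n w).Nodup := by
  unfold posPairs
  exact List.Nodup.filter _ ((List.nodup_finRange n).product (List.nodup_finRange n))

/-- the positive pairs as edges -/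
def pe (e : Fin (posPairs n w).length) : Fin n × Fin n := (posPairs n w).get e

theorem pe_inj : Function.Injective (pe w) := List.nodup_iff_injective_get.1 (nodup_posPairs w)

theorem pe_prop (e : Fin (posPairs n w).length) : (pe w e).1 < (pe w e).2 ∧
    0 < w (pe w e).1 (pe w e).2 := (mem_posPairs w _).1 (List.get_mem _ _)

theorem bridge : multNumPerfectMatchings w
    = NPM (pe w) (fun e => w (pe w e).1 (pe w e).2) := by
  classical
  symm
  unfold NPM multNumPerfectMatchings
  refine Finset.sum_of_injOn (fun M => M.map ⟨pe w, pe_inj w⟩) ?_ ?_ ?_ ?_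
  · intro a _ b _ hab
    exact Finset.map_injective _ hab
  · intro M hM
    have hM' : IsPerfectMatching (pe w) M := (mem_filter.1 (mem_coe.1 hM)).2
    rw [mem_coe, mem_filter, mem_powerset]
    refine ⟨?_, ?_⟩
    · intro q hq
      obtain ⟨e, _, rfl⟩ := Finset.mem_map.1 hq
      unfold ltPairs
      exact mem_filter.2 ⟨mem_univ _, (pe_prop w e).1⟩
    · intro v
      rw [filter_map, card_map]
      exact hM' v
  · intro N hN hnot
    rw [mem_filter, mem_powerset] at hN
    by_contra hne
    apply hnot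
    have hne := prod_ne_zero_iff.1 hne
    have hmem : ∀ q ∈ N, ∃ e, pe w e = q := by
      intro q hq
      have h1 : q ∈ posPairs n w := (mem_posPairs w q).2
        ⟨(mem_filter.1 (hN.1 hq)).2, Nat.pos_of_ne_zero (hne q hq)⟩
      obtain ⟨e, he⟩ := List.get_of_mem h1
      exact ⟨e, he⟩
    have himg : (univ.filter fun e => pe w e ∈ N).map ⟨pe w, pe_inj w⟩ = N := by
      ext q
      rw [Finset.mem_map]
      constructor
      · rintro ⟨e, he, rfl⟩
        exact (mem_filter.1 he).2
      · intro hq
        obtain ⟨e, he⟩ := hmem q hq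
        exact ⟨e, mem_filter.2 ⟨mem_univ _, by rw [he]; exact hq⟩, he⟩
    refine ⟨univ.filter fun e => pe w e ∈ N, ?_, himg⟩
    rw [mem_coe, mem_filter]
    refine ⟨mem_univ _, fun v => ?_⟩
    have h2 := hN.2 v
    rw [← himg, filter_map, card_map] at h2
    exact h2
  · intro M _
    rw [prod_map]
    rfl

end bridge

/-- the edge list of the multigraph -/
def edgesOf (n : ℕ) (w : Fin n → Fin n → ℕ) : List Edge :=
  (posPairs n w).map fun q => (((q.1 : ℕ), (q.2 : ℕ), w q.1 q.2) : Edge)

theorem edgesOf_eq {m : ℕ} (w : Fin (2 * m) → Fin (2 * m) → ℕ) :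
    edgesOf (2 * m) w = EL (pe w) (fun e => w (pe w e).1 (pe w e).2) := by
  unfold edgesOf EL pe
  apply List.ext_getElem
  · simp
  · intro i h1 h2
    simp

theorem length_edgesOf (n : ℕ) (w : Fin n → Fin n → ℕ) :
    (edgesOf n w).length = (posPairs n w).length := by
  unfold edgesOf; simp

theorem card_of_pm {v k : ℕ} {ends : Fin k → Fin v × Fin v} (hends : ∀ e, (ends e).1 ≠ (ends e).2)
    {M : Finset (Fin k)} (hM : IsPerfectMatching ends M) : v = 2 * M.card := by
  rw [← double_count ends hends M, sum_congr rfl fun w _ => hM w]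
  simp

/-- correctness of the whole pure algorithm -/
theorem outS_correct (h65 : S0465stmt) {mw : Un × List Ent → Option (List (ℕ × ℕ))}
    (hmw : MWSpec mw) (n : ℕ) (w : Fin n → Fin n → ℕ) :
    multNumPerfectMatchings w ≤ 512 ^ n * outS mw n (edgesOf n w) ∧
      outS mw n (edgesOf n w) ≤ multNumPerfectMatchings w := by
  classical
  rw [bridge w]
  have hends : ∀ e, (pe w e).1 ≠ (pe w e).2 := fun e => (pe_prop w e).1.ne
  by_cases hn : n = 0
  · subst hn
    have hout : outS mw 0 (edgesOf 0 w) = 1 := by unfold outS; rw [if_pos rfl]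
    have hN : NPM (pe w) (fun e => w (pe w e).1 (pe w e).2) = 1 := by
      have hk : (posPairs 0 w).length = 0 := by
        rw [List.length_eq_zero_iff, List.eq_nil_iff_forall_not_mem]
        intro q; exact q.1.elim0
      unfold NPM
      have : IsEmpty (Fin (posPairs 0 w).length) := by rw [hk]; infer_instance
      have huniv : (univ : Finset (Finset (Fin (posPairs 0 w).length))) = {∅} := by
        ext s
        rw [mem_singleton]
        refine ⟨fun _ => ?_, fun _ => mem_univ _⟩
        exact Finset.eq_empty_of_isEmpty s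
      rw [huniv, filter_singleton, if_pos]
      · simp
      · intro v; exact v.elim0
    rw [hout, hN]
    simp
  by_cases hcase : n % 2 = 1 ∨ 2 * (posPairs n w).length < n
  · have hout : outS mw n (edgesOf n w) = 0 := by
      unfold outS
      rw [length_edgesOf, if_neg hn, if_pos hcase]
    have hN : NPM (pe w) (fun e => w (pe w e).1 (pe w e).2) = 0 := by
      apply NPM_eq_zero
      intro M hM
      have h1 := card_of_pm hends hM
      have h2 : M.card ≤ (posPairs n w).length := by
        have := card_le_univ M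
        rwa [Fintype.card_fin] at this
      omega
    rw [hout, hN]
    simp
  · push Not at hcase
    obtain ⟨m, rfl⟩ : ∃ m, n = 2 * m := ⟨n / 2, by omega⟩
    rw [edgesOf_eq]
    exact out_correct h65 hmw (by omega) (fun e => (pe_prop w e).1) (pe_inj w)
      (fun e => (pe_prop w e).2) hcase.2

end Crest.Agent.R304.Ded316C
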