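import Crest.Agent.R304.Ded316C
import Crest.Agent.R309.PTSolve
import Crest.Agent.R309.Parse

/-!
R304 / S0467, file D: the outer algorithm is polynomial time.
-/

set_option autoImplicit false

namespace Crest.Agent.R304.Ded316D

open Crest.Agent.Lib.PT Crest.Agent.R304.Ded316B Crest.Agent.R304.Ded316C Crest.Agent.R304.MWTop
open Crest.Agent.R309.PTX Crest.Matchings

variable {γ : Type} [PTCode γ]

theorem ptu_wt {τ x c : γ → ℕ} (hτ : PTU τ) (hx : PTF x) (hc : PTF c) :
    PTU (fun a => wt (τ a) (x a) (c a)) := by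
  unfold wt
  exact PTU.sub (PTU.add (PTF.natSizeUn hx) (PTU.add hτ (PTU.const 2)))
    (PTF.natSizeUn (PTF.natAdd hc (PTF.const 1)))

theorem ptf_entsOf {τ : γ → ℕ} {E : γ → List Edge} {cs : γ → List ℕ} (hτ : PTU τ) (hE : PTF E)
    (hc : PTF cs) : PTF (fun a => entsOf (τ a) (E a) (cs a)) := by
  unfold entsOf
  refine PTF.zipWith (f := fun (a : γ) (e : Edge) (c : ℕ) =>
    ((e.1, e.2.1, (⟨wt (τ a) e.2.2 c⟩ : Un)) : Ent)) hE hc ?_
  refine PTF.prodMk (by fun_prop) (PTF.prodMk (by fun_prop) ?_)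
  exact ptu_wt (hτ.comp (f := fun p : γ × Edge × ℕ => p.1) (by fun_prop)) (by fun_prop)
    (by fun_prop)

theorem ptf_updOf {E : γ → List Edge} {cs : γ → List ℕ} {R : γ → List (ℕ × ℕ)} (hE : PTF E)
    (hc : PTF cs) (hR : PTF R) : PTF (fun a => updOf (E a) (cs a) (R a)) := by
  unfold updOf
  refine PTF.zipWith (f := fun (a : γ) (e : Edge) (c : ℕ) =>
    if (e.1, e.2.1) ∈ R a then c + 1 else c) hE hc ?_
  refine PTF.ite (PTPred.mem ?_ ?_) (PTF.natAdd (by fun_prop) (PTF.const 1)) (by fun_prop)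
  · fun_prop
  · exact hR.comp (f := fun p : γ × Edge × ℕ => p.1) (by fun_prop)

theorem ptf_tot {L : γ → List Ent} {R : γ → List (ℕ × ℕ)} (hL : PTF L) (hR : PTF R) :
    PTF (fun a => tot (L a) (R a)) := by
  unfold tot
  refine PTF.natSum (PTF.map (f := fun (_ : γ) (e : Ent) => e.2.2.val) (PTF.filter
    (p := fun (a : γ) (e : Ent) => decide ((e.1, e.2.1) ∈ R a)) hL ?_) ?_)
  · refine PTPred.toPTF (PTPred.mem ?_ ?_)
    · fun_prop
    · exact hR.comp (f := fun p : γ × Ent => p.1) (by fun_prop)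
  · exact PTU.toPTF (PTU.val (by fun_prop))

theorem ptf_stepS {mw : Un × List Ent → Option (List (ℕ × ℕ))} (hmw : PTF mw) {n τ : γ → ℕ}
    {E : γ → List Edge} {s : γ → St} (hn : PTU n) (hτ : PTU τ) (hE : PTF E) (hs : PTF s) :
    PTF (fun a => stepS mw (n a) (τ a) (E a) (s a)) := by
  unfold stepS
  have hs1 : PTF (fun a => (s a).1) := PTF.comp (g := fun s : St => s.1) (by fun_prop) hs
  have hs2 : PTF (fun a => (s a).2.1) := PTF.comp (g := fun s : St => s.2.1) (by fun_prop) hs
  have hs3 : PTF (fun a => (s a).2.2) := PTF.comp (g := fun s : St => s.2.2) (by fun_prop) hs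
  have hent : PTF (fun a => entsOf (τ a) (E a) (s a).1) := ptf_entsOf hτ hE hs1
  have hmwc : PTF (fun a => mw (⟨n a⟩, entsOf (τ a) (E a) (s a).1)) :=
    hmw.comp (PTF.prodMk hn hent)
  refine PTF.of_eq (PTF.optionCasesOn (s := fun a => mw (⟨n a⟩, entsOf (τ a) (E a) (s a).1))
    (f := fun a => (((s a).1, (s a).2.1, false) : St))
    (g := fun a R => ((updOf (E a) (s a).1 R, (s a).2.1 + tot (entsOf (τ a) (E a) (s a).1) R,
      (s a).2.2) : St)) hmwc ?_ ?_) (fun a => by
        cases mw (⟨n a⟩, entsOf (τ a) (E a) (s a).1) <;> rfl)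
  · exact PTF.prodMk hs1 (PTF.prodMk hs2 (PTF.const false))
  · have hf : PTF (fun p : γ × List (ℕ × ℕ) => p.1) := by fun_prop
    refine PTF.prodMk (ptf_updOf (hE.comp hf) (hs1.comp hf) (by fun_prop))
      (PTF.prodMk (PTF.natAdd (hs2.comp hf) (ptf_tot (hent.comp hf) (by fun_prop))) (hs3.comp hf))

/-! ### bounds along the orbit -/

theorem tot_le (L : List Ent) (R : List (ℕ × ℕ)) : tot L R ≤ (L.map fun e => e.2.2.val).sum := by
  unfold tot
  induction L with
  | nil => simp
  | cons a L ih =>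
    rw [List.map_cons, List.sum_cons, List.filter_cons]
    split_ifs
    · rw [List.map_cons, List.sum_cons]; omega
    · omega

theorem sum_entsOf_le (τ B : ℕ) (E : List Edge) (hB : ∀ e ∈ E, Nat.size e.2.2 ≤ B)
    (cs : List ℕ) : ((entsOf τ E cs).map fun e => e.2.2.val).sum ≤ E.length * (B + τ + 2) := by
  unfold entsOf
  induction E generalizing cs with
  | nil => simp
  | cons a E ih =>
    cases cs with
    | nil => simp
    | cons c cs =>
      rw [List.zipWith_cons_cons, List.map_cons, List.sum_cons, List.length_cons]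
      have h1 := ih (fun e he => hB e (List.mem_cons_of_mem _ he)) cs
      have h2 : wt τ a.2.2 c ≤ B + τ + 2 := by
        unfold wt
        have := hB a (List.mem_cons_self)
        omega
      rw [add_mul, one_mul]
      simp only at h1 ⊢
      omega

theorem mem_updOf_le {E : List Edge} {cs : List ℕ} {R : List (ℕ × ℕ)} {B : ℕ}
    (h : ∀ c ∈ cs, c ≤ B) : ∀ c ∈ updOf E cs R, c ≤ B + 1 := by
  unfold updOf
  induction E generalizing cs with
  | nil => simp
  | cons a E ih =>
    cases cs with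
    | nil => simp
    | cons c cs =>
      rw [List.zipWith_cons_cons]
      intro d hd
      rcases List.mem_cons.1 hd with hd | hd
      · rw [hd]
        have := h c List.mem_cons_self
        split_ifs <;> omega
      · exact ih (fun c hc => h c (List.mem_cons_of_mem _ hc)) d hd

theorem length_updOf_le (E : List Edge) (cs : List ℕ) (R : List (ℕ × ℕ)) :
    (updOf E cs R).length ≤ E.length := by
  unfold updOf
  rw [List.length_zipWith]
  exact min_le_left _ _

/-- the invariant along the orbit -/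
theorem run_bound (mw : Un × List Ent → Option (List (ℕ × ℕ))) (n τ B : ℕ) (E : List Edge)
    (hB : ∀ e ∈ E, Nat.size e.2.2 ≤ B) (t : ℕ) :
    (runS mw n τ E t).1.length ≤ E.length ∧ (∀ c ∈ (runS mw n τ E t).1, c ≤ t) ∧
      (runS mw n τ E t).2.1 ≤ t * (E.length * (B + τ + 2)) := by
  induction t with
  | zero =>
    unfold runS
    rw [Function.iterate_zero, id]
    refine ⟨by simp, ?_, by simp⟩
    intro c hc
    rw [List.mem_replicate] at hc
    omega
  | succ t ih =>
    have h1 : runS mw n τ E (t + 1) = stepS mw n τ E (runS mw n τ E t) := by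
      unfold runS; rw [Function.iterate_succ_apply']
    rw [h1]
    unfold stepS
    obtain ⟨i1, i2, i3⟩ := ih
    cases mw (⟨n⟩, entsOf τ E (runS mw n τ E t).1) with
    | none =>
      refine ⟨i1, fun c hc => (i2 c hc).trans (by omega), ?_⟩
      simp only
      rw [add_mul]
      omega
    | some R =>
      refine ⟨length_updOf_le _ _ _, mem_updOf_le i2, ?_⟩
      simp only
      have h2 := tot_le (entsOf τ E (runS mw n τ E t).1) R
      have h3 := sum_entsOf_le τ B E hB (runS mw n τ E t).1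
      rw [add_mul, one_mul]
      omega

theorem sz_st_le {s : St} {k T W : ℕ} (h1 : s.1.length ≤ k) (h2 : ∀ c ∈ s.1, c ≤ T)
    (h3 : s.2.1 ≤ W) : sz s ≤ 2 * (k * (2 * T + 1)) + 1 + (2 * W + 1 + 1) := by
  rw [sz_prod, sz_prod, sz_bool]
  have h4 : sz s.1 ≤ k * (2 * T + 1) := by
    refine (sz_list_le (m := T) fun c hc => (sz_nat_le c).trans (h2 c hc)).trans ?_
    exact Nat.mul_le_mul_right _ h1
  have h5 : sz s.2.1 ≤ W := (sz_nat_le _).trans h3
  omega

theorem size_le_sz_edge {E : List Edge} {e : Edge} (he : e ∈ E) : Nat.size e.2.2 ≤ sz E := by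
  refine le_trans ?_ (sz_mem_le he)
  rw [sz_prod, sz_prod, sz_nat e.2.2]
  omega

theorem two_pow_size_le (k : ℕ) : 2 ^ Nat.size k ≤ 2 * k + 1 := by
  rcases Nat.eq_zero_or_pos k with h | h
  · subst h; simp
  · have h1 : 0 < Nat.size k := Nat.size_pos.2 h
    obtain ⟨s, hs⟩ : ∃ s, Nat.size k = s + 1 := ⟨Nat.size k - 1, by omega⟩
    have h2 : 2 ^ s ≤ k := by
      rw [← Nat.lt_size, hs]; exact Nat.lt_succ_self s
    rw [hs, pow_succ]
    omega

/-! ### the whole algorithm -/

theorem ptf_outS {mw : Un × List Ent → Option (List (ℕ × ℕ))} (hmw : PTF mw) :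
    PTF (fun c : ℕ × List Edge => outS mw c.1 c.2) := by
  have hn : PTF (fun c : ℕ × List Edge => c.1) := by fun_prop
  have hE : PTF (fun c : ℕ × List Edge => c.2) := by fun_prop
  have hk : PTU (fun c : ℕ × List Edge => c.2.length) := PTU.length hE
  have hτ : PTU (fun c : ℕ × List Edge => Nat.size c.2.length) := PTF.natSizeUn (PTU.toPTF hk)
  have h2k : PTU (fun c : ℕ × List Edge => 2 * c.2.length) := PTU.mul (PTU.const 2) hk
  have hT : PTU (fun c : ℕ × List Edge => 2 ^ Nat.size c.2.length) := by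
    refine PTF.toPTU (PTF.natTwoPow hτ) ?_
    exact PB.mono (PB.add h2k.pb (PB.const 1)) fun c => two_pow_size_le _
  have hmin : PTU (fun c : ℕ × List Edge => min c.1 (2 * c.2.length)) := PTF.natMinUn hn h2k
  have hm : PTU (fun c : ℕ × List Edge => min c.1 (2 * c.2.length) / 2) := by
    refine PTF.toPTU (PTF.natDiv (PTU.toPTF hmin) (PTF.const 2)) ?_
    exact PB.mono hmin.pb fun c => Nat.div_le_self _ _
  have h2m : PTU (fun c : ℕ × List Edge => 2 * (min c.1 (2 * c.2.length) / 2)) :=
    PTU.mul (PTU.const 2) hm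
  -- the bound
  set W : ℕ × List Edge → ℕ := fun c =>
    2 ^ Nat.size c.2.length * (c.2.length * (sz c.2 + Nat.size c.2.length + 2)) with hW
  have hWpb : PB W := by
    have h1 : PB (fun c : ℕ × List Edge => sz c.2) := hE.sz
    exact PB.mul hT.pb (PB.mul hk.pb (PB.add (PB.add h1 hτ.pb) (PB.const 2)))
  have hrun : PTF (fun c : ℕ × List Edge =>
      runS mw (2 * (min c.1 (2 * c.2.length) / 2)) (Nat.size c.2.length) c.2
        (2 ^ Nat.size c.2.length)) := by
    unfold runS
    refine PTF.iterate' (f := fun (c : ℕ × List Edge) (s : St) =>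
      stepS mw (2 * (min c.1 (2 * c.2.length) / 2)) (Nat.size c.2.length) c.2 s)
      (a := fun c => ((List.replicate c.2.length 0, 0, true) : St)) hT ?_ ?_
      (B := fun c => 2 * (c.2.length * (2 * 2 ^ Nat.size c.2.length + 1)) + 1
        + (2 * W c + 1 + 1)) ?_ ?_
    · have hf : PTF (fun p : (ℕ × List Edge) × St => p.1) := by fun_prop
      exact ptf_stepS hmw (h2m.comp hf) (hτ.comp hf) (hE.comp hf) (by fun_prop)
    · exact PTF.prodMk (PTF.replicate hk (PTF.const 0)) (PTF.const (0, true))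
    · exact PB.add (PB.add (PB.mul (PB.const 2) (PB.mul hk.pb (PB.add (PB.mul (PB.const 2) hT.pb)
        (PB.const 1)))) (PB.const 1))
        (PB.add (PB.add (PB.mul (PB.const 2) hWpb) (PB.const 1)) (PB.const 1))
    · intro c i hi
      have h := run_bound mw (2 * (min c.1 (2 * c.2.length) / 2)) (Nat.size c.2.length) (sz c.2)
        c.2 (fun e he => size_le_sz_edge he) i
      refine sz_st_le h.1 (fun d hd => (h.2.1 d hd).trans hi) (h.2.2.trans ?_)
      exact Nat.mul_le_mul_right _ hi
  have hS : PTF (fun c : ℕ × List Edge =>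
      (runS mw (2 * (min c.1 (2 * c.2.length) / 2)) (Nat.size c.2.length) c.2
        (2 ^ Nat.size c.2.length)).2.1) := PTF.comp (g := fun s : St => s.2.1) (by fun_prop) hrun
  have hB : PTF (fun c : ℕ × List Edge =>
      (runS mw (2 * (min c.1 (2 * c.2.length) / 2)) (Nat.size c.2.length) c.2
        (2 ^ Nat.size c.2.length)).2.2) := PTF.comp (g := fun s : St => s.2.2) (by fun_prop) hrun
  have hSdiv : PTU (fun c : ℕ × List Edge =>
      (runS mw (2 * (min c.1 (2 * c.2.length) / 2)) (Nat.size c.2.length) c.2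
        (2 ^ Nat.size c.2.length)).2.1 / 2 ^ Nat.size c.2.length) := by
    refine PTF.toPTU (PTF.natDiv hS (PTU.toPTF hT)) ?_
    refine PB.mono hWpb fun c => ?_
    have h := run_bound mw (2 * (min c.1 (2 * c.2.length) / 2)) (Nat.size c.2.length) (sz c.2)
      c.2 (fun e he => size_le_sz_edge he) (2 ^ Nat.size c.2.length)
    exact (Nat.div_le_self _ _).trans h.2.2
  have hexp := PTU.sub hSdiv (PTU.mul (PTU.const 8) hm)
  unfold outS
  refine PTF.ite (PTPred.natEq hn (PTF.const 0)) (PTF.const 1) ?_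
  refine PTF.ite (PTPred.or (PTPred.natEq (PTF.natMod hn (PTF.const 2)) (PTF.const 1))
    (PTPred.natLt (PTU.toPTF h2k) hn)) (PTF.const 0) ?_
  exact PTF.cond hB (PTF.natTwoPow hexp) (PTF.const 0)

end Crest.Agent.R304.Ded316D
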