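import Crest.Agent.R304.Ded316D

/-!
R304 / S0467, file E: parser of `pairMultCode` and the reduction of S0467 to the interface `MW`.
-/

set_option autoImplicit false

namespace Crest.Agent.R304.Ded316E

open Crest.Agent.Lib.PT Crest.Agent.R304.Ded316A Crest.Agent.R304.Ded316B
  Crest.Agent.R304.Ded316C Crest.Agent.R304.Ded316D Crest.Agent.R304.MWTop
open Crest.Agent.R309.PTX Crest.Agent.R309.Parse Crest.Agent.R309.Feas Crest.Agent.R287
open Crest.Matchings Crest.Enc

/-- triples of a list of numbers -/
def triples (l : List ℕ) : List Edge :=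
  (List.range (l.length / 3)).map fun i =>
    ((l.getD (i * 3 + 0) 0, l.getD (i * 3 + 1) 0, l.getD (i * 3 + 2) 0) : Edge)

/-- parse a multigraph -/
def parseW (l : List Bool) : ℕ × List Edge :=
  ((readNat l).1,
    triples (readK (3 * (readNat (readNat l).2).1) (readNat (readNat l).2).2).1)

/-- the numbers of the edges -/
def nums (E : List Edge) : List ℕ := (E.map fun e => [e.1, e.2.1, e.2.2]).flatten

theorem length_nums (E : List Edge) : (nums E).length = 3 * E.length := by
  unfold nums
  induction E with
  | nil => rfl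
  | cons a E ih =>
    rw [List.map_cons, List.flatten_cons, List.length_append, ih, List.length_cons]
    simp only [List.length_cons, List.length_nil]
    ring

theorem triples_nums (E : List Edge) : triples (nums E) = E := by
  unfold triples
  rw [length_nums, Nat.mul_div_cancel_left _ (by norm_num : 0 < 3)]
  apply List.ext_getElem
  · simp
  · intro i h1 h2
    rw [List.getElem_map, List.getElem_range]
    have hL : ∀ l ∈ (E.map fun e : Edge => [e.1, e.2.1, e.2.2]), l.length = 3 := by
      intro l hl
      obtain ⟨e, _, rfl⟩ := List.mem_map.1 hl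
      rfl
    have hg : (E.map fun e : Edge => [e.1, e.2.1, e.2.2]).getD i []
        = [(E[i]).1, (E[i]).2.1, (E[i]).2.2] := by
      rw [List.getD_eq_getElem _ _ (by simpa using h2), List.getElem_map]
    unfold nums
    rw [getD_flatten_const _ hL i 0 (by norm_num), getD_flatten_const _ hL i 1 (by norm_num),
      getD_flatten_const _ hL i 2 (by norm_num), hg]
    rfl

theorem code_eq (n : ℕ) (w : Fin n → Fin n → ℕ) :
    pairMultCode n w = natCode n ++ (natCode (edgesOf n w).length ++
      ((nums (edgesOf n w)).map natCode).flatten) := by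
  unfold pairMultCode
  rw [length_edgesOf, List.append_assoc]
  congr 2
  unfold edgesOf nums
  rw [List.map_map, List.map_flatten, List.flatten_flatten, List.map_map, List.map_map]
  congr 1
  apply List.map_congr_left
  intro q _
  simp

theorem parseW_code (n : ℕ) (w : Fin n → Fin n → ℕ) :
    parseW (pairMultCode n w) = (n, edgesOf n w) := by
  unfold parseW
  rw [code_eq]
  simp only [readNat_natCode]
  have h := readK_code (nums (edgesOf n w)) []
  rw [List.append_nil, length_nums] at h
  rw [h, triples_nums]

variable {γ : Type} [PTCode γ]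

theorem ptf_triples {l : γ → List ℕ} (hl : PTF l) : PTF (fun a => triples (l a)) := by
  unfold triples
  have hlen : PTU (fun a => (l a).length / 3) := by
    refine PTF.toPTU (PTF.natDiv (PTU.toPTF (PTU.length hl)) (PTF.const 3)) ?_
    exact PB.mono (PTU.length hl).pb fun c => Nat.div_le_self _ _
  refine PTF.map (f := fun (a : γ) (i : ℕ) =>
    (((l a).getD (i * 3 + 0) 0, (l a).getD (i * 3 + 1) 0, (l a).getD (i * 3 + 2) 0) : Edge))
    (PTF.range hlen) ?_
  have hf : PTF (fun p : γ × ℕ => p.1) := by fun_prop
  have hi : PTF (fun p : γ × ℕ => p.2) := by fun_prop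
  have hg : ∀ j : ℕ, PTF (fun p : γ × ℕ => (l p.1).getD (p.2 * 3 + j) 0) := fun j =>
    ptf_getD' (PTF.natAdd (PTF.natMul hi (PTF.const 3)) (PTF.const j)) (hl.comp hf) (PTF.const 0)
  exact PTF.prodMk (hg 0) (PTF.prodMk (hg 1) (hg 2))

theorem ptf_parseW {l : γ → List Bool} (hl : PTF l) : PTF (fun a => parseW (l a)) := by
  unfold parseW
  have h1 := ptf_readNat hl
  have h11 := PTF.comp (g := fun p : ℕ × List Bool => p.1) (by fun_prop) h1
  have h12 := PTF.comp (g := fun p : ℕ × List Bool => p.2) (by fun_prop) h1
  have h2 := ptf_readNat h12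
  have h21 := PTF.comp (g := fun p : ℕ × List Bool => p.1) (by fun_prop) h2
  have h22 := PTF.comp (g := fun p : ℕ × List Bool => p.2) (by fun_prop) h2
  have h3 := ptf_readK (PTF.natMul (PTF.const 3) h21) h22
  have h31 := PTF.comp (g := fun p : List ℕ × List Bool => p.1) (by fun_prop) h3
  exact PTF.prodMk h11 (ptf_triples h31)

/-- S0467 from S0465 and the interface `MW` -/
theorem s0467_of (h65 : S0465stmt) (hMW : MW) :
    ∃ f : List Bool → List Bool, Crest.Complexity.PolyTime f ∧
      ∀ (n : ℕ) (w : Fin n → Fin n → ℕ), (∀ i j, w i j = w j i) → (∀ i, w i i = 0) →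
        ∃ A : ℕ, f (pairMultCode n w) = natCode A ∧
          multNumPerfectMatchings w ≤ 512 ^ n * A ∧ A ≤ multNumPerfectMatchings w := by
  obtain ⟨mw, hptf, hspec⟩ := hMW
  refine ⟨fun l => natCode (outS mw (parseW l).1 (parseW l).2), ?_, ?_⟩
  · have h1 : PTF (fun l : List Bool => natCode (outS mw (parseW l).1 (parseW l).2)) :=
      ptf_natCode ((ptf_outS hptf).comp (ptf_parseW PTF.id))
    exact (PTF.toPT_list h1).polyTime
  · intro n w _ _
    refine ⟨outS mw n (edgesOf n w), ?_, outS_correct h65 hspec n w⟩
    simp only [parseW_code]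

end Crest.Agent.R304.Ded316E
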