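import Mathlib

/-!
R304 / S0465: abstract entropy part, file A (laws, marginals, maximum-entropy laws, full support,
existence of a minimiser of `h - φ`).
-/

set_option autoImplicit false

namespace Crest.Agent.R304.EntA

open Finset Filter Topology

variable {Ω E : Type*} [Fintype Ω] [Fintype E]

/-- Probability laws on `Ω` supported on `P`. -/
def Law (P : Set Ω) : Set (Ω → ℝ) :=
  {q | (∀ ω, 0 ≤ q ω) ∧ ∑ ω, q ω = 1 ∧ ∀ ω, q ω ≠ 0 → ω ∈ P}

/-- marginals -/
def marg (A : Ω → E → ℝ) (q : Ω → ℝ) (e : E) : ℝ := ∑ ω, q ω * A ω e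

/-- entropy -/
noncomputable def H (q : Ω → ℝ) : ℝ := ∑ ω, Real.negMulLog (q ω)

theorem continuous_H : Continuous (H : (Ω → ℝ) → ℝ) := by
  unfold H
  exact continuous_finsetSum _ fun ω _ => Real.continuous_negMulLog.comp (continuous_apply ω)

omit [Fintype E] in
theorem continuous_marg (A : Ω → E → ℝ) : Continuous (marg A) := by
  unfold marg
  refine continuous_pi fun e => ?_
  exact continuous_finsetSum _ fun ω _ => (continuous_apply ω).mul continuous_const

theorem law_isCompact (P : Set Ω) : IsCompact (Law P) := by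
  classical
  have h1 : Law P = stdSimplex ℝ Ω ∩ ⋂ ω : Ω, ⋂ (_ : ω ∉ P), {q : Ω → ℝ | q ω = 0} := by
    ext q
    simp only [Law, Set.mem_ofPred_eq, stdSimplex, Set.mem_inter_iff, Set.mem_iInter]
    constructor
    · rintro ⟨a, b, c⟩
      exact ⟨⟨a, b⟩, fun ω hω => by by_contra h; exact hω (c ω h)⟩
    · rintro ⟨⟨a, b⟩, c⟩
      exact ⟨a, b, fun ω hω => by by_contra h; exact hω (c ω h)⟩
  rw [h1]
  refine (isCompact_stdSimplex ℝ Ω).inter_right ?_
  exact isClosed_iInter fun ω => isClosed_iInter fun _ =>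
    isClosed_eq (continuous_apply ω) continuous_const

theorem law_convex {P : Set Ω} {p q : Ω → ℝ} (hp : p ∈ Law P) (hq : q ∈ Law P)
    {t : ℝ} (h0 : 0 ≤ t) (h1 : t ≤ 1) : (fun ω => (1 - t) * p ω + t * q ω) ∈ Law P := by
  obtain ⟨p0, p1, p2⟩ := hp
  obtain ⟨q0, q1, q2⟩ := hq
  refine ⟨fun ω => ?_, ?_, fun ω hω => ?_⟩
  · have := p0 ω; have := q0 ω
    have : 0 ≤ 1 - t := by linarith
    positivity
  · rw [sum_add_distrib, ← mul_sum, ← mul_sum, p1, q1]; ring
  · by_contra h
    have a : p ω = 0 := by by_contra h'; exact h (p2 ω h')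
    have b : q ω = 0 := by by_contra h'; exact h (q2 ω h')
    simp [a, b] at hω

/-- `q` is a maximum-entropy law with the marginals of `p`. -/
def IsMaxEnt (P : Set Ω) (A : Ω → E → ℝ) (p q : Ω → ℝ) : Prop :=
  q ∈ Law P ∧ marg A q = marg A p ∧ ∀ b ∈ Law P, marg A b = marg A p → H b ≤ H q

theorem exists_maxEnt (P : Set Ω) (A : Ω → E → ℝ) {p : Ω → ℝ} (hp : p ∈ Law P) :
    ∃ q, IsMaxEnt P A p q := by
  have hc : IsCompact (Law P ∩ {q | marg A q = marg A p}) :=
    (law_isCompact P).inter_right (isClosed_eq (continuous_marg A) continuous_const)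
  obtain ⟨q, hq, hmax⟩ := hc.exists_isMaxOn ⟨p, hp, rfl⟩ continuous_H.continuousOn
  exact ⟨q, hq.1, hq.2, fun b hb hb' => hmax ⟨hb, hb'⟩⟩

/-- full support -/
theorem IsMaxEnt.support {P : Set Ω} {A : Ω → E → ℝ} {p q b : Ω → ℝ} (hq : IsMaxEnt P A p q)
    (hb : b ∈ Law P) (hbm : marg A b = marg A p) {ω₀ : Ω} (h0 : 0 < b ω₀) : 0 < q ω₀ := by
  classical
  obtain ⟨hqL, hqm, hmax⟩ := hq
  by_contra hcon
  have hq0 : q ω₀ = 0 := le_antisymm (not_lt.1 hcon) (hqL.1 ω₀)
  -- for t in (0,1)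
  have key : ∀ t : ℝ, 0 < t → t < 1 → b ω₀ * (-Real.log t) ≤ H q - H b := by
    intro t ht0 ht1
    have hm : (fun ω => (1 - t) * q ω + t * b ω) ∈ Law P := law_convex hqL hb ht0.le ht1.le
    have hmm : marg A (fun ω => (1 - t) * q ω + t * b ω) = marg A p := by
      funext e
      have e1 : marg A q e = marg A p e := congrFun hqm e
      have e2 : marg A b e = marg A p e := congrFun hbm e
      unfold marg at *
      have : ∑ ω, ((1 - t) * q ω + t * b ω) * A ω e
          = (1 - t) * ∑ ω, q ω * A ω e + t * ∑ ω, b ω * A ω e := by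
        rw [mul_sum, mul_sum, ← sum_add_distrib]
        exact sum_congr rfl fun ω _ => by ring
      rw [this, e1, e2]; ring
    have h1 := hmax _ hm hmm
    -- lower bound
    have h2 : (1 - t) * H q + t * H b + b ω₀ * Real.negMulLog t
        ≤ H (fun ω => (1 - t) * q ω + t * b ω) := by
      unfold H
      rw [mul_sum, mul_sum, ← sum_add_distrib]
      rw [← add_sum_erase _ _ (mem_univ ω₀)]
      rw [← add_sum_erase univ (fun ω => Real.negMulLog ((1 - t) * q ω + t * b ω)) (mem_univ ω₀)]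
      have a1 : (1 - t) * Real.negMulLog (q ω₀) + t * Real.negMulLog (b ω₀)
          + b ω₀ * Real.negMulLog t = Real.negMulLog ((1 - t) * q ω₀ + t * b ω₀) := by
        rw [hq0, mul_zero, zero_add, Real.negMulLog_mul]
        simp only [Real.negMulLog_zero, mul_zero, zero_add]
        ring
      have a2 : ∑ ω ∈ univ.erase ω₀, ((1 - t) * Real.negMulLog (q ω) + t * Real.negMulLog (b ω))
          ≤ ∑ ω ∈ univ.erase ω₀, Real.negMulLog ((1 - t) * q ω + t * b ω) := by
        refine sum_le_sum fun ω _ => ?_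
        have := Real.concaveOn_negMulLog.2 (Set.mem_Ici.2 (hqL.1 ω)) (Set.mem_Ici.2 (hb.1 ω))
          (by linarith : (0:ℝ) ≤ 1 - t) ht0.le (by ring)
        simpa [smul_eq_mul] using this
      linarith
    have h3 : Real.negMulLog t = t * (-Real.log t) := by unfold Real.negMulLog; ring
    rw [h3] at h2
    have h4 : t * (b ω₀ * (-Real.log t)) ≤ t * (H q - H b) := by nlinarith
    exact le_of_mul_le_mul_left h4 ht0
  set D := H q - H b with hD
  have hD' : 0 ≤ |D| := abs_nonneg _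
  have ht := key (Real.exp (-((|D| + 1) / b ω₀))) (Real.exp_pos _) (by
    rw [Real.exp_lt_one_iff]
    have : 0 < (|D| + 1) / b ω₀ := by positivity
    linarith)
  rw [Real.log_exp, neg_neg, mul_div_cancel₀ _ h0.ne'] at ht
  have := le_abs_self D
  linarith

/-- Minimiser of `h - φ`. -/
theorem exists_min (P : Set Ω) (A : Ω → E → ℝ) (φ : (E → ℝ) → ℝ) (hφ : Continuous φ)
    {p₀ q₀ : Ω → ℝ} (hp₀ : p₀ ∈ Law P) (hq₀ : IsMaxEnt P A p₀ q₀) :
    ∃ q, IsMaxEnt P A q q ∧ H q - φ (marg A q) ≤ H q₀ - φ (marg A p₀) ∧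
      ∀ b ∈ Law P, ∀ b', IsMaxEnt P A b b' → H q - φ (marg A q) ≤ H b' - φ (marg A b) := by
  classical
  choose! m hm using fun (p : Ω → ℝ) (hp : p ∈ Law P) => exists_maxEnt P A hp
  set ψ : (Ω → ℝ) → ℝ := fun p => H (m p) - φ (marg A p) with hψ
  have hH0 : ∀ q ∈ Law P, 0 ≤ H q := by
    intro q hq
    unfold H
    refine sum_nonneg fun ω _ => Real.negMulLog_nonneg (hq.1 ω) ?_
    rw [← hq.2.1]
    exact single_le_sum (fun i _ => hq.1 i) (mem_univ ω)
  have hbdd : BddBelow (ψ '' Law P) := by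
    obtain ⟨C, hC⟩ := (law_isCompact P).exists_bound_of_continuousOn
      ((hφ.comp (continuous_marg A)).continuousOn)
    refine ⟨-C, ?_⟩
    rintro _ ⟨p, hp, rfl⟩
    have h1 := hC p hp
    have h2 := hH0 _ (hm p hp).1
    simp only [hψ]
    rw [Real.norm_eq_abs] at h1
    have := (abs_le.1 h1).2
    simp only [Function.comp] at this
    linarith
  have hne : (ψ '' Law P).Nonempty := ⟨_, p₀, hp₀, rfl⟩
  obtain ⟨u, -, hu, hmem⟩ := exists_seq_tendsto_sInf hne hbdd
  choose p hpL hpu using hmem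
  obtain ⟨p', hp', σ, hσ, hlim⟩ := (law_isCompact P).tendsto_subseq hpL
  have hq := hm p' hp'
  set q := m p' with hqdef
  -- q_n
  have hqn : ∀ᶠ n in atTop, (fun ω => q ω + (p (σ n) ω - p' ω)) ∈ Law P := by
    have hpt : ∀ ω, ∀ᶠ n in atTop, 0 ≤ q ω + (p (σ n) ω - p' ω) := by
      intro ω
      by_cases h : 0 < q ω
      · have h1 : Tendsto (fun n => q ω + (p (σ n) ω - p' ω)) atTop (𝓝 (q ω + (p' ω - p' ω))) :=
          tendsto_const_nhds.add (((tendsto_pi_nhds.1 hlim) ω).sub tendsto_const_nhds)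
        rw [sub_self, add_zero] at h1
        exact (h1.eventually (lt_mem_nhds h)).mono fun n hn => hn.le
      · have h1 : q ω = 0 := le_antisymm (not_lt.1 h) (hq.1.1 ω)
        have h2 : p' ω = 0 := by
          by_contra h3
          exact h (hq.support hp' rfl (lt_of_le_of_ne (hp'.1 ω) (Ne.symm h3)))
        refine Eventually.of_forall fun n => ?_
        rw [h1, h2]
        have := (hpL (σ n)).1 ω
        linarith
    have hall := eventually_all.2 hpt
    refine hall.mono fun n hn => ⟨hn, ?_, ?_⟩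
    · rw [sum_add_distrib, sum_sub_distrib, hq.1.2.1, (hpL (σ n)).2.1, hp'.2.1]; ring
    · intro ω hω
      by_contra h
      have a : q ω = 0 := by by_contra h'; exact h (hq.1.2.2 ω h')
      have b : p (σ n) ω = 0 := by by_contra h'; exact h ((hpL (σ n)).2.2 ω h')
      have c : p' ω = 0 := by by_contra h'; exact h (hp'.2.2 ω h')
      simp [a, b, c] at hω
  have hle : ∀ᶠ n in atTop, H (fun ω => q ω + (p (σ n) ω - p' ω)) - φ (marg A (p (σ n)))
      ≤ u (σ n) := by
    refine hqn.mono fun n hn => ?_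
    have hmn : marg A (fun ω => q ω + (p (σ n) ω - p' ω)) = marg A (p (σ n)) := by
      funext e
      have e1 : marg A q e = marg A p' e := congrFun hq.2.1 e
      unfold marg at *
      have : ∑ ω, (q ω + (p (σ n) ω - p' ω)) * A ω e
          = ∑ ω, q ω * A ω e + (∑ ω, p (σ n) ω * A ω e - ∑ ω, p' ω * A ω e) := by
        rw [← sum_sub_distrib, ← sum_add_distrib]
        exact sum_congr rfl fun ω _ => by ring
      rw [this, e1]; ring
    have h1 := (hm _ (hpL (σ n))).2.2 _ hn hmn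
    have h2 : u (σ n) = H (m (p (σ n))) - φ (marg A (p (σ n))) := by rw [← hpu (σ n)]
    rw [h2]
    linarith
  have hlimψ : Tendsto (fun n => H (fun ω => q ω + (p (σ n) ω - p' ω)) - φ (marg A (p (σ n))))
      atTop (𝓝 (H q - φ (marg A p'))) := by
    have h1 : Tendsto (fun n => (fun ω => q ω + (p (σ n) ω - p' ω))) atTop (𝓝 q) := by
      rw [tendsto_pi_nhds]
      intro ω
      have h1 : Tendsto (fun n => q ω + (p (σ n) ω - p' ω)) atTop (𝓝 (q ω + (p' ω - p' ω))) :=
        tendsto_const_nhds.add (((tendsto_pi_nhds.1 hlim) ω).sub tendsto_const_nhds)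
      rwa [sub_self, add_zero] at h1
    have h2 := (continuous_H.tendsto q).comp h1
    have h3 := ((hφ.comp (continuous_marg A)).tendsto p').comp hlim
    exact h2.sub h3
  have hulim : Tendsto (fun n => u (σ n)) atTop (𝓝 (sInf (ψ '' Law P))) :=
    hu.comp hσ.tendsto_atTop
  have hmin : H q - φ (marg A p') ≤ sInf (ψ '' Law P) :=
    le_of_tendsto_of_tendsto hlimψ hulim hle
  have hgen : ∀ b ∈ Law P, ∀ b', IsMaxEnt P A b b' →
      H q - φ (marg A p') ≤ H b' - φ (marg A b) := by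
    intro b hb b' hb'
    have h1 : sInf (ψ '' Law P) ≤ ψ b := csInf_le hbdd ⟨b, hb, rfl⟩
    have h2 : H (m b) ≤ H b' := hb'.2.2 _ (hm b hb).1 (hm b hb).2.1
    simp only [hψ] at h1
    linarith
  have hqm : marg A q = marg A p' := hq.2.1
  refine ⟨q, ⟨hq.1, rfl, fun b hb hbm => hq.2.2 b hb (hbm.trans hqm)⟩, ?_, ?_⟩
  · rw [hqm]; exact hgen p₀ hp₀ q₀ hq₀
  · rw [hqm]; exact hgen

end Crest.Agent.R304.EntA
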