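import Crest.Agent.R304.EntA

/-!
R304 / S0465: abstract entropy part, file B (Gibbs form of a maximum-entropy law, weak duality,
first and second order conditions at a minimiser of `h - φ`).
-/

set_option autoImplicit false

namespace Crest.Agent.R304.EntB

open Finset Filter Topology Crest.Agent.R304.EntA

variable {Ω E : Type*} [Fintype Ω] [Fintype E]

/-- `a = η · A ω` -/
def dot (A : Ω → E → ℝ) (η : E → ℝ) (ω : Ω) : ℝ := ∑ e, η e * A ω e

theorem sum_dot (A : Ω → E → ℝ) (η : E → ℝ) (q : Ω → ℝ) :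
    ∑ ω, q ω * dot A η ω = ∑ e, η e * marg A q e := by
  unfold dot marg
  simp only [mul_sum]
  rw [sum_comm]
  exact sum_congr rfl fun e _ => sum_congr rfl fun ω _ => by ring

/-- second derivative test, necessary condition -/
theorem second_order {T T' : ℝ → ℝ} {s : ℝ} (hmin : IsLocalMin T 0)
    (hT : ∀ᶠ t in 𝓝 (0:ℝ), HasDerivAt T (T' t) t) (hT' : HasDerivAt T' s 0) : 0 ≤ s := by
  by_contra hs
  push Not at hs
  have h1 : deriv T =ᶠ[𝓝 0] T' := hT.mono fun t ht => ht.deriv
  have h2 : deriv (deriv T) 0 = s := by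
    rw [h1.deriv_eq]; exact hT'.deriv
  have h3 : deriv T 0 = 0 := hmin.deriv_eq_zero
  have h4 : IsLocalMax T 0 :=
    isLocalMax_of_deriv_deriv_neg (by rw [h2]; exact hs) h3 (hT.self_of_nhds).continuousAt
  have h5 : T =ᶠ[𝓝 0] fun _ => T 0 := by
    filter_upwards [hmin, h4] with t ht1 ht2
    exact le_antisymm ht2 ht1
  have h6 : deriv T =ᶠ[𝓝 0] fun _ => (0:ℝ) := by
    have := h5.deriv
    simpa using this
  have h7 : deriv (deriv T) 0 = 0 := by
    rw [h6.deriv_eq]; simp
  linarith

/-- perturbation stays nonneg for small `t` -/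
theorem eventually_nonneg {q a : Ω → ℝ} (hq : ∀ ω, 0 ≤ q ω) :
    ∀ᶠ t in 𝓝 (0:ℝ), ∀ ω, 0 ≤ q ω + t * (q ω * a ω) := by
  rw [eventually_all]
  intro ω
  have h1 : Tendsto (fun t : ℝ => 1 + t * a ω) (𝓝 0) (𝓝 (1 + 0 * a ω)) :=
    tendsto_const_nhds.add (tendsto_id.mul tendsto_const_nhds)
  rw [zero_mul, add_zero] at h1
  refine (h1.eventually (lt_mem_nhds one_pos)).mono fun t ht => ?_
  have : q ω + t * (q ω * a ω) = q ω * (1 + t * a ω) := by ring
  rw [this]
  exact mul_nonneg (hq ω) ht.le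

/-- first order condition -/
theorem first_order {P : Set Ω} {A : Ω → E → ℝ} {q : Ω → ℝ} (hq : IsMaxEnt P A q q)
    {w : E → ℝ} (hw : ∀ ω ∈ P, dot A w ω = 1) {a : Ω → ℝ}
    (ha : ∀ e, ∑ ω, (q ω * a ω) * A ω e = 0) : ∑ ω, (q ω * a ω) * Real.log (q ω) = 0 := by
  classical
  have hsum : ∑ ω, q ω * a ω = 0 := by
    have h1 : ∑ ω, q ω * a ω = ∑ ω, (q ω * a ω) * dot A w ω := by
      refine sum_congr rfl fun ω _ => ?_
      by_cases h : q ω = 0
      · simp [h]
      · rw [hw ω (hq.1.2.2 ω h), mul_one]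
    rw [h1, sum_dot]
    exact sum_eq_zero fun e _ => by rw [show marg A (fun ω => q ω * a ω) e = 0 from ha e, mul_zero]
  have hmax : IsLocalMax (fun t : ℝ => H (fun ω => q ω + t * (q ω * a ω))) 0 := by
    filter_upwards [eventually_nonneg (a := a) hq.1.1] with t ht
    have hm : (fun ω => q ω + t * (q ω * a ω)) ∈ Law P := by
      refine ⟨ht, ?_, fun ω hω => hq.1.2.2 ω fun h => hω (by simp [h])⟩
      rw [sum_add_distrib, ← mul_sum, hsum, hq.1.2.1]; ring
    have hmm : marg A (fun ω => q ω + t * (q ω * a ω)) = marg A q := by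
      funext e
      have := ha e
      unfold marg
      simp only [add_mul, sum_add_distrib, mul_assoc] at this ⊢
      rw [← mul_sum, this]; ring
    have := hq.2.2 _ hm hmm
    simpa using this
  have hder : HasDerivAt (fun t : ℝ => H (fun ω => q ω + t * (q ω * a ω)))
      (∑ ω, (q ω * a ω) * (-Real.log (q ω) - 1)) 0 := by
    unfold H
    apply HasDerivAt.fun_sum
    intro ω _
    by_cases h : q ω = 0
    · simp only [h, zero_mul, mul_zero, add_zero]
      exact hasDerivAt_const _ _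
    · have h1 : HasDerivAt (fun t : ℝ => q ω + t * (q ω * a ω)) (q ω * a ω) 0 := by
        simpa using ((hasDerivAt_id (0:ℝ)).mul_const (q ω * a ω)).const_add (q ω)
      have h2 : HasDerivAt Real.negMulLog (-Real.log (q ω) - 1)
          (q ω + 0 * (q ω * a ω)) := by
        rw [zero_mul, add_zero]; exact Real.hasDerivAt_negMulLog h
      have := h2.comp (0:ℝ) h1
      rw [mul_comm (-Real.log (q ω) - 1)] at this
      exact this
  have h0 := hmax.hasDerivAt_eq_zero hder
  have h1 : ∑ ω, (q ω * a ω) * (-Real.log (q ω) - 1)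
      = -(∑ ω, (q ω * a ω) * Real.log (q ω)) - ∑ ω, q ω * a ω := by
    rw [← sum_neg_distrib, ← sum_sub_distrib]
    exact sum_congr rfl fun ω _ => by ring
  rw [h1, hsum] at h0
  linarith

/-- Gibbs form -/
theorem gibbs_form {P : Set Ω} {A : Ω → E → ℝ} {q : Ω → ℝ} (hq : IsMaxEnt P A q q)
    {w : E → ℝ} (hw : ∀ ω ∈ P, dot A w ω = 1) :
    ∃ θ : E → ℝ, ∀ ω, q ω ≠ 0 → Real.log (q ω) = dot A θ ω := by
  classical
  let f : (Ω → ℝ) →ₗ[ℝ] (E → ℝ) :=
    { toFun := fun a e => ∑ ω, (q ω * a ω) * A ω e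
      map_add' := fun a b => by
        funext e
        simp only [Pi.add_apply, ← sum_add_distrib]
        exact sum_congr rfl fun ω _ => by ring
      map_smul' := fun c a => by
        funext e
        simp only [Pi.smul_apply, smul_eq_mul, RingHom.id_apply, mul_sum]
        exact sum_congr rfl fun ω _ => by ring }
  let l : (Ω → ℝ) →ₗ[ℝ] ℝ :=
    { toFun := fun a => ∑ ω, (q ω * a ω) * Real.log (q ω)
      map_add' := fun a b => by
        simp only [Pi.add_apply, ← sum_add_distrib]
        exact sum_congr rfl fun ω _ => by ring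
      map_smul' := fun c a => by
        simp only [Pi.smul_apply, smul_eq_mul, RingHom.id_apply, mul_sum]
        exact sum_congr rfl fun ω _ => by ring }
  have hl : l ∈ (LinearMap.ker f).dualAnnihilator := by
    rw [Submodule.mem_dualAnnihilator]
    intro a ha
    have ha' : ∀ e, ∑ ω, (q ω * a ω) * A ω e = 0 := fun e => congrFun (LinearMap.mem_ker.1 ha) e
    exact first_order hq hw ha'
  rw [← LinearMap.range_dualMap_eq_dualAnnihilator_ker] at hl
  obtain ⟨θ', hθ'⟩ := hl
  refine ⟨fun e => θ' (Pi.single e 1), fun ω hω => ?_⟩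
  have h1 : l (Pi.single ω 1) = θ' (f (Pi.single ω 1)) := by
    rw [← hθ']; rfl
  have h2 : l (Pi.single ω 1) = q ω * Real.log (q ω) := by
    change ∑ ω', (q ω' * (Pi.single ω (1:ℝ) : Ω → ℝ) ω') * Real.log (q ω') = _
    rw [Finset.sum_eq_single ω]
    · simp
    · intro b _ hb; simp [Pi.single_eq_of_ne hb]
    · simp
  have h3 : f (Pi.single ω 1) = fun e => q ω * A ω e := by
    funext e
    change ∑ ω', (q ω' * (Pi.single ω (1:ℝ) : Ω → ℝ) ω') * A ω' e = _
    rw [Finset.sum_eq_single ω]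
    · simp
    · intro b _ hb; simp [Pi.single_eq_of_ne hb]
    · simp
  have h4 : θ' (fun e => q ω * A ω e) = q ω * dot A (fun e => θ' (Pi.single e 1)) ω := by
    rw [LinearMap.pi_apply_eq_sum_univ θ' (fun e => q ω * A ω e)]
    unfold dot
    rw [mul_sum]
    refine sum_congr rfl fun e _ => ?_
    have : (fun j => if e = j then (1:ℝ) else 0) = Pi.single e 1 := by
      funext j
      by_cases h : e = j
      · subst h; simp
      · simp [h]
    simp only [smul_eq_mul, this]
    ring
  rw [h2, h3, h4] at h1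
  exact mul_left_cancel₀ hω h1

/-- weak duality -/
theorem dual_bound {A : Ω → E → ℝ} {q b : Ω → ℝ} (hq : ∀ ω, 0 ≤ q ω) {θ η : E → ℝ}
    (hθ : ∀ ω, q ω ≠ 0 → Real.log (q ω) = dot A θ ω)
    (hb : ∀ ω, 0 ≤ b ω) (hb1 : ∑ ω, b ω = 1) (hbS : ∀ ω, b ω ≠ 0 → q ω ≠ 0) (t : ℝ) :
    H b ≤ Real.log (∑ ω, q ω * Real.exp (t * dot A η ω)) - ∑ e, θ e * marg A b e
      - t * ∑ e, η e * marg A b e := by
  classical
  set Z := ∑ ω, q ω * Real.exp (t * dot A η ω) with hZ
  have hZpos : 0 < Z := by
    have : ∃ ω, b ω ≠ 0 := by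
      by_contra h
      push Not at h
      simp [h] at hb1
    obtain ⟨ω, hω⟩ := this
    have h1 : 0 < q ω := lt_of_le_of_ne (hq ω) (Ne.symm (hbS ω hω))
    rw [hZ]
    exact sum_pos' (fun ω _ => mul_nonneg (hq ω) (Real.exp_pos _).le)
      ⟨ω, mem_univ _, mul_pos h1 (Real.exp_pos _)⟩
  rw [← sum_dot, ← sum_dot]
  have key : ∀ ω, Real.negMulLog (b ω) + b ω * dot A θ ω + t * (b ω * dot A η ω)
      - b ω * Real.log Z ≤ q ω * Real.exp (t * dot A η ω) / Z - b ω := by
    intro ω
    by_cases h : b ω = 0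
    · simp only [h, Real.negMulLog_zero, zero_mul, mul_zero, add_zero, sub_zero]
      have := hq ω
      positivity
    · have hb0 : 0 < b ω := lt_of_le_of_ne (hb ω) (Ne.symm h)
      have hq0 : 0 < q ω := lt_of_le_of_ne (hq ω) (Ne.symm (hbS ω h))
      rw [← hθ ω hq0.ne']
      set y := q ω * Real.exp (t * dot A η ω) / (Z * b ω) with hy
      have hy0 : 0 < y := by positivity
      have h1 := Real.log_le_sub_one_of_pos hy0
      have h2 : Real.log y = Real.log (q ω) + t * dot A η ω - (Real.log Z + Real.log (b ω)) := by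
        rw [hy, Real.log_div (by positivity) (by positivity), Real.log_mul hq0.ne'
          (Real.exp_pos _).ne', Real.log_exp, Real.log_mul hZpos.ne' hb0.ne']
      rw [h2] at h1
      have h3 : b ω * y = q ω * Real.exp (t * dot A η ω) / Z := by
        rw [hy]; field_simp
      have h4 := mul_le_mul_of_nonneg_left h1 hb0.le
      have h5 : b ω * (y - 1) = q ω * Real.exp (t * dot A η ω) / Z - b ω := by
        rw [mul_sub, h3, mul_one]
      rw [h5] at h4
      have h6 : Real.negMulLog (b ω) = - (b ω * Real.log (b ω)) := by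
        unfold Real.negMulLog; ring
      rw [h6]
      linarith
  have hs := sum_le_sum fun ω (_ : ω ∈ univ) => key ω
  rw [sum_sub_distrib, sum_add_distrib, sum_add_distrib, sum_sub_distrib, ← sum_div, ← hZ,
    div_self hZpos.ne', hb1, ← mul_sum, ← sum_mul, hb1] at hs
  unfold H
  linarith

end Crest.Agent.R304.EntB
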