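import Crest.Agent.R304.EntB

/-!
R304 / S0465: abstract entropy part, file C (second order condition at a minimiser of `h - φ_c`).
-/

set_option autoImplicit false

namespace Crest.Agent.R304.EntC

open Finset Filter Topology Crest.Agent.R304.EntA Crest.Agent.R304.EntB

variable {Ω E : Type*} [Fintype Ω] [Fintype E]

/-- `φ_c(x) = F(x) - c B(x)` -/
noncomputable def phi (c : ℝ) (x : E → ℝ) : ℝ :=
  ∑ e, Real.negMulLog (x e) - c * ∑ e, Real.negMulLog (1 - x e)

theorem continuous_phi (c : ℝ) : Continuous (phi c : (E → ℝ) → ℝ) := by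
  unfold phi
  refine Continuous.sub ?_ (continuous_const.mul ?_)
  · exact continuous_finsetSum _ fun e _ => Real.continuous_negMulLog.comp (continuous_apply e)
  · exact continuous_finsetSum _ fun e _ =>
      Real.continuous_negMulLog.comp (continuous_const.sub (continuous_apply e))

/-- the direction `d = Cov η` -/
def cdir (A : Ω → E → ℝ) (q : Ω → ℝ) (η : E → ℝ) (e : E) : ℝ :=
  ∑ ω, q ω * (dot A η ω - ∑ f, η f * marg A q f) * A ω e

theorem marg_mem {P : Set Ω} {A : Ω → E → ℝ} {q : Ω → ℝ} (hq : q ∈ Law P)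
    (hA : ∀ ω e, 0 ≤ A ω e ∧ A ω e ≤ 1) (e : E) : 0 ≤ marg A q e ∧ marg A q e ≤ 1 := by
  constructor
  · exact sum_nonneg fun ω _ => mul_nonneg (hq.1 ω) (hA ω e).1
  · calc marg A q e ≤ ∑ ω, q ω := sum_le_sum fun ω _ =>
        mul_le_of_le_one_right (hq.1 ω) (hA ω e).2
      _ = 1 := hq.2.1

/-- If the marginal is `0` then `A ω e = 0` on the support. -/
theorem marg_eq_zero {P : Set Ω} {A : Ω → E → ℝ} {q : Ω → ℝ} (hq : q ∈ Law P)
    (hA : ∀ ω e, 0 ≤ A ω e ∧ A ω e ≤ 1) {e : E} (h : marg A q e = 0) (ω : Ω) (hω : q ω ≠ 0) :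
    A ω e = 0 := by
  have h1 : ∀ ω ∈ (univ : Finset Ω), 0 ≤ q ω * A ω e :=
    fun ω _ => mul_nonneg (hq.1 ω) (hA ω e).1
  have h2 := (sum_eq_zero_iff_of_nonneg h1).1 h ω (mem_univ ω)
  exact (mul_eq_zero.1 h2).resolve_left hω

theorem marg_eq_one {P : Set Ω} {A : Ω → E → ℝ} {q : Ω → ℝ} (hq : q ∈ Law P)
    (hA : ∀ ω e, 0 ≤ A ω e ∧ A ω e ≤ 1) {e : E} (h : marg A q e = 1) (ω : Ω) (hω : q ω ≠ 0) :
    A ω e = 1 := by
  have h1 : ∀ ω ∈ (univ : Finset Ω), 0 ≤ q ω * (1 - A ω e) :=
    fun ω _ => mul_nonneg (hq.1 ω) (by linarith [(hA ω e).2])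
  have h3 : ∑ ω, q ω * (1 - A ω e) = 0 := by
    have : ∑ ω, q ω * (1 - A ω e) = ∑ ω, q ω - marg A q e := by
      unfold marg; rw [← sum_sub_distrib]; exact sum_congr rfl fun ω _ => by ring
    rw [this, h, hq.2.1]; ring
  have h2 := (sum_eq_zero_iff_of_nonneg h1).1 h3 ω (mem_univ ω)
  have := (mul_eq_zero.1 h2).resolve_left hω
  linarith

theorem sum_center {P : Set Ω} {A : Ω → E → ℝ} {q : Ω → ℝ} (hq : q ∈ Law P) (η : E → ℝ) :
    ∑ ω, q ω * (dot A η ω - ∑ f, η f * marg A q f) = 0 := by
  have : ∑ ω, q ω * (dot A η ω - ∑ f, η f * marg A q f)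
      = ∑ ω, q ω * dot A η ω - (∑ ω, q ω) * ∑ f, η f * marg A q f := by
    rw [sum_mul, ← sum_sub_distrib]; exact sum_congr rfl fun ω _ => by ring
  rw [this, sum_dot, hq.2.1]; ring

theorem cdir_eq_zero {P : Set Ω} {A : Ω → E → ℝ} {q : Ω → ℝ} (hq : q ∈ Law P)
    (hA : ∀ ω e, 0 ≤ A ω e ∧ A ω e ≤ 1) {e : E} (h : marg A q e = 0 ∨ marg A q e = 1)
    (η : E → ℝ) : cdir A q η e = 0 := by
  unfold cdir
  rcases h with h | h
  · refine sum_eq_zero fun ω _ => ?_
    by_cases hω : q ω = 0
    · simp [hω]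
    · rw [marg_eq_zero hq hA h ω hω, mul_zero]
  · have : ∀ ω ∈ (univ : Finset Ω), q ω * (dot A η ω - ∑ f, η f * marg A q f) * A ω e
        = q ω * (dot A η ω - ∑ f, η f * marg A q f) := by
      intro ω _
      by_cases hω : q ω = 0
      · simp [hω]
      · rw [marg_eq_one hq hA h ω hω, mul_one]
    rw [sum_congr rfl this, sum_center hq]

/-- variance identity -/
theorem var_eq {P : Set Ω} {A : Ω → E → ℝ} {q : Ω → ℝ} (hq : q ∈ Law P) (η : E → ℝ) :
    ∑ ω, q ω * (dot A η ω) ^ 2 - (∑ f, η f * marg A q f) ^ 2 = ∑ e, η e * cdir A q η e := by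
  set μ := ∑ f, η f * marg A q f with hμ
  have h1 : ∑ e, η e * cdir A q η e = ∑ ω, (q ω * (dot A η ω - μ)) * dot A η ω := by
    rw [sum_dot]; rfl
  rw [h1]
  have h2 : ∑ ω, q ω * dot A η ω = μ := sum_dot A η q
  have h3 : ∑ ω, (q ω * (dot A η ω - μ)) * dot A η ω
      = ∑ ω, q ω * (dot A η ω) ^ 2 - μ * ∑ ω, q ω * dot A η ω := by
    rw [mul_sum, ← sum_sub_distrib]; exact sum_congr rfl fun ω _ => by ring
  rw [h3, h2]; ring

/-- The law in the second-order variation is supported on `supp q`. -/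
theorem support_of_pert {P : Set Ω} {A : Ω → E → ℝ} {q b c : Ω → ℝ} (hq : IsMaxEnt P A q q)
    (hb : b ∈ Law P) (hc : c ∈ Law P)
    (hm : ∀ e, marg A b e + marg A c e = 2 * marg A q e) {ω : Ω} (hω : b ω ≠ 0) : q ω ≠ 0 := by
  have h1 : (fun ω => (1 - (1/2:ℝ)) * b ω + (1/2:ℝ) * c ω) ∈ Law P :=
    law_convex hb hc (by norm_num) (by norm_num)
  have h2 : marg A (fun ω => (1 - (1/2:ℝ)) * b ω + (1/2:ℝ) * c ω) = marg A q := by
    funext e
    have := hm e
    have h3 : marg A (fun ω => (1 - (1/2:ℝ)) * b ω + (1/2:ℝ) * c ω) e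
        = (1/2) * (marg A b e + marg A c e) := by
      unfold marg; rw [← sum_add_distrib, mul_sum]; exact sum_congr rfl fun ω _ => by ring
    rw [h3, this]; ring
  have h4 : 0 < (fun ω => (1 - (1/2:ℝ)) * b ω + (1/2:ℝ) * c ω) ω := by
    have h5 : 0 < b ω := lt_of_le_of_ne (hb.1 ω) (Ne.symm hω)
    have h6 := hc.1 ω
    simp only
    nlinarith
  exact (hq.support h1 h2 h4).ne'

theorem second_order_cond {P : Set Ω} {A : Ω → E → ℝ} {q : Ω → ℝ} (hq : IsMaxEnt P A q q)
    (hA : ∀ ω e, 0 ≤ A ω e ∧ A ω e ≤ 1)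
    {w : E → ℝ} (hw : ∀ ω ∈ P, dot A w ω = 1) (c : ℝ)
    (hmin : ∀ b ∈ Law P, ∀ b', IsMaxEnt P A b b' →
      H q - phi c (marg A q) ≤ H b' - phi c (marg A b)) (η : E → ℝ) :
    ∑ e, η e * cdir A q η e ≤
      ∑ e, (cdir A q η e) ^ 2 * (1 / marg A q e - c / (1 - marg A q e)) := by
  classical
  obtain ⟨θ, hθ⟩ := gibbs_form hq hw
  set x := marg A q with hx
  set d := cdir A q η with hd
  set μ := ∑ f, η f * x f with hμ
  set G : ℝ → ℝ := fun t => ∑ ω, q ω * Real.exp (t * dot A η ω) with hG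
  set G1 : ℝ → ℝ := fun t => ∑ ω, q ω * (dot A η ω * Real.exp (t * dot A η ω)) with hG1
  have hx01 : ∀ e, 0 ≤ x e ∧ x e ≤ 1 := marg_mem hq.1 hA
  have hd0 : ∀ e, x e = 0 ∨ x e = 1 → d e = 0 := fun e he => cdir_eq_zero hq.1 hA he η
  have hGd : ∀ t, HasDerivAt G (G1 t) t := by
    intro t
    apply HasDerivAt.fun_sum
    intro ω _
    have h1 : HasDerivAt (fun t : ℝ => t * dot A η ω) (dot A η ω) t := by
      simpa using (hasDerivAt_id t).mul_const (dot A η ω)
    have h2 := (h1.exp).const_mul (q ω)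
    rw [mul_comm (Real.exp (t * dot A η ω))] at h2
    exact h2
  have hG1d : HasDerivAt G1 (∑ ω, q ω * (dot A η ω) ^ 2) 0 := by
    apply HasDerivAt.fun_sum
    intro ω _
    have h1 : HasDerivAt (fun t : ℝ => t * dot A η ω) (dot A η ω) 0 := by
      simpa using (hasDerivAt_id (0:ℝ)).mul_const (dot A η ω)
    have h2 := ((h1.exp).const_mul (dot A η ω)).const_mul (q ω)
    simp only [zero_mul, Real.exp_zero, one_mul] at h2
    rw [← pow_two] at h2
    exact h2
  have hG0 : G 0 = 1 := by simp [hG, hq.1.2.1]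
  have hG10 : G1 0 = μ := by
    simp only [hG1, zero_mul, Real.exp_zero, mul_one]
    exact sum_dot A η q
  have hGpos : ∀ t, 0 < G t := by
    intro t
    have : ∃ ω, q ω ≠ 0 := by
      by_contra h
      push Not at h
      have := hq.1.2.1
      simp [h] at this
    obtain ⟨ω, hω⟩ := this
    exact sum_pos' (fun ω _ => mul_nonneg (hq.1.1 ω) (Real.exp_pos _).le)
      ⟨ω, mem_univ _, mul_pos (lt_of_le_of_ne (hq.1.1 ω) (Ne.symm hω)) (Real.exp_pos _)⟩
  -- the comparison function
  set T : ℝ → ℝ := fun t => Real.log (G t) - ∑ e, θ e * (x e + t * d e)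
      - t * ∑ e, η e * (x e + t * d e) - phi c (fun e => x e + t * d e) with hT
  set L1 := ∑ e, θ e * d e with hL1
  set L2 := ∑ e, η e * d e with hL2
  set p1 : ℝ → ℝ := fun t => ∑ e, d e * ((-Real.log (x e + t * d e) - 1)
      + c * (-Real.log (1 - x e - t * d e) - 1)) with hp1
  set T' : ℝ → ℝ := fun t => G1 t / G t - L1 - (μ + 2 * t * L2) - p1 t with hT'
  -- neighbourhood where the marginals stay in (0,1)
  have hnear : ∀ᶠ t in 𝓝 (0:ℝ), ∀ e, d e ≠ 0 → x e + t * d e ≠ 0 ∧ 1 - x e - t * d e ≠ 0 := by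
    rw [eventually_all]
    intro e
    by_cases he : d e = 0
    · exact Eventually.of_forall fun t h => absurd he h
    · have h1 : x e ≠ 0 := fun h => he (hd0 e (Or.inl h))
      have h2 : 1 - x e ≠ 0 := fun h => he (hd0 e (Or.inr (by linarith)))
      have c1 : Tendsto (fun t : ℝ => x e + t * d e) (𝓝 0) (𝓝 (x e + 0 * d e)) :=
        tendsto_const_nhds.add (tendsto_id.mul tendsto_const_nhds)
      have c2 : Tendsto (fun t : ℝ => 1 - x e - t * d e) (𝓝 0) (𝓝 (1 - x e - 0 * d e)) :=
        tendsto_const_nhds.sub (tendsto_id.mul tendsto_const_nhds)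
      rw [zero_mul, add_zero] at c1
      rw [zero_mul, sub_zero] at c2
      filter_upwards [c1.eventually_ne h1, c2.eventually_ne h2] with t a b _
      exact ⟨a, b⟩
  have hTd : ∀ᶠ t in 𝓝 (0:ℝ), HasDerivAt T (T' t) t := by
    filter_upwards [hnear] with t ht
    have e1 : HasDerivAt (fun t => Real.log (G t)) (G1 t / G t) t :=
      (hGd t).log (hGpos t).ne'
    have e2 : HasDerivAt (fun t => ∑ e, θ e * (x e + t * d e)) L1 t := by
      apply HasDerivAt.fun_sum
      intro e _
      simpa using (((hasDerivAt_id t).mul_const (d e)).const_add (x e)).const_mul (θ e)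
    have e3 : HasDerivAt (fun t => t * ∑ e, η e * (x e + t * d e)) (μ + 2 * t * L2) t := by
      have e4 : HasDerivAt (fun t => ∑ e, η e * (x e + t * d e)) L2 t := by
        apply HasDerivAt.fun_sum
        intro e _
        simpa using (((hasDerivAt_id t).mul_const (d e)).const_add (x e)).const_mul (η e)
      have e5 := (hasDerivAt_id t).mul e4
      have e6 : (1:ℝ) * (∑ e, η e * (x e + t * d e)) + id t * L2 = μ + 2 * t * L2 := by
        have : ∑ e, η e * (x e + t * d e) = μ + t * L2 := by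
          rw [hμ, hL2, mul_sum, ← sum_add_distrib]
          exact sum_congr rfl fun e _ => by ring
        rw [this]; simp only [id]; ring
      rw [e6] at e5
      exact e5
    have e7 : HasDerivAt (fun t => phi c (fun e => x e + t * d e)) (p1 t) t := by
      unfold phi
      have f1 : HasDerivAt (fun t => ∑ e, Real.negMulLog (x e + t * d e))
          (∑ e, d e * (-Real.log (x e + t * d e) - 1)) t := by
        apply HasDerivAt.fun_sum
        intro e _
        by_cases he : d e = 0
        · simp only [he, mul_zero, add_zero, zero_mul]; exact hasDerivAt_const _ _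
        · have g1 : HasDerivAt (fun t : ℝ => x e + t * d e) (d e) t := by
            simpa using ((hasDerivAt_id t).mul_const (d e)).const_add (x e)
          have g2 := (Real.hasDerivAt_negMulLog (ht e he).1).comp t g1
          rw [mul_comm (-Real.log (x e + t * d e) - 1)] at g2
          exact g2
      have f2 : HasDerivAt (fun t => ∑ e, Real.negMulLog (1 - (x e + t * d e)))
          (∑ e, -(d e * (-Real.log (1 - x e - t * d e) - 1))) t := by
        apply HasDerivAt.fun_sum
        intro e _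
        by_cases he : d e = 0
        · simp only [he, mul_zero, add_zero, zero_mul, neg_zero]; exact hasDerivAt_const _ _
        · have g1 : HasDerivAt (fun t : ℝ => 1 - (x e + t * d e)) (-(d e)) t := by
            simpa using (((hasDerivAt_id t).mul_const (d e)).const_add (x e)).const_sub 1
          have h2 : 1 - (x e + t * d e) ≠ 0 := by
            have := (ht e he).2
            intro h; apply this; linarith
          have g2 := (Real.hasDerivAt_negMulLog h2).comp t g1
          have g3 : (-Real.log (1 - (x e + t * d e)) - 1) * -(d e)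
              = -(d e * (-Real.log (1 - x e - t * d e) - 1)) := by
            rw [show 1 - (x e + t * d e) = 1 - x e - t * d e by ring]; ring
          rw [g3] at g2
          exact g2
      have f3 := f1.sub (f2.const_mul c)
      have f4 : ∑ e, d e * (-Real.log (x e + t * d e) - 1)
          - c * ∑ e, -(d e * (-Real.log (1 - x e - t * d e) - 1)) = p1 t := by
        rw [hp1, mul_sum, ← sum_sub_distrib]
        exact sum_congr rfl fun e _ => by ring
      rw [f4] at f3
      exact f3
    exact ((e1.sub e2).sub e3).sub e7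
  -- derivative of T' at 0
  have hT'd : HasDerivAt T' (-L2 + ∑ e, (d e) ^ 2 * (1 / x e - c / (1 - x e))) 0 := by
    have e1 : HasDerivAt (fun t => G1 t / G t) L2 0 := by
      have h1 := hG1d.div (hGd 0) (hGpos 0).ne'
      have h2 : ((∑ ω, q ω * dot A η ω ^ 2) * G 0 - G1 0 * G1 0) / G 0 ^ 2 = L2 := by
        rw [hG0, hG10]
        have := var_eq hq.1 η (A := A)
        rw [hL2, hd, ← this, ← hx, ← hμ]; ring
      rw [h2] at h1
      exact h1
    have e2 : HasDerivAt (fun t : ℝ => μ + 2 * t * L2) (2 * L2) 0 := by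
      simpa using (((hasDerivAt_id (0:ℝ)).const_mul 2).mul_const L2).const_add μ
    have e3 : HasDerivAt p1 (-∑ e, (d e) ^ 2 * (1 / x e - c / (1 - x e))) 0 := by
      have h0 : -∑ e, (d e) ^ 2 * (1 / x e - c / (1 - x e))
          = ∑ e, d e * (-(d e / x e) + c * (-(-d e / (1 - x e)))) := by
        rw [← sum_neg_distrib]
        exact sum_congr rfl fun e _ => by ring
      rw [h0]
      apply HasDerivAt.fun_sum
      intro e _
      by_cases he : d e = 0
      · simp only [he, zero_mul]; exact hasDerivAt_const _ _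
      · have hx0 : x e ≠ 0 := fun h => he (hd0 e (Or.inl h))
        have hx1 : 1 - x e ≠ 0 := fun h => he (hd0 e (Or.inr (by linarith)))
        have g1 : HasDerivAt (fun t : ℝ => x e + t * d e) (d e) 0 := by
          simpa using ((hasDerivAt_id (0:ℝ)).mul_const (d e)).const_add (x e)
        have g2 : HasDerivAt (fun t : ℝ => 1 - x e - t * d e) (-(d e)) 0 := by
          simpa using ((hasDerivAt_id (0:ℝ)).mul_const (d e)).const_sub (1 - x e)
        have k1 := g1.log (by simpa using hx0)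
        have k2 := g2.log (by simpa using hx1)
        simp only [zero_mul, add_zero, sub_zero] at k1 k2
        have k3 := (((k1.neg).sub_const 1).add (((k2.neg).sub_const 1).const_mul c)).const_mul (d e)
        exact k3
    have e4 := ((e1.sub_const L1).sub e2).sub e3
    have e5 : L2 - 2 * L2 - -∑ e, (d e) ^ 2 * (1 / x e - c / (1 - x e))
        = -L2 + ∑ e, (d e) ^ 2 * (1 / x e - c / (1 - x e)) := by ring
    rw [e5] at e4
    exact e4
  -- local minimum
  have hTmin : IsLocalMin T 0 := by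
    have hr : ∀ᶠ t in 𝓝 (0:ℝ), ∀ ω, 0 ≤ q ω + t * (q ω * (dot A η ω - μ)) :=
      eventually_nonneg hq.1.1
    have hr' : ∀ᶠ t in 𝓝 (0:ℝ), ∀ ω, 0 ≤ q ω + (-t) * (q ω * (dot A η ω - μ)) := by
      have := (continuous_neg.tendsto (0:ℝ))
      rw [neg_zero] at this
      exact this.eventually hr
    have hlaw : ∀ t : ℝ, (∀ ω, 0 ≤ q ω + t * (q ω * (dot A η ω - μ))) →
        (fun ω => q ω + t * (q ω * (dot A η ω - μ))) ∈ Law P := by
      intro t ht
      refine ⟨ht, ?_, fun ω hω => hq.1.2.2 ω fun h => hω (by simp [h])⟩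
      rw [sum_add_distrib, ← mul_sum, hq.1.2.1, sum_center hq.1]; ring
    have hmarg : ∀ (t : ℝ) e, marg A (fun ω => q ω + t * (q ω * (dot A η ω - μ))) e
        = x e + t * d e := by
      intro t e
      rw [hx, hd]
      unfold marg cdir
      rw [mul_sum, ← sum_add_distrib]
      exact sum_congr rfl fun ω _ => by ring
    filter_upwards [hr, hr'] with t ht ht'
    have hb := hlaw t ht
    have hb2 := hlaw (-t) ht'
    obtain ⟨b', hb'⟩ := exists_maxEnt P A hb
    have h1 := hmin _ hb b' hb'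
    have hmb : ∀ e, marg A b' e = x e + t * d e := fun e => by
      rw [congrFun hb'.2.1 e, hmarg]
    have hsup : ∀ ω, b' ω ≠ 0 → q ω ≠ 0 := fun ω hω =>
      support_of_pert hq hb'.1 hb2 (fun e => by rw [hmb, hmarg]; ring) hω
    have h2 := dual_bound hq.1.1 hθ hb'.1.1 hb'.1.2.1 hsup t (η := η)
    simp only [hmb] at h2
    have h3 : marg A (fun ω => q ω + t * (q ω * (dot A η ω - μ))) = fun e => x e + t * d e :=
      funext (hmarg t)
    rw [h3] at h1
    have hT0 : T 0 = H q - phi c x := by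
      have g1 : H q = - ∑ e, θ e * x e := by
        rw [hx, ← sum_dot]
        unfold H
        rw [← sum_neg_distrib]
        refine sum_congr rfl fun ω _ => ?_
        by_cases h : q ω = 0
        · simp [h]
        · rw [← hθ ω h]; unfold Real.negMulLog; ring
      simp only [hT, zero_mul, add_zero, sub_zero]
      rw [hG0, Real.log_one, g1]; ring
    rw [hT0]
    refine h1.trans ?_
    simp only [hT]
    linarith
  have := second_order hTmin hTd hT'd
  linarith

end Crest.Agent.R304.EntC
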