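import Crest.Agent.R304.EntC

/-!
R304 / S0465: abstract entropy part, file D (trace argument: the covariance matrix at a minimiser of
`h - φ_c` has rank at most `∑ x(1-x)(1/x - c/(1-x))`).
-/

set_option autoImplicit false

namespace Crest.Agent.R304.EntD

open Finset Filter Topology Crest.Agent.R304.EntA Crest.Agent.R304.EntB Crest.Agent.R304.EntC
open scoped Matrix

/-- abstract trace inequality -/
theorem rank_le_trace {E : Type*} [Fintype E] [DecidableEq E] {C : Matrix E E ℝ}
    (hC : C.PosSemidef) (R : E → ℝ)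
    (h : ∀ η : E → ℝ, ∑ e, η e * (C *ᵥ η) e ≤ ∑ e, ((C *ᵥ η) e) ^ 2 * R e) :
    (C.rank : ℝ) ≤ ∑ e, R e * C e e := by
  classical
  have hH := hC.isHermitian
  set μ := hH.eigenvalues with hμ
  set U : Matrix E E ℝ := (hH.eigenvectorUnitary : Matrix E E ℝ) with hU
  have hmul : ∀ i, C *ᵥ (fun e => U e i) = fun e => μ i * U e i := by
    intro i
    have h1 := hH.mulVec_eigenvectorBasis i
    have h2 : (fun e => U e i) = ⇑(hH.eigenvectorBasis i) := by
      funext e
      rw [hU, hH.eigenvectorUnitary_apply]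
    rw [h2]
    refine h1.trans ?_
    funext e
    change hH.eigenvalues i * (hH.eigenvectorBasis i).ofLp e = μ i * U e i
    rw [← congrFun h2 e]
  have hnorm : ∀ i, ∑ e, U e i * U e i = 1 := by
    intro i
    have h1 : (star U * U) i i = 1 := by
      rw [hU, Unitary.coe_star_mul_self]; simp
    rw [Matrix.mul_apply] at h1
    simpa [Matrix.star_apply] using h1
  have hdiag : ∀ e, C e e = ∑ i, μ i * (U e i) ^ 2 := by
    intro e
    have h1 := hH.spectral_theorem
    rw [Unitary.conjStarAlgAut_apply] at h1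
    have h2 : C e e = ((U * Matrix.diagonal (RCLike.ofReal ∘ μ)) * star U : Matrix E E ℝ) e e := by
      conv_lhs => rw [h1]
    rw [h2, Matrix.mul_apply]
    refine sum_congr rfl fun i _ => ?_
    rw [Matrix.mul_diagonal, Matrix.star_apply]
    simp
    ring
  have hnonneg : ∀ i, 0 ≤ μ i := fun i => hC.eigenvalues_nonneg i
  have key : ∀ i, μ i ≠ 0 → 1 ≤ μ i * ∑ e, (U e i) ^ 2 * R e := by
    intro i hi
    have hpos : 0 < μ i := lt_of_le_of_ne (hnonneg i) (Ne.symm hi)
    have h1 := h (fun e => U e i)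
    rw [hmul i] at h1
    have h2 : ∑ e, U e i * (μ i * U e i) = μ i := by
      have : ∑ e, U e i * (μ i * U e i) = μ i * ∑ e, U e i * U e i := by
        rw [mul_sum]; exact sum_congr rfl fun e _ => by ring
      rw [this, hnorm, mul_one]
    have h3 : ∑ e, (μ i * U e i) ^ 2 * R e = μ i * (μ i * ∑ e, (U e i) ^ 2 * R e) := by
      rw [mul_sum, mul_sum]; exact sum_congr rfl fun e _ => by ring
    simp only at h1
    rw [h2, h3] at h1
    have h4 : μ i * 1 ≤ μ i * (μ i * ∑ e, (U e i) ^ 2 * R e) := by rw [mul_one]; exact h1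
    exact le_of_mul_le_mul_left h4 hpos
  have hrank : (C.rank : ℝ) = ∑ i, if μ i ≠ 0 then (1:ℝ) else 0 := by
    rw [hH.rank_eq_card_non_zero_eigs, Fintype.card_subtype, ← sum_boole]
  have hsum : ∑ e, R e * C e e = ∑ i, μ i * ∑ e, (U e i) ^ 2 * R e := by
    simp only [hdiag, mul_sum]
    rw [sum_comm]
    exact sum_congr rfl fun i _ => sum_congr rfl fun e _ => by ring
  rw [hrank, hsum]
  refine sum_le_sum fun i _ => ?_
  by_cases hi : μ i = 0
  · simp [hi]
  · simp only [ne_eq, hi, not_false_eq_true, if_true]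
    exact key i hi

variable {Ω E : Type*} [Fintype Ω] [Fintype E]

/-- covariance matrix -/
def cov (A : Ω → E → ℝ) (q : Ω → ℝ) : Matrix E E ℝ :=
  fun e f => ∑ ω, q ω * (A ω f - marg A q f) * A ω e

theorem cov_mulVec (A : Ω → E → ℝ) (q : Ω → ℝ) (η : E → ℝ) :
    cov A q *ᵥ η = cdir A q η := by
  funext e
  unfold Matrix.mulVec dotProduct cov cdir dot
  simp only [sum_mul]
  rw [sum_comm]
  refine sum_congr rfl fun ω _ => ?_
  rw [← sum_sub_distrib, mul_sum, sum_mul]
  exact sum_congr rfl fun f _ => by ring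

omit [Fintype E] in
theorem cov_symm (A : Ω → E → ℝ) (q : Ω → ℝ) (e f : E) :
    cov A q e f = ∑ ω, q ω * (A ω e * A ω f) - marg A q e * marg A q f := by
  unfold cov
  have : ∑ ω, q ω * (A ω f - marg A q f) * A ω e
      = ∑ ω, q ω * (A ω e * A ω f) - marg A q f * ∑ ω, q ω * A ω e := by
    rw [mul_sum, ← sum_sub_distrib]
    exact sum_congr rfl fun ω _ => by ring
  rw [this]
  change _ - marg A q f * marg A q e = _
  ring

theorem cov_posSemidef {P : Set Ω} {A : Ω → E → ℝ} {q : Ω → ℝ} (hq : q ∈ Law P) :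
    (cov A q).PosSemidef := by
  refine Matrix.PosSemidef.of_dotProduct_mulVec_nonneg ?_ ?_
  · ext e f
    rw [Matrix.conjTranspose_apply, cov_symm, cov_symm]
    simp only [star_trivial]
    congr 1
    · exact sum_congr rfl fun ω _ => by ring
    · ring
  · intro η
    rw [cov_mulVec]
    have h1 : star η ⬝ᵥ cdir A q η = ∑ e, η e * cdir A q η e := by
      simp [dotProduct]
    rw [h1, ← var_eq hq]
    have h3 : ∑ ω, q ω * dot A η ω = ∑ f, η f * marg A q f := sum_dot A η q
    generalize (∑ f, η f * marg A q f) = μ at h3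
    have h2 : ∑ ω, q ω * (dot A η ω) ^ 2 - μ ^ 2 = ∑ ω, q ω * (dot A η ω - μ) ^ 2 := by
      have h4 : ∑ ω, q ω * (dot A η ω - μ) ^ 2
          = ∑ ω, q ω * (dot A η ω) ^ 2 - 2 * μ * ∑ ω, q ω * dot A η ω + μ ^ 2 * ∑ ω, q ω := by
        rw [mul_sum, mul_sum, ← sum_sub_distrib, ← sum_add_distrib]
        exact sum_congr rfl fun ω _ => by ring
      rw [h4, h3, hq.2.1]; ring
    rw [h2]
    exact sum_nonneg fun ω _ => mul_nonneg (hq.1 ω) (sq_nonneg _)

/-- Rank bound at a minimiser, for zero-one vectors `A ω`. -/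
theorem rank_le {P : Set Ω} {A : Ω → E → ℝ} {q : Ω → ℝ} [DecidableEq E] (hq : IsMaxEnt P A q q)
    (hA : ∀ ω e, A ω e = 0 ∨ A ω e = 1)
    {w : E → ℝ} (hw : ∀ ω ∈ P, dot A w ω = 1) (c : ℝ)
    (hmin : ∀ b ∈ Law P, ∀ b', IsMaxEnt P A b b' →
      H q - phi c (marg A q) ≤ H b' - phi c (marg A b)) :
    ((cov A q).rank : ℝ) ≤
      ∑ e ∈ univ.filter (fun e => 0 < marg A q e ∧ marg A q e < 1), (1 - (1 + c) * marg A q e) := by
  classical
  have hA' : ∀ ω e, 0 ≤ A ω e ∧ A ω e ≤ 1 := fun ω e => by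
    rcases hA ω e with h | h <;> rw [h] <;> norm_num
  have h1 := rank_le_trace (cov_posSemidef (A := A) hq.1)
    (fun e => 1 / marg A q e - c / (1 - marg A q e)) (fun η => by
      rw [cov_mulVec]; exact second_order_cond hq hA' hw c hmin η)
  refine h1.trans (le_of_eq ?_)
  rw [sum_filter]
  refine sum_congr rfl fun e _ => ?_
  have hdiag : cov A q e e = marg A q e * (1 - marg A q e) := by
    rw [cov_symm]
    have : ∑ ω, q ω * (A ω e * A ω e) = marg A q e := by
      unfold marg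
      refine sum_congr rfl fun ω _ => ?_
      rcases hA ω e with h | h <;> rw [h] <;> ring
    rw [this]; ring
  rw [hdiag]
  obtain ⟨hx0, hx1⟩ := marg_mem hq.1 hA' e
  set x := marg A q e with hx
  by_cases h0 : x = 0
  · rw [h0]; simp
  by_cases h1' : x = 1
  · rw [h1']; simp
  have a : 0 < x := lt_of_le_of_ne hx0 (Ne.symm h0)
  have b : x < 1 := lt_of_le_of_ne hx1 h1'
  have b' : 1 - x ≠ 0 := by linarith
  rw [if_pos ⟨a, b⟩]
  field_simp
  ring

end Crest.Agent.R304.EntD
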