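import Crest.Agent.R304.EntD

/-!
R304 / S0465: abstract entropy part, file E (differences of marginals of laws living on the support
of `q` lie in the range of the covariance matrix; dimension count for coordinate restrictions).
-/

set_option autoImplicit false

namespace Crest.Agent.R304.EntE

open Finset Filter Topology Crest.Agent.R304.EntA Crest.Agent.R304.EntB Crest.Agent.R304.EntC
  Crest.Agent.R304.EntD
open scoped Matrix

variable {Ω E : Type*} [Fintype Ω] [Fintype E]

theorem sub_marg_mem_range {P : Set Ω} {A : Ω → E → ℝ} {q b : Ω → ℝ} [DecidableEq E]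
    (hq : q ∈ Law P) (hb : b ∈ Law P) (hsup : ∀ ω, b ω ≠ 0 → q ω ≠ 0) :
    marg A b - marg A q ∈ LinearMap.range (cov A q).mulVecLin := by
  classical
  by_contra hcon
  obtain ⟨f, hf, hker⟩ := Submodule.exists_le_ker_of_notMem hcon
  set η : E → ℝ := fun e => f (Pi.single e 1) with hη
  have hfv : ∀ v : E → ℝ, f v = ∑ e, η e * v e := by
    intro v
    rw [LinearMap.pi_apply_eq_sum_univ f v]
    refine sum_congr rfl fun e _ => ?_
    have : (fun j => if e = j then (1:ℝ) else 0) = Pi.single e 1 := by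
      funext j
      by_cases h : e = j
      · subst h; simp
      · simp [h]
    simp only [smul_eq_mul, this, hη]
    ring
  have h1 : f (cov A q *ᵥ η) = 0 := by
    have : cov A q *ᵥ η ∈ LinearMap.range (cov A q).mulVecLin := ⟨η, by simp⟩
    exact LinearMap.mem_ker.1 (hker this)
  rw [hfv, cov_mulVec, ← var_eq hq] at h1
  have h3 : ∑ ω, q ω * dot A η ω = ∑ f, η f * marg A q f := sum_dot A η q
  have h5 : f (marg A b - marg A q) = ∑ ω, b ω * dot A η ω - ∑ f, η f * marg A q f := by
    rw [hfv, sum_dot, ← sum_sub_distrib]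
    exact sum_congr rfl fun e _ => by simp only [Pi.sub_apply]; ring
  generalize (∑ f, η f * marg A q f) = μ at h1 h3 h5
  have h2 : ∑ ω, q ω * (dot A η ω - μ) ^ 2 = 0 := by
    have h4 : ∑ ω, q ω * (dot A η ω - μ) ^ 2
        = ∑ ω, q ω * (dot A η ω) ^ 2 - 2 * μ * ∑ ω, q ω * dot A η ω + μ ^ 2 * ∑ ω, q ω := by
      rw [mul_sum, mul_sum, ← sum_sub_distrib, ← sum_add_distrib]
      exact sum_congr rfl fun ω _ => by ring
    rw [h4, h3, hq.2.1]; linarith
  have h6 : ∀ ω, q ω ≠ 0 → dot A η ω = μ := by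
    intro ω hω
    have := (sum_eq_zero_iff_of_nonneg (fun ω _ => mul_nonneg (hq.1 ω) (sq_nonneg _))).1 h2 ω
      (mem_univ ω)
    have h7 := (mul_eq_zero.1 this).resolve_left hω
    have h8 := pow_eq_zero_iff (two_ne_zero) |>.1 h7
    linarith
  apply hf
  rw [h5]
  have h9 : ∑ ω, b ω * dot A η ω = ∑ ω, b ω * μ := by
    refine sum_congr rfl fun ω _ => ?_
    by_cases h : b ω = 0
    · simp [h]
    · rw [h6 ω (hsup ω h)]
  rw [h9, ← sum_mul, hb.2.1]; ring

/-- dimension count -/
theorem finrank_span_le_rank {ι : Type*} [Fintype ι] [DecidableEq E] (C : Matrix E E ℝ)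
    (κ : ι → E) (hκ : Function.Injective κ) (D : Set (ι → ℝ))
    (hD : ∀ h ∈ D, Function.extend κ h 0 ∈ LinearMap.range C.mulVecLin) :
    Module.finrank ℝ (Submodule.span ℝ D) ≤ C.rank := by
  classical
  set L : (ι → ℝ) →ₗ[ℝ] (E → ℝ) := Function.ExtendByZero.linearMap ℝ κ with hL
  have hLinj : Function.Injective L := Function.extend_injective hκ _
  have h1 : Submodule.map L (Submodule.span ℝ D) ≤ LinearMap.range C.mulVecLin := by
    rw [Submodule.map_span, Submodule.span_le]
    rintro _ ⟨h, hh, rfl⟩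
    exact hD h hh
  have h2 : Module.finrank ℝ (Submodule.span ℝ D)
      = Module.finrank ℝ (Submodule.map L (Submodule.span ℝ D)) :=
    LinearEquiv.finrank_eq (Submodule.equivMapOfInjective L hLinj _)
  rw [h2]
  exact Submodule.finrank_mono h1

end Crest.Agent.R304.EntE
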