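import Crest.Agent.R304.EntE
import Crest.Prelude.Def_MatchingPolytope

/-!
R304 / S0465: file F (the multigraph obtained by deleting the forced edges and their endpoints;
the face dimension of its polytope is at most the rank of the covariance matrix).
-/

set_option autoImplicit false

namespace Crest.Agent.R304.EntF

open Finset Filter Topology Crest.Agent.R304.EntA Crest.Agent.R304.EntB Crest.Agent.R304.EntC
  Crest.Agent.R304.EntD Crest.Agent.R304.EntE Crest.Matchings
open scoped Matrix

/-- the statement of S0466 -/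
def S0466stmt : Prop :=
  ∀ (m : ℕ), 1 ≤ m → ∀ (k : ℕ) (ends : Fin k → Fin (2 * m) × Fin (2 * m)),
    (∀ e, (ends e).1 ≠ (ends e).2) → ∀ (x : Fin k → ℝ), x ∈ pmPolytope ends →
    ((Finset.univ.filter fun e => 0 < x e).card : ℤ) - (pmFaceDim ends x : ℤ) ≤ 3 * (m : ℤ) - 2

/-- perfect matchings as a set -/
def PMs {v k : ℕ} (ends : Fin k → Fin v × Fin v) : Set (Finset (Fin k)) :=
  {M | IsPerfectMatching ends M}

/-- incidence vector -/
def inc {k : ℕ} (M : Finset (Fin k)) (e : Fin k) : ℝ := if e ∈ M then 1 else 0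

theorem inc_zero_or_one {k : ℕ} (M : Finset (Fin k)) (e : Fin k) : inc M e = 0 ∨ inc M e = 1 := by
  unfold inc; split_ifs <;> simp

theorem double_count {v k : ℕ} (ends : Fin k → Fin v × Fin v)
    (hends : ∀ e, (ends e).1 ≠ (ends e).2) (T : Finset (Fin k)) :
    ∑ w : Fin v, (T.filter fun e => (ends e).1 = w ∨ (ends e).2 = w).card = 2 * T.card := by
  classical
  simp only [card_filter]
  rw [sum_comm, mul_comm, ← smul_eq_mul, ← sum_const]
  refine sum_congr rfl fun e _ => ?_
  rw [← card_filter]
  have : (univ.filter fun w => (ends e).1 = w ∨ (ends e).2 = w) = {(ends e).1, (ends e).2} := by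
    ext w; simp [eq_comm]
  rw [this, card_pair (hends e)]

theorem card_pm {m k : ℕ} (ends : Fin k → Fin (2 * m) × Fin (2 * m))
    (hends : ∀ e, (ends e).1 ≠ (ends e).2) {M : Finset (Fin k)} (hM : IsPerfectMatching ends M) :
    M.card = m := by
  have h := double_count ends hends M
  have h2 : ∑ w : Fin (2 * m), (M.filter fun e => (ends e).1 = w ∨ (ends e).2 = w).card
      = 2 * m := by
    rw [sum_congr rfl fun w _ => hM w]; simp
  omega

/-- vertices covered by `F` -/
def cov' {v k : ℕ} (ends : Fin k → Fin v × Fin v) (F : Finset (Fin k)) : Finset (Fin v) :=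
  univ.filter fun w => ∃ e ∈ F, (ends e).1 = w ∨ (ends e).2 = w

theorem card_cov {v k : ℕ} (ends : Fin k → Fin v × Fin v)
    (hends : ∀ e, (ends e).1 ≠ (ends e).2) {M F : Finset (Fin k)} (hM : IsPerfectMatching ends M)
    (hF : F ⊆ M) : (cov' ends F).card = 2 * F.card := by
  classical
  rw [← double_count ends hends F]
  have h1 : ∀ w : Fin v, (F.filter fun e => (ends e).1 = w ∨ (ends e).2 = w).card
      = if w ∈ cov' ends F then 1 else 0 := by
    intro w
    have hle : (F.filter fun e => (ends e).1 = w ∨ (ends e).2 = w).card ≤ 1 := by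
      rw [← hM w]; exact card_le_card (filter_subset_filter _ hF)
    by_cases h : w ∈ cov' ends F
    · rw [if_pos h]
      obtain ⟨e, he, hw⟩ := (mem_filter.1 h).2
      have : 0 < (F.filter fun e => (ends e).1 = w ∨ (ends e).2 = w).card :=
        card_pos.2 ⟨e, mem_filter.2 ⟨he, hw⟩⟩
      omega
    · rw [if_neg h, card_eq_zero, filter_eq_empty_iff]
      intro e he hw
      exact h (mem_filter.2 ⟨mem_univ _, e, he, hw⟩)
  rw [sum_congr rfl fun w _ => h1 w]
  simp

/-- two edges of a perfect matching with a common endpoint are equal -/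
theorem pm_unique {v k : ℕ} {ends : Fin k → Fin v × Fin v} {M : Finset (Fin k)}
    (hM : IsPerfectMatching ends M) {e f : Fin k} (he : e ∈ M) (hf : f ∈ M) {w : Fin v}
    (hew : (ends e).1 = w ∨ (ends e).2 = w) (hfw : (ends f).1 = w ∨ (ends f).2 = w) : e = f := by
  have h := hM w
  rw [card_eq_one] at h
  obtain ⟨g, hg⟩ := h
  have h1 : e ∈ ({g} : Finset (Fin k)) := by rw [← hg]; exact mem_filter.2 ⟨he, hew⟩
  have h2 : f ∈ ({g} : Finset (Fin k)) := by rw [← hg]; exact mem_filter.2 ⟨hf, hfw⟩
  rw [mem_singleton] at h1 h2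
  rw [h1, h2]

theorem rank_ge (h66 : S0466stmt) {m k : ℕ} (ends : Fin k → Fin (2 * m) × Fin (2 * m))
    (hends : ∀ e, (ends e).1 ≠ (ends e).2) {q : Finset (Fin k) → ℝ}
    (hq : IsMaxEnt (PMs ends) inc q q) {m' : ℕ} (hm'1 : 1 ≤ m')
    (hm' : m = m' + (univ.filter fun e => marg inc q e = 1).card) :
    ((univ.filter fun e => 0 < marg inc q e ∧ marg inc q e < 1).card : ℤ)
      ≤ ((cov inc q).rank : ℤ) + 3 * (m' : ℤ) - 2 := by
  classical
  set x := marg inc q with hx
  set F : Finset (Fin k) := univ.filter fun e => x e = 1 with hF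
  set E1 : Finset (Fin k) := univ.filter fun e => 0 < x e ∧ x e < 1 with hE1
  have hA : ∀ (M : Finset (Fin k)) (e : Fin k), 0 ≤ inc M e ∧ inc M e ≤ 1 := fun M e => by
    rcases inc_zero_or_one M e with h | h <;> rw [h] <;> norm_num
  have hx01 : ∀ e, 0 ≤ x e ∧ x e ≤ 1 := marg_mem hq.1 hA
  have hx0 : ∀ e, e ∉ F → e ∉ E1 → x e = 0 := by
    intro e h1 h2
    by_contra h3
    apply h2
    refine mem_filter.2 ⟨mem_univ _, lt_of_le_of_ne (hx01 e).1 (Ne.symm h3),
      lt_of_le_of_ne (hx01 e).2 fun h4 => h1 (mem_filter.2 ⟨mem_univ _, h4⟩)⟩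
  -- support facts
  have hS : ∀ M, q M ≠ 0 → IsPerfectMatching ends M := fun M hM => hq.1.2.2 M hM
  have hSF : ∀ M, q M ≠ 0 → F ⊆ M := by
    intro M hM e he
    have h1 : inc M e = 1 := marg_eq_one hq.1 hA (mem_filter.1 he).2 M hM
    by_contra h2
    rw [inc, if_neg h2] at h1
    exact zero_ne_one h1
  have hS0 : ∀ M, q M ≠ 0 → ∀ e ∈ M, x e ≠ 0 := by
    intro M hM e he h0
    have h1 : inc M e = 0 := marg_eq_zero hq.1 hA h0 M hM
    rw [inc, if_pos he] at h1
    exact one_ne_zero h1
  obtain ⟨M0, hM0⟩ : ∃ M, q M ≠ 0 := by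
    by_contra h
    push Not at h
    have := hq.1.2.1
    simp [h] at this
  -- uncovered vertices
  set V1 : Finset (Fin (2 * m)) := (cov' ends F)ᶜ with hV1
  have hV1card : V1.card = 2 * m' := by
    rw [hV1, card_compl, Fintype.card_fin, card_cov ends hends (hS M0 hM0) (hSF M0 hM0)]
    omega
  have hE1V : ∀ e ∈ E1, (ends e).1 ∈ V1 ∧ (ends e).2 ∈ V1 := by
    intro e he
    have hne : x e ≠ 0 := ((mem_filter.1 he).2.1).ne'
    obtain ⟨M, hM, heM⟩ : ∃ M, q M ≠ 0 ∧ e ∈ M := by
      by_contra hcon
      push Not at hcon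
      apply hne
      rw [hx]
      unfold marg
      refine sum_eq_zero fun M _ => ?_
      by_cases h : q M = 0
      · rw [h, zero_mul]
      · rw [inc, if_neg (hcon M h), mul_zero]
    have heF : e ∉ F := fun h => by
      have h1 := (mem_filter.1 h).2
      have h2 := (mem_filter.1 he).2.2
      rw [h1] at h2
      exact lt_irrefl _ h2
    constructor
    · rw [hV1, mem_compl]
      intro h
      obtain ⟨f, hf, hfw⟩ := (mem_filter.1 h).2
      have := pm_unique (hS M hM) heM (hSF M hM hf) (Or.inl rfl) hfw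
      rw [this] at heF
      exact heF hf
    · rw [hV1, mem_compl]
      intro h
      obtain ⟨f, hf, hfw⟩ := (mem_filter.1 h).2
      have := pm_unique (hS M hM) heM (hSF M hM hf) (Or.inr rfl) hfw
      rw [this] at heF
      exact heF hf
  -- the new multigraph
  set k' := E1.card with hk'
  set κ : Fin k' ↪ Fin k := (E1.orderEmbOfFin rfl).toEmbedding with hκ
  have hκmem : ∀ i, κ i ∈ E1 := fun i => E1.orderEmbOfFin_mem rfl i
  have hκsurj : ∀ e ∈ E1, ∃ i, κ i = e := by
    intro e he
    have : e ∈ Set.range (E1.orderEmbOfFin rfl) := by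
      rw [Finset.range_orderEmbOfFin]; exact he
    obtain ⟨i, hi⟩ := this
    exact ⟨i, hi⟩
  set ν : V1 ≃ Fin (2 * m') := V1.equivFinOfCardEq hV1card with hν
  set ends' : Fin k' → Fin (2 * m') × Fin (2 * m') := fun i =>
    (ν ⟨(ends (κ i)).1, (hE1V _ (hκmem i)).1⟩, ν ⟨(ends (κ i)).2, (hE1V _ (hκmem i)).2⟩)
    with hends'
  have hinc1 : ∀ i w, (ends' i).1 = w ↔ (ends (κ i)).1 = (ν.symm w : Fin (2 * m)) := by
    intro i w
    rw [hends']
    simp only
    rw [← Equiv.eq_symm_apply, Subtype.ext_iff]
  have hinc2 : ∀ i w, (ends' i).2 = w ↔ (ends (κ i)).2 = (ν.symm w : Fin (2 * m)) := by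
    intro i w
    rw [hends']
    simp only
    rw [← Equiv.eq_symm_apply, Subtype.ext_iff]
  have hloop : ∀ i, (ends' i).1 ≠ (ends' i).2 := by
    intro i h
    have h1 := (hinc1 i _).1 h
    have h2 := (hinc2 i _).1 (rfl : (ends' i).2 = (ends' i).2)
    exact hends _ (h1.trans h2.symm)
  -- lift
  have hlift : ∀ M' : Finset (Fin k'), IsPerfectMatching ends' M' →
      IsPerfectMatching ends (F ∪ M'.map κ) := by
    intro M' hM' v
    rw [filter_union]
    by_cases hv : v ∈ cov' ends F
    · have h1 : ((M'.map κ).filter fun e => (ends e).1 = v ∨ (ends e).2 = v) = ∅ := by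
        rw [filter_eq_empty_iff]
        intro e he hev
        obtain ⟨i, _, rfl⟩ := Finset.mem_map.1 he
        have h2 := hE1V _ (hκmem i)
        rw [hV1, mem_compl, mem_compl] at h2
        rcases hev with h | h
        · exact h2.1 (h ▸ hv)
        · exact h2.2 (h ▸ hv)
      rw [h1, union_empty]
      obtain ⟨e, he, hw⟩ := (mem_filter.1 hv).2
      have h3 : 0 < (F.filter fun e => (ends e).1 = v ∨ (ends e).2 = v).card :=
        card_pos.2 ⟨e, mem_filter.2 ⟨he, hw⟩⟩
      have h4 : (F.filter fun e => (ends e).1 = v ∨ (ends e).2 = v).card ≤ 1 := by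
        rw [← hS M0 hM0 v]; exact card_le_card (filter_subset_filter _ (hSF M0 hM0))
      omega
    · have h1 : (F.filter fun e => (ends e).1 = v ∨ (ends e).2 = v) = ∅ := by
        rw [filter_eq_empty_iff]
        intro e he hev
        exact hv (mem_filter.2 ⟨mem_univ _, e, he, hev⟩)
      rw [h1, empty_union]
      have hv1 : v ∈ V1 := by rw [hV1, mem_compl]; exact hv
      rw [filter_map, card_map]
      have h5 := hM' (ν ⟨v, hv1⟩)
      rw [← h5]
      congr 1
      refine filter_congr fun i _ => ?_
      simp only [Function.comp]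
      rw [hinc1, hinc2, Equiv.symm_apply_apply]
  -- restriction
  have hrestr : ∀ M, q M ≠ 0 → IsPerfectMatching ends' (univ.filter fun i => κ i ∈ M) := by
    intro M hM w
    rw [← hS M hM (ν.symm w : Fin (2 * m)), ← card_map κ]
    congr 1
    ext e
    simp only [Finset.mem_map, mem_filter, mem_univ, true_and]
    constructor
    · rintro ⟨i, ⟨h1, h2⟩, rfl⟩
      rw [hinc1, hinc2] at h2
      exact ⟨h1, h2⟩
    · rintro ⟨h1, h2⟩
      have h3 : e ∉ F := by
        intro h
        have h4 : (ν.symm w : Fin (2 * m)) ∈ cov' ends F :=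
          mem_filter.2 ⟨mem_univ _, e, h, h2⟩
        have h5 : (ν.symm w : Fin (2 * m)) ∈ (cov' ends F)ᶜ := (ν.symm w).2
        rw [mem_compl] at h5
        exact h5 h4
      have h4 : e ∈ E1 := by
        by_contra h
        exact hS0 M hM e h1 (hx0 e h3 h)
      obtain ⟨i, rfl⟩ := hκsurj e h4
      refine ⟨i, ⟨h1, ?_⟩, rfl⟩
      rw [hinc1, hinc2]
      exact h2
  -- the point x'
  set x' : Fin k' → ℝ := fun i => x (κ i) with hx'
  have hx'mem : x' ∈ pmPolytope ends' := by
    have h1 : x' = ∑ M ∈ univ.filter (fun M => q M ≠ 0),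
        q M • pmIndicator (univ.filter fun i => κ i ∈ M) := by
      funext i
      rw [Finset.sum_apply, hx', hx]
      simp only [marg, Pi.smul_apply, smul_eq_mul]
      rw [sum_filter]
      refine sum_congr rfl fun M _ => ?_
      by_cases h : q M = 0
      · simp [h]
      · rw [if_pos h, pmIndicator, inc]
        simp
    rw [h1]
    refine Convex.sum_mem (convex_convexHull ℝ _) (fun M _ => hq.1.1 M) ?_ ?_
    · rw [sum_filter_ne_zero, hq.1.2.1]
    · intro M hM
      exact subset_convexHull ℝ _ ⟨_, hrestr M (mem_filter.1 hM).2, rfl⟩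
  -- lifting laws
  have hlaw : ∀ y ∈ pmPolytope ends', ∃ b ∈ Law (PMs ends), (∀ i, marg inc b (κ i) = y i) ∧
      (∀ e ∈ F, marg inc b e = 1) ∧ (∀ e, e ∉ F → e ∉ E1 → marg inc b e = 0) := by
    set T : Set (Fin k' → ℝ) := {y | ∃ b ∈ Law (PMs ends), (∀ i, marg inc b (κ i) = y i) ∧
      (∀ e ∈ F, marg inc b e = 1) ∧ (∀ e, e ∉ F → e ∉ E1 → marg inc b e = 0)} with hT
    have hsub : pmPolytope ends' ⊆ T := by
      refine convexHull_min ?_ ?_
      · rintro _ ⟨M', hM', rfl⟩
        refine ⟨Pi.single (F ∪ M'.map κ) 1, ⟨?_, ?_, ?_⟩, ?_, ?_, ?_⟩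
        · intro M
          by_cases h : M = F ∪ M'.map κ
          · rw [h, Pi.single_eq_same]; norm_num
          · rw [Pi.single_eq_of_ne h]
        · rw [Finset.sum_eq_single (F ∪ M'.map κ)]
          · rw [Pi.single_eq_same]
          · intro b _ hb; rw [Pi.single_eq_of_ne hb]
          · simp
        · intro M hM
          by_cases h : M = F ∪ M'.map κ
          · rw [h]; exact hlift M' hM'
          · rw [Pi.single_eq_of_ne h] at hM; exact absurd rfl hM
        all_goals
          have hmarg : ∀ e, marg inc (Pi.single (F ∪ M'.map κ) (1:ℝ)) e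
              = inc (F ∪ M'.map κ) e := by
            intro e
            unfold marg
            rw [Finset.sum_eq_single (F ∪ M'.map κ)]
            · rw [Pi.single_eq_same, one_mul]
            · intro b _ hb; rw [Pi.single_eq_of_ne hb, zero_mul]
            · simp
        · intro i
          rw [hmarg, inc, pmIndicator]
          have h1 : κ i ∉ F := by
            intro h
            have h2 := (mem_filter.1 h).2
            have h3 := (mem_filter.1 (hκmem i)).2.2
            rw [h2] at h3
            exact lt_irrefl _ h3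
          have h4 : κ i ∈ F ∪ M'.map κ ↔ i ∈ M' := by
            rw [mem_union, mem_map' κ]
            simp [h1]
          simp only [h4]
        · intro e he
          rw [hmarg, inc, if_pos (mem_union_left _ he)]
        · intro e he1 he2
          rw [hmarg, inc, if_neg]
          intro h
          rcases mem_union.1 h with h | h
          · exact he1 h
          · obtain ⟨i, _, rfl⟩ := Finset.mem_map.1 h
            exact he2 (hκmem i)
      · intro y1 hy1 y2 hy2 a c ha hc hac
        obtain ⟨b1, hb1, p1, p2, p3⟩ := hy1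
        obtain ⟨b2, hb2, r1, r2, r3⟩ := hy2
        have hac' : a = 1 - c := by linarith
        subst hac'
        have hm : ∀ e, marg inc (fun M => (1 - c) * b1 M + c * b2 M) e
            = (1 - c) * marg inc b1 e + c * marg inc b2 e := by
          intro e
          unfold marg
          rw [mul_sum, mul_sum, ← sum_add_distrib]
          exact sum_congr rfl fun ω _ => by ring
        refine ⟨_, law_convex hb1 hb2 hc (by linarith), ?_, ?_, ?_⟩
        · intro i
          rw [hm, p1, r1]; simp
        · intro e he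
          rw [hm, p2 e he, r2 e he]; ring
        · intro e he1 he2
          rw [hm, p3 e he1 he2, r3 e he1 he2]; ring
    intro y hy
    exact hsub hy
  -- directions
  have hdir : ∀ h ∈ pmDirections ends' x',
      Function.extend κ h 0 ∈ LinearMap.range (cov inc q).mulVecLin := by
    rintro h ⟨ε, hε, hεt⟩
    have ht1 : |ε / 2| < ε := by rw [abs_of_pos (by linarith)]; linarith
    have ht2 : |(-(ε / 2))| < ε := by rw [abs_neg]; exact ht1
    obtain ⟨b, hb, p1, p2, p3⟩ := hlaw _ (hεt _ ht1)
    obtain ⟨c, hc, r1, r2, r3⟩ := hlaw _ (hεt _ ht2)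
    have hsum : ∀ e, marg inc b e + marg inc c e = 2 * marg inc q e := by
      intro e
      by_cases h1 : e ∈ F
      · rw [p2 e h1, r2 e h1, show marg inc q e = 1 from (mem_filter.1 h1).2]; norm_num
      · by_cases h2 : e ∈ E1
        · obtain ⟨i, rfl⟩ := hκsurj e h2
          rw [p1, r1]
          simp only [Pi.add_apply, Pi.smul_apply, smul_eq_mul, hx', hx]
          ring
        · rw [p3 e h1 h2, r3 e h1 h2, show marg inc q e = 0 from hx0 e h1 h2]; norm_num
    have hsup : ∀ M, b M ≠ 0 → q M ≠ 0 := fun M hM => support_of_pert hq hb hc hsum hM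
    have hmem := sub_marg_mem_range (A := inc) hq.1 hb hsup
    have heq : Function.extend κ h 0 = (ε / 2)⁻¹ • (marg inc b - marg inc q) := by
      funext e
      simp only [Pi.smul_apply, Pi.sub_apply, smul_eq_mul]
      by_cases h1 : e ∈ E1
      · obtain ⟨i, rfl⟩ := hκsurj e h1
        rw [κ.injective.extend_apply, p1]
        simp only [Pi.add_apply, Pi.smul_apply, smul_eq_mul, hx', hx]
        field_simp
        ring
      · rw [Function.extend_apply']
        · by_cases h2 : e ∈ F
          · rw [p2 e h2, show marg inc q e = 1 from (mem_filter.1 h2).2]; simp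
          · rw [p3 e h2 h1, show marg inc q e = 0 from hx0 e h2 h1]; simp
        · rintro ⟨i, rfl⟩
          exact h1 (hκmem i)
    rw [heq]
    exact Submodule.smul_mem _ _ hmem
  have hdim : pmFaceDim ends' x' ≤ (cov inc q).rank :=
    finrank_span_le_rank (ι := Fin k') (E := Fin k) (cov inc q) (⇑κ) κ.injective
      (pmDirections ends' x') hdir
  have h66' := h66 m' hm'1 k' ends' hloop x' hx'mem
  have hall : (univ.filter fun i => 0 < x' i) = univ := by
    rw [filter_eq_self]
    intro i _
    exact (mem_filter.1 (hκmem i)).2.1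
  rw [hall, card_univ, Fintype.card_fin] at h66'
  omega

end Crest.Agent.R304.EntF
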