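import Crest.Agent.R304.EntF

/-!
R304 / S0465: file G (the entropy bound S0465, with the statement of S0466 as hypothesis).
-/

set_option autoImplicit false

namespace Crest.Agent.R304.EntG

open Finset Filter Topology Crest.Agent.R304.EntA Crest.Agent.R304.EntB Crest.Agent.R304.EntC
  Crest.Agent.R304.EntD Crest.Agent.R304.EntE Crest.Agent.R304.EntF Crest.Matchings

theorem marg_inc {k : ℕ} (p : Finset (Fin k) → ℝ) (e : Fin k) : marg inc p e = marginal p e := by
  classical
  unfold marg marginal inc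
  rw [sum_filter]
  exact sum_congr rfl fun M _ => by split_ifs <;> simp

theorem law_iff {v k : ℕ} (ends : Fin k → Fin v × Fin v) (p : Finset (Fin k) → ℝ) :
    p ∈ Law (PMs ends) ↔ IsMatchingLaw ends p := Iff.rfl

theorem sum_inc {k : ℕ} (M : Finset (Fin k)) : ∑ e, inc M e = M.card := by
  classical
  unfold inc
  rw [sum_boole]; simp

theorem dot_inc {m k : ℕ} (hm : 1 ≤ m) (ends : Fin k → Fin (2 * m) × Fin (2 * m))
    (hends : ∀ e, (ends e).1 ≠ (ends e).2) {M : Finset (Fin k)} (hM : M ∈ PMs ends) :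
    dot inc (fun _ => 1 / (m : ℝ)) M = 1 := by
  unfold dot
  rw [← mul_sum, sum_inc, card_pm ends hends hM]
  have : (m : ℝ) ≠ 0 := by positivity
  field_simp

theorem sum_marg {m k : ℕ} (ends : Fin k → Fin (2 * m) × Fin (2 * m))
    (hends : ∀ e, (ends e).1 ≠ (ends e).2) {q : Finset (Fin k) → ℝ} (hq : q ∈ Law (PMs ends)) :
    ∑ e, marg inc q e = m := by
  have h1 := sum_dot (inc (k := k)) (fun _ => 1) q
  simp only [one_mul] at h1
  rw [← h1]
  have h2 : ∀ M ∈ (univ : Finset (Finset (Fin k))), q M * dot inc (fun _ => 1) M = q M * m := by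
    intro M _
    by_cases h : q M = 0
    · simp [h]
    · have : dot inc (fun _ => (1:ℝ)) M = m := by
        unfold dot
        simp only [one_mul]
        rw [sum_inc, card_pm ends hends (hq.2.2 M h)]
      rw [this]
  rw [sum_congr rfl h2, ← sum_mul, hq.2.1, one_mul]

theorem H_nonneg {k : ℕ} {P : Set (Finset (Fin k))} {q : Finset (Fin k) → ℝ} (hq : q ∈ Law P) :
    0 ≤ H q := by
  unfold H
  refine sum_nonneg fun ω _ => Real.negMulLog_nonneg (hq.1 ω) ?_
  rw [← hq.2.1]
  exact single_le_sum (fun i _ => hq.1 i) (mem_univ ω)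

theorem phi_le_of_gt (h66 : S0466stmt) {m k : ℕ} (hm : 1 ≤ m)
    (ends : Fin k → Fin (2 * m) × Fin (2 * m)) (hends : ∀ e, (ends e).1 ≠ (ends e).2)
    {p q₀ : Finset (Fin k) → ℝ} (hp : p ∈ Law (PMs ends)) (hq₀ : IsMaxEnt (PMs ends) inc p q₀)
    {c : ℝ} (hc : 2 - 2 / (m : ℝ) < c) : phi c (marg inc p) ≤ H q₀ := by
  classical
  by_contra hcon
  push Not at hcon
  obtain ⟨q, hq, hqle, hmin⟩ := exists_min (PMs ends) inc (phi c) (continuous_phi c) hp hq₀
  have hneg : H q - phi c (marg inc q) < 0 := by linarith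
  have hA : ∀ (M : Finset (Fin k)) (e : Fin k), 0 ≤ inc M e ∧ inc M e ≤ 1 := fun M e => by
    rcases inc_zero_or_one M e with h | h <;> rw [h] <;> norm_num
  have hx01 : ∀ e, 0 ≤ marg inc q e ∧ marg inc q e ≤ 1 := marg_mem hq.1 hA
  have hrank := rank_le hq inc_zero_or_one (fun M hM => dot_inc hm ends hends hM) c hmin
  have hsum := sum_marg ends hends hq.1
  set F : Finset (Fin k) := univ.filter fun e => marg inc q e = 1 with hF
  set E1 : Finset (Fin k) := univ.filter fun e => 0 < marg inc q e ∧ marg inc q e < 1 with hE1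
  set s := ∑ e ∈ E1, marg inc q e with hs
  have hsplit : (m : ℝ) = F.card + s := by
    rw [← hsum, ← sum_filter_add_sum_filter_not univ (fun e => marg inc q e = 1)]
    congr 1
    · rw [sum_congr rfl fun e he => (mem_filter.1 he).2]; simp [hF]
    · rw [hs]
      symm
      refine sum_subset ?_ ?_
      · intro e he
        have := (mem_filter.1 he).2.2
        exact mem_filter.2 ⟨mem_univ _, this.ne⟩
      · intro e he1 he2
        by_contra h3
        apply he2
        exact mem_filter.2 ⟨mem_univ _, lt_of_le_of_ne (hx01 e).1 (Ne.symm h3),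
          lt_of_le_of_ne (hx01 e).2 (mem_filter.1 he1).2⟩
  have hs0 : 0 ≤ s := sum_nonneg fun e _ => (hx01 e).1
  have hFm : F.card ≤ m := by
    have : (F.card : ℝ) ≤ m := by linarith
    exact_mod_cast this
  rcases eq_or_lt_of_le hFm with hFe | hFl
  · -- all marginals are 0 or 1
    have hs1 : s = 0 := by
      have : (F.card : ℝ) = m := by exact_mod_cast hFe
      linarith
    have hE1e : ∀ e, marg inc q e = 0 ∨ marg inc q e = 1 := by
      intro e
      by_contra h
      push Not at h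
      have he : e ∈ E1 := mem_filter.2 ⟨mem_univ _, lt_of_le_of_ne (hx01 e).1 (Ne.symm h.1),
        lt_of_le_of_ne (hx01 e).2 h.2⟩
      have h1 := (sum_eq_zero_iff_of_nonneg (fun e _ => (hx01 e).1)).1 hs1 e he
      exact h.1 h1
    have hphi : phi c (marg inc q) = 0 := by
      unfold phi
      have h1 : ∑ e, Real.negMulLog (marg inc q e) = 0 := sum_eq_zero fun e _ => by
        rcases hE1e e with h | h <;> rw [h] <;> simp
      have h2 : ∑ e, Real.negMulLog (1 - marg inc q e) = 0 := sum_eq_zero fun e _ => by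
        rcases hE1e e with h | h <;> rw [h] <;> simp
      rw [h1, h2]; ring
    have := H_nonneg hq.1
    linarith
  · obtain ⟨m', hm'⟩ := Nat.exists_eq_add_of_lt hFl
    have hm'2 : m = (m' + 1) + F.card := by omega
    have hge := rank_ge h66 ends hends hq (m' := m' + 1) (by omega) hm'2
    have hge' : (E1.card : ℝ) ≤ ((cov inc q).rank : ℝ) + 3 * ((m' + 1 : ℕ) : ℝ) - 2 := by
      exact_mod_cast hge
    have hsm : s = ((m' + 1 : ℕ) : ℝ) := by
      have : (m : ℝ) = ((m' + 1 : ℕ) : ℝ) + F.card := by exact_mod_cast hm'2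
      linarith
    have hr2 : ∑ e ∈ E1, (1 - (1 + c) * marg inc q e) = E1.card - (1 + c) * s := by
      rw [sum_sub_distrib, ← mul_sum]; simp [hs]
    rw [hr2, hsm] at hrank
    set t : ℝ := ((m' + 1 : ℕ) : ℝ) with ht
    have ht0 : 0 < t := by rw [ht]; positivity
    have htm : t ≤ m := by
      rw [ht]; exact_mod_cast (by omega : m' + 1 ≤ m)
    have h1 : (1 + c) * t ≤ 3 * t - 2 := by linarith
    have hm0 : (0:ℝ) < m := by positivity
    have h2 : 2 / (m:ℝ) ≤ 2 / t := div_le_div_of_nonneg_left (by norm_num) ht0 htm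
    have h3 : (2 - 2 / t) * t < c * t := by
      apply mul_lt_mul_of_pos_right _ ht0
      linarith
    have h4 : (2 - 2 / t) * t = 2 * t - 2 := by field_simp
    rw [h4] at h3
    linarith

theorem s0465_of_s0466 (h66 : S0466stmt) (m : ℕ) (hm : 1 ≤ m) (k : ℕ)
    (ends : Fin k → Fin (2 * m) × Fin (2 * m)) (hends : ∀ e, (ends e).1 ≠ (ends e).2)
    (p : Finset (Fin k) → ℝ) (hp : IsMatchingLaw ends p) :
    ∃ q : Finset (Fin k) → ℝ, IsMatchingLaw ends q ∧ (∀ e, marginal q e = marginal p e) ∧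
      ∑ e, Real.negMulLog (marginal p e) - (2 - 2 / (m : ℝ)) * ∑ e, Real.negMulLog (1 - marginal p e)
        ≤ lawEntropy q := by
  have hp' : p ∈ Law (PMs ends) := hp
  obtain ⟨q₀, hq₀⟩ := exists_maxEnt (PMs ends) inc hp'
  refine ⟨q₀, hq₀.1, fun e => ?_, ?_⟩
  · rw [← marg_inc, ← marg_inc, hq₀.2.1]
  · have hm1 : ∀ e, marginal p e = marg inc p e := fun e => (marg_inc p e).symm
    simp only [hm1]
    change phi (2 - 2 / (m : ℝ)) (marg inc p) ≤ H q₀
    set B := ∑ e, Real.negMulLog (1 - marg inc p e) with hB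
    refine le_of_forall_pos_le_add fun ε hε => ?_
    have hB0 : 0 < |B| + 1 := by positivity
    have hc : 2 - 2 / (m : ℝ) < 2 - 2 / (m : ℝ) + ε / (|B| + 1) := by
      have : 0 < ε / (|B| + 1) := by positivity
      linarith
    have h1 := phi_le_of_gt h66 hm ends hends hp' hq₀ hc
    have h2 : phi (2 - 2 / (m : ℝ)) (marg inc p)
        = phi (2 - 2 / (m : ℝ) + ε / (|B| + 1)) (marg inc p) + ε / (|B| + 1) * B := by
      unfold phi; rw [← hB]; ring
    have h3 : ε / (|B| + 1) * B ≤ ε := by
      have h4 : ε / (|B| + 1) * B ≤ ε / (|B| + 1) * (|B| + 1) := by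
        apply mul_le_mul_of_nonneg_left _ (by positivity)
        have := le_abs_self B
        linarith
      rwa [div_mul_cancel₀ _ hB0.ne'] at h4
    rw [h2]
    linarith

end Crest.Agent.R304.EntG
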