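import Crest.Agent.R304.GlueDefs168

/-!
# R304 / S0464 (helper168): glue, second half: estimates of the program on encoded populations
-/

set_option autoImplicit false
set_option linter.unusedSectionVars false

namespace Crest.Agent.R304.Glue

open Finset Crest.Agent.R304.Loop Crest.Agent.R304.Sim Crest.Agent.R304.LM
open Crest.Agent.R304.Ctl Crest.Agent.R304.L6

noncomputable section

variable {P : Prm}

/-- the facts about the weights (first half of the glue) -/
structure WtHyp (P : Prm) : Prop where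
  scale_pos : 0 < scaleN P
  lam_eq : ∀ h : List Mv, h.length ≤ P.R → ∀ e : Pr P.n, (lamN P h e.1.1 e.1.2 : ℝ) =
    scaleN P * lamH (GP P) (P.n - 1) P.q P.m (stf P) h e
  om_eq : ∀ h : List Mv, h.length ≤ P.R → ∀ e : Pr P.n, (omN P h e.1.1 e.1.2 : ℝ) =
    scaleN P * omw (w0 P.q (P.n - 1)) P.m (stf P h).a e
  lam_pos : ∀ h : List Mv, h.length ≤ P.R → ∀ u v : ℕ, 0 < lamN P h u v

/-- the facts about the controller state of a history -/
structure StHyp (P : Prm) : Prop where
  nil : stf P [] = st0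
  th : ∀ h : List Mv, stf P (h ++ [(0, 0, 0)]) = ⟨min ((stf P h).s + 1) P.S, (stf P h).a⟩
  plus : ∀ (h : List Mv) (e : Pr P.n), stf P (h ++ [(1, (e.1.1 : ℕ), (e.1.2 : ℕ))]) =
    ⟨(stf P h).s, Function.update (stf P h).a e ((stf P h).a e + 1)⟩
  minus : ∀ (h : List Mv) (e : Pr P.n), stf P (h ++ [(2, (e.1.1 : ℕ), (e.1.2 : ℕ))]) =
    ⟨(stf P h).s, Function.update (stf P h).a e ((stf P h).a e - 1)⟩

/-! ### products over the pairs of a perfect matching -/

theorem prod_ite_eq {n : ℕ} (s : Mov.Om (Fin n)) (g : Fin n → Fin n → ℝ) :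
    ∏ v : Fin n, (if v < s.1 v then g v (s.1 v) else 1) = ∏ e ∈ prs s, g e.1.1 e.1.2 := by
  rw [prod_prs s g, prod_filter]

theorem card_prs' {n : ℕ} (s : Mov.Om (Fin n)) : (prs s).card = n / 2 := by
  have := card_prs s
  omega

theorem wtL_real (hw : WtHyp P) {h : List Mv} (hh : h.length ≤ P.R) (s : Mov.Om (Fin P.n)) :
    (wtL P.n (lamN P h) (encF s.1) : ℝ) =
      (scaleN P : ℝ) ^ (P.n / 2) * wt prs (lamH (GP P) (P.n - 1) P.q P.m (stf P) h) s := by
  rw [wtL_enc]
  unfold wtN
  rw [Nat.cast_prod]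
  have e1 : ∀ v : Fin P.n, ((if v < s.1 v then lamN P h v (s.1 v) else 1 : ℕ) : ℝ) =
      if v < s.1 v then (fun a b : Fin P.n => (lamN P h a b : ℝ)) v (s.1 v) else 1 := by
    intro v; split_ifs <;> simp
  rw [prod_congr rfl fun v _ => e1 v, prod_ite_eq s (fun a b : Fin P.n => (lamN P h a b : ℝ))]
  unfold wt
  rw [prod_congr rfl fun e _ => hw.lam_eq h hh e, prod_mul_distrib, prod_const, card_prs']

theorem wt_lamH_pos (hw : WtHyp P) {h : List Mv} (hh : h.length ≤ P.R) (s : Mov.Om (Fin P.n)) :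
    0 < wt prs (lamH (GP P) (P.n - 1) P.q P.m (stf P) h) s := by
  refine prod_pos fun e _ => ?_
  have h1 : (0 : ℝ) < lamN P h e.1.1 e.1.2 := by exact_mod_cast hw.lam_pos h hh _ _
  rw [hw.lam_eq h hh e] at h1
  have h2 : (0 : ℝ) < scaleN P := by exact_mod_cast hw.scale_pos
  exact (mul_pos_iff_of_pos_left h2).1 h1

theorem lamH_pos' (hw : WtHyp P) {h : List Mv} (hh : h.length ≤ P.R) (e : Pr P.n) :
    0 < lamH (GP P) (P.n - 1) P.q P.m (stf P) h e := by
  have h1 : (0 : ℝ) < lamN P h e.1.1 e.1.2 := by exact_mod_cast hw.lam_pos h hh _ _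
  rw [hw.lam_eq h hh e] at h1
  have h2 : (0 : ℝ) < scaleN P := by exact_mod_cast hw.scale_pos
  exact (mul_pos_iff_of_pos_left h2).1 h1

/-! ### sums over an encoded population -/

theorem sum_map_encP {M : Type*} [AddCommMonoid M] {n k : ℕ} (x : Fin k → Mov.Om (Fin n))
    (f : List ℕ → M) : ((encP x).map f).sum = ∑ i, f (encF (x i).1) := by
  unfold encP
  rw [List.map_ofFn, List.sum_ofFn]
  rfl

theorem countP_encP {n k : ℕ} (x : Fin k → Mov.Om (Fin n)) (f : List ℕ → Bool) :
    (encP x).countP f = ∑ i, if f (encF (x i).1) = true then 1 else 0 := by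
  rw [← sum_map_encP x (fun s => if f s = true then 1 else 0)]
  rw [List.countP_eq_length_filter]
  induction encP x with
  | nil => rfl
  | cons a l ih =>
    rw [List.filter_cons, List.map_cons, List.sum_cons]
    by_cases h : f a = true
    · rw [if_pos h, if_pos h, List.length_cons, ih]; ring
    · rw [if_neg h, if_neg h, ih]; ring

/-- **ratio estimate** -/
theorem rhat_real (hw : WtHyp P) {h : List Mv} {c : Mv} (hh : h.length < P.R)
    (x : Fin P.k → Mov.Om (Fin P.n)) :
    ((rhat P h (h ++ [c]) (encP x) : ℚ) : ℝ) =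
      ratR prs (GP P) (P.n - 1) P.q P.m (stf P) h c x := by
  unfold rhat ratR
  rw [sum_map_encP]
  push_cast
  congr 1
  refine sum_congr rfl fun i _ => ?_
  rw [wtL_real hw hh.le, wtL_real hw (by simp; omega)]
  have h1 : (0 : ℝ) < (scaleN P : ℝ) ^ (P.n / 2) := by
    have : (0 : ℝ) < scaleN P := by exact_mod_cast hw.scale_pos
    positivity
  rw [mul_div_mul_left _ _ h1.ne']

/-- **final estimate** -/
theorem finM_real (hw : WtHyp P) {h : List Mv} (hh : h.length ≤ P.R)
    (x : Fin P.k → Mov.Om (Fin P.n)) :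
    ((finM P h (encP x) : ℚ) : ℝ) =
      finR prs (GP P) (P.n - 1) P.q P.m (stf P) h x := by
  unfold finM finR
  rw [sum_map_encP]
  push_cast
  congr 1
  refine sum_congr rfl fun i _ => ?_
  unfold finW
  rw [Finset.prod_range]
  push_cast
  have e1 : ∀ v : Fin P.n, (((if (v : ℕ) < ap (encF (x i).1) v then
      (if adj P v (ap (encF (x i).1) v) = true then
        (scaleN P : ℚ) / (lamN P h v (ap (encF (x i).1) v) : ℚ) else 0) else 1 : ℚ)) : ℝ) =
      if v < (x i).1 v then (fun a b : Fin P.n => if adj P a b = true then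
        (scaleN P : ℝ) / (lamN P h a b : ℝ) else 0) v ((x i).1 v) else 1 := by
    intro v
    simp only [ap_encF, ← Fin.lt_def]
    split_ifs <;> push_cast <;> rfl
  rw [prod_congr rfl fun v _ => e1 v, prod_ite_eq (x i) (fun a b : Fin P.n =>
    if adj P a b = true then (scaleN P : ℝ) / (lamN P h a b : ℝ) else 0)]
  refine prod_congr rfl fun e _ => ?_
  have h2 : (0 : ℝ) < scaleN P := by exact_mod_cast hw.scale_pos
  have h3 := lamH_pos' hw hh e
  by_cases hG : GP P e
  · have hG' : adj P e.1.1 e.1.2 = true := hG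
    rw [if_pos hG, if_pos hG', hw.lam_eq h hh e]
    field_simp
  · have hG' : ¬ adj P e.1.1 e.1.2 = true := hG
    rw [if_neg hG, if_neg hG']

theorem count_real {n k : ℕ} (x : Fin k → Mov.Om (Fin n)) (e : Pr n) :
    (((encP x).countP (fun s => decide (ap s (e.1.1 : ℕ) = (e.1.2 : ℕ))) : ℕ) : ℝ) =
      ∑ i, if e ∈ prs (x i) then (1 : ℝ) else 0 := by
  rw [countP_encP, Nat.cast_sum]
  refine sum_congr rfl fun i _ => ?_
  by_cases h : e ∈ prs (x i)
  · have h' : (x i).1 e.1.1 = e.1.2 := mem_prs.1 h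
    rw [if_pos h, if_pos (by rw [decide_eq_true_eq, ap_encF, h'])]
    exact Nat.cast_one
  · have h' : ¬ (x i).1 e.1.1 = e.1.2 := fun hh => h (mem_prs.2 hh)
    rw [if_neg h, if_neg (by rw [decide_eq_true_eq, ap_encF, ← Fin.ext_iff]; exact h')]
    exact Nat.cast_zero

/-- **marginal estimate** -/
theorem xhat_real (hw : WtHyp P) {h : List Mv} (hh : h.length ≤ P.R)
    (x : Fin P.k → Mov.Om (Fin P.n)) (e : Pr P.n) :
    ((xhat P h (encP x) e.1.1 e.1.2 : ℚ) : ℝ) =
      xhF prs (GP P) (P.n - 1) P.q P.m (stf P) h x e := by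
  have hc := count_real x e
  have h2 : (0 : ℝ) < scaleN P := by exact_mod_cast hw.scale_pos
  have h3 := lamH_pos' hw hh e
  unfold xhat xhF
  rw [Rat.cast_div, Rat.cast_mul, Rat.cast_mul, Rat.cast_natCast, Rat.cast_natCast,
    Rat.cast_natCast, Rat.cast_natCast, hc, hw.om_eq h hh e, hw.lam_eq h hh e, mul_div_mul_comm,
    mul_div_mul_left _ _ h2.ne']

end

end Crest.Agent.R304.Glue
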