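import Crest.Agent.R304.Glue180
import Crest.Agent.R304.GlueB168

/-!
# R304 / S0464: the hypotheses `WtHyp`, `StHyp` of helper168's glue
-/

set_option autoImplicit false
set_option linter.unusedSectionVars false
set_option linter.dupNamespace false

namespace Crest.Agent.R304.Glue180

open Crest.Agent.R304.Loop Crest.Agent.R304.Ctl Crest.Agent.R304.Glue

theorem stHyp (P : Prm) : StHyp P :=
  ⟨stf_nil P, stf_theta P, stf_plus P, stf_minus P⟩

theorem wtHyp (P : Prm) (hm : 0 < P.m) (hq : P.n - 1 < P.q) (hL : P.R ≤ P.L) : WtHyp P :=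
  ⟨scaleN_pos P hm hq, fun h hh e => cast_lamN' P hm hq h (hh.trans hL) e,
    fun h hh e => cast_omN P hm hq h (hh.trans hL) e, fun h _ u v => lamN_pos P hm hq h u v⟩

end Crest.Agent.R304.Glue180
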