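import Crest.Agent.R304.L6Approx
import Crest.Agent.R304.PopDefs

/-!
# R304 / S0464, block L6 (helper168): annealing over a list of parameters, on the tape
-/

set_option autoImplicit false
set_option linter.unusedSectionVars false

namespace Crest.Agent.R304.L6

open Finset Crest.Agent.R309.Tape

/-- `R` holds between consecutive elements of `a :: l` -/
def ChainR {T : Type*} (R : T → T → Prop) : T → List T → Prop
  | _, [] => True
  | a, b :: l => R a b ∧ ChainR R b l

/-- last element of `a :: l` -/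
def lastR {T : Type*} : T → List T → T
  | a, [] => a
  | _, b :: l => lastR b l

theorem lastR_append {T : Type*} (a : T) (l l' : List T) :
    lastR a (l ++ l') = lastR (lastR a l) l' := by
  induction l generalizing a with
  | nil => rfl
  | cons b l ih => exact ih b

theorem chainR_append {T : Type*} {R : T → T → Prop} (a : T) (l l' : List T) :
    ChainR R a (l ++ l') ↔ ChainR R a l ∧ ChainR R (lastR a l) l' := by
  induction l generalizing a with
  | nil => simp [ChainR, lastR]
  | cons b l ih => simp only [List.cons_append, ChainR, lastR, ih, and_assoc]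

theorem ChainR.mono {T : Type*} {R R' : T → T → Prop} {a : T} {l : List T}
    (h : ChainR R a l) (hR : ∀ x y, R x y → R' x y) : ChainR R' a l := by
  induction l generalizing a with
  | nil => trivial
  | cons b l ih => exact ⟨hR _ _ h.1, ih h.2⟩

/-- `ChainR` for a concatenation of blocks -/
theorem chainR_flatMap {T U : Type*} {R : T → T → Prop} (a : T) (l : List U) (f : U → List T)
    (last : U → T) (e : U) (he : last e = a) (hlast : ∀ u, f u ≠ [] → ∀ b, lastR b (f u) = last u)
    (hne : ∀ u ∈ l, f u ≠ [])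
    (h : ChainR (fun u v => ChainR R (last u) (f v)) e l) : ChainR R a (l.flatMap f) := by
  induction l generalizing a e with
  | nil => trivial
  | cons u l ih =>
    rw [List.flatMap_cons, chainR_append]
    have h1 : ChainR R (last e) (f u) := h.1
    rw [he] at h1
    refine ⟨h1, ih _ u ?_ (fun v hv => hne v (List.mem_cons_of_mem _ hv)) h.2⟩
    exact (hlast u (hne u (List.mem_cons_self ..)) a).symm

/-- the single-step stages: each parameter repeated `τ` times -/
def stages {T : Type*} (τ : ℕ) (ts : List T) : List T := ts.flatMap fun t => List.replicate τ t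

theorem length_stages {T : Type*} (τ : ℕ) (ts : List T) :
    (stages τ ts).length = ts.length * τ := by
  induction ts with
  | nil => simp [stages]
  | cons t ts ih =>
    unfold stages at ih ⊢
    rw [List.flatMap_cons, List.length_append, ih, List.length_replicate, List.length_cons]
    ring

theorem mem_stages {T : Type*} {τ : ℕ} {ts : List T} {t : T} (h : t ∈ stages τ ts) : t ∈ ts := by
  unfold stages at h
  rw [List.mem_flatMap] at h
  obtain ⟨u, hu, h⟩ := h
  rw [List.eq_of_mem_replicate h]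
  exact hu

theorem stages_append {T : Type*} (τ : ℕ) (ts us : List T) :
    stages τ (ts ++ us) = stages τ ts ++ stages τ us := by
  unfold stages; rw [List.flatMap_append]

section

variable {α T : Type*} [Fintype α]

theorem lawL_replicate (K : T → α → α → ℝ) (τ : ℕ) (t : T) (p : α → ℝ) :
    lawL K (List.replicate τ t) p = (pushK (K t))^[τ] p := by
  induction τ generalizing p with
  | zero => rfl
  | succ τ ih =>
    rw [List.replicate_succ, Function.iterate_succ_apply]
    exact ih _

end

section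

variable {Ω : Type} [Fintype Ω] [DecidableEq Ω] {T : Type*}

/-- the annealed law is the law of the list of single steps -/
theorem annLaw_eq (k τ : ℕ) (π : T → Ω → ℝ) (K : T → Ω × Ω → Ω × Ω → ℝ) (t0 : T) (ts : List T)
    (j : ℕ) (hj : j ≤ ts.length) :
    Pop.annLaw k τ (fun s => π ((t0 :: ts).getD s t0)) (fun s => K ((t0 :: ts).getD s t0)) j =
      lawL (fun t => Pop.popK (K t)) (stages τ (ts.take j)) (prodLaw (π t0)) := by
  induction j with
  | zero => rfl
  | succ j ih =>
    have hj' : j < ts.length := hj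
    rw [List.take_succ_eq_append_getElem hj', stages_append, lawL_append, ← ih hj'.le]
    have e : stages τ [ts[j]] = List.replicate τ ts[j] := by simp [stages]
    rw [e, lawL_replicate]
    simp only [Pop.annLaw]
    have e2 : (t0 :: ts).getD (j + 1) t0 = ts[j] := by
      rw [List.getD_cons_succ, List.getD_eq_getElem _ _ hj']
    rw [e2]
    rfl

theorem chainR_getD {R : T → T → Prop} {t0 : T} {ts : List T} (h : ChainR R t0 ts) (d : T) :
    ∀ j < ts.length, R ((t0 :: ts).getD j d) ((t0 :: ts).getD (j + 1) d) := by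
  induction ts generalizing t0 with
  | nil => intro j hj; simp at hj
  | cons t ts ih =>
    intro j hj
    cases j with
    | zero => simpa using h.1
    | succ j =>
      have := ih h.2 j (by simpa using hj)
      simpa using this

theorem lastR_eq_getD (t0 : T) (ts : List T) (d : T) :
    lastR t0 ts = (t0 :: ts).getD ts.length d := by
  induction ts generalizing t0 with
  | nil => rfl
  | cons t ts ih =>
    simp only [lastR, List.length_cons, List.getD_cons_succ]
    exact ih t

theorem getD_mem_cons (t0 : T) (ts : List T) (j : ℕ) (d : T) (hj : j ≤ ts.length) :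
    (t0 :: ts).getD j d ∈ t0 :: ts := by
  rw [List.getD_eq_getElem _ _ (by simpa using Nat.lt_succ_of_le hj)]
  exact List.getElem_mem _

/-- the annealing error -/
noncomputable def annErr (k τ T : ℕ) (γ ε : ℝ) : ℝ :=
  T * (((1 - γ / (4 * k)) ^ τ + 160 / (k * γ ^ 2)) * (√k * ε) + k * ε ^ 2)

/-- **Annealing over a list of parameters.** -/
theorem annealL (hPA : Pop.PopAnneal) (k τ : ℕ) (γ ε : ℝ) (π : T → Ω → ℝ)
    (K : T → Ω × Ω → Ω × Ω → ℝ) (t0 : T) (ts : List T)
    (hγ : 0 < γ) (hγ1 : γ ≤ 1) (hk : 6400 ≤ γ ^ 2 * k) (hε : 0 ≤ ε) (hkε : k * ε ^ 2 ≤ 1)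
    (hpos : ∀ t ∈ t0 :: ts, ∀ a, 0 < π t a) (hsum : ∀ t ∈ t0 :: ts, ∑ a, π t a = 1)
    (hgood : ∀ t ∈ ts, Pop.GoodKernel (π t) (K t) γ)
    (hstep : ChainR (fun t t' => ∀ a, |π t a / π t' a - 1| ≤ ε) t0 ts) :
    ∑ x : Fin k → Ω, |lawL (fun t => Pop.popK (K t)) (stages τ ts) (prodLaw (π t0)) x -
      prodLaw (π (lastR t0 ts)) x| ≤ annErr k τ ts.length γ ε := by
  have h := hPA k τ ts.length γ ε (fun s => π ((t0 :: ts).getD s t0))
    (fun s => K ((t0 :: ts).getD s t0)) hγ hγ1 hk hε hkε
    (fun s hs a => hpos _ (getD_mem_cons t0 ts s t0 hs) a)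
    (fun s hs => hsum _ (getD_mem_cons t0 ts s t0 hs))
    (fun s h1 hs => by
      obtain ⟨j, rfl⟩ : ∃ j, s = j + 1 := ⟨s - 1, by omega⟩
      simp only [List.getD_cons_succ]
      rw [List.getD_eq_getElem _ _ (show j < ts.length by omega)]
      exact hgood _ (List.getElem_mem _))
    (fun s hs a => chainR_getD hstep t0 s hs a)
  rw [annLaw_eq k τ π K t0 ts ts.length le_rfl, List.take_length, ← lastR_eq_getD t0 ts t0] at h
  exact h

theorem popK_nonneg {k : ℕ} {K : Ω × Ω → Ω × Ω → ℝ} (hK : ∀ z z', 0 ≤ K z z')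
    (x y : Fin k → Ω) : 0 ≤ Pop.popK K x y := by
  unfold Pop.popK
  refine div_nonneg (sum_nonneg fun p _ => sum_nonneg fun q _ => ?_) ?_
  · split_ifs
    · unfold Pop.pairK
      split_ifs
      · exact hK _ _
      · exact le_rfl
    · exact le_rfl
  · rcases Nat.eq_zero_or_pos k with h | h
    · subst h; simp
    · have : (1 : ℝ) ≤ k := by exact_mod_cast h
      exact mul_nonneg (by linarith) (by linarith)

/-- the pair `(p, q)` of coordinates of a population, replaced by `z` -/
def upd2 {k : ℕ} (x : Fin k → Ω) (p q : Fin k) (z : Ω × Ω) : Fin k → Ω :=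
  Function.update (Function.update x p z.1) q z.2

theorem upd2_left {k : ℕ} {x : Fin k → Ω} {p q : Fin k} (h : p ≠ q) (z : Ω × Ω) :
    upd2 x p q z p = z.1 := by
  unfold upd2
  rw [Function.update_of_ne h, Function.update_self]

theorem upd2_right {k : ℕ} (x : Fin k → Ω) (p q : Fin k) (z : Ω × Ω) :
    upd2 x p q z q = z.2 := by
  unfold upd2
  rw [Function.update_self]

theorem upd2_of_ne {k : ℕ} {x : Fin k → Ω} {p q i : Fin k} (h1 : i ≠ p) (h2 : i ≠ q)
    (z : Ω × Ω) : upd2 x p q z i = x i := by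
  unfold upd2
  rw [Function.update_of_ne h2, Function.update_of_ne h1]

theorem upd2_self {k : ℕ} {x : Fin k → Ω} {p q : Fin k} (h : p ≠ q) :
    upd2 x p q (x p, x q) = x := by
  funext i
  by_cases h1 : i = q
  · subst h1; rw [upd2_right]
  · by_cases h2 : i = p
    · subst h2; rw [upd2_left h]
    · rw [upd2_of_ne h2 h1]

theorem pairK_eq {k : ℕ} (K : Ω × Ω → Ω × Ω → ℝ) {p q : Fin k} (h : p ≠ q) (x y : Fin k → Ω) :
    Pop.pairK K p q x y = ∑ z : Ω × Ω, K (x p, x q) z * (if y = upd2 x p q z then 1 else 0) := by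
  unfold Pop.pairK
  split_ifs with h1
  · rw [Finset.sum_eq_single (y p, y q)]
    · rw [if_pos, mul_one]
      funext i
      by_cases hq : i = q
      · subst hq; rw [upd2_right]
      · by_cases hp : i = p
        · subst hp; rw [upd2_left h]
        · rw [upd2_of_ne hp hq, h1 i hp hq]
    · intro z _ hz
      rw [if_neg, mul_zero]
      intro hy
      apply hz
      rw [hy, upd2_left h, upd2_right]
    · intro hh; exact absurd (mem_univ _) hh
  · symm
    refine sum_eq_zero fun z _ => ?_
    rw [if_neg, mul_zero]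
    intro hy
    exact h1 fun i hp hq => by rw [hy, upd2_of_ne hp hq]

theorem sum_pairK_mul {k : ℕ} (K : Ω × Ω → Ω × Ω → ℝ) {p q : Fin k} (h : p ≠ q)
    (x : Fin k → Ω) (ψ : (Fin k → Ω) → ℝ) :
    ∑ y, Pop.pairK K p q x y * ψ y = ∑ z, K (x p, x q) z * ψ (upd2 x p q z) := by
  simp only [pairK_eq K h, sum_mul]
  rw [sum_comm]
  refine sum_congr rfl fun z _ => ?_
  have e : ∀ y, K (x p, x q) z * (if y = upd2 x p q z then (1 : ℝ) else 0) * ψ y =
      if y = upd2 x p q z then K (x p, x q) z * ψ y else 0 := by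
    intro y; split_ifs <;> ring
  simp only [e]
  rw [sum_ite_eq', if_pos (mem_univ _)]

theorem sum_ordered_pairs (k : ℕ) :
    ∑ p : Fin k, ∑ q : Fin k, (if p ≠ q then (1 : ℝ) else 0) = k * (k - 1) := by
  have h : ∀ p : Fin k, ∑ q : Fin k, (if p ≠ q then (1 : ℝ) else 0) = k - 1 := by
    intro p
    have h1 : ∀ q : Fin k, (if p ≠ q then (1 : ℝ) else 0) = 1 - (if q = p then 1 else 0) := by
      intro q
      by_cases hq : q = p
      · subst hq; simp
      · rw [if_pos (fun h => hq h.symm), if_neg hq]; ring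
    simp only [h1]
    rw [sum_sub_distrib, sum_ite_eq', if_pos (mem_univ _)]
    simp
  simp only [h, sum_const, card_univ, Fintype.card_fin, nsmul_eq_mul]

theorem sum_popK {k : ℕ} (hk : 2 ≤ k) {K : Ω × Ω → Ω × Ω → ℝ} (hK : ∀ z, ∑ z', K z z' = 1)
    (x : Fin k → Ω) : ∑ y, Pop.popK K x y = 1 := by
  unfold Pop.popK
  rw [← sum_div, sum_comm]
  have h1 : ∀ p : Fin k, ∑ y, ∑ q, (if p ≠ q then Pop.pairK K p q x y else 0) =
      ∑ q : Fin k, (if p ≠ q then (1 : ℝ) else 0) := by
    intro p
    rw [sum_comm]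
    refine sum_congr rfl fun q _ => ?_
    by_cases h : p ≠ q
    · simp only [if_pos h]
      have := sum_pairK_mul K h x (fun _ => 1)
      simp only [mul_one] at this
      rw [this, hK]
    · simp only [if_neg h, sum_const_zero]
  have h2 : ∑ p, ∑ y, ∑ q, (if p ≠ q then Pop.pairK K p q x y else 0) = (k : ℝ) * (k - 1) := by
    rw [← sum_ordered_pairs k]
    exact sum_congr rfl fun p _ => h1 p
  rw [h2]
  have hk2 : (2 : ℝ) ≤ k := by exact_mod_cast hk
  exact div_self (mul_pos (by linarith) (by linarith)).ne'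

/-- **The annealed population on the tape.** -/
theorem approx_anneal (hPA : Pop.PopAnneal) {S : Type*} (k τ : ℕ) (γ ε : ℝ) (π : T → Ω → ℝ)
    (K : T → Ω × Ω → Ω × Ω → ℝ) (t0 : T) (ts : List T)
    (hγ : 0 < γ) (hγ1 : γ ≤ 1) (hk : 6400 ≤ γ ^ 2 * k) (hε : 0 ≤ ε) (hkε : k * ε ^ 2 ≤ 1)
    (hpos : ∀ t ∈ t0 :: ts, ∀ a, 0 < π t a) (hsum : ∀ t ∈ t0 :: ts, ∑ a, π t a = 1)
    (hgood : ∀ t ∈ ts, Pop.GoodKernel (π t) (K t) γ)
    (hstep : ChainR (fun t t' => ∀ a, |π t a / π t' a - 1| ≤ ε) t0 ts)
    {enc : (Fin k → Ω) → S} {R0 : List Bool → S} {r0 : ℕ} {d0 : ℝ}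
    (h0 : Approx R0 r0 enc (prodLaw (π t0)) d0)
    {f : T → S → List Bool → S} {r : ℕ} {d : ℝ} (hd : 0 ≤ d)
    (hf : ∀ t ∈ ts, ∀ x, Approx (f t (enc x)) r enc (Pop.popK (K t) x) d) :
    Approx (fun l => L6.runL f r (stages τ ts) (R0 (l.take r0)) (l.drop r0))
      (r0 + ts.length * τ * r) enc (prodLaw (π (lastR t0 ts)))
      (d0 + ts.length * τ * d + annErr k τ ts.length γ ε) := by
  have hk2 : 2 ≤ k := by
    have h1 : γ ^ 2 ≤ 1 := pow_le_one₀ hγ.le hγ1
    have h2 : (6400 : ℝ) ≤ k := hk.trans (by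
      calc γ ^ 2 * k ≤ 1 * k := mul_le_mul_of_nonneg_right h1 (Nat.cast_nonneg _)
        _ = k := one_mul _)
    have : (6400 : ℕ) ≤ k := by exact_mod_cast h2
    omega
  have h1 := Approx.runL h0 (prodLaw_nonneg fun a => (hpos t0 (List.mem_cons_self ..) a).le)
    (sum_prodLaw_one k (hsum t0 (List.mem_cons_self ..))) (K := fun t => Pop.popK (K t)) hd
    (stages τ ts) (fun t ht => popK_nonneg (hgood t (mem_stages ht)).nonneg)
    (fun t ht => sum_popK hk2 (hgood t (mem_stages ht)).sum_one)
    (fun t ht => hf t (mem_stages ht))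
  have h2 := h1.change (annealL hPA k τ γ ε π K t0 ts hγ hγ1 hk hε hkε hpos hsum hgood hstep)
  rw [length_stages] at h2
  intro φ hφ
  refine (h2 φ hφ).trans (le_of_eq ?_)
  push_cast; ring

end

end Crest.Agent.R304.L6
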