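import Crest.Agent.R304.L6Main
import Crest.Agent.R304.Ctl787F
import Crest.Agent.R304.Fine922

/-!
# R304 / S0464, glue G4 (helper787): the macro tables of a history

`Lmac stf h j` is the symmetric extension of the controller weights after `h.take j`; it satisfies
`Fine922.Macro` as soon as all prefixes are `Good`, and its matching law is `gib prs`.
-/

set_option autoImplicit false
set_option linter.unusedSectionVars false

namespace Crest.Agent.R304.Glue4

open Finset Crest.Agent.R304.Ctl Crest.Agent.R304.L6 Fine922 GK922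

noncomputable section

variable {n : ℕ}

/-- symmetric extension of a table on the pairs `u < v`, constant `c1` on the diagonal -/
def sext (c1 : ℝ) (f : Pr n → ℝ) (u v : Fin n) : ℝ :=
  if h : u < v then f ⟨(u, v), h⟩ else if h : v < u then f ⟨(v, u), h⟩ else c1

theorem sext_lt {c1 : ℝ} {f : Pr n → ℝ} {u v : Fin n} (h : u < v) :
    sext c1 f u v = f ⟨(u, v), h⟩ := by
  unfold sext; rw [dif_pos h]

theorem sext_gt {c1 : ℝ} {f : Pr n → ℝ} {u v : Fin n} (h : v < u) :
    sext c1 f u v = f ⟨(v, u), h⟩ := by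
  unfold sext; rw [dif_neg (not_lt.2 h.le), dif_pos h]

theorem sext_pr {c1 : ℝ} {f : Pr n → ℝ} (p : Pr n) : sext c1 f p.1.1 p.1.2 = f p :=
  sext_lt p.2

theorem sext_symm {c1 : ℝ} {f : Pr n → ℝ} (u v : Fin n) : sext c1 f u v = sext c1 f v u := by
  rcases lt_trichotomy u v with h | h | h
  · rw [sext_lt h, sext_gt h]
  · rw [h]
  · rw [sext_gt h, sext_lt h]

theorem sext_pos {c1 : ℝ} (hc : 0 < c1) {f : Pr n → ℝ} (hf : ∀ e, 0 < f e) (u v : Fin n) :
    0 < sext c1 f u v := by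
  unfold sext
  split_ifs
  · exact hf _
  · exact hf _
  · exact hc

theorem sext_le {c1 r : ℝ} (hc : 0 < c1) (hr : 1 ≤ r) {f g : Pr n → ℝ}
    (h : ∀ e, f e ≤ r * g e) (u v : Fin n) : sext c1 f u v ≤ r * sext c1 g u v := by
  unfold sext
  split_ifs
  · exact h _
  · exact h _
  · nlinarith

theorem wo_sext (c1 : ℝ) (f : Pr n → ℝ) (s : Mov.Om (Fin n)) :
    wo (sext c1 f) s = wt prs f s := by
  have h := wt_prs (sext c1 f) s
  have e : (fun p : Pr n => sext c1 f p.1.1 p.1.2) = f := funext fun p => sext_pr p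
  rw [e] at h
  rw [h]
  rfl

theorem Zw_sext (c1 : ℝ) (f : Pr n → ℝ) : Br.Zw (sext c1 f) = Z prs f := by
  unfold Br.Zw Z
  exact sum_congr rfl fun s _ => wo_sext c1 f s

theorem law_sext (c1 : ℝ) (f : Pr n → ℝ) :
    GoodK.law (wo (sext c1 f)) = gib prs f := by
  funext s
  rw [law_eq, Zw_sext]
  have h := wo_sext c1 f s
  unfold wo at h
  rw [h]
  rfl

theorem sum_fiber (c1 : ℝ) (f : Pr n → ℝ) (p : Pr n) :
    ∑ s : Mov.Om (Fin n), (if s.1 p.1.1 = p.1.2 then Br.wt (sext c1 f) s.1 else 0) =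
      ∑ s ∈ univ.filter (fun s => p ∈ prs s), wt prs f s := by
  rw [sum_filter]
  refine sum_congr rfl fun s _ => ?_
  have h := wo_sext c1 f s
  unfold wo at h
  rw [h]
  by_cases hs : s.1 p.1.1 = p.1.2
  · rw [if_pos hs, if_pos (mem_prs.2 hs)]
  · rw [if_neg hs, if_neg (fun h' => hs (mem_prs.1 h'))]

/-- well-conditioning from the marginals -/
theorem wc_sext [Nonempty (Mov.Om (Fin n))] {c1 Q : ℝ} (hQ : 0 < Q) {f : Pr n → ℝ}
    (hf : ∀ e, 0 < f e) (hm : ∀ e, 1 / Q ≤ marg prs f e) : WC Q (sext c1 f) := by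
  have key : ∀ p : Pr n, Br.Zw (sext c1 f) ≤
      Q * ∑ s : Mov.Om (Fin n), (if s.1 p.1.1 = p.1.2 then Br.wt (sext c1 f) s.1 else 0) := by
    intro p
    rw [sum_fiber, Zw_sext]
    have h1 := hm p
    unfold marg at h1
    have hZ : 0 < Z prs f := Z_pos prs hf
    rw [div_le_div_iff₀ hQ hZ] at h1
    linarith
  intro u v huv
  rcases lt_or_gt_of_ne huv with h | h
  · exact key ⟨(u, v), h⟩
  · have h2 := key ⟨(v, u), h⟩
    refine h2.trans (le_of_eq ?_)
    congr 1
    refine sum_congr rfl fun s _ => ?_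
    have : (s.1 v = u) ↔ (s.1 u = v) := by
      constructor
      · intro h3; rw [← h3]; exact (s.2 v).1
      · intro h3; rw [← h3]; exact (s.2 u).1
    simp only [this]

/-! ### moves of the controller -/

/-- the three moves, without estimates -/
def MvStep {E : Type*} [DecidableEq E] (S : ℕ) (st st' : St E) : Prop :=
  (∃ e, st' = ⟨st.s, Function.update st.a e (st.a e + 1)⟩) ∨
  (∃ e, st' = ⟨st.s, Function.update st.a e (st.a e - 1)⟩) ∨
  st' = ⟨min (st.s + 1) S, st.a⟩

theorem MvStep.lamw {Ω E : Type*} [Fintype Ω] [Fintype E] [DecidableEq E] {N d q m W gd : ℕ}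
    (hp : Par Ω N d q m W gd) (G : E → Prop) [DecidablePred G] {S : ℕ}
    {st st' : St E} (h : MvStep S st st') (hs' : st.s ≤ S) (e : E) :
    lamw G (w0 q d) m st' e ≤ ((m:ℝ) + 1) / m * lamw G (w0 q d) m st e ∧
    lamw G (w0 q d) m st e ≤ ((m:ℝ) + 1) / m * lamw G (w0 q d) m st' e := by
  rcases h with ⟨f, hf⟩ | ⟨f, hf⟩ | hf
  · exact lamw_step (q := q) (gd := gd) (xh := fun _ => 1 / (q:ℝ) - 1 / gd) hp G
      (Or.inl ⟨f, le_rfl, hf⟩) hs' e
  · exact lamw_step (q := q) (gd := gd) (xh := fun _ => 1 / (q:ℝ) + 1 / gd) hp G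
      (Or.inr (Or.inl ⟨f, le_rfl, hf⟩)) hs' e
  · refine lamw_step (q := q) (gd := gd) (xh := fun _ => 1 / (q:ℝ)) hp G
      (Or.inr (Or.inr ⟨fun _ => ?_, hf⟩)) hs' e
    rw [sub_self, abs_zero]; positivity

/-! ### the macro tables -/

section macro_

variable {κ : Type*} (G : Pr n → Prop) [DecidablePred G] (q m : ℕ)

/-- macro tables of a history -/
def Lmac (stf : List κ → St (Pr n)) (h : List κ) (j : ℕ) : Fin n → Fin n → ℝ :=
  sext (1 + w0 q (n - 1)) (lamH G (n - 1) q m stf (h.take j))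

variable {G q m}

theorem Lmac_lt (stf : List κ → St (Pr n)) (h : List κ) (j : ℕ) {u v : Fin n} (huv : u < v) :
    Lmac G q m stf h j u v = lamH G (n - 1) q m stf (h.take j) ⟨(u, v), huv⟩ :=
  sext_lt huv

theorem law_Lmac (stf : List κ → St (Pr n)) (h : List κ) :
    GoodK.law (wo (Lmac G q m stf h h.length)) = gib prs (lamH G (n - 1) q m stf h) := by
  unfold Lmac
  rw [law_sext, List.take_length]

theorem Lmac_zero {stf : List κ → St (Pr n)} (h0 : stf [] = st0) (h : List κ) (u v : Fin n) :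
    Lmac G q m stf h 0 u v = 1 + w0 q (n - 1) := by
  have e : lamH G (n - 1) q m stf (h.take 0) = fun _ => 1 + w0 q (n - 1) := by
    funext e
    unfold lamH
    rw [List.take_zero, h0]
    unfold lamw Aw omw st0
    simp
  unfold Lmac
  rw [e]
  unfold sext
  split_ifs <;> rfl

variable {W gd : ℕ}

theorem c1_pos (hp : Par (Mov.Om (Fin n)) (n / 2) (n - 1) q m W gd) :
    (0 : ℝ) < 1 + w0 q (n - 1) := by
  have := hp.w0_pos
  linarith

theorem step_take {stf : List κ → St (Pr n)} {C : Finset κ} {R : ℕ}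
    (step : ∀ h c, h.length < R → (∀ c ∈ h, c ∈ C) → c ∈ C → ∀ e,
      lamH G (n - 1) q m stf (h ++ [c]) e ≤ ((m : ℝ) + 1) / m * lamH G (n - 1) q m stf h e ∧
      lamH G (n - 1) q m stf h e ≤ ((m : ℝ) + 1) / m * lamH G (n - 1) q m stf (h ++ [c]) e)
    {h : List κ} (hR : h.length ≤ R) (hC : ∀ c ∈ h, c ∈ C) (t : ℕ) (ht : t < h.length)
    (e : Pr n) :
    lamH G (n - 1) q m stf (h.take (t + 1)) e ≤
        ((m : ℝ) + 1) / m * lamH G (n - 1) q m stf (h.take t) e ∧
      lamH G (n - 1) q m stf (h.take t) e ≤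
        ((m : ℝ) + 1) / m * lamH G (n - 1) q m stf (h.take (t + 1)) e := by
  have e1 : h.take (t + 1) = h.take t ++ [h[t]] := by
    rw [List.take_succ_eq_append_getElem ht]
  rw [e1]
  refine step (h.take t) h[t] ?_ ?_ ?_ e
  · rw [List.length_take]; omega
  · intro c hc; exact hC c (List.mem_of_mem_take hc)
  · exact hC _ (List.getElem_mem ht)

/-- **(G4)** the macro structure -/
theorem macro_of (hev : Even n) (h3 : 3 ≤ n)
    (hp : Par (Mov.Om (Fin n)) (n / 2) (n - 1) q m W gd)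
    {stf : List κ → St (Pr n)} {h : List κ}
    (hgood : ∀ t ≤ h.length, Good prs G (n / 2) (n - 1) q m W (stf (h.take t)))
    (hstep : ∀ t < h.length, ∀ e,
      lamH G (n - 1) q m stf (h.take (t + 1)) e ≤
        ((m : ℝ) + 1) / m * lamH G (n - 1) q m stf (h.take t) e ∧
      lamH G (n - 1) q m stf (h.take t) e ≤
        ((m : ℝ) + 1) / m * lamH G (n - 1) q m stf (h.take (t + 1)) e) :
    Macro n m h.length (8 * (q : ℝ)) (Lmac G q m stf h) := by
  have hne : Nonempty (Mov.Om (Fin n)) := GK922.nonempty_Om hev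
  have hc := c1_pos hp
  have hm := hp.mpos
  have hm' : (0 : ℝ) < m := by exact_mod_cast hm
  have hq1 : 1 ≤ q := hp.qpos
  have hq' : (1 : ℝ) ≤ q := by exact_mod_cast hq1
  have hr : ((m : ℝ) + 1) / m = 1 + 1 / (m : ℝ) := by field_simp
  have hr1 : (1 : ℝ) ≤ 1 + 1 / (m : ℝ) := r_ge m
  refine ⟨hev, h3, ?_, by linarith, ?_, ?_, ?_, ?_, ?_⟩
  · have h1 := hp.hm1
    have h2 := hp.hq
    have h4 : 1 ≤ n / 2 := by omega
    have h5 : 1 ≤ n - 1 := by omega
    have h6 : 16 ≤ q := by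
      have : 1 * 1 ≤ n / 2 * (n - 1) := Nat.mul_le_mul h4 h5
      omega
    have h7 : 2 * q * (n / 2) = q * n := by
      obtain ⟨k, hk⟩ := hev
      have : n / 2 = k := by omega
      rw [this, hk]; ring
    rw [h7] at h1
    have h8 : 2 * n ≤ q * n := Nat.mul_le_mul_right _ (by omega)
    omega
  · intro t _ u v
    exact sext_pos hc (fun e => lamH_pos hp stf _ e) u v
  · intro t _ u v
    exact sext_symm u v
  · intro t ht u v
    exact sext_le hc hr1 (fun e => by rw [← hr]; exact (hstep t ht e).1) u v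
  · intro t ht u v
    exact sext_le hc hr1 (fun e => by rw [← hr]; exact (hstep t ht e).2) u v
  · intro t ht
    refine wc_sext (by linarith) (fun e => lamH_pos hp stf _ e) fun e => ?_
    exact (hgood t ht).marg_ge hp e

/-- **(G4)** the macro structure, from the `step` field of `LoopData` -/
theorem macro_of_step (hev : Even n) (h3 : 3 ≤ n)
    (hp : Par (Mov.Om (Fin n)) (n / 2) (n - 1) q m W gd)
    {stf : List κ → St (Pr n)} {C : Finset κ} {R : ℕ}
    (step : ∀ h c, h.length < R → (∀ c ∈ h, c ∈ C) → c ∈ C → ∀ e,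
      lamH G (n - 1) q m stf (h ++ [c]) e ≤ ((m : ℝ) + 1) / m * lamH G (n - 1) q m stf h e ∧
      lamH G (n - 1) q m stf h e ≤ ((m : ℝ) + 1) / m * lamH G (n - 1) q m stf (h ++ [c]) e)
    {h : List κ} (hR : h.length ≤ R) (hC : ∀ c ∈ h, c ∈ C)
    (hgood : ∀ t ≤ h.length, Good prs G (n / 2) (n - 1) q m W (stf (h.take t))) :
    Macro n m h.length (8 * (q : ℝ)) (Lmac G q m stf h) :=
  macro_of hev h3 hp hgood (fun t ht e => step_take step hR hC t ht e)

end macro_

end

end Crest.Agent.R304.Glue4
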