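import Crest.Agent.R304.L6Core
import Crest.Agent.R304.Glue787
import Crest.Agent.R304.Glue180B
import Crest.Agent.R304.Core180
import Crest.Agent.R304.Top119

/-!
# R304 / S0464 (helper168): final assembly
-/

set_option autoImplicit false
set_option linter.unusedSectionVars false

namespace Crest.Agent.R304.Glue

open Finset Crest.Agent.R309.Tape
open Crest.Agent.R304.Loop Crest.Agent.R304.Sim Crest.Agent.R304.LM Crest.Agent.R304.Samp
open Crest.Agent.R304.Ctl Crest.Agent.R304.L6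
open Crest.Agent.R304.GK922 Crest.Agent.R304.Fine922

noncomputable section

variable {P : Prm}

/-- **the macro tables of the histories** -/
theorem macroHyp (hw : WtHyp P) (hst : StHyp P) (hev : Even P.n) (h4 : 4 ≤ P.n)
    (hS : P.S = Smax P.m (P.n ^ 2))
    (hp : Par (Mov.Om (Fin P.n)) (P.n / 2) (P.n - 1) P.q P.m (P.n ^ 2) P.gd) (hk : 0 < P.k)
    (hq : P.q = 8 * P.n ^ 2) : MacroHyp P := by
  intro h hh hC hg
  have hD := loopData hw hst hS hp hk
  refine ⟨Glue4.Lmac (GP P) P.q P.m (stf P) h, 1 + w0 P.q (P.n - 1), Glue4.c1_pos hp,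
    fun u v => Glue4.Lmac_zero hst.nil h u v, ?_, ?_, fun s => ?_⟩
  · have h1 := Glue4.macro_of_step hev (by omega) hp hD.step hh hC hg
    have e : (8 : ℝ) * (P.q : ℝ) = 8 * (8 * (P.n : ℝ) ^ 2) := by
      rw [hq]; push_cast; ring
    rw [e] at h1
    exact h1
  · intro j _ u v huv
    rw [Glue4.Lmac_lt (stf P) h j huv]
    exact hw.lam_eq (h.take j) ((by simp [List.length_take]; omega)) ⟨(u, v), huv⟩
  · rw [Glue4.law_Lmac]

/-! ### the starting value -/

theorem dfact_eq (N : ℕ) : (2 * N - 1).doubleFactorial = ∏ i ∈ range N, (2 * i + 1) := by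
  induction N with
  | zero => rfl
  | succ N ih =>
    rw [prod_range_succ, ← ih]
    rcases Nat.eq_zero_or_pos N with rfl | hN
    · rfl
    · have e : 2 * (N + 1) - 1 = (2 * N - 1) + 2 := by omega
      rw [e, Nat.doubleFactorial_add_two]
      have e2 : 2 * N - 1 + 2 = 2 * N + 1 := by omega
      rw [e2, mul_comm]

theorem Z0_real (hst : StHyp P) (hev : Even P.n) (h4 : 4 ≤ P.n) (hq : P.n - 1 < P.q) :
    ((Z0 P : ℚ) : ℝ) = Z prs (lamH (GP P) (P.n - 1) P.q P.m (stf P) []) := by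
  have hs : Sys (prs (n := P.n)) (P.n / 2) (P.n - 1) := sys_prs (by omega)
  have e1 : lamH (GP P) (P.n - 1) P.q P.m (stf P) [] = fun _ => 1 + w0 P.q (P.n - 1) := by
    unfold lamH
    rw [hst.nil, lamw_st0]
  have hqR : ((P.n - 1 : ℕ) : ℝ) < (P.q : ℝ) := by exact_mod_cast hq
  have e2 : 1 + w0 P.q (P.n - 1) = (P.q : ℝ) / ((P.q - (P.n - 1) : ℕ) : ℝ) := by
    rw [Nat.cast_sub hq.le]
    unfold w0
    have : (0 : ℝ) < (P.q : ℝ) - ((P.n - 1 : ℕ) : ℝ) := by linarith
    field_simp
    ring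
  have e3 : Fintype.card (Mov.Om (Fin P.n)) = ∏ i ∈ range (P.n / 2), (2 * i + 1) := by
    rw [Br.card_Om (by rw [Fintype.card_fin]; exact hev), Fintype.card_fin, ← dfact_eq]
    congr 1
    obtain ⟨k, hk⟩ := hev
    omega
  rw [e1, Z_const hs, e2, e3]
  unfold Z0
  push_cast
  ring

theorem cntG_GP (P : Prm) (G : SimpleGraph (Fin P.n)) [DecidableRel G.Adj]
    (hb : P.bits = Top119.adjBits P.n G) :
    cntG prs (GP P) = Crest.Matchings.numPerfectMatchings G := by
  rw [Br.numPM_eq, ← cntG_prs (fun u v => G.Adj u v) (fun u v h => h.symm)]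
  unfold cntG
  congr 1
  refine filter_congr fun s _ => ?_
  refine forall₂_congr fun e _ => ?_
  exact Core180.adj_iff P G hb e.1.1 e.1.2

/-! ### the choice of the parameters -/

/-- what is needed of the parameter function -/
structure PrmOK (prm : Top119.Inp → Prm) : Prop where
  pt : PrmPT prm
  hn : ∀ I, (prm I).n = I.1.val
  hbits : ∀ I, (prm I).bits = I.2.1
  hk : ∀ I, 0 < (prm I).k
  hq : ∀ I, (prm I).q = 8 * (prm I).n ^ 2
  hL : ∀ I, (prm I).R ≤ (prm I).L
  num : ∀ I, Even I.1.val → 4 ≤ I.1.val → 1 ≤ I.2.2.val → NumHyp (prm I) I.2.2.val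

/-- **The core estimator from the parameters.** -/
theorem core_of_ok {prm : Top119.Inp → Prm} (ok : PrmOK prm) : Top119.Core := by
  refine Core180.core_of prm ok.pt ok.hn ok.hbits ok.hk ?_
  intro n G _ E hev h4 hE hN
  have hnum := ok.num (Top119.inp n G E) hev h4 hE
  have hq := ok.hq (Top119.inp n G E)
  have hL := ok.hL (Top119.inp n G E)
  have hPn : (prm (Top119.inp n G E)).n = n := ok.hn _
  have hPb : (prm (Top119.inp n G E)).bits = Top119.adjBits n G := ok.hbits _
  have hPk := ok.hk (Top119.inp n G E)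
  change NumHyp (prm (Top119.inp n G E)) E at hnum
  generalize prm (Top119.inp n G E) = P at hnum hq hL hPn hPb hPk ⊢
  subst hPn
  have hmpos : 0 < P.m := hnum.par.mpos
  have hqlt : P.n - 1 < P.q := by
    rw [hq]
    nlinarith [Nat.sub_le P.n 1]
  have hw : WtHyp P := Glue180.wtHyp P hmpos hqlt hL
  have hst : StHyp P := Glue180.stHyp P
  have hM : MacroHyp P := macroHyp hw hst hev h4 hnum.hS hnum.par hPk hq
  have hcnt : cntG prs (GP P) = Crest.Matchings.numPerfectMatchings G := cntG_GP P G hPb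
  have h := est_real hw hst hE hnum hM (Z0_real hst hev h4 hqlt) (Glue180.card_Pr_le P.n)
    (Glue180.card_mvSet_le P) (by rw [hcnt]; exact hN)
  rw [hcnt] at h
  refine h.trans (le_of_eq (pr_congr fun t _ => ?_))
  have e1 : ((1 - 1 / (E : ℝ)) * (Crest.Matchings.numPerfectMatchings G : ℝ)) =
      (((1 - 1 / (E : ℚ)) * (Crest.Matchings.numPerfectMatchings G : ℚ) : ℚ) : ℝ) := by
    push_cast; ring
  have e2 : ((1 + 1 / (E : ℝ)) * (Crest.Matchings.numPerfectMatchings G : ℝ)) =
      (((1 + 1 / (E : ℚ)) * (Crest.Matchings.numPerfectMatchings G : ℚ) : ℚ) : ℝ) := by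
    push_cast; ring
  rw [e1, e2, Rat.cast_le, Rat.cast_le]

end

end Crest.Agent.R304.Glue
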