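import Crest.Agent.R304.Lab922

/-!
# R304 / S0464: `GoodKernel` from Theorem L

Theorem L is used in the form
`∑ s ∈ pms V, ∑ t ∈ pms V, W g s * W g t * (f s - f t) ^ 2 ≤ K * En g f` for all `f`.
-/

set_option autoImplicit false
set_option linter.unusedSectionVars false

noncomputable section

namespace Crest.Agent.R304.Good922

open Finset Lab922

variable {V : Type} [Fintype V] [DecidableEq V]

/-- weight of a perfect matching -/
def Wo (g : V → V → ℝ) (s : Mov.Om V) : ℝ := W g s.1

theorem Wo_pos {g : V → V → ℝ} (hg : ∀ u v, 0 < g u v) (s : Mov.Om V) : 0 < Wo g s :=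
  W_pos hg _

/-- extension of a function on perfect matchings by zero -/
def ext (f : Mov.Om V → ℝ) (s : V → V) : ℝ :=
  if h : ∀ v, s (s v) = v ∧ s v ≠ v then f ⟨s, h⟩ else 0

@[simp] theorem ext_coe (f : Mov.Om V → ℝ) (s : Mov.Om V) : ext f s.1 = f s := by
  unfold ext
  rw [dif_pos s.2]

/-- the variance as a double sum -/
theorem double_sum {Ω : Type*} [Fintype Ω] (w f : Ω → ℝ) :
    ∑ s, ∑ t, w s * w t * (f s - f t) ^ 2 =
      2 * (∑ s, w s) * (∑ s, w s * f s ^ 2) - 2 * (∑ s, w s * f s) ^ 2 := by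
  have h : ∀ s t, w s * w t * (f s - f t) ^ 2 =
      w t * (w s * f s ^ 2) + w s * (w t * f t ^ 2) - 2 * ((w s * f s) * (w t * f t)) := by
    intro s t; ring
  simp only [h, Finset.sum_sub_distrib, Finset.sum_add_distrib, ← Finset.mul_sum,
    ← Finset.sum_mul]
  ring

/-- **GoodKernel from Theorem L** -/
theorem goodKernel_of_L [Nonempty V] [Nonempty (Mov.Om V)] {g : V → V → ℝ} (hg : ∀ u v, 0 < g u v) {K : ℝ}
    (hK : 0 < K) (hL : ∀ f : (V → V) → ℝ,
      ∑ s ∈ pms V, ∑ t ∈ pms V, W g s * W g t * (f s - f t) ^ 2 ≤ K * En g f) :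
    Pop.GoodKernel (GoodK.law (Wo g)) (GoodK.hb (GoodK.pw (Wo g)) (tauL (V := V)))
      (1 / (16 * K * (Fintype.card V : ℝ) ^ 4)) := by
  have hne : Nonempty (LabT V) := ⟨((0 : Fin 4), Classical.arbitrary V, Classical.arbitrary V,
    Classical.arbitrary V, Classical.arbitrary V)⟩
  have hW := Wo_pos hg
  have key := GoodK.good_of_energy (Ω := Mov.Om V) (L := LabT V) hW (tauL (V := V)) tauL_tauL
    (C := K / 2) (by positivity) ?_
  · have hc : (1 : ℝ) / (8 * (K / 2) * (Fintype.card (LabT V) : ℝ)) =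
        1 / (16 * K * (Fintype.card V : ℝ) ^ 4) := by
      rw [card_labT]
      push_cast
      congr 1
      ring
    rw [hc] at key
    exact key
  · intro f hf
    have h1 := hL (ext f)
    have h2 := En_le_EL hg (ext f)
    set S : ℝ := ∑ y, Wo g y with hS
    have hSpos : 0 < S := sum_pos (fun y _ => hW y) univ_nonempty
    have h3 : ∑ s ∈ pms V, ∑ t ∈ pms V, W g s * W g t * (ext f s - ext f t) ^ 2 =
        ∑ s, ∑ t, Wo g s * Wo g t * (f s - f t) ^ 2 := by
      rw [sum_pms]
      refine Finset.sum_congr rfl fun s _ => ?_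
      rw [sum_pms]
      refine Finset.sum_congr rfl fun t _ => ?_
      rw [ext_coe, ext_coe]
      rfl
    rw [h3, double_sum] at h1
    have h4 : ∑ s, Wo g s * f s = 0 := by
      have : ∑ s, GoodK.law (Wo g) s * f s = (∑ s, Wo g s * f s) / S := by
        unfold GoodK.law
        rw [Finset.sum_div]
        refine Finset.sum_congr rfl fun s _ => ?_
        rw [← hS]; ring
      rw [this] at hf
      rcases div_eq_zero_iff.1 hf with h | h
      · exact h
      · exact absurd h hSpos.ne'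
    have h5 : S ^ 2 * ∑ a, GoodK.law (Wo g) a * f a ^ 2 = S * ∑ s, Wo g s * f s ^ 2 := by
      have : ∑ a, GoodK.law (Wo g) a * f a ^ 2 = (∑ s, Wo g s * f s ^ 2) / S := by
        unfold GoodK.law
        rw [Finset.sum_div]
        refine Finset.sum_congr rfl fun s _ => ?_
        rw [← hS]; ring
      rw [this]
      field_simp
    rw [h4] at h1
    have h6 : EL g (ext f) = ∑ l : LabT V, ∑ z : Mov.Om V × Mov.Om V,
        min (GoodK.pw (Wo g) z) (GoodK.pw (Wo g) (tauL l z)) *
          ((f z.1 + f z.2) - (f (tauL l z).1 + f (tauL l z).2)) ^ 2 := by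
      unfold EL el wz Fz GoodK.pw Wo
      simp only [ext_coe]
    rw [h5, ← h6]
    have h7 : 2 * S * ∑ s, Wo g s * f s ^ 2 ≤ K * En g (ext f) := by
      have : 2 * S * (∑ s, Wo g s * f s ^ 2) - 2 * (0 : ℝ) ^ 2 ≤ K * En g (ext f) := h1
      simpa using this
    nlinarith [mul_le_mul_of_nonneg_left h2 hK.le]

end Crest.Agent.R304.Good922

end
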