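import Crest.Agent.R304.Br555
import Crest.Agent.R304.Good922

/-!
# R304 / S0464: well conditioned weights have a good pair kernel (assembly from Theorem L)
-/

set_option autoImplicit false
set_option linter.unusedSectionVars false

noncomputable section

namespace Crest.Agent.R304.GK922

open Finset Lab922 Good922

/-- Theorem L (delivered by the combinatorial part) as a hypothesis: `K c0` is the constant. -/
def ThmL (n : ℕ) (K : ℝ → ℝ) : Prop :=
  ∀ a : Fin n → Fin n → ℝ, (∀ u v, 0 < a u v) → (∀ u v, a u v = a v u) → (∀ v, a v v = 1) →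
    ∀ c0 : ℝ, 0 < c0 → c0 ≤ 1 → Nonempty (Nodes.NodeSys (Fin n) (lam a) c0) →
      ∀ f : (Fin n → Fin n) → ℝ,
        ∑ s ∈ pms (Fin n), ∑ t ∈ pms (Fin n), W a s * W a t * (f s - f t) ^ 2 ≤ K c0 * En a f

/-- the constant of the node system -/
def c0 (n : ℕ) (q : ℝ) : ℝ := 1 / (q * ((q ^ 2 + 1) * n))

theorem c0_pos {n : ℕ} (hn : 3 ≤ n) {q : ℝ} (hq : 1 ≤ q) : 0 < c0 n q := by
  unfold c0
  have : (0 : ℝ) < n := by exact_mod_cast (by omega : 0 < n)
  positivity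

theorem c0_le_one {n : ℕ} (hn : 3 ≤ n) {q : ℝ} (hq : 1 ≤ q) : c0 n q ≤ 1 := by
  unfold c0
  have h1 : (1 : ℝ) ≤ n := by exact_mod_cast (by omega : 1 ≤ n)
  have h2 : (1 : ℝ) ≤ q ^ 2 + 1 := by nlinarith [sq_nonneg q]
  have h3 : (1 : ℝ) ≤ (q ^ 2 + 1) * n := by nlinarith
  have h4 : (1 : ℝ) ≤ q * ((q ^ 2 + 1) * n) := by nlinarith
  rw [div_le_one (by linarith)]
  exact h4

/-- the weight of a perfect matching -/
def wo {n : ℕ} (lam : Fin n → Fin n → ℝ) (s : Mov.Om (Fin n)) : ℝ := Br.wt lam s.1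

theorem wo_pos {n : ℕ} {lam : Fin n → Fin n → ℝ} (h : ∀ u v, 0 < lam u v) (s : Mov.Om (Fin n)) :
    0 < wo lam s := Br.wt_pos h _

theorem wo_eq {n : ℕ} {lam : Fin n → Fin n → ℝ} (h : ∀ u v, 0 < lam u v)
    (hs : ∀ u v, lam u v = lam v u) : wo lam = Wo (Br.half lam) := by
  funext s
  exact Br.wt_eq_W h hs (fun v => (s.2 v).1)

theorem nonempty_Om {n : ℕ} (hev : Even n) : Nonempty (Mov.Om (Fin n)) := by
  have : 0 < Fintype.card (Mov.Om (Fin n)) := by
    rw [Br.card_Om (by rwa [Fintype.card_fin])]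
    exact Nat.doubleFactorial_pos _
  exact Fintype.card_pos_iff.1 this

/-- the gap constant -/
def gam (n : ℕ) (K : ℝ → ℝ) (q : ℝ) : ℝ := 1 / (16 * K (c0 n q) * (n : ℝ) ^ 4)

theorem gam_pos {n : ℕ} (hn : 3 ≤ n) {K : ℝ → ℝ} {q : ℝ} (hK : 0 < K (c0 n q)) :
    0 < gam n K q := by
  unfold gam
  have : (0 : ℝ) < n := by exact_mod_cast (by omega : 0 < n)
  positivity

/-- **Well conditioned weights have a good pair kernel.** -/
theorem good_of_wc {n : ℕ} {lam : Fin n → Fin n → ℝ} (h : ∀ u v, 0 < lam u v)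
    (hs : ∀ u v, lam u v = lam v u) (hn : 3 ≤ n) (hev : Even n) {q : ℝ} (hq : 1 ≤ q)
    (wc : ∀ u v, u ≠ v →
      Br.Zw lam ≤ q * ∑ s : Mov.Om (Fin n), (if s.1 u = v then Br.wt lam s.1 else 0))
    {K : ℝ → ℝ} (hK : 0 < K (c0 n q)) (hL : ThmL n K) :
    Pop.GoodKernel (GoodK.law (wo lam)) (GoodK.hb (GoodK.pw (wo lam)) (tauL (V := Fin n)))
      (gam n K q) := by
  have hne : Nonempty (Mov.Om (Fin n)) := nonempty_Om hev
  have hneV : Nonempty (Fin n) := ⟨⟨0, by omega⟩⟩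
  have hnodes := Br.nodes_of_wc h hs hn hev hq wc
  have key := goodKernel_of_L (V := Fin n) (g := Br.half lam) (Br.half_pos h) hK
    (hL (Br.half lam) (Br.half_pos h) (Br.half_symm hs) (Br.half_self lam) (c0 n q)
      (c0_pos hn hq) (c0_le_one hn hq) hnodes)
  rw [← wo_eq h hs] at key
  have e : gam n K q = 1 / (16 * K (c0 n q) * (Fintype.card (Fin n) : ℝ) ^ 4) := by
    unfold gam; rw [Fintype.card_fin]
  rw [e]
  convert key

end Crest.Agent.R304.GK922

end
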