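import Crest.Agent.R304.CycleE
import Crest.Agent.R304.ConfQ3
import Crest.Agent.R304.GK922

/-!
# R304 / S0464 : Theorem L in the form needed by `GK922.ThmL`, from `lemmaQ`
-/

set_option autoImplicit false
set_option linter.unusedSectionVars false

namespace Crest.Agent.R304

open Finset
open _root_.Crest.Agent.R304.Rel (cutp pres cutL presL)
open CQ (Krep)

section EnGd
variable {V : Type} [Fintype V] [DecidableEq V]

theorem W_congr_pms {a a' : V → V → ℝ} (h : ∀ u v, u ≠ v → a u v = a' u v) {s : V → V}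
    (hs : s ∈ pms V) : W a s = W a' s :=
  Finset.prod_congr rfl fun v _ => h _ _ ((mem_pms.1 hs).2 v).symm

theorem Zh_congr {a a' : V → V → ℝ} (h : ∀ u v, u ≠ v → a u v = a' u v) :
    Zh a ∅ = Zh a' ∅ := by
  unfold Zh
  rw [st_empty]
  exact Finset.sum_congr rfl fun s hs => W_congr_pms h hs

/-- the energy on perfect matchings does not see the diagonal -/
theorem En_congr {a a' : V → V → ℝ} (h : ∀ u v, u ≠ v → a u v = a' u v) (f : (V → V) → ℝ) :
    En a f = En a' f := by
  unfold En
  rw [Zh_congr h]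
  congr 1
  · congr 1
    · congr 1
      unfold Esw
      refine Finset.sum_congr rfl fun s hs => Finset.sum_congr rfl fun u _ =>
        Finset.sum_congr rfl fun v _ => ?_
      split_ifs with hc
      · rw [W_congr_pms h hs, W_congr_pms h (Lab922.sw_mem_pms hs hc.1 hc.2)]
      · rfl
    · unfold Eex
      refine Finset.sum_congr rfl fun s hs => Finset.sum_congr rfl fun t ht =>
        Finset.sum_congr rfl fun v _ => ?_
      rw [W_congr_pms h hs, W_congr_pms h ht]
  · unfold E2
    refine Finset.sum_congr rfl fun s hs => Finset.sum_congr rfl fun t ht =>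
      Finset.sum_congr rfl fun p _ => Finset.sum_congr rfl fun q _ => ?_
    split_ifs with hc
    · have h2 := Lab922.two_mem hs ht hc
      rw [W_congr_pms h hs, W_congr_pms h ht, W_congr_pms h h2.1, W_congr_pms h h2.2]
    · rfl

theorem gd_off {a : V → V → ℝ} {b : V → ℝ} {u v : V} (h : u ≠ v) : gd a b u v = a u v := by
  unfold gd; rw [if_neg h]

theorem gd_diag {a : V → V → ℝ} {b : V → ℝ} {v : V} : gd a b v v = b v := by
  unfold gd; rw [if_pos rfl]

theorem En_gd (a : V → V → ℝ) (b : V → ℝ) (f : (V → V) → ℝ) : En (gd a b) f = En a f :=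
  En_congr (fun _ _ h => gd_off h) f

theorem En_nonneg' {a : V → V → ℝ} (ha : ∀ u v, 0 < a u v) (f : (V → V) → ℝ) : 0 ≤ En a f := by
  have h1 := fun s => (W_pos ha s : 0 < W a s).le
  unfold En
  refine add_nonneg (add_nonneg (mul_nonneg (Zh_nonneg ha _) ?_) ?_) ?_
  · refine Finset.sum_nonneg fun s _ => Finset.sum_nonneg fun u _ => Finset.sum_nonneg fun v _ => ?_
    split_ifs
    · exact mul_nonneg (le_min (h1 _) (h1 _)) (sq_nonneg _)
    · exact le_rfl
  · exact Finset.sum_nonneg fun s _ => Finset.sum_nonneg fun u _ => Finset.sum_nonneg fun v _ =>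
      mul_nonneg (mul_nonneg (h1 _) (h1 _)) (sq_nonneg _)
  · refine Finset.sum_nonneg fun s _ => Finset.sum_nonneg fun u _ => Finset.sum_nonneg fun v _ =>
      Finset.sum_nonneg fun q _ => ?_
    split_ifs
    · exact mul_nonneg (le_min (mul_nonneg (h1 _) (h1 _)) (mul_nonneg (h1 _) (h1 _))) (sq_nonneg _)
    · exact le_rfl

end EnGd

/-- `lemmaQ` as a proposition; `KQ c0` is the constant -/
def LemmaQ (V : Type) [Fintype V] [DecidableEq V] (KQ : ℝ → ℝ) : Prop :=
  ∀ g : V → V → ℝ, (∀ u v, g u v = g v u) → (∀ u v, 0 < g u v) → ∀ c0 : ℝ, 0 < c0 → c0 ≤ 1 →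
    NodeA g c0 → ∀ f : (V → V) → ℝ,
    ∑ N ∈ Conf V, ∑ x : V, ∑ y : V,
      (if (N.1 x = x ∨ N.2 x = x) ∧ (N.1 y = y ∨ N.2 y = y) ∧ y ∉ comp N.1 N.2 x then
        W g N.1 * W g N.2 *
          (f (jn N.1) + f (jn (swp (comp N.1 N.2 y) (swp (comp N.1 N.2 x) N.1 N.2)
              (swp (comp N.1 N.2 x) N.2 N.1)))
            - f (jn (swp (comp N.1 N.2 x) N.1 N.2)) - f (jn (swp (comp N.1 N.2 y) N.1 N.2))) ^ 2
        else 0) ≤ KQ c0 * En g f

section Main
variable {V : Type} [Fintype V] [DecidableEq V]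

/-- the constant of Theorem L -/
noncomputable def KL (n : ℕ) (KQ KR : ℝ → ℝ) (c0 : ℝ) : ℝ :=
  12 * (n : ℝ) ^ 14 * (5 * (KQ c0 + 96 * (n : ℝ) ^ 2 * KR c0))

/-- **Theorem L**, final form -/
theorem thmL_of_lemmaQ {KQ : ℝ → ℝ} (hQ : LemmaQ V KQ) {a : V → V → ℝ} (ha : ∀ u v, 0 < a u v)
    (hsym : ∀ u v, a u v = a v u) {c0 : ℝ} (hc : 0 < c0) (hc1 : c0 ≤ 1)
    (N : Nodes.NodeSys V (lam a) c0) (f : (V → V) → ℝ) :
    ∑ s ∈ pms V, ∑ t ∈ pms V, W a s * W a t * (f s - f t) ^ 2
      ≤ KL (Fintype.card V) KQ (Krep V) c0 * En a f := by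
  -- the relations
  have key : ∀ o, ∀ L : List (Bool × V × V), L.length ≤ 3 → ∀ x y,
      ∑ s ∈ pms V, ∑ t ∈ pms V, W a s * W a t * relT (N.path o) f L x y s t ≤
        5 * (KQ c0 * En a f + 96 * (Fintype.card V : ℝ) ^ 2 * (Krep V c0 * En a f)) := by
    intro o L hL x y
    have gsym : ∀ u v, gd a (N.b o) u v = gd a (N.b o) v u := by
      intro u v
      by_cases h : u = v
      · rw [h]
      · rw [gd_off h, gd_off (Ne.symm h), hsym]
    have gpos : ∀ u v, 0 < gd a (N.b o) u v := by
      intro u v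
      by_cases h : u = v
      · rw [h, gd_diag]; exact N.b_pos o v
      · rw [gd_off h]; exact ha u v
    have hA : NodeA (gd a (N.b o)) c0 := by
      intro u v h
      rw [gd_diag, gd_diag, gd_off h, pow_two]
      have := N.lower o u v h
      unfold lam at this
      rwa [hsym v u] at this
    have hpath : ∀ u v, u ≠ v → N.path o u v →
        gd a (N.b o) u v ^ 2 ≤ gd a (N.b o) u u * gd a (N.b o) v v := by
      intro u v h hp
      rw [gd_diag, gd_diag, gd_off h, pow_two]
      have := N.upper o u v h hp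
      unfold lam at this
      rwa [hsym v u] at this
    have h := Rel.rel_of_xy gsym gpos f (repair gsym gpos hc hc1 hA f)
      (hQ (gd a (N.b o)) gsym gpos c0 hc hc1 hA f) hpath L hL x y
    rw [En_gd] at h
    refine le_trans (le_of_eq ?_) h
    refine Finset.sum_congr rfl fun s hs => Finset.sum_congr rfl fun t ht => ?_
    rw [W_congr_pms (a := gd a (N.b o)) (a' := a) (fun _ _ h => gd_off h) hs,
      W_congr_pms (a := gd a (N.b o)) (a' := a) (fun _ _ h => gd_off h) ht]
    unfold relT
    rw [mul_ite, mul_zero]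
  have hE := En_nonneg' ha f
  rcases (lt_or_ge (5 * (KQ c0 * En a f + 96 * (Fintype.card V : ℝ) ^ 2 * (Krep V c0 * En a f))) 0)
    with hneg | hpos
  · -- impossible as the sums are nonnegative
    by_cases hO : Nonempty N.O
    · obtain ⟨o⟩ := hO
      by_cases hV : Nonempty V
      · obtain ⟨v⟩ := hV
        have h1 := key o [] (by simp) v v
        have h2 : 0 ≤ ∑ s ∈ pms V, ∑ t ∈ pms V, W a s * W a t * relT (N.path o) f [] v v s t :=
          Finset.sum_nonneg fun s _ => Finset.sum_nonneg fun t _ =>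
            mul_nonneg (mul_nonneg (W_pos ha _).le (W_pos ha _).le) (relT_nonneg _ _ _ _ _ _ _)
        linarith
      · have hemp : IsEmpty V := not_nonempty_iff.1 hV
        have hst : ∀ s t : V → V, s = t := fun s t => funext fun v => (hemp.false v).elim
        have hz : ∑ s ∈ pms V, ∑ t ∈ pms V, W a s * W a t * (f s - f t) ^ 2 = 0 :=
          Finset.sum_eq_zero fun s _ => Finset.sum_eq_zero fun t _ => by
            rw [hst s t]; ring
        have hc0 : (Fintype.card V : ℝ) = 0 := by
          rw [Fintype.card_eq_zero]; simp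
        rw [hz]
        unfold KL
        rw [hc0]; simp
    · -- no nodes: `V` has at most one element
      have hsub : ∀ u v : V, u = v := by
        intro u v
        by_contra h
        exact hO ⟨N.top u v⟩
      have hst : ∀ s t : V → V, s = t := fun s t => funext fun v => hsub _ _
      have hz : ∑ s ∈ pms V, ∑ t ∈ pms V, W a s * W a t * (f s - f t) ^ 2 = 0 :=
        Finset.sum_eq_zero fun s _ => Finset.sum_eq_zero fun t _ => by
          rw [hst s t]; ring
      have hpm : pms V = ∅ ∨ IsEmpty V := by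
        by_cases hV : Nonempty V
        · left
          rw [Finset.eq_empty_iff_forall_notMem]
          intro s hs
          obtain ⟨v⟩ := hV
          exact (mem_pms.1 hs).2 v (hsub _ _)
        · right; exact not_nonempty_iff.1 hV
      rw [hz]
      rcases hpm with hpm | hemp
      · have hEn : En a f = 0 := by
          unfold En Zh Esw Eex E2
          rw [st_empty, hpm]; simp
        rw [hEn, mul_zero]
      · have hc0 : (Fintype.card V : ℝ) = 0 := by
          rw [Fintype.card_eq_zero]; simp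
        unfold KL
        rw [hc0]; simp
  · have h := thmL N ha f hpos key
    refine h.trans (le_of_eq ?_)
    unfold KL
    ring

end Main

/-- Theorem L in the form of `GK922.ThmL` -/
theorem ThmL_of_lemmaQ {n : ℕ} {KQ : ℝ → ℝ} (hQ : LemmaQ (Fin n) KQ) :
    GK922.ThmL n (KL n KQ (Krep (Fin n))) := by
  intro a ha hsym _ c0 hc hc1 hN f
  obtain ⟨N⟩ := hN
  have h := thmL_of_lemmaQ hQ ha hsym hc hc1 N f
  rwa [Fintype.card_fin] at h

end Crest.Agent.R304
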