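import Crest.Agent.R304.Fine922
import Crest.Agent.R304.ThmL256
import Crest.Agent.Lib.PT.Iter

/-!
# R304 / S0464: an explicit natural number `gN` with `GoodKernel ... (1 / gN)`
-/

set_option autoImplicit false
set_option linter.unusedSectionVars false

noncomputable section

namespace Crest.Agent.R304.GN922

open Finset Lab922 Good922 GK922 Fine922
open Crest.Agent.Lib.PT

theorem goodKernel_mono {Ω : Type*} [Fintype Ω] {π : Ω → ℝ} {K : Ω × Ω → Ω × Ω → ℝ} {γ γ' : ℝ}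
    (hπ : ∀ a, 0 ≤ π a) (h : Pop.GoodKernel π K γ) (hγ : γ' ≤ γ) : Pop.GoodKernel π K γ' := by
  refine ⟨h.nonneg, h.sum_one, h.rev, h.psd, fun f hf => ?_⟩
  refine le_trans ?_ (h.gap f hf)
  have h1 : 0 ≤ ∑ a, π a * f a ^ 2 := Finset.sum_nonneg fun a _ => mul_nonneg (hπ a) (sq_nonneg _)
  nlinarith

/-- the value of `kap` at `q = 128 n^2` -/
def kN (n : ℕ) : ℕ := (n ^ 2 + 1) * ((128 * n ^ 2) * (((128 * n ^ 2) ^ 2 + 1) * n))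

/-- the inverse gap; `A`, `p` describe the constant of `lemmaQ` -/
def gN (A p n : ℕ) : ℕ :=
  16 * (12 * n ^ 14 * (5 * (A * kN n ^ p + 96 * n ^ 2 * (336 * kN n ^ 7)))) * n ^ 4 + 1

theorem gN_pos (A p n : ℕ) : 0 < gN A p n := by unfold gN; omega

theorem one_le_gN (A p n : ℕ) : 1 ≤ gN A p n := gN_pos A p n

section pt
variable {α : Type} [PTCode α] {n : α → ℕ}

theorem ptu_kN (hn : PTU n) : PTU (fun a => kN (n a)) := by
  unfold kN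
  exact PTU.mul (PTU.add (PTU.pow hn 2) (PTU.const 1))
    (PTU.mul (PTU.mul (PTU.const 128) (PTU.pow hn 2))
      (PTU.mul (PTU.add (PTU.pow (PTU.mul (PTU.const 128) (PTU.pow hn 2)) 2) (PTU.const 1)) hn))

theorem ptu_gN (A p : ℕ) (hn : PTU n) : PTU (fun a => gN A p (n a)) := by
  unfold gN
  have hk := ptu_kN hn
  exact PTU.add (PTU.mul (PTU.mul (PTU.const 16) (PTU.mul (PTU.mul (PTU.const 12) (PTU.pow hn 14))
    (PTU.mul (PTU.const 5) (PTU.add (PTU.mul (PTU.const A) (PTU.pow hk p))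
      (PTU.mul (PTU.mul (PTU.const 96) (PTU.pow hn 2)) (PTU.mul (PTU.const 336) (PTU.pow hk 7)))))))
    (PTU.pow hn 4)) (PTU.const 1)

end pt

theorem kap_eq (n : ℕ) :
    CQ.kap (Fin n) (c0 n (8 * (8 * (n : ℝ) ^ 2) * 2)) = (kN n : ℝ) := by
  unfold CQ.kap c0 kN
  rw [Fintype.card_fin, one_div, inv_inv]
  push_cast
  ring

/-- the constant of Theorem L at `q = 128 n^2` -/
theorem K_le {A p n : ℕ} {KQ : ℝ → ℝ}
    (hKQ : KQ (c0 n (8 * (8 * (n : ℝ) ^ 2) * 2)) ≤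
      A * CQ.kap (Fin n) (c0 n (8 * (8 * (n : ℝ) ^ 2) * 2)) ^ p) :
    16 * KL n KQ (CQ.Krep (Fin n)) (c0 n (8 * (8 * (n : ℝ) ^ 2) * 2)) * (n : ℝ) ^ 4 ≤
      (gN A p n : ℝ) := by
  unfold KL CQ.Krep
  rw [kap_eq] at hKQ ⊢
  unfold gN
  push_cast
  have h1 : 16 * (12 * (n : ℝ) ^ 14 * (5 * (KQ (c0 n (8 * (8 * (n : ℝ) ^ 2) * 2)) +
      96 * (n : ℝ) ^ 2 * (336 * (kN n : ℝ) ^ 7)))) * (n : ℝ) ^ 4 ≤
      16 * (12 * (n : ℝ) ^ 14 * (5 * ((A : ℝ) * (kN n : ℝ) ^ p +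
      96 * (n : ℝ) ^ 2 * (336 * (kN n : ℝ) ^ 7)))) * (n : ℝ) ^ 4 := by
    gcongr
  linarith

/-- the gap is at least `1 / gN` -/
theorem inv_gN_le {A p n : ℕ} {KQ : ℝ → ℝ} (hn : 3 ≤ n)
    (hKQ : KQ (c0 n (8 * (8 * (n : ℝ) ^ 2) * 2)) ≤
      A * CQ.kap (Fin n) (c0 n (8 * (8 * (n : ℝ) ^ 2) * 2)) ^ p)
    (hK : 0 < KL n KQ (CQ.Krep (Fin n)) (c0 n (8 * (8 * (n : ℝ) ^ 2) * 2))) :
    1 / (gN A p n : ℝ) ≤ gam n (KL n KQ (CQ.Krep (Fin n))) (8 * (8 * (n : ℝ) ^ 2) * 2) := by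
  unfold gam
  have h := K_le hKQ
  have hn' : (0 : ℝ) < n := by exact_mod_cast (by omega : 0 < n)
  exact one_div_le_one_div_of_le (by positivity) h

/-- **Final form for the annealing**: all stages are good with `γ = 1 / gN` -/
theorem good_stage {A p n m T : ℕ} {Lm : ℕ → Fin n → Fin n → ℝ} {KQ : ℝ → ℝ}
    (M : Macro n m T (8 * (8 * (n : ℝ) ^ 2)) Lm)
    (hL : ThmL n (KL n KQ (CQ.Krep (Fin n))))
    (hKQ : KQ (c0 n (8 * (8 * (n : ℝ) ^ 2) * 2)) ≤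
      A * CQ.kap (Fin n) (c0 n (8 * (8 * (n : ℝ) ^ 2) * 2)) ^ p)
    (hK : 0 < KL n KQ (CQ.Krep (Fin n)) (c0 n (8 * (8 * (n : ℝ) ^ 2) * 2)))
    {H : ℕ} (hH : 0 < H) {t : ℕ} (ht : t ≤ T) (o : Option ℕ) (ho : o ∈ stO H t) :
    Pop.GoodKernel (piO Lm H o) (kerO Lm H o) (1 / (gN A p n : ℝ)) :=
  goodKernel_mono (fun s => (M.piO_pos hH ht o (List.mem_cons_of_mem _ ho) s).le)
    (M.good_stage hK hL hH ht o ho) (inv_gN_le M.three hKQ hK)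

theorem Krep_pos {n : ℕ} (hn : 3 ≤ n) {q : ℝ} (hq : 1 ≤ q) : 0 < CQ.Krep (Fin n) (c0 n q) := by
  unfold CQ.Krep
  have := CQ.kap_pos (V := Fin n) (c0_pos hn hq) (c0_le_one hn hq)
  positivity

theorem KL_pos {n : ℕ} (hn : 3 ≤ n) {q : ℝ} (hq : 1 ≤ q) {KQ : ℝ → ℝ} (hKQ : 0 ≤ KQ (c0 n q)) :
    0 < KL n KQ (CQ.Krep (Fin n)) (c0 n q) := by
  unfold KL
  have h1 := Krep_pos hn hq
  have hn' : (0 : ℝ) < n := by exact_mod_cast (by omega : 0 < n)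
  positivity

end Crest.Agent.R304.GN922

end
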