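import Crest.Agent.R304.GlueDefs168

/-!
# R304 / S0464: glue, first half (helper180)

* (G2) the integer weights of the program are `scaleN` times the weights of the controller;
* (G3) the controller state after each of the three moves; the set of moves.
-/

set_option autoImplicit false
set_option linter.unusedSectionVars false
set_option linter.dupNamespace false

namespace Crest.Agent.R304.Glue180

open Finset Crest.Agent.R304.Loop Crest.Agent.R304.Sim Crest.Agent.R304.LM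
open Crest.Agent.R304.Ctl Crest.Agent.R304.Glue

variable (P : Prm)

/-! ### counting -/

theorem cntMv_nil (kd u v : ℕ) : cntMv [] kd u v = 0 := rfl

theorem cntMv_snoc (h : List Mv) (c : Mv) (kd u v : ℕ) :
    cntMv (h ++ [c]) kd u v = cntMv h kd u v + if c = (kd, u, v) then 1 else 0 := by
  unfold cntMv
  rw [List.countP_append, List.countP_singleton]
  simp only [decide_eq_true_eq]

theorem cntMv_le (h : List Mv) (kd u v : ℕ) : cntMv h kd u v ≤ h.length := List.countP_le_length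

theorem thN_nil : thN P [] = 0 := by simp [thN]

theorem thN_le (h : List Mv) : thN P h ≤ h.length :=
  (min_le_left _ _).trans List.countP_le_length

theorem thN_le_S (h : List Mv) : thN P h ≤ P.S := min_le_right _ _

theorem thN_snoc (h : List Mv) (c : Mv) :
    thN P (h ++ [c]) = if c.1 = 0 then min (thN P h + 1) P.S else thN P h := by
  unfold thN
  rw [List.countP_append, List.countP_singleton]
  simp only [decide_eq_true_eq]
  split_ifs <;> omega

/-! ### (G3) the controller state -/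

theorem stf_nil : stf P [] = st0 := by
  unfold stf st0
  rw [thN_nil]
  simp only [cntMv_nil]
  simp

/-- a `theta` step -/
theorem stf_theta (h : List Mv) :
    stf P (h ++ [(0, 0, 0)]) = ⟨min ((stf P h).s + 1) P.S, (stf P h).a⟩ := by
  have e1 : (stf P (h ++ [(0, 0, 0)])).s = min ((stf P h).s + 1) P.S := by
    simp only [stf]
    rw [thN_snoc, if_pos rfl]
  have e2 : (stf P (h ++ [(0, 0, 0)])).a = (stf P h).a := by
    funext e
    simp only [stf, cntMv_snoc]
    simp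
  calc stf P (h ++ [(0, 0, 0)]) = ⟨(stf P (h ++ [(0, 0, 0)])).s,
      (stf P (h ++ [(0, 0, 0)])).a⟩ := rfl
    _ = _ := by rw [e1, e2]

/-- a plus step -/
theorem stf_plus (h : List Mv) (e : Pr P.n) :
    stf P (h ++ [(1, (e.1.1 : ℕ), (e.1.2 : ℕ))]) =
      ⟨(stf P h).s, Function.update (stf P h).a e ((stf P h).a e + 1)⟩ := by
  have e1 : (stf P (h ++ [(1, (e.1.1 : ℕ), (e.1.2 : ℕ))])).s = (stf P h).s := by
    simp only [stf]
    rw [thN_snoc, if_neg (by simp)]
  have e2 : (stf P (h ++ [(1, (e.1.1 : ℕ), (e.1.2 : ℕ))])).a =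
      Function.update (stf P h).a e ((stf P h).a e + 1) := by
    funext f
    by_cases hf : f = e
    · subst hf
      rw [Function.update_self]
      simp only [stf, cntMv_snoc]
      simp
      ring
    · rw [Function.update_of_ne hf]
      simp only [stf, cntMv_snoc]
      have h1 : ¬ ((1, (e.1.1 : ℕ), (e.1.2 : ℕ)) = (1, (f.1.1 : ℕ), (f.1.2 : ℕ))) := by
        intro h2
        simp only [Prod.mk.injEq, true_and] at h2
        apply hf
        apply Subtype.ext
        exact Prod.ext (Fin.ext h2.1.symm) (Fin.ext h2.2.symm)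
      rw [if_neg h1]
      simp
  calc stf P (h ++ [(1, (e.1.1 : ℕ), (e.1.2 : ℕ))]) =
      ⟨(stf P (h ++ [(1, (e.1.1 : ℕ), (e.1.2 : ℕ))])).s,
        (stf P (h ++ [(1, (e.1.1 : ℕ), (e.1.2 : ℕ))])).a⟩ := rfl
    _ = _ := by rw [e1, e2]

/-- a minus step -/
theorem stf_minus (h : List Mv) (e : Pr P.n) :
    stf P (h ++ [(2, (e.1.1 : ℕ), (e.1.2 : ℕ))]) =
      ⟨(stf P h).s, Function.update (stf P h).a e ((stf P h).a e - 1)⟩ := by
  have e1 : (stf P (h ++ [(2, (e.1.1 : ℕ), (e.1.2 : ℕ))])).s = (stf P h).s := by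
    simp only [stf]
    rw [thN_snoc, if_neg (by simp)]
  have e2 : (stf P (h ++ [(2, (e.1.1 : ℕ), (e.1.2 : ℕ))])).a =
      Function.update (stf P h).a e ((stf P h).a e - 1) := by
    funext f
    by_cases hf : f = e
    · subst hf
      rw [Function.update_self]
      simp only [stf, cntMv_snoc]
      simp
      ring
    · rw [Function.update_of_ne hf]
      simp only [stf, cntMv_snoc]
      have h1 : ¬ ((2, (e.1.1 : ℕ), (e.1.2 : ℕ)) = (2, (f.1.1 : ℕ), (f.1.2 : ℕ))) := by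
        intro h2
        simp only [Prod.mk.injEq, true_and] at h2
        apply hf
        apply Subtype.ext
        exact Prod.ext (Fin.ext h2.1.symm) (Fin.ext h2.2.symm)
      rw [if_neg h1]
      simp
  calc stf P (h ++ [(2, (e.1.1 : ℕ), (e.1.2 : ℕ))]) =
      ⟨(stf P (h ++ [(2, (e.1.1 : ℕ), (e.1.2 : ℕ))])).s,
        (stf P (h ++ [(2, (e.1.1 : ℕ), (e.1.2 : ℕ))])).a⟩ := rfl
    _ = _ := by rw [e1, e2]

/-! ### the set of moves -/

theorem mem_mvSet {c : Mv} : c ∈ mvSet P ↔ c = (0, 0, 0) ∨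
    (∃ e : Pr P.n, c = (1, (e.1.1 : ℕ), (e.1.2 : ℕ))) ∨
    (∃ e : Pr P.n, c = (2, (e.1.1 : ℕ), (e.1.2 : ℕ))) := by
  have key : ∀ kd : ℕ, (∃ e ∈ pairsL P.n, ((kd, e.1, e.2) : Mv) = c) ↔
      ∃ e : Pr P.n, c = (kd, (e.1.1 : ℕ), (e.1.2 : ℕ)) := by
    intro kd
    constructor
    · rintro ⟨e, he, rfl⟩
      rw [mem_pairsL] at he
      exact ⟨⟨(⟨e.1, by omega⟩, ⟨e.2, he.2⟩), he.1⟩, rfl⟩
    · rintro ⟨e, rfl⟩
      exact ⟨((e.1.1 : ℕ), (e.1.2 : ℕ)), mem_pairsL.2 ⟨e.2, e.1.2.2⟩, rfl⟩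
  unfold mvSet
  rw [mem_union, mem_union, mem_singleton, List.mem_toFinset, List.mem_toFinset, List.mem_map,
    List.mem_map, key, key, or_assoc]

theorem length_pairsL_le (n : ℕ) : (pairsL n).length ≤ n * n := by
  unfold pairsL
  rw [List.length_flatMap]
  have h : ∀ l : List ℕ, (∀ v ∈ l, v < n) →
      (l.map (fun v => ((List.range v).map (fun u => (u, v))).length)).sum ≤ l.length * n := by
    intro l
    induction l with
    | nil => simp
    | cons a l ih =>
      intro hl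
      have h1 := ih (fun v hv => hl v (List.mem_cons_of_mem _ hv))
      have h2 := hl a (List.mem_cons_self ..)
      simp only [List.map_cons, List.sum_cons, List.length_map, List.length_range,
        List.length_cons] at h1 ⊢
      have : (l.length + 1) * n = l.length * n + n := by ring
      omega
  have := h (List.range n) (fun v hv => List.mem_range.1 hv)
  rw [List.length_range] at this
  exact this

theorem card_mvSet_le : (mvSet P).card ≤ 2 * P.n ^ 2 + 1 := by
  unfold mvSet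
  refine (card_union_le _ _).trans ?_
  have h1 := card_union_le {(0, 0, 0)}
    ((pairsL P.n).map (fun e => ((1, e.1, e.2) : Mv))).toFinset
  have h2 := List.toFinset_card_le ((pairsL P.n).map (fun e => ((1, e.1, e.2) : Mv)))
  have h3 := List.toFinset_card_le ((pairsL P.n).map (fun e => ((2, e.1, e.2) : Mv)))
  rw [List.length_map] at h2 h3
  rw [card_singleton] at h1
  have h4 := length_pairsL_le P.n
  nlinarith

theorem card_Pr_le (n : ℕ) : Fintype.card (Pr n) ≤ n ^ 2 := by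
  refine (Fintype.card_subtype_le _).trans ?_
  rw [Fintype.card_prod, Fintype.card_fin]
  exact (sq n).ge

/-- the state after an allowed move is a controller step for suitable estimates -/
theorem stf_step {h : List Mv} {c : Mv} (hc : c ∈ mvSet P) :
    ∃ xh : Pr P.n → ℝ, CStep P.q P.gd P.S xh (stf P h) (stf P (h ++ [c])) := by
  rcases (mem_mvSet P).1 hc with rfl | ⟨e, rfl⟩ | ⟨e, rfl⟩
  · refine ⟨fun _ => 1 / P.q, Or.inr (Or.inr ⟨fun e => ?_, stf_theta P h⟩)⟩
    rw [sub_self, abs_zero]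
    positivity
  · exact ⟨fun _ => 1 / P.q - 1 / P.gd, Or.inl ⟨e, le_refl _, stf_plus P h e⟩⟩
  · exact ⟨fun _ => 1 / P.q + 1 / P.gd, Or.inr (Or.inl ⟨e, le_refl _, stf_minus P h e⟩)⟩

/-- the field `step` of `LoopData` -/
theorem lamH_step {N d W : ℕ} (hp : Par (Mov.Om (Fin P.n)) N d P.q P.m W P.gd)
    {h : List Mv} {c : Mv} (hc : c ∈ mvSet P) (e : Pr P.n) :
    L6.lamH (GP P) d P.q P.m (stf P) (h ++ [c]) e ≤
      ((P.m : ℝ) + 1) / P.m * L6.lamH (GP P) d P.q P.m (stf P) h e ∧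
    L6.lamH (GP P) d P.q P.m (stf P) h e ≤
      ((P.m : ℝ) + 1) / P.m * L6.lamH (GP P) d P.q P.m (stf P) (h ++ [c]) e := by
  obtain ⟨xh, hx⟩ := stf_step P (h := h) hc
  exact lamw_step hp (GP P) hx (thN_le_S P h) e

/-! ### (G2) the weights -/

theorem scaleN_pos (hm : 0 < P.m) (hq : P.n - 1 < P.q) : 0 < scaleN P := by
  unfold scaleN
  have : 0 < P.q - (P.n - 1) := by omega
  positivity

theorem AN_pos (hm : 0 < P.m) (hq : P.n - 1 < P.q) (h : List Mv) (u v : ℕ) :
    0 < AN P h u v := by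
  unfold AN
  split_ifs
  · exact scaleN_pos P hm hq
  · have : 0 < P.q - (P.n - 1) := by omega
    positivity

theorem lamN_pos (hm : 0 < P.m) (hq : P.n - 1 < P.q) (h : List Mv) (u v : ℕ) :
    0 < lamN P h u v := Nat.add_pos_left (AN_pos P hm hq h u v) _

theorem cast_AN (hm : 0 < P.m) (h : List Mv) (hL : h.length ≤ P.L) (e : Pr P.n) :
    (AN P h e.1.1 e.1.2 : ℝ) = scaleN P * Aw (GP P) P.m (stf P h).s e := by
  unfold AN Aw
  have hG : (adj P e.1.1 e.1.2 = true) = GP P e := rfl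
  simp only [hG]
  split_ifs
  · rw [mul_one]
  · have hs : (stf P h).s = thN P h := rfl
    have hth : thN P h ≤ P.L := (thN_le P h).trans hL
    obtain ⟨r, hr⟩ := Nat.exists_eq_add_of_le hth
    rw [hs]
    unfold scaleN
    have e1 : P.L - thN P h = r := by omega
    rw [e1, hr]
    have hm' : (P.m : ℝ) ≠ 0 := by exact_mod_cast hm.ne'
    have hm1 : (P.m : ℝ) + 1 ≠ 0 := by positivity
    push_cast
    rw [div_pow]
    field_simp
    ring

theorem cast_omN (hm : 0 < P.m) (hq : P.n - 1 < P.q) (h : List Mv) (hL : h.length ≤ P.L)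
    (e : Pr P.n) :
    (omN P h e.1.1 e.1.2 : ℝ) = scaleN P * omw (w0 P.q (P.n - 1)) P.m (stf P h).a e := by
  unfold omN omw w0 scaleN
  have ha : (stf P h).a e = (cntMv h 1 e.1.1 e.1.2 : ℤ) - (cntMv h 2 e.1.1 e.1.2 : ℤ) := rfl
  rw [ha]
  have h1 := (cntMv_le h 1 e.1.1 e.1.2).trans hL
  have h2 := (cntMv_le h 2 e.1.1 e.1.2).trans hL
  generalize cntMv h 1 e.1.1 e.1.2 = a at h1
  generalize cntMv h 2 e.1.1 e.1.2 = b at h2
  have hm' : (P.m : ℝ) ≠ 0 := by exact_mod_cast hm.ne'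
  have hm1 : (P.m : ℝ) + 1 ≠ 0 := by positivity
  have hqd : ((P.q - (P.n - 1) : ℕ) : ℝ) = (P.q : ℝ) - ((P.n - 1 : ℕ) : ℝ) :=
    Nat.cast_sub hq.le
  have hqd0 : ((P.q - (P.n - 1) : ℕ) : ℝ) ≠ 0 := by
    have : 0 < P.q - (P.n - 1) := by omega
    exact_mod_cast this.ne'
  have key : ((P.m : ℝ) + 1) ^ (P.L + a - b) * (P.m : ℝ) ^ (P.L + b - a) =
      (P.m : ℝ) ^ P.L * ((P.m : ℝ) + 1) ^ P.L *
        (((P.m : ℝ) + 1) / P.m) ^ ((a : ℤ) - (b : ℤ)) := by
    have hx : ((P.m : ℝ) + 1) / P.m ≠ 0 := div_ne_zero hm1 hm'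
    rw [zpow_sub₀ hx, zpow_natCast, zpow_natCast]
    have e1 : ((P.m : ℝ) + 1) ^ (P.L + a - b) * ((P.m : ℝ) + 1) ^ b =
        ((P.m : ℝ) + 1) ^ (P.L + a) := by
      rw [← pow_add]; congr 1; omega
    have e2 : (P.m : ℝ) ^ (P.L + b - a) * (P.m : ℝ) ^ a = (P.m : ℝ) ^ (P.L + b) := by
      rw [← pow_add]; congr 1; omega
    rw [div_pow, div_pow]
    have hb : ((P.m : ℝ) + 1) ^ b ≠ 0 := pow_ne_zero _ hm1
    have hma : (P.m : ℝ) ^ a ≠ 0 := pow_ne_zero _ hm'
    have hmb : (P.m : ℝ) ^ b ≠ 0 := pow_ne_zero _ hm'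
    rw [pow_add] at e1 e2
    field_simp
    calc _ = (((P.m : ℝ) + 1) ^ (P.L + a - b) * ((P.m : ℝ) + 1) ^ b) *
          ((P.m : ℝ) ^ (P.L + b - a) * (P.m : ℝ) ^ a) := by ring
      _ = _ := by rw [e1, e2]; ring
  push_cast
  rw [key, ← hqd]
  field_simp

/-- **(G2)** -/
theorem cast_lamN (hm : 0 < P.m) (hq : P.n - 1 < P.q) (h : List Mv) (hL : h.length ≤ P.L)
    (e : Pr P.n) :
    (lamN P h e.1.1 e.1.2 : ℝ) =
      scaleN P * lamw (GP P) (w0 P.q (P.n - 1)) P.m (stf P h) e := by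
  unfold lamN lamw
  rw [Nat.cast_add, cast_AN P hm h hL e, cast_omN P hm hq h hL e]
  ring

/-- **(G2)** in the form of `L6.lamH` -/
theorem cast_lamN' (hm : 0 < P.m) (hq : P.n - 1 < P.q) (h : List Mv) (hL : h.length ≤ P.L)
    (e : Pr P.n) :
    (lamN P h e.1.1 e.1.2 : ℝ) =
      scaleN P * L6.lamH (GP P) (P.n - 1) P.q P.m (stf P) h e := cast_lamN P hm hq h hL e

/-- symmetry of the real edges (for symmetric adjacency bits) is not needed: only pairs `u < v`
occur.  Ratio form of (G2): `omN / lamN = omw / lamw`. -/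
theorem cast_ratio (hm : 0 < P.m) (hq : P.n - 1 < P.q) (h : List Mv) (hL : h.length ≤ P.L)
    (e : Pr P.n) :
    (omN P h e.1.1 e.1.2 : ℝ) / (lamN P h e.1.1 e.1.2 : ℝ) =
      omw (w0 P.q (P.n - 1)) P.m (stf P h).a e /
        lamw (GP P) (w0 P.q (P.n - 1)) P.m (stf P h) e := by
  rw [cast_omN P hm hq h hL e, cast_lamN P hm hq h hL e]
  have : (scaleN P : ℝ) ≠ 0 := by exact_mod_cast (scaleN_pos P hm hq).ne'
  rw [mul_div_mul_left _ _ this]

/-- `scaleN / lamN = 1 / lamw` -/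
theorem cast_inv (hm : 0 < P.m) (hq : P.n - 1 < P.q) (h : List Mv) (hL : h.length ≤ P.L)
    (e : Pr P.n) :
    (scaleN P : ℝ) / (lamN P h e.1.1 e.1.2 : ℝ) =
      (lamw (GP P) (w0 P.q (P.n - 1)) P.m (stf P h) e)⁻¹ := by
  rw [cast_lamN P hm hq h hL e]
  have : (scaleN P : ℝ) ≠ 0 := by exact_mod_cast (scaleN_pos P hm hq).ne'
  rw [div_mul_eq_div_div, div_self this, one_div]

end Crest.Agent.R304.Glue180
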