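import Crest.Agent.R304.GlueB168

/-!
# R304 / S0464 (helper168): glue, the `LoopData` instance
-/

set_option autoImplicit false
set_option linter.unusedSectionVars false

namespace Crest.Agent.R304.Glue

open Finset Crest.Agent.R304.Loop Crest.Agent.R304.Sim Crest.Agent.R304.LM
open Crest.Agent.R304.Ctl Crest.Agent.R304.L6

noncomputable section

variable {P : Prm}

/-! ### the allowed moves -/

/-- a pair of the list `pairsL` as an element of `Pr` -/
theorem exists_pr {n : ℕ} {e : ℕ × ℕ} (he : e ∈ pairsL n) :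
    ∃ p : Pr n, (p.1.1 : ℕ) = e.1 ∧ (p.1.2 : ℕ) = e.2 := by
  rw [mem_pairsL] at he
  exact ⟨⟨(⟨e.1, by omega⟩, ⟨e.2, he.2⟩), by rw [Fin.lt_def]; exact he.1⟩, rfl, rfl⟩

theorem pr_mem {n : ℕ} (p : Pr n) : ((p.1.1 : ℕ), (p.1.2 : ℕ)) ∈ pairsL n := by
  rw [mem_pairsL]
  exact ⟨p.2, p.1.2.2⟩

theorem mem_mvSet {c : Mv} : c ∈ mvSet P ↔ c = (0, 0, 0) ∨ (∃ p : Pr P.n, c = (1, (p.1.1 : ℕ), (p.1.2 : ℕ))) ∨
    ∃ p : Pr P.n, c = (2, (p.1.1 : ℕ), (p.1.2 : ℕ)) := by
  unfold mvSet
  simp only [mem_union, mem_singleton, List.mem_toFinset, List.mem_map]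
  constructor
  · rintro ((h | ⟨e, he, rfl⟩) | ⟨e, he, rfl⟩)
    · exact Or.inl h
    · obtain ⟨p, h1, h2⟩ := exists_pr he
      exact Or.inr (Or.inl ⟨p, by rw [h1, h2]⟩)
    · obtain ⟨p, h1, h2⟩ := exists_pr he
      exact Or.inr (Or.inr ⟨p, by rw [h1, h2]⟩)
  · rintro (h | ⟨p, rfl⟩ | ⟨p, rfl⟩)
    · exact Or.inl (Or.inl h)
    · exact Or.inl (Or.inr ⟨_, pr_mem p, rfl⟩)
    · exact Or.inr ⟨_, pr_mem p, rfl⟩

/-- the chosen move is allowed and is a controller step -/
theorem mvF_spec (hw : WtHyp P) (hst : StHyp P) {W : ℕ} (hS : P.S = Smax P.m W)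
    {h : List Mv} (hh : h.length ≤ P.R) (x : Fin P.k → Mov.Om (Fin P.n)) :
    mvF P h x ∈ mvSet P ∧ CStep P.q P.gd (Smax P.m W)
      (xhF prs (GP P) (P.n - 1) P.q P.m (stf P) h x) (stf P h) (stf P (h ++ [mvF P h x])) := by
  rcases hlo : lowE P h (encP x) with _ | e
  · rcases hhi : highE P h (encP x) with _ | e
    · -- theta step
      have hmv : mvF P h x = (0, 0, 0) := by unfold mvF nextMv; rw [hlo, hhi]
      rw [hmv]
      refine ⟨mem_mvSet.2 (Or.inl rfl), Or.inr (Or.inr ⟨fun e => ?_, ?_⟩)⟩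
      · have h1 := List.find?_eq_none.1 hlo _ (pr_mem e)
        have h2 := List.find?_eq_none.1 hhi _ (pr_mem e)
        simp only [decide_eq_true_eq, not_le] at h1 h2
        have h1' : ((1 / (P.q : ℚ) - 1 / (P.gd : ℚ) : ℚ) : ℝ) <
            ((xhat P h (encP x) e.1.1 e.1.2 : ℚ) : ℝ) := by exact_mod_cast h1
        have h2' : ((xhat P h (encP x) e.1.1 e.1.2 : ℚ) : ℝ) <
            ((1 / (P.q : ℚ) + 1 / (P.gd : ℚ) : ℚ) : ℝ) := by exact_mod_cast h2
        rw [xhat_real hw hh] at h1' h2'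
        push_cast at h1' h2'
        rw [abs_le]
        constructor <;> linarith
      · rw [hst.th, hS]
    · -- a pair that is too heavy
      have hmv : mvF P h x = (2, e.1, e.2) := by unfold mvF nextMv; rw [hlo, hhi]
      have he := List.mem_of_find?_eq_some hhi
      have hp := List.find?_some hhi
      obtain ⟨p, h1, h2⟩ := exists_pr he
      rw [hmv, ← h1, ← h2]
      refine ⟨mem_mvSet.2 (Or.inr (Or.inr ⟨p, rfl⟩)), Or.inr (Or.inl ⟨p, ?_, hst.minus h p⟩)⟩
      rw [decide_eq_true_eq, ← h1, ← h2] at hp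
      have hp' : ((1 / (P.q : ℚ) + 1 / (P.gd : ℚ) : ℚ) : ℝ) ≤
          ((xhat P h (encP x) p.1.1 p.1.2 : ℚ) : ℝ) := by exact_mod_cast hp
      rw [xhat_real hw hh] at hp'
      push_cast at hp'
      exact hp'
  · -- a pair that is too light
    have hmv : mvF P h x = (1, e.1, e.2) := by unfold mvF nextMv; rw [hlo]
    have he := List.mem_of_find?_eq_some hlo
    have hp := List.find?_some hlo
    obtain ⟨p, h1, h2⟩ := exists_pr he
    rw [hmv, ← h1, ← h2]
    refine ⟨mem_mvSet.2 (Or.inr (Or.inl ⟨p, rfl⟩)), Or.inl ⟨p, ?_, hst.plus h p⟩⟩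
    rw [decide_eq_true_eq, ← h1, ← h2] at hp
    have hp' : ((xhat P h (encP x) p.1.1 p.1.2 : ℚ) : ℝ) ≤
        ((1 / (P.q : ℚ) - 1 / (P.gd : ℚ) : ℚ) : ℝ) := by exact_mod_cast hp
    rw [xhat_real hw hh] at hp'
    push_cast at hp'
    exact hp'

/-- every allowed move is a controller step for suitable estimates -/
theorem exists_cstep (hst : StHyp P) {W : ℕ} (hS : P.S = Smax P.m W) (h : List Mv) {c : Mv}
    (hc : c ∈ mvSet P) : ∃ xh : Pr P.n → ℝ,
      CStep P.q P.gd (Smax P.m W) xh (stf P h) (stf P (h ++ [c])) := by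
  rcases mem_mvSet.1 hc with rfl | ⟨p, rfl⟩ | ⟨p, rfl⟩
  · refine ⟨fun _ => 1 / P.q, Or.inr (Or.inr ⟨fun e => ?_, ?_⟩)⟩
    · simp
    · rw [hst.th, hS]
  · exact ⟨fun _ => 1 / P.q - 1 / P.gd, Or.inl ⟨p, le_rfl, hst.plus h p⟩⟩
  · exact ⟨fun _ => 1 / P.q + 1 / P.gd, Or.inr (Or.inl ⟨p, le_rfl, hst.minus h p⟩)⟩

theorem stf_s_le (P : Prm) (h : List Mv) : (stf P h).s ≤ P.S := min_le_right _ _

/-- **The loop data of the program.** -/
theorem loopData (hw : WtHyp P) (hst : StHyp P) {N W : ℕ} (hS : P.S = Smax P.m W)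
    (hp : Par (Mov.Om (Fin P.n)) N (P.n - 1) P.q P.m W P.gd) (hk : 0 < P.k) :
    LoopData prs (GP P) (P.n - 1) P.q P.m W P.gd (stf P) (mvSet P) P.k P.R WF hist (val P)
      (mvF P) (upd P) where
  kpos := hk
  nil := hst.nil
  step := by
    intro h c _ _ hc e
    obtain ⟨xh, hx⟩ := exists_cstep hst hS h hc
    exact lamw_step hp (GP P) hx (by rw [← hS]; exact stf_s_le P h) e
  move := fun h hh _ x => mvF_spec hw hst hS hh.le x
  upd_wf := by
    intro s x hs _
    unfold WF upd at *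
    simp [hs]
  upd_hist := fun s x _ _ => rfl
  upd_val := by
    intro s x hs hh _
    have hs' : s.2.length = s.1.length := hs
    have hh' : s.1.length < P.R := hh
    unfold val upd hist
    simp only
    rw [List.length_append, List.length_singleton, Finset.prod_range_succ, Rat.cast_mul]
    have e1 : ∏ t ∈ Finset.range s.1.length, rhat P ((s.1 ++ [mvF P s.1 x]).take t)
        ((s.1 ++ [mvF P s.1 x]).take (t + 1)) ((s.2 ++ [encP x]).getD t []) =
        ∏ t ∈ Finset.range s.1.length, rhat P (s.1.take t) (s.1.take (t + 1)) (s.2.getD t []) := by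
      refine prod_congr rfl fun t ht => ?_
      have ht' := Finset.mem_range.1 ht
      rw [List.take_append_of_le_length ht'.le, List.take_append_of_le_length ht',
        List.getD_append _ _ _ _ (by rw [hs']; exact ht')]
    rw [e1]
    congr 1
    rw [List.take_left, List.take_of_length_le (by simp), List.getD_append_right _ _ _ _ (by omega),
      hs', Nat.sub_self]
    exact rhat_real hw hh' x

end

end Crest.Agent.R304.Glue
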