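import Crest.Agent.R304.L6Loop
import Crest.Agent.R304.Ctl787E

/-!
# R304 / S0464, block L6 (helper168): analysis of the control loop

Abstract setting of `Ctl787A..E`: `Ω` a finite type of states, `E'` the pairs, `mem`, `Sys`, `Par`.
A history is a list of codes, `stf h` the controller state after the history `h`.
-/

set_option autoImplicit false
set_option linter.unusedSectionVars false

namespace Crest.Agent.R304.L6

open Finset Crest.Agent.R309.Tape Crest.Agent.R304.Ctl

noncomputable section

variable {Ω E' κ : Type*} [Fintype Ω] [Fintype E'] [DecidableEq E']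

/-! ### Gibbs laws -/

theorem gib_nonneg' (mem : Ω → Finset E') {lam : E' → ℝ} (h : ∀ e, 0 < lam e) (M : Ω) :
    0 ≤ gib mem lam M :=
  div_nonneg (wt_pos mem h M).le (sum_nonneg fun M _ => (wt_pos mem h M).le)

theorem sum_gib' [Nonempty Ω] (mem : Ω → Finset E') {lam : E' → ℝ} (h : ∀ e, 0 < lam e) :
    ∑ M, gib mem lam M = 1 := by
  unfold gib
  rw [← sum_div]
  exact div_self (Z_pos mem h).ne'

theorem sum_gib_ratio [Nonempty Ω] (mem : Ω → Finset E') {lam lam' : E' → ℝ}
    (h : ∀ e, 0 < lam e) :
    ∑ M, gib mem lam M * (wt mem lam' M / wt mem lam M) = Z mem lam' / Z mem lam := by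
  unfold gib
  have e : ∀ M, wt mem lam M / Z mem lam * (wt mem lam' M / wt mem lam M) =
      wt mem lam' M / Z mem lam := by
    intro M
    have h1 := (wt_pos mem h M).ne'
    have h2 := (Z_pos mem h).ne'
    field_simp
  rw [sum_congr rfl fun M _ => e M, ← sum_div]
  rfl

theorem marg_eq_sum (mem : Ω → Finset E') (lam : E' → ℝ) (e : E') :
    marg mem lam e = ∑ M, gib mem lam M * (if e ∈ mem M then 1 else 0) := by
  unfold marg gib
  rw [sum_filter, sum_div]
  refine sum_congr rfl fun M _ => ?_
  split_ifs <;> simp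

theorem wt_le_of_le {mem : Ω → Finset E'} {N d : ℕ} (hs : Sys mem N d) {lam lam' : E' → ℝ} {c : ℝ}
    (h0 : ∀ e, 0 < lam' e) (hle : ∀ e, lam' e ≤ c * lam e) (M : Ω) :
    wt mem lam' M ≤ c ^ N * wt mem lam M := by
  unfold wt
  have hc : (mem M).card = N := hs.card_mem M
  calc ∏ e ∈ mem M, lam' e ≤ ∏ e ∈ mem M, (c * lam e) :=
        prod_le_prod (fun e _ => (h0 e).le) fun e _ => hle e
    _ = c ^ N * ∏ e ∈ mem M, lam e := by rw [prod_mul_distrib, prod_const, hc]

/-! ### the data of the loop -/

variable (mem : Ω → Finset E') (G : E' → Prop) [DecidablePred G] (N d q m W gd : ℕ)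

/-- the weights after a history -/
def lamH (stf : List κ → St E') (h : List κ) (e : E') : ℝ := lamw G (w0 q d) m (stf h) e

/-- the estimates of the virtual marginals from a population -/
def xhF {k : ℕ} (stf : List κ → St E') (h : List κ) (x : Fin k → Ω) (e : E') : ℝ :=
  (∑ i, (if e ∈ mem (x i) then (1 : ℝ) else 0)) / k *
    (omw (w0 q d) m (stf h).a e / lamH G d q m stf h e)

/-- accurate runs -/
def AccRun (stf : List κ → St E') (h : List κ) : Prop :=
  ∃ xh : ℕ → E' → ℝ, ∀ t < h.length,
    CStep q gd (Smax m W) (xh t) (stf (h.take t)) (stf (h.take (t + 1))) ∧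
    Acc mem G q d m gd (xh t) (stf (h.take t))

variable {mem G N d q m W gd}

theorem accRun_nil (stf : List κ → St E') : AccRun mem G d q m W gd stf [] :=
  ⟨fun _ _ => 0, fun t ht => by simp at ht⟩

theorem AccRun.snoc {stf : List κ → St E'} {h : List κ} (hr : AccRun mem G d q m W gd stf h)
    {c : κ} {xh' : E' → ℝ} (h1 : CStep q gd (Smax m W) xh' (stf h) (stf (h ++ [c])))
    (h2 : Acc mem G q d m gd xh' (stf h)) : AccRun mem G d q m W gd stf (h ++ [c]) := by
  obtain ⟨xh, hx⟩ := hr
  refine ⟨fun t => if t < h.length then xh t else xh', fun t ht => ?_⟩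
  rw [List.length_append, List.length_singleton] at ht
  beta_reduce
  by_cases hlt : t < h.length
  · rw [if_pos hlt, List.take_append_of_le_length hlt.le, List.take_append_of_le_length hlt]
    exact hx t hlt
  · have e : t = h.length := by omega
    subst e
    rw [if_neg hlt, List.take_left, List.take_of_length_le (by simp)]
    exact ⟨h1, h2⟩

theorem AccRun.good [Nonempty Ω] (hs : Sys mem N d) (hp : Par Ω N d q m W gd)
    {stf : List κ → St E'} (h0 : stf [] = st0) {h : List κ}
    (hr : AccRun mem G d q m W gd stf h) (t : ℕ) (ht : t ≤ h.length) :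
    Good mem G N d q m W (stf (h.take t)) := by
  obtain ⟨xh, hx⟩ := hr
  exact (run_good hs hp G (fun t => stf (h.take t)) xh (by simpa using h0) t
    (fun j hj => (hx j (by omega)).1) (fun j hj => (hx j (by omega)).2)).1

theorem AccRun.final [Nonempty Ω] (hs : Sys mem N d) (hp : Par Ω N d q m W gd)
    {stf : List κ → St E'} (h0 : stf [] = st0) {h : List κ}
    (hr : AccRun mem G d q m W gd stf h) (hT : Rounds N m W gd ≤ h.length) :
    (stf h).s = Smax m W := by
  obtain ⟨xh, hx⟩ := hr
  have := run_final hs hp G (fun t => stf (h.take t)) xh (by simpa using h0) h.length hT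
    (fun j hj => (hx j hj).1) (fun j hj => (hx j hj).2)
  simpa using this

/-- accuracy of the estimates from accurate frequencies -/
theorem acc_xhF [Nonempty Ω] (hp : Par Ω N d q m W gd) {k : ℕ} {stf : List κ → St E'}
    {h : List κ} {x : Fin k → Ω}
    (hx : ∀ e, |(∑ i, (if e ∈ mem (x i) then (1 : ℝ) else 0)) / k -
      ∑ M, gib mem (lamH G d q m stf h) M * (if e ∈ mem M then 1 else 0)| ≤ 1 / (2 * gd)) :
    Acc mem G q d m gd (xhF mem G d q m stf h x) (stf h) := by
  intro e
  have h1 := hx e
  rw [← marg_eq_sum] at h1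
  have hl : 0 < lamH G d q m stf h e := lamw_pos hp G (stf h) e
  have ho : 0 < omw (w0 q d) m (stf h).a e := omw_pos hp.w0_pos hp.mpos _ e
  have hA : 0 < Aw G m (stf h).s e := Aw_pos G hp.mpos _ e
  have hr0 : 0 ≤ omw (w0 q d) m (stf h).a e / lamH G d q m stf h e := (div_pos ho hl).le
  have hr1 : omw (w0 q d) m (stf h).a e / lamH G d q m stf h e ≤ 1 := by
    rw [div_le_one hl]
    unfold lamH lamw
    linarith
  rw [xv_eq]
  unfold xhF
  have e2 : lamw G (w0 q d) m (stf h) e = lamH G d q m stf h e := rfl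
  have e3 : marg mem (lamw G (w0 q d) m (stf h)) e = marg mem (lamH G d q m stf h) e := rfl
  rw [e2, e3, ← sub_mul, abs_mul, abs_of_nonneg hr0]
  calc _ ≤ 1 / (2 * (gd : ℝ)) * 1 := mul_le_mul h1 hr1 hr0 (by positivity)
    _ = _ := mul_one _

variable (mem G N d q m W gd)

/-- mean ratio of the weights after the move `c` -/
def ratR {k : ℕ} (stf : List κ → St E') (h : List κ) (c : κ) (x : Fin k → Ω) : ℝ :=
  (∑ i, wt mem (lamH G d q m stf (h ++ [c])) (x i) / wt mem (lamH G d q m stf h) (x i)) / k

/-- final mean -/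
def finR {k : ℕ} (stf : List κ → St E') (h : List κ) (x : Fin k → Ω) : ℝ :=
  (∑ i, ∏ e ∈ mem (x i), (if G e then (lamH G d q m stf h e)⁻¹ else 0)) / k

/-- the invariant of the loop: a state has a history `hist s` and a value `val s` (product of the
ratio estimates) -/
structure LInv {Q : Type*} (stf : List κ → St E') (C : Finset κ) (WF : Q → Prop)
    (hist : Q → List κ) (val : Q → ℝ) (ζ : ℝ) (t : ℕ) (s : Q) : Prop where
  wf : WF s
  len : (hist s).length = t
  codes : ∀ c ∈ hist s, c ∈ C
  acc : AccRun mem G d q m W gd stf (hist s)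
  lo : (1 - ζ) ^ t * (Z mem (lamH G d q m stf (hist s)) / Z mem (lamH G d q m stf [])) ≤ val s
  hi : val s ≤ (1 + ζ) ^ t * (Z mem (lamH G d q m stf (hist s)) / Z mem (lamH G d q m stf []))

/-- the interface of the loop: `stf` controller state of a history, `C` allowed moves, `k`
replicas, `R` rounds, `mvF` the chosen move, `upd` the (ideal) update of the state -/
structure LoopData {Q : Type*} (stf : List κ → St E') (C : Finset κ) (k R : ℕ)
    (WF : Q → Prop) (hist : Q → List κ) (val : Q → ℝ)
    (mvF : List κ → (Fin k → Ω) → κ) (upd : Q → (Fin k → Ω) → Q) : Prop where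
  kpos : 0 < k
  nil : stf [] = st0
  /-- every allowed move changes the weights by at most the factor `(m+1)/m` -/
  step : ∀ h c, h.length < R → (∀ c ∈ h, c ∈ C) → c ∈ C → ∀ e,
    lamH G d q m stf (h ++ [c]) e ≤ ((m : ℝ) + 1) / m * lamH G d q m stf h e ∧
    lamH G d q m stf h e ≤ ((m : ℝ) + 1) / m * lamH G d q m stf (h ++ [c]) e
  /-- the chosen move is allowed and is a controller step -/
  move : ∀ h, h.length < R → (∀ c ∈ h, c ∈ C) → ∀ x : Fin k → Ω, mvF h x ∈ C ∧
    CStep q gd (Smax m W) (xhF mem G d q m stf h x) (stf h) (stf (h ++ [mvF h x]))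
  upd_wf : ∀ s x, WF s → (hist s).length < R → WF (upd s x)
  upd_hist : ∀ s x, WF s → (hist s).length < R → hist (upd s x) = hist s ++ [mvF (hist s) x]
  upd_val : ∀ s x, WF s → (hist s).length < R → (∀ c ∈ hist s, c ∈ C) →
    val (upd s x) = val s * ratR mem G d q m stf (hist s) (mvF (hist s) x) x

variable {mem G N d q m W gd}

theorem pow_ratio_le_two (hp : Par Ω N d q m W gd) : (((m : ℝ) + 1) / m) ^ N ≤ 2 := by
  have hm : (0 : ℝ) < m := by exact_mod_cast hp.mpos
  have hq : 1 ≤ q := hp.qpos
  have h1 : 2 * N ≤ m := by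
    have := hp.hm1
    calc 2 * N = 2 * 1 * N := by ring
      _ ≤ 2 * q * N := Nat.mul_le_mul_right _ (Nat.mul_le_mul_left _ hq)
      _ ≤ m := this
  have h2 : (N : ℝ) / m ≤ 1 / 2 := by
    rw [div_le_div_iff₀ hm (by norm_num)]
    have : (2 : ℝ) * N ≤ m := by exact_mod_cast h1
    linarith
  have h3 : ((m : ℝ) + 1) / m ≤ Real.exp (1 / m) := by
    have := Real.add_one_le_exp (1 / (m : ℝ))
    have e : ((m : ℝ) + 1) / m = 1 / m + 1 := by field_simp; ring
    rw [e]; exact this
  calc (((m : ℝ) + 1) / m) ^ N ≤ (Real.exp (1 / m)) ^ N :=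
        pow_le_pow_left₀ (by positivity) h3 N
    _ = Real.exp (N / m) := by rw [← Real.exp_nat_mul]; congr 1; ring
    _ ≤ Real.exp (1 / 2) := Real.exp_le_exp.2 h2
    _ ≤ 2 := by
        have h4 := Real.abs_exp_sub_one_sub_id_le (x := 1 / 2) (by norm_num)
        have h5 := (abs_le.1 h4).2
        linarith

section main

variable {Q : Type*} {stf : List κ → St E'} {C : Finset κ} {k R : ℕ}
  {WF : Q → Prop} {hist : Q → List κ} {val : Q → ℝ}
  {mvF : List κ → (Fin k → Ω) → κ} {upd : Q → (Fin k → Ω) → Q}

theorem lamH_pos (hp : Par Ω N d q m W gd) (stf : List κ → St E') (h : List κ) (e : E') :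
    0 < lamH G d q m stf h e := lamw_pos hp G (stf h) e

/-- deterministic part of a round -/
theorem LInv.round [Nonempty Ω] (hp : Par Ω N d q m W gd) {ζ : ℝ} (hζ1 : ζ ≤ 1)
    (hζ0 : 0 ≤ ζ)
    (hD : LoopData mem G d q m W gd stf C k R WF hist val mvF upd)
    {t : ℕ} (ht : t < R) {s : Q} (hI : LInv mem G d q m W gd stf C WF hist val ζ t s)
    (x : Fin k → Ω)
    (hx : ∀ e, |(∑ i, (if e ∈ mem (x i) then (1 : ℝ) else 0)) / k -
      ∑ M, gib mem (lamH G d q m stf (hist s)) M * (if e ∈ mem M then 1 else 0)| ≤ 1 / (2 * gd))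
    (hr : ∀ c ∈ C, |ratR mem G d q m stf (hist s) c x -
      ∑ M, gib mem (lamH G d q m stf (hist s)) M *
        (wt mem (lamH G d q m stf (hist s ++ [c])) M /
        wt mem (lamH G d q m stf (hist s)) M)| ≤
      ζ * ∑ M, gib mem (lamH G d q m stf (hist s)) M *
        (wt mem (lamH G d q m stf (hist s ++ [c])) M /
        wt mem (lamH G d q m stf (hist s)) M)) :
    LInv mem G d q m W gd stf C WF hist val ζ (t + 1) (upd s x) := by
  have hlt : (hist s).length < R := by rw [hI.len]; exact ht
  obtain ⟨hc, hst⟩ := hD.move (hist s) hlt hI.codes x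
  have hu := hD.upd_hist s x hI.wf hlt
  have hv := hD.upd_val s x hI.wf hlt hI.codes
  set c := mvF (hist s) x with hcdef
  have hacc := acc_xhF hp (stf := stf) (h := hist s) hx
  have hlpos := lamH_pos (G := G) hp stf (hist s)
  have hr' := hr c hc
  rw [sum_gib_ratio mem hlpos] at hr'
  set μ := Z mem (lamH G d q m stf (hist s ++ [c])) / Z mem (lamH G d q m stf (hist s)) with hμ
  have hlo := (abs_le.1 hr').1
  have hhi := (abs_le.1 hr').2
  have hZ := Z_pos mem hlpos
  have hZ0 := Z_pos mem (lamH_pos (G := G) hp stf [])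
  have hZ' := Z_pos mem (lamH_pos (G := G) hp stf (hist s ++ [c]))
  have e1 : Z mem (lamH G d q m stf (hist s ++ [c])) / Z mem (lamH G d q m stf []) =
      (Z mem (lamH G d q m stf (hist s)) / Z mem (lamH G d q m stf [])) * μ := by
    rw [hμ]; field_simp
  have hμ0 : 0 < μ := div_pos hZ' hZ
  have hZr : 0 < Z mem (lamH G d q m stf (hist s)) / Z mem (lamH G d q m stf []) :=
    div_pos hZ hZ0
  have hrat0 : 0 ≤ ratR mem G d q m stf (hist s) c x :=
    div_nonneg (sum_nonneg fun i _ => (div_pos (wt_pos mem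
      (lamH_pos (G := G) hp stf _) _) (wt_pos mem hlpos _)).le) (Nat.cast_nonneg _)
  refine ⟨hD.upd_wf s x hI.wf hlt, ?_, ?_, ?_, ?_, ?_⟩
  · rw [hu]; simp [hI.len]
  · intro c' hc'
    rw [hu, List.mem_append, List.mem_singleton] at hc'
    rcases hc' with h | h
    · exact hI.codes c' h
    · rw [h]; exact hc
  · rw [hu]; exact hI.acc.snoc hst hacc
  · rw [hu, hv, e1, pow_succ]
    calc (1 - ζ) ^ t * (1 - ζ) *
          (Z mem (lamH G d q m stf (hist s)) / Z mem (lamH G d q m stf []) * μ)
        = ((1 - ζ) ^ t * (Z mem (lamH G d q m stf (hist s)) / Z mem (lamH G d q m stf []))) *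
          ((1 - ζ) * μ) := by ring
      _ ≤ _ := by
          refine mul_le_mul hI.lo (by linarith) (mul_nonneg (by linarith) hμ0.le) ?_
          refine le_trans ?_ hI.lo
          exact mul_nonneg (pow_nonneg (by linarith) _) hZr.le
  · rw [hu, hv, e1, pow_succ]
    calc val s * ratR mem G d q m stf (hist s) c x
        ≤ ((1 + ζ) ^ t * (Z mem (lamH G d q m stf (hist s)) / Z mem (lamH G d q m stf []))) *
          ((1 + ζ) * μ) := by
          refine mul_le_mul hI.hi (by linarith) hrat0 ?_
          positivity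
      _ = _ := by ring

/-- ratio of consecutive partition functions -/
theorem ratio_bounds [Nonempty Ω] (hs : Sys mem N d) (hp : Par Ω N d q m W gd)
    (hD : LoopData mem G d q m W gd stf C k R WF hist val mvF upd)
    {h : List κ} (hlt : h.length < R) (hcod : ∀ c ∈ h, c ∈ C) {c : κ} (hc : c ∈ C) :
    1 / 2 ≤ Z mem (lamH G d q m stf (h ++ [c])) / Z mem (lamH G d q m stf h) ∧
    ∀ M, wt mem (lamH G d q m stf (h ++ [c])) M / wt mem (lamH G d q m stf h) M ≤ 2 := by
  have hst := hD.step h c hlt hcod hc
  have h2 := pow_ratio_le_two hp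
  have hl := lamH_pos (G := G) hp stf h
  have hl' := lamH_pos (G := G) hp stf (h ++ [c])
  have hZ := Z_pos mem hl
  have hZ' := Z_pos mem hl'
  constructor
  · rw [le_div_iff₀ hZ]
    have h3 : Z mem (lamH G d q m stf h) ≤ 2 * Z mem (lamH G d q m stf (h ++ [c])) := by
      unfold Z
      rw [mul_sum]
      refine sum_le_sum fun M _ => ?_
      refine (wt_le_of_le hs hl (fun e => (hst e).2) M).trans ?_
      exact mul_le_mul_of_nonneg_right h2 (wt_pos mem hl' M).le
    linarith
  · intro M
    rw [div_le_iff₀ (wt_pos mem hl M)]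
    refine (wt_le_of_le hs hl' (fun e => (hst e).1) M).trans ?_
    exact mul_le_mul_of_nonneg_right h2 (wt_pos mem hl M).le

/-- **The control loop.** -/
theorem main_loop [Nonempty Ω] (hs : Sys mem N d) (hp : Par Ω N d q m W gd)
    (hD : LoopData mem G d q m W gd stf C k R WF hist val mvF upd)
    (hR : Rounds N m W gd ≤ R) (hcnt : 0 < cntG mem G)
    {E : ℕ} (hE : 1 ≤ E) {ζ : ℝ} (hζ : ζ = 1 / (2 * E * (R + 1)))
    {dd : ℝ}
    (hstat : (Fintype.card E' : ℝ) / (k * (1 / (2 * gd)) ^ 2) +
      C.card * (2 / (k * ζ ^ 2 * (1 / 2))) + dd ≤ 1 / (4 * (R + 1)))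
    (hstat1 : 1 / (k * ζ ^ 2 * (1 / 2)) + dd ≤ 1 / (4 * (R + 1)))
    (r : ℕ) (round : Q → List Bool → Q) (fin : Q → List Bool → ℝ)
    (s0 : Q) (h0w : WF s0) (h0h : hist s0 = []) (h0v : val s0 = 1)
    (hround : ∀ s : Q, WF s → (hist s).length < R → (∀ c ∈ hist s, c ∈ C) →
      (∀ t ≤ (hist s).length, Good mem G N d q m W (stf ((hist s).take t))) →
      Approx (round s) r (fun x : Fin k → Ω => upd s x)
        (prodLaw (gib mem (lamH G d q m stf (hist s)))) dd)
    (hfin : ∀ s : Q, WF s → (hist s).length = R → (∀ c ∈ hist s, c ∈ C) →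
      (∀ t ≤ (hist s).length, Good mem G N d q m W (stf ((hist s).take t))) →
      Approx (fin s) r (fun x : Fin k → Ω => finR mem G d q m stf (hist s) x)
        (prodLaw (gib mem (lamH G d q m stf (hist s)))) dd) :
    3 / 4 ≤ pr (R * r + r) (fun l =>
      (1 - 1 / (E : ℝ)) * cntG mem G ≤
        Z mem (lamH G d q m stf []) * val (runSteps round r R s0 (l.take (R * r))) *
          fin (runSteps round r R s0 (l.take (R * r))) (l.drop (R * r)) ∧
      Z mem (lamH G d q m stf []) * val (runSteps round r R s0 (l.take (R * r))) *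
          fin (runSteps round r R s0 (l.take (R * r))) (l.drop (R * r)) ≤
        (1 + 1 / (E : ℝ)) * cntG mem G) := by
  have hER : (1 : ℝ) ≤ E := by exact_mod_cast hE
  have hR1 : (0 : ℝ) < (R : ℝ) + 1 := by positivity
  have hζ0 : 0 < ζ := by rw [hζ]; positivity
  have hζs : ζ * ((R + 1 : ℕ) : ℝ) = 1 / (2 * E) := by
    rw [hζ]; push_cast; field_simp
  have hζ1 : ζ ≤ 1 := by
    rw [hζ, div_le_one (by positivity)]
    have : (1 : ℝ) ≤ (R : ℝ) + 1 := by linarith [(Nat.cast_nonneg R : (0 : ℝ) ≤ R)]
    nlinarith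
  have hkR : (0 : ℝ) < k := by exact_mod_cast hD.kpos
  have hgdR : (0 : ℝ) < gd := by exact_mod_cast hp.gdpos
  set δ : ℝ := 1 / (4 * (R + 1)) with hδ
  have hδ0 : 0 ≤ δ := by rw [hδ]; positivity
  -- initial invariant
  have hI0 : LInv mem G d q m W gd stf C WF hist val ζ 0 s0 := by
    have hZ0 := (Z_pos mem (lamH_pos (G := G) hp stf [])).ne'
    refine ⟨h0w, by rw [h0h]; rfl, by rw [h0h]; simp, by rw [h0h]; exact accRun_nil stf, ?_, ?_⟩
    · rw [h0h, h0v]; simp [div_self hZ0]
    · rw [h0h, h0v]; simp [div_self hZ0]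
  -- one round
  have hstep : ∀ t < R, ∀ s, LInv mem G d q m W gd stf C WF hist val ζ t s →
      1 - δ ≤ pr r (fun l => LInv mem G d q m W gd stf C WF hist val ζ (t + 1) (round s l)) := by
    intro t ht s hI
    have hlt : (hist s).length < R := by rw [hI.len]; exact ht
    have hgood : ∀ j ≤ (hist s).length, Good mem G N d q m W (stf ((hist s).take j)) :=
      fun j hj => hI.acc.good hs hp hD.nil j hj
    have hA := hround s hI.wf hlt hI.codes hgood
    have hlpos := lamH_pos (G := G) hp stf (hist s)
    have hbounds : ∀ c ∈ C, _ := fun c hc => ratio_bounds hs hp hD hlt hI.codes hc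
    have hbad := round_bad (α := Ω) hD.kpos (p := gib mem (lamH G d q m stf (hist s)))
      (gib_nonneg' mem hlpos) (sum_gib' mem hlpos) (univ : Finset E') C
      (fun e M => if e ∈ mem M then (1 : ℝ) else 0)
      (fun c M => wt mem (lamH G d q m stf (hist s ++ [c])) M /
        wt mem (lamH G d q m stf (hist s)) M)
      (fun e _ M => by split_ifs <;> norm_num) (fun e _ M => by split_ifs <;> norm_num)
      (t := 1 / (2 * gd)) (by positivity) (M := 2) (ζ := ζ) (μ0 := 1 / 2)
      (fun c _ M => (div_pos (wt_pos mem (lamH_pos (G := G) hp stf _) M)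
        (wt_pos mem hlpos M)).le)
      (fun c hc M => (hbounds c hc).2 M) hζ0 (by norm_num)
      (fun c hc => by rw [sum_gib_ratio mem hlpos]; exact (hbounds c hc).1)
    have h1 := pr_round hA (fun s' => LInv mem G d q m W gd stf C WF hist val ζ (t + 1) s')
      (δ := (Fintype.card E' : ℝ) / (k * (1 / (2 * gd)) ^ 2) +
        C.card * (2 / (k * ζ ^ 2 * (1 / 2)))) (by
        refine le_trans ?_ hbad
        refine sum_ind_mono (prodLaw_nonneg (gib_nonneg' mem hlpos)) fun x hx => ?_
        intro hgoodx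
        apply hx
        exact LInv.round hp hζ1 hζ0.le hD ht hI x (fun e => hgoodx.1 e (mem_univ _)) hgoodx.2)
    linarith
  -- the final block
  set good : Q → List Bool → Prop := fun s l =>
      (1 - 1 / (E : ℝ)) * cntG mem G ≤ Z mem (lamH G d q m stf []) * val s * fin s l ∧
      Z mem (lamH G d q m stf []) * val s * fin s l ≤ (1 + 1 / (E : ℝ)) * cntG mem G
    with hgooddef
  have hfinal : ∀ s, LInv mem G d q m W gd stf C WF hist val ζ R s →
      1 - δ ≤ pr r (fun l => good s l) := by
    intro s hI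
    have hgood : ∀ j ≤ (hist s).length, Good mem G N d q m W (stf ((hist s).take j)) :=
      fun j hj => hI.acc.good hs hp hD.nil j hj
    have hgh : Good mem G N d q m W (stf (hist s)) := by
      have := hgood (hist s).length le_rfl
      rwa [List.take_length] at this
    have hA := hfin s hI.wf hI.len hI.codes hgood
    have hlpos := lamH_pos (G := G) hp stf (hist s)
    have hZ := Z_pos mem hlpos
    have hZ0 := Z_pos mem (lamH_pos (G := G) hp stf [])
    have hS := hI.acc.final hs hp hD.nil (by rw [hI.len]; exact hR)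
    have hcount := final_count hp hs hgh hS hcnt
    have hident := final_identity (mem := mem) hp G (stf (hist s))
    have hcR : (0 : ℝ) < cntG mem G := by exact_mod_cast hcnt
    set μ : ℝ := ∑ M, gib mem (lamH G d q m stf (hist s)) M *
        ∏ e ∈ mem M, (if G e then (lamH G d q m stf (hist s) e)⁻¹ else 0) with hμ
    have hid : (cntG mem G : ℝ) = Z mem (lamH G d q m stf (hist s)) * μ := hident
    have hcount' : Z mem (lamH G d q m stf (hist s)) ≤ 2 * cntG mem G := hcount
    have hμhalf : 1 / 2 ≤ μ := by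
      rw [hid] at hcount'
      have : Z mem (lamH G d q m stf (hist s)) * 1 ≤
          Z mem (lamH G d q m stf (hist s)) * (2 * μ) := by
        linarith
      have := le_of_mul_le_mul_left this hZ
      linarith
    have hfle : ∀ M, ∏ e ∈ mem M, (if G e then (lamH G d q m stf (hist s) e)⁻¹ else 0) ≤ 1 := by
      intro M
      refine prod_le_one (fun e _ => ?_) (fun e _ => ?_)
      · split_ifs
        · exact (inv_pos.2 (hlpos e)).le
        · exact le_rfl
      · split_ifs with hG
        · refine inv_le_one_of_one_le₀ ?_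
          have h1 : Aw G m (stf (hist s)).s e = 1 := by unfold Aw; rw [if_pos hG]
          have h2 := omw_pos hp.w0_pos hp.mpos (stf (hist s)).a e
          unfold lamH lamw
          linarith
        · exact zero_le_one
    have hf0 : ∀ M, 0 ≤ ∏ e ∈ mem M, (if G e then (lamH G d q m stf (hist s) e)⁻¹ else 0) := by
      intro M
      refine prod_nonneg fun e _ => ?_
      split_ifs
      · exact (inv_pos.2 (hlpos e)).le
      · exact le_rfl
    have hbad := bad_mul (α := Ω) hD.kpos (p := gib mem (lamH G d q m stf (hist s)))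
      (gib_nonneg' mem hlpos) (sum_gib' mem hlpos)
      (g := fun M => ∏ e ∈ mem M, (if G e then (lamH G d q m stf (hist s) e)⁻¹ else 0))
      hf0 hfle (ζ := ζ) (μ0 := 1 / 2) hζ0 (by norm_num) hμhalf
    have h1 := pr_round hA (fun v : ℝ =>
        (1 - 1 / (E : ℝ)) * cntG mem G ≤ Z mem (lamH G d q m stf []) * val s * v ∧
        Z mem (lamH G d q m stf []) * val s * v ≤ (1 + 1 / (E : ℝ)) * cntG mem G)
      (δ := 1 / (k * ζ ^ 2 * (1 / 2))) (by
        refine le_trans ?_ hbad
        refine sum_ind_mono (prodLaw_nonneg (gib_nonneg' mem hlpos)) fun x hx => ?_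
        intro hgoodx
        apply hx
        rw [← hμ] at hgoodx
        have hest : |finR mem G d q m stf (hist s) x - μ| ≤ ζ * μ := hgoodx
        have hlo := (abs_le.1 hest).1
        have hhi := (abs_le.1 hest).2
        have hμ0 : 0 < μ := by linarith
        have hfin0 : 0 ≤ finR mem G d q m stf (hist s) x :=
          div_nonneg (sum_nonneg fun i _ => hf0 _) (Nat.cast_nonneg _)
        have hZr : 0 < Z mem (lamH G d q m stf (hist s)) / Z mem (lamH G d q m stf []) :=
          div_pos hZ hZ0
        have e1 : (cntG mem G : ℝ) = Z mem (lamH G d q m stf []) *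
            (Z mem (lamH G d q m stf (hist s)) / Z mem (lamH G d q m stf [])) * μ := by
          rw [hid]; field_simp
        have hpl := one_sub_pow_ge_of (R := R) hE hζ1 hζs.le
        have hpu := one_add_pow_le_of (R := R) hE hζ0.le hζs.le
        have hval0 : 0 ≤ val s := le_trans (mul_nonneg (pow_nonneg (by linarith) _) hZr.le) hI.lo
        constructor
        · calc (1 - 1 / (E : ℝ)) * cntG mem G ≤ (1 - ζ) ^ (R + 1) * cntG mem G :=
                mul_le_mul_of_nonneg_right hpl hcR.le
            _ = Z mem (lamH G d q m stf []) * ((1 - ζ) ^ R *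
                (Z mem (lamH G d q m stf (hist s)) / Z mem (lamH G d q m stf []))) *
                ((1 - ζ) * μ) := by rw [e1, pow_succ]; ring
            _ ≤ _ := by
                refine mul_le_mul (mul_le_mul_of_nonneg_left hI.lo hZ0.le) (by linarith)
                  (mul_nonneg (by linarith) hμ0.le) ?_
                exact mul_nonneg hZ0.le hval0
        · calc Z mem (lamH G d q m stf []) * val s * finR mem G d q m stf (hist s) x
              ≤ Z mem (lamH G d q m stf []) * ((1 + ζ) ^ R *
                (Z mem (lamH G d q m stf (hist s)) / Z mem (lamH G d q m stf []))) *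
                ((1 + ζ) * μ) := by
                refine mul_le_mul (mul_le_mul_of_nonneg_left hI.hi hZ0.le) (by linarith)
                  hfin0 ?_
                positivity
            _ = (1 + ζ) ^ (R + 1) * cntG mem G := by rw [e1, pow_succ]; ring
            _ ≤ (1 + 1 / (E : ℝ)) * cntG mem G := mul_le_mul_of_nonneg_right hpu hcR.le)
    have h2 : pr r (fun l => good s l) = pr r (fun l =>
        (1 - 1 / (E : ℝ)) * cntG mem G ≤ Z mem (lamH G d q m stf []) * val s * fin s l ∧
        Z mem (lamH G d q m stf []) * val s * fin s l ≤ (1 + 1 / (E : ℝ)) * cntG mem G) := rfl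
    rw [h2]
    linarith
  have hloop := pr_loop round r R
    (fun t s => LInv mem G d q m W gd stf C WF hist val ζ t s) δ hδ0
    s0 hI0 hstep good hfinal
  have hlast : 1 - ((R : ℝ) + 1) * δ = 3 / 4 := by
    rw [hδ]; field_simp; norm_num
  rw [hlast] at hloop
  exact hloop

end main

end

end Crest.Agent.R304.L6
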