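import Crest.Agent.R304.Sampler

/-!
# R304 / S0464: the list program simulates the function-level program

`encF s` is the table of `s : Fin n → Fin n`, `encP x` the list of the tables of a population
`x : Fin K → Om (Fin n)`.  All list functions of `LMoves.lean` and `Sampler.lean` on encoded
arguments are encodings of their counterparts in `Moves.lean`.
-/

set_option autoImplicit false
set_option linter.dupNamespace false

namespace Crest.Agent.R304.Sim

open Crest.Agent.R304.LM Crest.Agent.R304.Samp Crest.Agent.R304.Mov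

variable {n : ℕ}

/-- the table of a function -/
def encF (s : Fin n → Fin n) : List ℕ := List.ofFn (fun v => (s v : ℕ))

@[simp] theorem length_encF (s : Fin n → Fin n) : (encF s).length = n := by simp [encF]

@[simp] theorem ap_encF (s : Fin n → Fin n) (v : Fin n) : ap (encF s) (v : ℕ) = (s v : ℕ) := by
  simp [ap, encF, List.getD_eq_getElem?_getD]

theorem encF_injective : Function.Injective (encF (n := n)) := by
  intro s t h
  funext v
  have := congrArg (fun l => ap l (v : ℕ)) h
  simpa [Fin.ext_iff] using this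

theorem tab_eq_encF {f : ℕ → ℕ} {g : Fin n → Fin n} (h : ∀ v : Fin n, f v = (g v : ℕ)) :
    tab n f = encF g := by
  unfold tab encF
  refine List.ext_getElem (by simp) (fun i h1 h2 => ?_)
  have hi : i < n := by simpa using h1
  simpa using h ⟨i, hi⟩

theorem rho_iter (s t : Fin n → Fin n) (a : Fin n) (k : ℕ) :
    (rho (encF s) (encF t))^[k] (a : ℕ) = ((fun x => t (s x))^[k] a : Fin n) := by
  induction k with
  | zero => rfl
  | succ k ih =>
    rw [Function.iterate_succ_apply', Function.iterate_succ_apply', ih]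
    simp [rho]

theorem mem_compL_enc (s t : Fin n → Fin n) (a v : Fin n) :
    (v : ℕ) ∈ compL n (encF s) (encF t) (a : ℕ) ↔ v ∈ comp s t a := by
  rw [mem_compL]
  simp only [rho_iter, ap_encF, Mov.comp, Finset.mem_biUnion, Finset.mem_range, Fintype.card_fin,
    Finset.mem_insert, Finset.mem_singleton, Fin.ext_iff]

theorem mixL_enc {C' : List ℕ} {C : Finset (Fin n)} (h : ∀ v : Fin n, (v : ℕ) ∈ C' ↔ v ∈ C)
    (s t : Fin n → Fin n) : mixL n C' (encF s) (encF t) = encF (mix C s t) := by
  refine tab_eq_encF (fun v => ?_)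
  simp only [ap_encF, h v, mix]
  split_ifs <;> rfl

theorem cutL_enc (s : Fin n → Fin n) (u v : Fin n) :
    cutL n (encF s) u v = encF (cut s u v) := by
  refine tab_eq_encF (fun w => ?_)
  simp only [ap_encF, cut, ← Fin.ext_iff]
  split_ifs <;> rfl

theorem joinL_enc (s : Fin n → Fin n) (u v : Fin n) :
    joinL n (encF s) u v = encF (join s u v) := by
  refine tab_eq_encF (fun w => ?_)
  simp only [ap_encF, join, ← Fin.ext_iff]
  split_ifs <;> rfl

theorem pmL_iff (s : Fin n → Fin n) : pmL n (encF s) = true ↔ IsPM s := by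
  simp only [pmL, List.all_eq_true, List.mem_range, Bool.and_eq_true, decide_eq_true_eq, IsPM]
  constructor
  · intro h v
    have := h v v.2
    simpa [Fin.ext_iff] using this
  · intro h v hv
    have := h ⟨v, hv⟩
    have e := ap_encF s ⟨v, hv⟩
    have e2 := ap_encF s (s ⟨v, hv⟩)
    simp only at e
    rw [e, e2]
    simpa [Fin.ext_iff] using this

theorem pmL_enc (s : Fin n → Fin n) : pmL n (encF s) = decide (IsPM s) := by
  rw [Bool.eq_iff_iff, pmL_iff, decide_eq_true_iff]

/-- label of lists from a label of functions -/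
def labN (l : Lab (Fin n)) : LabL := (l.1, (l.2.1 : ℕ), (l.2.2.1 : ℕ), (l.2.2.2.1 : ℕ),
  (l.2.2.2.2 : ℕ))

/-- encoding of pairs -/
def encPair (p : (Fin n → Fin n) × (Fin n → Fin n)) : List ℕ × List ℕ := (encF p.1, encF p.2)

theorem encPair_injective : Function.Injective (encPair (n := n)) := by
  intro p q h
  have h1 := encF_injective (congrArg Prod.fst h)
  have h2 := encF_injective (congrArg Prod.snd h)
  exact Prod.ext h1 h2

theorem exL_enc (u : Fin n) (p : (Fin n → Fin n) × (Fin n → Fin n)) :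
    exL n u (encPair p) = encPair (candEx u p) := by
  unfold exL candEx encPair
  rw [mixL_enc (C := comp p.1 p.2 u) (fun v => mem_compL_enc _ _ _ _),
    mixL_enc (C := comp p.1 p.2 u) (fun v => mem_compL_enc _ _ _ _)]

theorem swL_enc (u v x y : Fin n) (s : Fin n → Fin n) :
    swL n u v x y (encF s) = encF (candSw u v x y s) := by
  unfold swL candSw
  simp only [ap_encF, ← Fin.ext_iff, joinL_enc]
  split_ifs <;> rfl

theorem twoHalf_enc (u v x y : Fin n) (s t : Fin n → Fin n) :
    twoHalf n u v x y (encF s) (encF t) =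
      (encF (join (mix (comp (cut s u v) (cut t x y) u) (cut s u v) (cut t x y)) x v),
        encF (join (mix (comp (cut s u v) (cut t x y) u) (cut t x y) (cut s u v)) u y)) := by
  unfold twoHalf
  simp only [cutL_enc]
  rw [mixL_enc (C := comp (cut s u v) (cut t x y) u) (fun w => mem_compL_enc _ _ _ _),
    mixL_enc (C := comp (cut s u v) (cut t x y) u) (fun w => mem_compL_enc _ _ _ _),
    joinL_enc, joinL_enc]

theorem twoL_enc (u v x y : Fin n) (p : (Fin n → Fin n) × (Fin n → Fin n)) :
    twoL n u v x y (encPair p) = encPair (candTwo u v x y p) := by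
  unfold twoL candTwo
  simp only [encPair, ap_encF, ← Fin.ext_iff, twoHalf_enc]
  split_ifs <;> rfl

theorem candL_enc (l : Lab (Fin n)) (p : (Fin n → Fin n) × (Fin n → Fin n)) :
    candL n (labN l) (encPair p) = encPair (cand l p) := by
  unfold candL cand
  have e : (labN l).1 = l.1 := rfl
  by_cases h0 : l.1 = 0
  · rw [if_pos (by rw [e]; exact h0), if_pos h0]
    exact exL_enc _ _
  rw [if_neg (by rw [e]; exact h0), if_neg h0]
  by_cases h1 : l.1 = 1
  · rw [if_pos (by rw [e]; exact h1), if_pos h1]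
    simp only [encPair, labN, swL_enc]
  rw [if_neg (by rw [e]; exact h1), if_neg h1]
  by_cases h2 : l.1 = 2
  · rw [if_pos (by rw [e]; exact h2), if_pos h2]
    simp only [encPair, labN, swL_enc]
  rw [if_neg (by rw [e]; exact h2), if_neg h2]
  exact twoL_enc _ _ _ _ _

theorem okL_enc (l : Lab (Fin n)) (p : (Fin n → Fin n) × (Fin n → Fin n)) :
    okL n (labN l) (encPair p) = decide (Ok l p) := by
  have h1 : (candL n (labN l) (encPair p)).1 = encF (cand l p).1 := by rw [candL_enc]; rfl
  have h2 : (candL n (labN l) (encPair p)).2 = encF (cand l p).2 := by rw [candL_enc]; rfl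
  rw [Bool.eq_iff_iff, decide_eq_true_iff]
  unfold okL Ok
  rw [h1, h2, candL_enc, candL_enc]
  simp only [Bool.and_eq_true, pmL_iff, decide_eq_true_eq, encPair_injective.eq_iff, and_assoc]

/-- natural-number weight of a function -/
def wtN (lam : ℕ → ℕ → ℕ) (s : Fin n → Fin n) : ℕ :=
  ∏ v : Fin n, if v < s v then lam v (s v) else 1

theorem wtL_enc (lam : ℕ → ℕ → ℕ) (s : Fin n → Fin n) : wtL n lam (encF s) = wtN lam s := by
  unfold wtL wtN
  rw [Finset.prod_range]
  refine Finset.prod_congr rfl (fun v _ => ?_)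
  simp only [ap_encF, ← Fin.lt_def]

theorem wtN_pos {lam : ℕ → ℕ → ℕ} (h : ∀ u v, 0 < lam u v) (s : Fin n → Fin n) :
    0 < wtN lam s := by
  unfold wtN
  refine Finset.prod_pos (fun v _ => ?_)
  split_ifs
  · exact h _ _
  · exact one_pos

theorem tauL_enc (l : Lab (Fin n)) (p : Om (Fin n) × Om (Fin n)) :
    tauL n (labN l) (encF p.1.1, encF p.2.1) = (encF (tau l p).1.1, encF (tau l p).2.1) := by
  have e : (encF p.1.1, encF p.2.1) = encPair (p.1.1, p.2.1) := rfl
  rw [e]
  unfold tauL
  rw [okL_enc, candL_enc]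
  by_cases hok : Ok l (p.1.1, p.2.1)
  · rw [if_pos (by simpa using hok), tau_fst, tau_snd, tauR, if_pos hok]
    rfl
  · rw [if_neg (by simpa using hok), tau_fst, tau_snd, tauR, if_neg hok]
    rfl

/-! ### populations -/

/-- encoding of a population -/
def encP {K : ℕ} (x : Fin K → Om (Fin n)) : List (List ℕ) := List.ofFn (fun i => encF (x i).1)

@[simp] theorem length_encP {K : ℕ} (x : Fin K → Om (Fin n)) : (encP x).length = K := by
  simp [encP]

theorem encP_injective {K : ℕ} : Function.Injective (encP (n := n) (K := K)) := by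
  intro x y h
  funext i
  have h1 := List.ofFn_injective h
  exact Subtype.ext (encF_injective (congrFun h1 i))

theorem getD_encP {K : ℕ} (x : Fin K → Om (Fin n)) (i : Fin K) :
    (encP x).getD (i : ℕ) [] = encF (x i).1 := by
  simp [encP, List.getD_eq_getElem?_getD]

theorem set_encP {K : ℕ} (x : Fin K → Om (Fin n)) (i : Fin K) (s : Om (Fin n)) :
    (encP x).set (i : ℕ) (encF s.1) = encP (Function.update x i s) := by
  unfold encP
  refine List.ext_getElem (by simp) (fun j h1 h2 => ?_)
  have hj : j < K := by simpa using h2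
  rw [List.getElem_set]
  simp only [List.getElem_ofFn]
  by_cases h : (i : ℕ) = j
  · subst h
    simp
  · rw [if_neg h, Function.update_of_ne]
    intro h'
    exact h (by rw [← h'])

/-! ### decoding of an index -/

section decode

variable {k : ℕ} [NeZero n] [NeZero k]

/-- first replica -/
def pF (k : ℕ) [NeZero k] (i : ℕ) : Fin k := Fin.ofNat k i

/-- second replica -/
def qF (k : ℕ) [NeZero k] (i : ℕ) : Fin k := Fin.ofNat k (i % k + 1 + (i / k) % (k - 1))

/-- label -/
def lF (n k : ℕ) [NeZero n] (i : ℕ) : Lab (Fin n) :=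
  ((i / k / (k - 1)) % 4, Fin.ofNat n (i / k / (k - 1) / 4), Fin.ofNat n (i / k / (k - 1) / 4 / n),
    Fin.ofNat n (i / k / (k - 1) / 4 / n / n), Fin.ofNat n (i / k / (k - 1) / 4 / n / n / n))

omit [NeZero n] in
theorem pF_val (i : ℕ) : ((pF k i : Fin k) : ℕ) = pIdx k i := rfl

omit [NeZero n] in
theorem qF_val (i : ℕ) : ((qF k i : Fin k) : ℕ) = qIdx k i := rfl

omit [NeZero k] in
theorem labN_lF (i : ℕ) : labN (lF n k i) = lIdx n k i := rfl

/-- the new pair produced by move `i` -/
def newA (i : ℕ) (x : Fin k → Om (Fin n)) : Om (Fin n) × Om (Fin n) :=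
  tau (lF n k i) (x (pF k i), x (qF k i))

/-- move `i` on a population -/
def mvA (i : ℕ) (x : Fin k → Om (Fin n)) : Fin k → Om (Fin n) :=
  Function.update (Function.update x (pF k i) (newA i x).1) (qF k i) (newA i x).2

/-- old weight of the pair touched by move `i` -/
def aA (lam : ℕ → ℕ → ℕ) (i : ℕ) (x : Fin k → Om (Fin n)) : ℕ :=
  wtN lam (x (pF k i)).1 * wtN lam (x (qF k i)).1

/-- new weight of the pair touched by move `i` -/
def bA (lam : ℕ → ℕ → ℕ) (i : ℕ) (x : Fin k → Om (Fin n)) : ℕ :=
  wtN lam (newA i x).1.1 * wtN lam (newA i x).2.1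

theorem newL_enc (i : ℕ) (x : Fin k → Om (Fin n)) :
    newL n k i (encP x) = (encF (newA i x).1.1, encF (newA i x).2.1) := by
  unfold newL newA
  rw [← tauL_enc, labN_lF, ← pF_val, ← qF_val, getD_encP, getD_encP]

/-- **(S1)** moves -/
theorem mvL_enc (i : ℕ) (x : Fin k → Om (Fin n)) : mvL n k i (encP x) = encP (mvA i x) := by
  unfold mvL mvA
  rw [newL_enc, ← pF_val, ← qF_val]
  simp only
  rw [set_encP, set_encP]

theorem aL_enc (lam : ℕ → ℕ → ℕ) (i : ℕ) (x : Fin k → Om (Fin n)) :
    aL n k lam i (encP x) = aA lam i x := by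
  unfold aL aA
  rw [← pF_val, ← qF_val, getD_encP, getD_encP, wtL_enc, wtL_enc]

theorem bL_enc (lam : ℕ → ℕ → ℕ) (i : ℕ) (x : Fin k → Om (Fin n)) :
    bL n k lam i (encP x) = bA lam i x := by
  unfold bL bA
  rw [newL_enc]
  simp only [wtL_enc]

theorem aA_pos {lam : ℕ → ℕ → ℕ} (h : ∀ u v, 0 < lam u v) (i : ℕ) (x : Fin k → Om (Fin n)) :
    0 < aA lam i x := Nat.mul_pos (wtN_pos h _) (wtN_pos h _)

/-- **One pair move of the program samples from the heat-bath kernel**, up to
`2 N / 2 ^ B0 + 2 / 2 ^ B`. -/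
theorem approx_stepL {B0 B : ℕ} {lam : ℕ → ℕ → ℕ} (hk : 2 ≤ k) (h : ∀ u v, 0 < lam u v)
    (x : Fin k → Om (Fin n)) :
    L6.Approx (stepL n k B0 B lam (encP x)) (B0 + B) encP
      (L6.hbK (nIdx n k) mvA (aA lam) (bA lam) x)
      (2 * (nIdx n k : ℕ) / 2 ^ B0 + 2 / 2 ^ B) := by
  have hN : 0 < nIdx n k := by
    have hn : 0 < n := Nat.pos_of_ne_zero (NeZero.ne n)
    unfold nIdx
    have h1 : 0 < k - 1 := by omega
    positivity
  exact L6.approx_hbStep hN (fun i _ x => mvL_enc i x) (fun i _ x => aL_enc lam i x)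
    (fun i _ x => bL_enc lam i x) (fun i _ x => Nat.add_pos_left (aA_pos h i x) _) x

end decode

end Crest.Agent.R304.Sim
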