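import Crest.Agent.R304.Loop180
import Crest.Agent.R304.Sim
import Crest.Agent.R304.Ctl787F
import Crest.Agent.R304.L6Main

/-!
# R304 / S0464 (helper168): definitions linking the program `Loop180` with the controller `Ctl787`
-/

set_option autoImplicit false
set_option linter.unusedSectionVars false

namespace Crest.Agent.R304.Glue

open Finset Crest.Agent.R304.Loop Crest.Agent.R304.Sim Crest.Agent.R304.LM
open Crest.Agent.R304.Ctl

noncomputable section

variable (P : Prm)

/-- the real edges, as a predicate on the pairs -/
def GP (e : Pr P.n) : Prop := adj P e.1.1 e.1.2 = true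

instance : DecidablePred (GP P) := fun e => by unfold GP; infer_instance

/-- **(G1)** the controller state of a history -/
def stf (h : List Mv) : St (Pr P.n) where
  s := thN P h
  a := fun e => (cntMv h 1 e.1.1 e.1.2 : ℤ) - (cntMv h 2 e.1.1 e.1.2 : ℤ)

/-- the allowed moves -/
def mvSet : Finset Mv :=
  {(0, 0, 0)} ∪ ((pairsL P.n).map (fun e => ((1, e.1, e.2) : Mv))).toFinset ∪
    ((pairsL P.n).map (fun e => ((2, e.1, e.2) : Mv))).toFinset

/-- the move chosen by the program from a population of perfect matchings -/
def mvF (h : List Mv) (x : Fin P.k → Mov.Om (Fin P.n)) : Mv := nextMv P h (encP x)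

/-- ideal update of the state -/
def upd (s : LSt) (x : Fin P.k → Mov.Om (Fin P.n)) : LSt :=
  (s.1 ++ [mvF P s.1 x], s.2 ++ [encP x])

/-- well-formed states -/
def WF (s : LSt) : Prop := s.2.length = s.1.length

/-- history of a state -/
def hist (s : LSt) : List Mv := s.1

/-- product of the ratio estimates -/
def val (s : LSt) : ℝ :=
  ((∏ t ∈ Finset.range s.1.length,
    rhat P (s.1.take t) (s.1.take (t + 1)) (s.2.getD t []) : ℚ) : ℝ)

end

end Crest.Agent.R304.Glue
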