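import Mathlib
import Crest.Agent.R304.Moves
import Crest.Agent.R304.PopDefs

/-!
# R304 / S0464: heat-bath kernels of families of involutions are good kernels

`hb1 w τ` is the heat bath on the orbits `{z, τ z}` of an involution `τ` for the weight `w`;
`hb w τ` is the uniform average over a finite family of involutions.  It is reversible, positive
semidefinite, and its Dirichlet form dominates the sum of `min (w z) (w (τ z)) * (F z - F (τ z))^2`.
-/

set_option autoImplicit false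

noncomputable section

namespace Crest.Agent.R304.GoodK

open Finset

section one

variable {X : Type*} [DecidableEq X]

/-- heat bath for one involution -/
def hb1 (w : X → ℝ) (τ : X → X) (z z' : X) : ℝ :=
  (if z' = z then w z / (w z + w (τ z)) else 0) +
    (if z' = τ z then w (τ z) / (w z + w (τ z)) else 0)

variable {w : X → ℝ} {τ : X → X}

theorem hb1_nonneg (hw : ∀ z, 0 < w z) (z z' : X) : 0 ≤ hb1 w τ z z' := by
  unfold hb1
  have h1 := hw z
  have h2 := hw (τ z)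
  have h3 : 0 ≤ w z / (w z + w (τ z)) := by positivity
  have h4 : 0 ≤ w (τ z) / (w z + w (τ z)) := by positivity
  split_ifs <;> linarith

theorem hb1_smul {c : ℝ} (hc : c ≠ 0) (z z' : X) :
    hb1 (fun z => c * w z) τ z z' = hb1 w τ z z' := by
  unfold hb1
  simp only [← mul_add, mul_div_mul_left _ _ hc]

variable [Fintype X]

/-- integration against the heat bath -/
theorem hb1_sum (z : X) (φ : X → ℝ) :
    ∑ z', hb1 w τ z z' * φ z' =
      w z / (w z + w (τ z)) * φ z + w (τ z) / (w z + w (τ z)) * φ (τ z) := by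
  unfold hb1
  simp only [add_mul, sum_add_distrib, ite_mul, zero_mul, sum_ite_eq', mem_univ, if_true]

theorem hb1_sum_one (hw : ∀ z, 0 < w z) (z : X) : ∑ z', hb1 w τ z z' = 1 := by
  have h := hb1_sum (w := w) (τ := τ) z (fun _ => 1)
  simp only [mul_one] at h
  rw [h, ← add_div, div_self]
  have := hw z; have := hw (τ z); positivity

theorem hb1_rev (hτ : ∀ z, τ (τ z) = z) (z z' : X) :
    w z * hb1 w τ z z' = w z' * hb1 w τ z' z := by
  unfold hb1
  by_cases h : z' = z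
  · subst h; rfl
  · have h' : ¬ z = z' := fun h1 => h h1.symm
    by_cases h2 : z' = τ z
    · have h3 : z = τ z' := by rw [h2, hτ]
      simp only [h, h', if_false, zero_add]
      rw [if_pos h2, if_pos h3, ← h3, ← h2, add_comm (w z') (w z)]
      ring
    · have h3 : ¬ z = τ z' := fun h3 => h2 (by rw [h3, hτ])
      simp only [h, h', h2, h3, if_false, add_zero, mul_zero]

theorem sum_inv (hτ : ∀ z, τ (τ z) = z) (g : X → ℝ) : ∑ z, g (τ z) = ∑ z, g z :=
  Equiv.sum_comp (⟨τ, τ, hτ, hτ⟩ : X ≃ X) g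

theorem hb1_psd (hw : ∀ z, 0 < w z) (hτ : ∀ z, τ (τ z) = z) (φ : X → ℝ) :
    0 ≤ ∑ z, ∑ z', w z * hb1 w τ z z' * φ z * φ z' := by
  have key : ∑ z, ∑ z', w z * hb1 w τ z z' * φ z * φ z' =
      (1 / 2) * ∑ z, (w z * φ z + w (τ z) * φ (τ z)) ^ 2 / (w z + w (τ z)) := by
    have h1 : ∀ z, ∑ z', w z * hb1 w τ z z' * φ z * φ z' =
        (w z * φ z) ^ 2 / (w z + w (τ z)) +
          (w z * φ z) * (w (τ z) * φ (τ z)) / (w z + w (τ z)) := by
      intro z
      have h2 : ∀ z', w z * hb1 w τ z z' * φ z * φ z' = (w z * φ z) * (hb1 w τ z z' * φ z') := by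
        intro z'; ring
      simp only [h2]
      rw [← mul_sum, hb1_sum]
      ring
    simp only [h1]
    rw [sum_add_distrib]
    have h3 : ∑ z, (w (τ z) * φ (τ z)) ^ 2 / (w z + w (τ z)) =
        ∑ z, (w z * φ z) ^ 2 / (w z + w (τ z)) := by
      rw [← sum_inv hτ (fun z => (w z * φ z) ^ 2 / (w z + w (τ z)))]
      refine sum_congr rfl (fun z _ => ?_)
      simp only [hτ]
      rw [add_comm (w (τ z))]
    have h4 : ∀ z, (w z * φ z + w (τ z) * φ (τ z)) ^ 2 / (w z + w (τ z)) =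
        (w z * φ z) ^ 2 / (w z + w (τ z)) + 2 * ((w z * φ z) * (w (τ z) * φ (τ z)) /
          (w z + w (τ z))) + (w (τ z) * φ (τ z)) ^ 2 / (w z + w (τ z)) := by
      intro z; ring
    simp only [h4]
    rw [sum_add_distrib, sum_add_distrib, h3, ← mul_sum]
    ring
  rw [key]
  refine mul_nonneg (by norm_num) (sum_nonneg fun z _ => div_nonneg (sq_nonneg _) ?_)
  have := hw z; have := hw (τ z); linarith

theorem hb1_dir (z : X) (F : X → ℝ) :
    ∑ z', w z * hb1 w τ z z' * (F z - F z') ^ 2 =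
      w z * w (τ z) / (w z + w (τ z)) * (F z - F (τ z)) ^ 2 := by
  have h2 : ∀ z', w z * hb1 w τ z z' * (F z - F z') ^ 2 =
      w z * (hb1 w τ z z' * (F z - F z') ^ 2) := by intro z'; ring
  simp only [h2]
  rw [← mul_sum, hb1_sum (φ := fun z' => (F z - F z') ^ 2)]
  simp only [sub_self]
  ring

theorem min_le_two_mul {a b : ℝ} (ha : 0 < a) (hb : 0 < b) :
    min a b ≤ 2 * (a * b / (a + b)) := by
  rw [mul_div_assoc', le_div_iff₀ (by positivity)]
  rcases le_total a b with h | h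
  · rw [min_eq_left h]; nlinarith
  · rw [min_eq_right h]; nlinarith

end one

section family

variable {X L : Type*} [DecidableEq X] [Fintype L]

/-- heat bath for a random member of a family of involutions -/
def hb (w : X → ℝ) (τ : L → X → X) (z z' : X) : ℝ :=
  (∑ l, hb1 w (τ l) z z') / (Fintype.card L : ℝ)

variable {w : X → ℝ} {τ : L → X → X}

theorem hb_nonneg (hw : ∀ z, 0 < w z) (z z' : X) : 0 ≤ hb w τ z z' :=
  div_nonneg (sum_nonneg fun l _ => hb1_nonneg hw z z') (Nat.cast_nonneg _)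

theorem hb_smul {c : ℝ} (hc : c ≠ 0) (z z' : X) :
    hb (fun z => c * w z) τ z z' = hb w τ z z' := by
  unfold hb
  simp only [hb1_smul hc]

variable [Fintype X]

theorem hb_sum_one [Nonempty L] (hw : ∀ z, 0 < w z) (z : X) : ∑ z', hb w τ z z' = 1 := by
  unfold hb
  rw [← sum_div, sum_comm]
  simp only [hb1_sum_one hw, sum_const, card_univ, nsmul_eq_mul, mul_one]
  exact div_self (Nat.cast_ne_zero.2 Fintype.card_ne_zero)

theorem hb_rev (hτ : ∀ l z, τ l (τ l z) = z) (z z' : X) :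
    w z * hb w τ z z' = w z' * hb w τ z' z := by
  unfold hb
  rw [mul_div_assoc', mul_div_assoc', mul_sum, mul_sum]
  congr 1
  exact sum_congr rfl fun l _ => hb1_rev (hτ l) z z'

theorem hb_psd (hw : ∀ z, 0 < w z) (hτ : ∀ l z, τ l (τ l z) = z) (φ : X → ℝ) :
    0 ≤ ∑ z, ∑ z', w z * hb w τ z z' * φ z * φ z' := by
  have h : ∑ z, ∑ z', w z * hb w τ z z' * φ z * φ z' =
      (∑ l, ∑ z, ∑ z', w z * hb1 w (τ l) z z' * φ z * φ z') / (Fintype.card L : ℝ) := by
    unfold hb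
    have h1 : ∀ z z', w z * ((∑ l, hb1 w (τ l) z z') / (Fintype.card L : ℝ)) * φ z * φ z' =
        (∑ l, w z * hb1 w (τ l) z z' * φ z * φ z') / (Fintype.card L : ℝ) := by
      intro z z'
      rw [mul_div_assoc', mul_sum, div_mul_eq_mul_div, sum_mul, div_mul_eq_mul_div, sum_mul]
    simp only [h1, ← sum_div]
    congr 1
    rw [sum_comm]
    rw [← sum_comm]
    have h2 : ∀ z, ∑ z', ∑ l, w z * hb1 w (τ l) z z' * φ z * φ z' =
        ∑ l, ∑ z', w z * hb1 w (τ l) z z' * φ z * φ z' := fun z => sum_comm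
    simp only [h2]
    exact sum_comm
  rw [h]
  exact div_nonneg (sum_nonneg fun l _ => hb1_psd hw (hτ l) φ) (Nat.cast_nonneg _)

theorem hb_dir (hw : ∀ z, 0 < w z) (F : X → ℝ) :
    (∑ l, ∑ z, min (w z) (w (τ l z)) * (F z - F (τ l z)) ^ 2) / (4 * (Fintype.card L : ℝ)) ≤
      (1 / 2) * ∑ z, ∑ z', w z * hb w τ z z' * (F z - F z') ^ 2 := by
  have h : ∑ z, ∑ z', w z * hb w τ z z' * (F z - F z') ^ 2 =
      (∑ l, ∑ z, w z * w (τ l z) / (w z + w (τ l z)) * (F z - F (τ l z)) ^ 2) /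
        (Fintype.card L : ℝ) := by
    unfold hb
    have h1 : ∀ z z', w z * ((∑ l, hb1 w (τ l) z z') / (Fintype.card L : ℝ)) * (F z - F z') ^ 2 =
        (∑ l, w z * hb1 w (τ l) z z' * (F z - F z') ^ 2) / (Fintype.card L : ℝ) := by
      intro z z'
      rw [mul_div_assoc', mul_sum, div_mul_eq_mul_div, sum_mul]
    simp only [h1, ← sum_div]
    congr 1
    have h2 : ∀ z, ∑ z', ∑ l, w z * hb1 w (τ l) z z' * (F z - F z') ^ 2 =
        ∑ l, ∑ z', w z * hb1 w (τ l) z z' * (F z - F z') ^ 2 := fun z => sum_comm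
    simp only [h2, hb1_dir]
    exact sum_comm
  rw [h]
  have h3 : ∑ l, ∑ z, min (w z) (w (τ l z)) * (F z - F (τ l z)) ^ 2 ≤
      2 * ∑ l, ∑ z, w z * w (τ l z) / (w z + w (τ l z)) * (F z - F (τ l z)) ^ 2 := by
    rw [mul_sum]
    refine sum_le_sum fun l _ => ?_
    rw [mul_sum]
    refine sum_le_sum fun z _ => ?_
    have h4 := min_le_two_mul (hw z) (hw (τ l z))
    have h5 := sq_nonneg (F z - F (τ l z))
    calc min (w z) (w (τ l z)) * (F z - F (τ l z)) ^ 2 ≤
        (2 * (w z * w (τ l z) / (w z + w (τ l z)))) * (F z - F (τ l z)) ^ 2 :=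
          mul_le_mul_of_nonneg_right h4 h5
      _ = _ := by ring
  have h6 : (0 : ℝ) ≤ (Fintype.card L : ℝ)⁻¹ := by positivity
  calc (∑ l, ∑ z, min (w z) (w (τ l z)) * (F z - F (τ l z)) ^ 2) / (4 * (Fintype.card L : ℝ)) =
      (1 / 4) * (∑ l, ∑ z, min (w z) (w (τ l z)) * (F z - F (τ l z)) ^ 2) *
        (Fintype.card L : ℝ)⁻¹ := by
        rw [div_eq_mul_inv, mul_inv]; ring
    _ ≤ (1 / 4) * (2 * ∑ l, ∑ z, w z * w (τ l z) / (w z + w (τ l z)) * (F z - F (τ l z)) ^ 2) *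
        (Fintype.card L : ℝ)⁻¹ := by gcongr
    _ = _ := by rw [div_eq_mul_inv]; ring

end family

section pairs

variable {Ω L : Type*} [Fintype Ω] [DecidableEq Ω] [Fintype L]

/-- the weight of a pair -/
def pw (W : Ω → ℝ) (z : Ω × Ω) : ℝ := W z.1 * W z.2

/-- normalised law -/
def law (W : Ω → ℝ) (x : Ω) : ℝ := W x / ∑ y, W y

theorem law_pos [Nonempty Ω] {W : Ω → ℝ} (hW : ∀ x, 0 < W x) (x : Ω) : 0 < law W x :=
  div_pos (hW x) (sum_pos (fun y _ => hW y) univ_nonempty)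

theorem law_sum [Nonempty Ω] {W : Ω → ℝ} (hW : ∀ x, 0 < W x) : ∑ x, law W x = 1 := by
  unfold law
  rw [← sum_div, div_self]
  exact (sum_pos (fun y _ => hW y) univ_nonempty).ne'

/-- **Glue**: the average heat bath of involutions is a `GoodKernel` as soon as the variance is
dominated by the sum of the two-state energies. -/
theorem good_of_energy [Nonempty Ω] [Nonempty L] {W : Ω → ℝ} (hW : ∀ x, 0 < W x)
    (τ : L → Ω × Ω → Ω × Ω) (hτ : ∀ l z, τ l (τ l z) = z) {C : ℝ} (hC : 0 < C)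
    (hE : ∀ f : Ω → ℝ, ∑ a, law W a * f a = 0 →
      (∑ y, W y) ^ 2 * ∑ a, law W a * f a ^ 2 ≤
        C * ∑ l, ∑ z : Ω × Ω, min (pw W z) (pw W (τ l z)) *
          ((f z.1 + f z.2) - (f (τ l z).1 + f (τ l z).2)) ^ 2) :
    Pop.GoodKernel (law W) (hb (pw W) τ) (1 / (8 * C * (Fintype.card L : ℝ))) := by
  set S : ℝ := ∑ y, W y with hS
  have hSpos : 0 < S := sum_pos (fun y _ => hW y) univ_nonempty
  have hpw : ∀ z, 0 < pw W z := fun z => mul_pos (hW _) (hW _)
  have hl : ∀ z : Ω × Ω, law W z.1 * law W z.2 = (S ^ 2)⁻¹ * pw W z := by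
    intro z
    unfold law pw
    rw [← hS]
    field_simp
  have hLpos : (0 : ℝ) < Fintype.card L := by exact_mod_cast Fintype.card_pos
  refine ⟨fun z z' => hb_nonneg hpw z z', fun z => hb_sum_one hpw z, fun z z' => ?_, fun φ => ?_,
    fun f hf => ?_⟩
  · rw [hl, hl, mul_assoc, hb_rev hτ z z', mul_assoc]
  · have h := hb_psd (w := pw W) hpw hτ φ
    simp only [hl]
    have h2 : ∑ z : Ω × Ω, ∑ z', (S ^ 2)⁻¹ * pw W z * hb (pw W) τ z z' * φ z * φ z' =
        (S ^ 2)⁻¹ * ∑ z : Ω × Ω, ∑ z', pw W z * hb (pw W) τ z z' * φ z * φ z' := by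
      rw [mul_sum]
      refine sum_congr rfl fun z _ => ?_
      rw [mul_sum]
      refine sum_congr rfl fun z' _ => ?_
      ring
    rw [h2]
    positivity
  · have h1 := hE f hf
    have h2 := hb_dir (w := pw W) (τ := τ) hpw (fun z : Ω × Ω => f z.1 + f z.2)
    simp only [hl]
    have h3 : ∑ z : Ω × Ω, ∑ z', (S ^ 2)⁻¹ * pw W z * hb (pw W) τ z z' *
        ((f z.1 + f z.2) - (f z'.1 + f z'.2)) ^ 2 =
        (S ^ 2)⁻¹ * ∑ z : Ω × Ω, ∑ z', pw W z * hb (pw W) τ z z' *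
          ((f z.1 + f z.2) - (f z'.1 + f z'.2)) ^ 2 := by
      rw [mul_sum]
      refine sum_congr rfl fun z _ => ?_
      rw [mul_sum]
      refine sum_congr rfl fun z' _ => ?_
      ring
    rw [h3]
    set E : ℝ := ∑ l, ∑ z : Ω × Ω, min (pw W z) (pw W (τ l z)) *
          ((f z.1 + f z.2) - (f (τ l z).1 + f (τ l z).2)) ^ 2 with hEdef
    set D : ℝ := ∑ z : Ω × Ω, ∑ z', pw W z * hb (pw W) τ z z' *
          ((f z.1 + f z.2) - (f z'.1 + f z'.2)) ^ 2 with hD
    set Vr : ℝ := ∑ a, law W a * f a ^ 2 with hV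
    have h4 : E / (4 * (Fintype.card L : ℝ)) ≤ (1 / 2) * D := h2
    have h5 : S ^ 2 * Vr ≤ C * E := h1
    have h6 : Vr ≤ (S ^ 2)⁻¹ * (C * E) := by
      rw [← div_eq_inv_mul, le_div_iff₀ (by positivity)]
      linarith
    calc 2 * (1 / (8 * C * (Fintype.card L : ℝ))) * Vr ≤
        2 * (1 / (8 * C * (Fintype.card L : ℝ))) * ((S ^ 2)⁻¹ * (C * E)) := by gcongr
      _ = (S ^ 2)⁻¹ * (E / (4 * (Fintype.card L : ℝ))) := by field_simp; ring
      _ ≤ (S ^ 2)⁻¹ * ((1 / 2) * D) := by gcongr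
      _ = 1 / 2 * ((S ^ 2)⁻¹ * D) := by ring

end pairs

end Crest.Agent.R304.GoodK

end
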