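import Crest.Agent.R304.L6Approx

/-!
# R304 / S0464, block L6 (helper168): Chebyshev's inequality for product laws
-/

set_option autoImplicit false

namespace Crest.Agent.R304.L6

open Finset Crest.Agent.R309.Tape

variable {α : Type*} [Fintype α]

theorem sum_prodLaw_sum {k : ℕ} {p : α → ℝ} (hp1 : ∑ x, p x = 1) {h : α → ℝ}
    (h0 : ∑ x, p x * h x = 0) :
    ∑ x : Fin k → α, prodLaw p x * ∑ i, h (x i) = 0 := by
  induction k with
  | zero => simp
  | succ k ih =>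
    rw [sum_fin_succ_cons]
    have e : ∀ a : α, ∑ y : Fin k → α, prodLaw p (Fin.cons a y : Fin (k + 1) → α) *
        ∑ i, h ((Fin.cons a y : Fin (k + 1) → α) i) = p a * h a := by
      intro a
      have e1 : ∀ y : Fin k → α, prodLaw p (Fin.cons a y : Fin (k + 1) → α) *
          ∑ i, h ((Fin.cons a y : Fin (k + 1) → α) i) =
          (p a * h a) * prodLaw p y + p a * (prodLaw p y * ∑ i, h (y i)) := by
        intro y
        rw [prodLaw_cons, Fin.sum_univ_succ]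
        simp only [Fin.cons_zero, Fin.cons_succ]
        ring
      simp only [e1]
      rw [sum_add_distrib, ← mul_sum, ← mul_sum, sum_prodLaw_one k hp1, ih]
      ring
    simp only [e]
    exact h0

theorem sum_prodLaw_sq {k : ℕ} {p : α → ℝ} (hp1 : ∑ x, p x = 1) {h : α → ℝ}
    (h0 : ∑ x, p x * h x = 0) :
    ∑ x : Fin k → α, prodLaw p x * (∑ i, h (x i)) ^ 2 = k * ∑ x, p x * h x ^ 2 := by
  induction k with
  | zero => simp
  | succ k ih =>
    rw [sum_fin_succ_cons]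
    have e : ∀ a : α, ∑ y : Fin k → α, prodLaw p (Fin.cons a y : Fin (k + 1) → α) *
        (∑ i, h ((Fin.cons a y : Fin (k + 1) → α) i)) ^ 2 =
          p a * h a ^ 2 + p a * (k * ∑ x, p x * h x ^ 2) := by
      intro a
      have e1 : ∀ y : Fin k → α, prodLaw p (Fin.cons a y : Fin (k + 1) → α) *
          (∑ i, h ((Fin.cons a y : Fin (k + 1) → α) i)) ^ 2 =
          (p a * h a ^ 2) * prodLaw p y + (2 * p a * h a) * (prodLaw p y * ∑ i, h (y i)) +
            p a * (prodLaw p y * (∑ i, h (y i)) ^ 2) := by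
        intro y
        rw [prodLaw_cons, Fin.sum_univ_succ]
        simp only [Fin.cons_zero, Fin.cons_succ]
        ring
      simp only [e1]
      rw [sum_add_distrib, sum_add_distrib, ← mul_sum, ← mul_sum, ← mul_sum,
        sum_prodLaw_one k hp1, ih, sum_prodLaw_sum hp1 h0]
      ring
    simp only [e]
    rw [sum_add_distrib, ← sum_mul, hp1]
    push_cast; ring

/-- Chebyshev: the mean of `k` independent samples. -/
theorem cheb_prodLaw {k : ℕ} (hk : 0 < k) {p : α → ℝ} (hp : ∀ x, 0 ≤ p x) (hp1 : ∑ x, p x = 1)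
    (g : α → ℝ) {t : ℝ} (ht : 0 < t) :
    ∑ x : Fin k → α, prodLaw p x * ind (t ≤ |(∑ i, g (x i)) / k - ∑ a, p a * g a|) ≤
      (∑ a, p a * (g a - ∑ b, p b * g b) ^ 2) / (k * t ^ 2) := by
  set μ : ℝ := ∑ a, p a * g a with hμ
  have hkR : (0 : ℝ) < k := by exact_mod_cast hk
  have h0 : ∑ a, p a * (g a - μ) = 0 := by
    simp only [mul_sub, sum_sub_distrib, ← sum_mul, hp1, one_mul]
    rw [hμ, sub_self]
  have h2 := sum_prodLaw_sq (k := k) hp1 h0
  rw [le_div_iff₀ (by positivity), sum_mul]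
  have h3 : ∀ x : Fin k → α, prodLaw p x * ind (t ≤ |(∑ i, g (x i)) / k - μ|) * (k * t ^ 2) ≤
      (prodLaw p x * (∑ i, (g (x i) - μ)) ^ 2) / k := by
    intro x
    have hx : 0 ≤ prodLaw p x := prodLaw_nonneg hp x
    have e : ∑ i, (g (x i) - μ) = k * ((∑ i, g (x i)) / k - μ) := by
      rw [sum_sub_distrib]
      simp only [sum_const, card_univ, Fintype.card_fin, nsmul_eq_mul]
      field_simp
    rw [e]
    by_cases h : t ≤ |(∑ i, g (x i)) / k - μ|
    · rw [ind_of h, mul_one, mul_pow, mul_div_assoc]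
      refine mul_le_mul_of_nonneg_left ?_ hx
      rw [le_div_iff₀ hkR]
      have : t ^ 2 ≤ ((∑ i, g (x i)) / k - μ) ^ 2 := by
        rw [← sq_abs ((∑ i, g (x i)) / k - μ)]
        exact pow_le_pow_left₀ ht.le h 2
      calc (k : ℝ) * t ^ 2 * k = k ^ 2 * t ^ 2 := by ring
        _ ≤ k ^ 2 * ((∑ i, g (x i)) / k - μ) ^ 2 := mul_le_mul_of_nonneg_left this (by positivity)
    · rw [ind_of_not h]
      simp only [mul_zero, zero_mul]
      positivity
  refine (sum_le_sum fun x _ => h3 x).trans (le_of_eq ?_)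
  rw [← sum_div, h2]
  field_simp

/-- variance bound for a variable with values in `[0, M]` -/
theorem var_le_mul {p : α → ℝ} (hp : ∀ x, 0 ≤ p x) (hp1 : ∑ x, p x = 1) {g : α → ℝ} {M : ℝ}
    (hg0 : ∀ x, 0 ≤ g x) (hgM : ∀ x, g x ≤ M) :
    ∑ a, p a * (g a - ∑ b, p b * g b) ^ 2 ≤ M * ∑ a, p a * g a := by
  set μ : ℝ := ∑ a, p a * g a with hμ
  have e : ∑ a, p a * (g a - μ) ^ 2 = ∑ a, p a * g a ^ 2 - μ ^ 2 := by
    have e1 : ∀ a, p a * (g a - μ) ^ 2 = p a * g a ^ 2 - 2 * μ * (p a * g a) + μ ^ 2 * p a := by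
      intro a; ring
    simp only [e1]
    rw [sum_add_distrib, sum_sub_distrib, ← mul_sum, ← mul_sum, hp1, ← hμ]
    ring
  rw [e]
  have h1 : ∑ a, p a * g a ^ 2 ≤ M * μ := by
    rw [hμ, mul_sum]
    refine sum_le_sum fun a _ => ?_
    calc p a * g a ^ 2 = (p a * g a) * g a := by ring
      _ ≤ (p a * g a) * M := mul_le_mul_of_nonneg_left (hgM a) (mul_nonneg (hp a) (hg0 a))
      _ = M * (p a * g a) := by ring
  have := sq_nonneg μ
  linarith

/-- Additive Chebyshev for `[0, 1]`-valued variables. -/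
theorem cheb_add {k : ℕ} (hk : 0 < k) {p : α → ℝ} (hp : ∀ x, 0 ≤ p x) (hp1 : ∑ x, p x = 1)
    {g : α → ℝ} (hg0 : ∀ x, 0 ≤ g x) (hg1 : ∀ x, g x ≤ 1) {t : ℝ} (ht : 0 < t) :
    ∑ x : Fin k → α, prodLaw p x * ind (t ≤ |(∑ i, g (x i)) / k - ∑ a, p a * g a|) ≤
      1 / (k * t ^ 2) := by
  refine (cheb_prodLaw hk hp hp1 g ht).trans ?_
  have hkR : (0 : ℝ) < k := by exact_mod_cast hk
  refine div_le_div_of_nonneg_right ?_ (by positivity)
  refine (var_le_mul hp hp1 hg0 hg1).trans ?_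
  rw [one_mul, ← hp1]
  exact sum_le_sum fun a _ => by
    calc p a * g a ≤ p a * 1 := mul_le_mul_of_nonneg_left (hg1 a) (hp a)
      _ = p a := mul_one _

/-- Multiplicative Chebyshev for `[0, M]`-valued variables with a positive mean. -/
theorem cheb_mul {k : ℕ} (hk : 0 < k) {p : α → ℝ} (hp : ∀ x, 0 ≤ p x) (hp1 : ∑ x, p x = 1)
    {g : α → ℝ} {M : ℝ} (hg0 : ∀ x, 0 ≤ g x) (hgM : ∀ x, g x ≤ M) {ζ : ℝ} (hζ : 0 < ζ)
    (hμ : 0 < ∑ a, p a * g a) :
    ∑ x : Fin k → α, prodLaw p x *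
        ind (ζ * (∑ a, p a * g a) ≤ |(∑ i, g (x i)) / k - ∑ a, p a * g a|) ≤
      M / (k * ζ ^ 2 * ∑ a, p a * g a) := by
  refine (cheb_prodLaw hk hp hp1 g (mul_pos hζ hμ)).trans ?_
  have hkR : (0 : ℝ) < k := by exact_mod_cast hk
  rw [div_le_div_iff₀ (by positivity) (by positivity)]
  calc (∑ a, p a * (g a - ∑ b, p b * g b) ^ 2) * (k * ζ ^ 2 * ∑ a, p a * g a)
      ≤ (M * ∑ a, p a * g a) * (k * ζ ^ 2 * ∑ a, p a * g a) :=
        mul_le_mul_of_nonneg_right (var_le_mul hp hp1 hg0 hgM) (by positivity)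
    _ = M * (k * (ζ * ∑ a, p a * g a) ^ 2) := by ring

end Crest.Agent.R304.L6
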