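import Crest.Agent.R304.Sampler

/-!
# R304 / S0464: the control loop of the FPRAS as a program, and its polynomial-time proof

Parameters `P : Prm`.  A history `h` is a list of control moves `(kd, u, v)`: `kd = 0` lowers the
weights of the non-edges (theta step), `kd = 1` / `kd = 2` raise / lower the virtual weight of the
pair `u < v`.  `lamN P h u v` is the natural-number weight after the history `h` (common scale
`scaleN P`), `fineN P h s` the interpolated table of the fine stage `s`.  One round samples a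
population with the current history and appends one control move.  `est P tape` is the estimate
of the number of perfect matchings.
-/

set_option autoImplicit false
set_option linter.dupNamespace false

namespace Crest.Agent.R304.Loop

open Crest.Agent.Lib.PT Crest.Agent.R309.Tape Crest.Agent.R309.PTX Crest.Agent.R304.LM
open Crest.Agent.R304.Samp

/-- a control move -/
abbrev Mv := ℕ × ℕ × ℕ

/-- parameters: `n` vertices, adjacency bits (row by row), control parameters `q gd m S`,
exponent bound `L`, `k` replicas, `H` fine stages per control move, `τ` pair moves per fine stage,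
`B0` index bits, `B` acceptance bits, `R` rounds -/
structure Prm where
  n : ℕ
  bits : List Bool
  q : ℕ
  gd : ℕ
  m : ℕ
  S : ℕ
  L : ℕ
  k : ℕ
  H : ℕ
  τ : ℕ
  B0 : ℕ
  B : ℕ
  R : ℕ

/-- adjacency -/
def adj (P : Prm) (u v : ℕ) : Bool := P.bits.getD (u * P.n + v) false

/-- number of occurrences of a control move -/
def cntMv (h : List Mv) (kd u v : ℕ) : ℕ := h.countP (fun x => decide (x = (kd, u, v)))

/-- number of theta steps, cut off at `S` -/
def thN (P : Prm) (h : List Mv) : ℕ := min (h.countP (fun x => decide (x.1 = 0))) P.S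

/-- common scale of the integer weights -/
def scaleN (P : Prm) : ℕ := (P.q - (P.n - 1)) * (P.m ^ P.L * (P.m + 1) ^ P.L)

/-- real part of the weight -/
def AN (P : Prm) (h : List Mv) (u v : ℕ) : ℕ :=
  if adj P u v = true then scaleN P
  else (P.q - (P.n - 1)) * (P.m ^ (P.L + thN P h) * (P.m + 1) ^ (P.L - thN P h))

/-- virtual part of the weight -/
def omN (P : Prm) (h : List Mv) (u v : ℕ) : ℕ :=
  (P.n - 1) * ((P.m + 1) ^ (P.L + cntMv h 1 u v - cntMv h 2 u v) *
    P.m ^ (P.L + cntMv h 2 u v - cntMv h 1 u v))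

/-- the weight of the pair `u < v` after the history `h` -/
def lamN (P : Prm) (h : List Mv) (u v : ℕ) : ℕ := AN P h u v + omN P h u v

/-- the interpolated weight at the fine stage `s` -/
def fineN (P : Prm) (h : List Mv) (s u v : ℕ) : ℕ :=
  (P.H - (s % P.H + 1)) * lamN P (h.take (s / P.H)) u v +
    (s % P.H + 1) * lamN P (h.take (s / P.H + 1)) u v

/-- number of pair moves of the sampler after the history `h` -/
def movesOf (P : Prm) (h : List Mv) : ℕ := h.length * P.H * P.τ

/-- the population sampled after the history `h` -/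
def popOf (P : Prm) (h : List Mv) (t : List Bool) : List (List ℕ) :=
  sampL P.n P.k P.B0 P.B (fineN P h) (reps (h.length * P.H) P.τ)
    (t.take (sampLen P.n P.k P.B0 P.B (movesOf P h)))

/-- estimate of the virtual marginal of the pair `u < v` -/
def xhat (P : Prm) (h : List Mv) (pop : List (List ℕ)) (u v : ℕ) : ℚ :=
  (pop.countP (fun s => decide (ap s u = v)) : ℕ) * (omN P h u v : ℕ) /
    ((P.k : ℚ) * (lamN P h u v : ℕ))

/-- all pairs `u < v < n` -/
def pairsL (n : ℕ) : List (ℕ × ℕ) :=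
  (List.range n).flatMap (fun v => (List.range v).map (fun u => (u, v)))

/-- the first pair whose estimated virtual marginal is too small -/
def lowE (P : Prm) (h : List Mv) (pop : List (List ℕ)) : Option (ℕ × ℕ) :=
  (pairsL P.n).find? (fun e => decide (xhat P h pop e.1 e.2 ≤ 1 / (P.q : ℚ) - 1 / (P.gd : ℚ)))

/-- the first pair whose estimated virtual marginal is too large -/
def highE (P : Prm) (h : List Mv) (pop : List (List ℕ)) : Option (ℕ × ℕ) :=
  (pairsL P.n).find? (fun e => decide (1 / (P.q : ℚ) + 1 / (P.gd : ℚ) ≤ xhat P h pop e.1 e.2))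

/-- the next control move -/
def nextMv (P : Prm) (h : List Mv) (pop : List (List ℕ)) : Mv :=
  match lowE P h pop with
  | some e => (1, e.1, e.2)
  | none =>
    match highE P h pop with
    | some e => (2, e.1, e.2)
    | none => (0, 0, 0)

/-- estimate of the ratio of the partition functions of the histories `h'` and `h` -/
def rhat (P : Prm) (h h' : List Mv) (pop : List (List ℕ)) : ℚ :=
  (pop.map (fun s => (wtL P.n (lamN P h') s : ℚ) / (wtL P.n (lamN P h) s : ℚ))).sum / (P.k : ℚ)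

/-- final weight of a matching: `∏ 1_G / lambda` -/
def finW (P : Prm) (h : List Mv) (s : List ℕ) : ℚ :=
  ∏ v ∈ Finset.range P.n, if v < ap s v then
    (if adj P v (ap s v) = true then (scaleN P : ℚ) / (lamN P h v (ap s v) : ℚ) else 0) else 1

/-- final mean -/
def finM (P : Prm) (h : List Mv) (pop : List (List ℕ)) : ℚ :=
  (pop.map (finW P h)).sum / (P.k : ℚ)

/-- initial partition function `(n-1)!! (q / (q - (n-1)))^(n/2)` -/
def Z0 (P : Prm) : ℚ :=
  ((∏ i ∈ Finset.range (P.n / 2), (2 * i + 1) : ℕ) : ℚ) *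
    ((P.q : ℚ) / ((P.q - (P.n - 1) : ℕ) : ℚ)) ^ (P.n / 2)

/-- tape bits of one round -/
def blk (P : Prm) : ℕ := sampLen P.n P.k P.B0 P.B (P.R * P.H * P.τ)

/-- state of the loop: history and the populations of all rounds -/
abbrev LSt := List Mv × List (List (List ℕ))

/-- one round -/
def roundStep (P : Prm) (st : LSt) (l : List Bool) : LSt :=
  (st.1 ++ [nextMv P st.1 (popOf P st.1 l)], st.2 ++ [popOf P st.1 l])

/-- all rounds -/
def loop (P : Prm) (t : List Bool) : LSt := runSteps (roundStep P) (blk P) P.R ([], []) t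

/-- the estimate from the final state of the loop and the final population -/
def estOf (P : Prm) (st : LSt) (popF : List (List ℕ)) : ℚ :=
  Z0 P * (∏ t ∈ Finset.range P.R, rhat P (st.1.take t) (st.1.take (t + 1)) (st.2.getD t [])) *
    finM P st.1 popF

/-- **the estimate**; uses `(R + 1) * blk` bits -/
def est (P : Prm) (t : List Bool) : ℚ :=
  estOf P (loop P t) (popOf P (loop P t).1 (t.drop (P.R * blk P)))

/-- number of tape bits -/
def estLen (P : Prm) : ℕ := (P.R + 1) * blk P

/-! ### polynomial time -/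

/-- all parameters are polynomial-time (unary) functions of the input -/
structure PrmPT {γ : Type} [PTCode γ] (P : γ → Prm) : Prop where
  n : PTU (fun c => (P c).n)
  bits : PTF (fun c => (P c).bits)
  q : PTU (fun c => (P c).q)
  gd : PTU (fun c => (P c).gd)
  m : PTU (fun c => (P c).m)
  S : PTU (fun c => (P c).S)
  L : PTU (fun c => (P c).L)
  k : PTU (fun c => (P c).k)
  H : PTU (fun c => (P c).H)
  τ : PTU (fun c => (P c).τ)
  B0 : PTU (fun c => (P c).B0)
  B : PTU (fun c => (P c).B)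
  R : PTU (fun c => (P c).R)

section PT

variable {γ δ : Type} [PTCode γ] [PTCode δ]

theorem PrmPT.comp {P : γ → Prm} (hP : PrmPT P) {f : δ → γ} (hf : PTF f) :
    PrmPT (fun c => P (f c)) :=
  ⟨PTU.comp (n := fun b => (P b).n) hP.n hf, PTF.comp (g := fun b => (P b).bits) hP.bits hf,
    PTU.comp (n := fun b => (P b).q) hP.q hf, PTU.comp (n := fun b => (P b).gd) hP.gd hf,
    PTU.comp (n := fun b => (P b).m) hP.m hf, PTU.comp (n := fun b => (P b).S) hP.S hf,
    PTU.comp (n := fun b => (P b).L) hP.L hf, PTU.comp (n := fun b => (P b).k) hP.k hf,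
    PTU.comp (n := fun b => (P b).H) hP.H hf, PTU.comp (n := fun b => (P b).τ) hP.τ hf,
    PTU.comp (n := fun b => (P b).B0) hP.B0 hf, PTU.comp (n := fun b => (P b).B) hP.B hf,
    PTU.comp (n := fun b => (P b).R) hP.R hf⟩

variable {P : γ → Prm} (hP : PrmPT P)

include hP

theorem ptf_adj {u v : γ → ℕ} (hu : PTF u) (hv : PTF v) :
    PTF (fun c => adj (P c) (u c) (v c)) := by
  unfold adj
  exact ptf_getD' (PTF.natAdd (PTF.natMul hu (PTU.toPTF hP.n)) hv) hP.bits (PTF.const false)

omit hP in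
theorem ptu_cntMv {h : γ → List Mv} {kd u v : γ → ℕ} (hh : PTF h) (hk : PTF kd) (hu : PTF u)
    (hv : PTF v) : PTU (fun c => cntMv (h c) (kd c) (u c) (v c)) := by
  unfold cntMv
  refine PTU.countP hh ?_
  exact PTPred.toPTF (PTPred.eq (by fun_prop) (by fun_prop))

theorem ptu_thN {h : γ → List Mv} (hh : PTF h) : PTU (fun c => thN (P c) (h c)) := by
  unfold thN
  refine PTU.min (PTU.countP hh ?_) hP.S
  exact PTPred.toPTF (PTPred.natEq (by fun_prop) (PTF.const 0))

theorem ptf_scaleN : PTF (fun c => scaleN (P c)) := by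
  unfold scaleN
  have hn := PTU.toPTF hP.n
  have hq := PTU.toPTF hP.q
  have hm := PTU.toPTF hP.m
  exact PTF.natMul (PTF.natSub hq (PTF.natSub hn (PTF.const 1)))
    (PTF.natMul (PTF.natPow hm hP.L) (PTF.natPow (PTF.natAdd hm (PTF.const 1)) hP.L))

theorem ptf_AN {h : γ → List Mv} {u v : γ → ℕ} (hh : PTF h) (hu : PTF u) (hv : PTF v) :
    PTF (fun c => AN (P c) (h c) (u c) (v c)) := by
  unfold AN
  have hn := PTU.toPTF hP.n
  have hq := PTU.toPTF hP.q
  have hm := PTU.toPTF hP.m
  have ht := ptu_thN hP hh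
  refine PTF.ite (PTF.toPTPred (ptf_adj hP hu hv)) (ptf_scaleN hP) ?_
  exact PTF.natMul (PTF.natSub hq (PTF.natSub hn (PTF.const 1)))
    (PTF.natMul (PTF.natPow hm (PTU.add hP.L ht))
      (PTF.natPow (PTF.natAdd hm (PTF.const 1)) (PTU.sub hP.L ht)))

theorem ptf_omN {h : γ → List Mv} {u v : γ → ℕ} (hh : PTF h) (hu : PTF u) (hv : PTF v) :
    PTF (fun c => omN (P c) (h c) (u c) (v c)) := by
  unfold omN
  have hn := PTU.toPTF hP.n
  have hm := PTU.toPTF hP.m
  have h1 := ptu_cntMv hh (PTF.const 1) hu hv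
  have h2 := ptu_cntMv hh (PTF.const 2) hu hv
  exact PTF.natMul (PTF.natSub hn (PTF.const 1))
    (PTF.natMul (PTF.natPow (PTF.natAdd hm (PTF.const 1)) (PTU.sub (PTU.add hP.L h1) h2))
      (PTF.natPow hm (PTU.sub (PTU.add hP.L h2) h1)))

theorem ptf_lamN {h : γ → List Mv} {u v : γ → ℕ} (hh : PTF h) (hu : PTF u) (hv : PTF v) :
    PTF (fun c => lamN (P c) (h c) (u c) (v c)) :=
  PTF.natAdd (ptf_AN hP hh hu hv) (ptf_omN hP hh hu hv)

theorem ptf_fineN {h : γ → List Mv} {s u v : γ → ℕ} (hh : PTF h) (hs : PTF s) (hu : PTF u)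
    (hv : PTF v) : PTF (fun c => fineN (P c) (h c) (s c) (u c) (v c)) := by
  unfold fineN
  have hH := PTU.toPTF hP.H
  have h1 : PTF (fun c => s c % (P c).H + 1) := PTF.natAdd (PTF.natMod hs hH) (PTF.const 1)
  have h2 : PTF (fun c => s c / (P c).H) := PTF.natDiv hs hH
  exact PTF.natAdd
    (PTF.natMul (PTF.natSub hH h1) (ptf_lamN hP (ptf_take' h2 hh) hu hv))
    (PTF.natMul h1 (ptf_lamN hP (ptf_take' (PTF.natAdd h2 (PTF.const 1)) hh) hu hv))

theorem ptf_sampLen {T : γ → ℕ} (hT : PTF T) :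
    PTF (fun c => sampLen (P c).n (P c).k (P c).B0 (P c).B (T c)) := by
  unfold sampLen
  have hn := PTU.toPTF hP.n
  have hk := PTU.toPTF hP.k
  have hB0 := PTU.toPTF hP.B0
  have hB := PTU.toPTF hP.B
  exact PTF.natAdd (PTF.natMul hk (PTF.natMul (PTF.natDiv hn (PTF.const 2)) hB))
    (PTF.natMul hT (PTF.natAdd hB0 hB))

theorem ptf_popOf {h : γ → List Mv} {t : γ → List Bool} (hh : PTF h) (ht : PTF t) :
    PTF (fun c => popOf (P c) (h c) (t c)) := by
  unfold popOf
  have hlen : PTU (fun c => (h c).length * (P c).H) := PTU.mul (PTU.length hh) hP.H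
  refine ptf_sampL hP.n hP.k (PTU.toPTF hP.B0) hP.B ?_ (ptf_reps hlen hP.τ) (ptf_take' ?_ ht)
  · exact ptf_fineN (hP.comp (f := fun q : γ × ℕ × ℕ × ℕ => q.1) (by fun_prop))
      (h := fun q => h q.1) (s := fun q => q.2.1) (u := fun q => q.2.2.1) (v := fun q => q.2.2.2)
      (PTF.comp hh (by fun_prop)) (by fun_prop) (by fun_prop) (by fun_prop)
  · refine ptf_sampLen hP ?_
    unfold movesOf
    exact PTF.natMul (PTU.toPTF hlen) (PTU.toPTF hP.τ)

theorem ptf_xhat {h : γ → List Mv} {pop : γ → List (List ℕ)} {u v : γ → ℕ} (hh : PTF h)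
    (hpop : PTF pop) (hu : PTF u) (hv : PTF v) :
    PTF (fun c => xhat (P c) (h c) (pop c) (u c) (v c)) := by
  unfold xhat
  have h1 : PTU (fun c => (pop c).countP (fun s => decide (ap s (u c) = v c))) := by
    refine PTU.countP hpop (PTPred.toPTF (PTPred.natEq ?_ (PTF.comp hv PTF.fst)))
    exact ptf_ap (by fun_prop) (PTF.comp hu PTF.fst)
  exact PTF.ratDiv
    (PTF.ratMul (PTF.ratNatCast (PTU.toPTF h1)) (PTF.ratNatCast (ptf_omN hP hh hu hv)))
    (PTF.ratMul (PTF.ratNatCast (PTU.toPTF hP.k)) (PTF.ratNatCast (ptf_lamN hP hh hu hv)))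

omit hP in
theorem ptf_pairsL {n : γ → ℕ} (hn : PTU n) : PTF (fun c => pairsL (n c)) := by
  have h : PTF (fun c => (List.range (n c)).flatMap
      (fun v => (List.range (min v (n c))).map (fun u => (u, v)))) := by
    refine PTF.flatMap (PTF.range hn) (PTF.map (PTF.range ?_) ?_)
    · exact PTF.natMinUn (by fun_prop) (PTU.comp hn PTF.fst)
    · exact PTF.prodMk (by fun_prop) (by fun_prop)
  refine PTF.of_eq h (fun c => ?_)
  unfold pairsL
  refine congrArg List.flatten (List.map_congr_left (fun v hv => ?_))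
  rw [min_eq_left (List.mem_range.1 hv).le]

theorem ptf_lowE {h : γ → List Mv} {pop : γ → List (List ℕ)} (hh : PTF h)
    (hpop : PTF pop) : PTF (fun c => lowE (P c) (h c) (pop c)) := by
  have hq := PTU.toPTF hP.q
  have hg := PTU.toPTF hP.gd
  have hx : PTF (fun p : γ × ℕ × ℕ => xhat (P p.1) (h p.1) (pop p.1) p.2.1 p.2.2) :=
    ptf_xhat (hP.comp (f := fun p : γ × ℕ × ℕ => p.1) (by fun_prop)) (h := fun p => h p.1)
      (pop := fun p => pop p.1) (u := fun p => p.2.1) (v := fun p => p.2.2)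
      (PTF.comp hh (by fun_prop)) (PTF.comp hpop (by fun_prop)) (by fun_prop) (by fun_prop)
  have hs : PTF (fun p : γ × ℕ × ℕ => 1 / ((P p.1).q : ℚ) - 1 / ((P p.1).gd : ℚ)) :=
    PTF.ratSub (PTF.ratDiv (PTF.const 1)
        (PTF.ratNatCast (PTF.comp (g := fun c => (P c).q) hq (by fun_prop))))
      (PTF.ratDiv (PTF.const 1)
        (PTF.ratNatCast (PTF.comp (g := fun c => (P c).gd) hg (by fun_prop))))
  have hp : PTF (fun c => pairsL (P c).n) := ptf_pairsL hP.n
  have h5 : PTPred (fun p : γ × ℕ × ℕ => xhat (P p.1) (h p.1) (pop p.1) p.2.1 p.2.2 ≤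
      1 / ((P p.1).q : ℚ) - 1 / ((P p.1).gd : ℚ)) := PTPred.ratLe hx hs
  have h6 : PTF (fun p : γ × ℕ × ℕ => decide (xhat (P p.1) (h p.1) (pop p.1) p.2.1 p.2.2 ≤
      1 / ((P p.1).q : ℚ) - 1 / ((P p.1).gd : ℚ))) := PTPred.toPTF h5
  unfold lowE
  exact PTF.find? hp h6

theorem ptf_highE {h : γ → List Mv} {pop : γ → List (List ℕ)} (hh : PTF h)
    (hpop : PTF pop) : PTF (fun c => highE (P c) (h c) (pop c)) := by
  have hq := PTU.toPTF hP.q
  have hg := PTU.toPTF hP.gd
  have hx : PTF (fun p : γ × ℕ × ℕ => xhat (P p.1) (h p.1) (pop p.1) p.2.1 p.2.2) :=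
    ptf_xhat (hP.comp (f := fun p : γ × ℕ × ℕ => p.1) (by fun_prop)) (h := fun p => h p.1)
      (pop := fun p => pop p.1) (u := fun p => p.2.1) (v := fun p => p.2.2)
      (PTF.comp hh (by fun_prop)) (PTF.comp hpop (by fun_prop)) (by fun_prop) (by fun_prop)
  have hs : PTF (fun p : γ × ℕ × ℕ => 1 / ((P p.1).q : ℚ) + 1 / ((P p.1).gd : ℚ)) :=
    PTF.ratAdd (PTF.ratDiv (PTF.const 1)
        (PTF.ratNatCast (PTF.comp (g := fun c => (P c).q) hq (by fun_prop))))
      (PTF.ratDiv (PTF.const 1)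
        (PTF.ratNatCast (PTF.comp (g := fun c => (P c).gd) hg (by fun_prop))))
  have hp : PTF (fun c => pairsL (P c).n) := ptf_pairsL hP.n
  have h5 : PTPred (fun p : γ × ℕ × ℕ => 1 / ((P p.1).q : ℚ) + 1 / ((P p.1).gd : ℚ) ≤
      xhat (P p.1) (h p.1) (pop p.1) p.2.1 p.2.2) := PTPred.ratLe hs hx
  have h6 : PTF (fun p : γ × ℕ × ℕ => decide (1 / ((P p.1).q : ℚ) + 1 / ((P p.1).gd : ℚ) ≤
      xhat (P p.1) (h p.1) (pop p.1) p.2.1 p.2.2)) := PTPred.toPTF h5
  unfold highE
  exact PTF.find? hp h6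

theorem ptf_nextMv {h : γ → List Mv} {pop : γ → List (List ℕ)} (hh : PTF h)
    (hpop : PTF pop) : PTF (fun c => nextMv (P c) (h c) (pop c)) := by
  have h1 := ptf_lowE hP hh hpop
  have h2 := ptf_highE hP hh hpop
  generalize hlo : (fun c => lowE (P c) (h c) (pop c)) = lo at h1
  generalize hhi : (fun c => highE (P c) (h c) (pop c)) = hi at h2
  have g1 : PTF (fun p : γ × ℕ × ℕ => ((1, p.2.1, p.2.2) : Mv)) :=
    PTF.prodMk (PTF.const 1) (by fun_prop)
  have g2 : PTF (fun p : γ × ℕ × ℕ => ((2, p.2.1, p.2.2) : Mv)) :=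
    PTF.prodMk (PTF.const 2) (by fun_prop)
  have h3 := PTF.optionCasesOn (s := hi) (f := fun _ : γ => ((0, 0, 0) : Mv))
      (g := fun _ (e : ℕ × ℕ) => ((2, e.1, e.2) : Mv)) h2 (PTF.const _) g2
  have h4 := PTF.optionCasesOn (s := lo) (g := fun _ (e : ℕ × ℕ) => ((1, e.1, e.2) : Mv)) h1 h3 g1
  refine PTF.of_eq h4 (fun c => ?_)
  have e1 : lowE (P c) (h c) (pop c) = lo c := by rw [← hlo]
  have e2 : highE (P c) (h c) (pop c) = hi c := by rw [← hhi]
  unfold nextMv
  rw [e1, e2]
  cases lo c <;> cases hi c <;> rfl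

theorem ptf_rhat {h h' : γ → List Mv} {pop : γ → List (List ℕ)} (hh : PTF h) (hh' : PTF h')
    (hpop : PTF pop) : PTF (fun c => rhat (P c) (h c) (h' c) (pop c)) := by
  unfold rhat
  have key : ∀ (g : γ → List Mv), PTF g →
      PTF (fun p : γ × List ℕ => wtL (P p.1).n (lamN (P p.1) (g p.1)) p.2) := by
    intro g hg
    refine ptf_wtL (n := fun p : γ × List ℕ => (P p.1).n)
      (lam := fun p => lamN (P p.1) (g p.1)) (s := fun p => p.2)
      (PTU.comp (n := fun c => (P c).n) hP.n PTF.fst) ?_ (by fun_prop)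
    exact ptf_lamN (hP.comp (f := fun q : (γ × List ℕ) × ℕ × ℕ => q.1.1) (by fun_prop))
      (h := fun q => g q.1.1) (u := fun q => q.2.1) (v := fun q => q.2.2)
      (PTF.comp hg (by fun_prop)) (by fun_prop) (by fun_prop)
  refine PTF.ratDiv (PTF.ratListSum (PTF.map hpop ?_)) (PTF.ratNatCast (PTU.toPTF hP.k))
  exact PTF.ratDiv (PTF.ratNatCast (key h' hh')) (PTF.ratNatCast (key h hh))

theorem ptf_finW {h : γ → List Mv} {s : γ → List ℕ} (hh : PTF h) (hs : PTF s) :
    PTF (fun c => finW (P c) (h c) (s c)) := by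
  unfold finW
  have hP' := hP.comp (f := fun p : γ × ℕ => p.1) (by fun_prop)
  have h1 : PTF (fun q : γ × ℕ => ap (s q.1) q.2) := ptf_ap (PTF.comp hs PTF.fst) (by fun_prop)
  have h2 : PTF (fun q : γ × ℕ => h q.1) := PTF.comp hh (by fun_prop)
  refine PTF.ratProdRange hP.n ?_
  refine PTF.ite (PTPred.natLt (by fun_prop) h1)
    (PTF.ite (PTF.toPTPred (ptf_adj hP' (by fun_prop) h1)) ?_ (PTF.const 0)) (PTF.const 1)
  exact PTF.ratDiv (PTF.ratNatCast (ptf_scaleN hP'))
    (PTF.ratNatCast (ptf_lamN hP' h2 (by fun_prop) h1))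

theorem ptf_finM {h : γ → List Mv} {pop : γ → List (List ℕ)} (hh : PTF h)
    (hpop : PTF pop) : PTF (fun c => finM (P c) (h c) (pop c)) := by
  unfold finM
  refine PTF.ratDiv (PTF.ratListSum (PTF.map hpop ?_)) (PTF.ratNatCast (PTU.toPTF hP.k))
  exact ptf_finW (hP.comp (f := fun p : γ × List ℕ => p.1) (by fun_prop)) (h := fun p => h p.1)
    (s := fun p => p.2) (PTF.comp hh (by fun_prop)) (by fun_prop)

theorem ptf_Z0 : PTF (fun c => Z0 (P c)) := by
  unfold Z0
  have hn := PTU.toPTF hP.n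
  have hq := PTU.toPTF hP.q
  have hn2 : PTU (fun c => (P c).n / 2) := by
    refine PTF.toPTU (PTF.natDiv hn (PTF.const 2)) ?_
    exact PB.mono hP.n.pb (fun c => Nat.div_le_self _ _)
  refine PTF.ratMul (PTF.ratNatCast (PTF.natProdRange hn2 ?_)) (PTF.ratPow (PTF.ratDiv
    (PTF.ratNatCast hq) (PTF.ratNatCast (PTF.natSub hq (PTF.natSub hn (PTF.const 1))))) hn2)
  exact PTF.natAdd (PTF.natMul (PTF.const 2) (by fun_prop)) (PTF.const 1)

theorem ptf_blk : PTF (fun c => blk (P c)) := by
  unfold blk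
  exact ptf_sampLen hP (PTF.natMul (PTF.natMul (PTU.toPTF hP.R) (PTU.toPTF hP.H))
    (PTU.toPTF hP.τ))

theorem ptu_blk : PTU (fun c => blk (P c)) := by
  refine PTF.toPTU (ptf_blk hP) ?_
  unfold blk sampLen
  have h1 := hP.n.pb
  have h2 := hP.k.pb
  have h3 := hP.B0.pb
  have h4 := hP.B.pb
  have h5 := hP.R.pb
  have h6 := hP.H.pb
  have h7 := hP.τ.pb
  refine PB.mono (g := fun c => (P c).k * ((P c).n * (P c).B) +
    (P c).R * (P c).H * (P c).τ * ((P c).B0 + (P c).B)) (by fun_prop) (fun c => ?_)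
  have : (P c).n / 2 * (P c).B ≤ (P c).n * (P c).B :=
    Nat.mul_le_mul_right _ (Nat.div_le_self _ _)
  have := Nat.mul_le_mul_left (P c).k this
  omega

theorem ptu_estLen : PTU (fun c => estLen (P c)) := by
  unfold estLen
  exact PTU.mul (PTU.succ hP.R) (ptu_blk hP)

theorem ptf_roundStep {st : γ → LSt} {l : γ → List Bool} (hst : PTF st) (hl : PTF l) :
    PTF (fun c => roundStep (P c) (st c) (l c)) := by
  unfold roundStep
  have h1 : PTF (fun c => (st c).1) := by fun_prop
  have h2 : PTF (fun c => (st c).2) := by fun_prop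
  have hp := ptf_popOf hP h1 hl
  have hm := ptf_nextMv hP h1 hp
  exact PTF.prodMk (PTF.append h1 (PTF.listCons hm (PTF.const [])))
    (PTF.append h2 (PTF.listCons hp (PTF.const [])))

omit hP in
theorem mem_pairsL {n : ℕ} {e : ℕ × ℕ} : e ∈ pairsL n ↔ e.1 < e.2 ∧ e.2 < n := by
  unfold pairsL
  simp only [List.mem_flatMap, List.mem_range, List.mem_map]
  constructor
  · rintro ⟨v, hv, u, hu, rfl⟩
    exact ⟨hu, hv⟩
  · rintro ⟨h1, h2⟩
    exact ⟨e.2, h2, e.1, h1, rfl⟩

omit hP in
theorem sz_nextMv (P : Prm) (h : List Mv) (pop : List (List ℕ)) :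
    sz (nextMv P h pop) ≤ 3 * P.n + 8 := by
  have key : ∀ (kd : ℕ) (e : ℕ × ℕ), kd ≤ 2 → e ∈ pairsL P.n → sz (kd, e.1, e.2) ≤ 3 * P.n + 8 := by
    intro kd e hkd he
    rw [mem_pairsL] at he
    simp only [sz_prod]
    have h1 := sz_nat_le kd
    have h2 := sz_nat_le e.1
    have h3 := sz_nat_le e.2
    have h4 : sz kd ≤ 2 := h1.trans hkd
    omega
  unfold nextMv
  split
  · rename_i e he
    exact key 1 e (by norm_num) (List.mem_of_find?_eq_some (by unfold lowE at he; exact he))
  · split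
    · rename_i e he
      exact key 2 e (by norm_num) (List.mem_of_find?_eq_some (by unfold highE at he; exact he))
    · simp only [sz_prod]
      have h1 := sz_nat_le 0
      omega

omit hP in
theorem szInv_sampL (n k B0 B : ℕ) (lam : ℕ → ℕ → ℕ → ℕ) (ts : List ℕ) (t : List Bool) :
    SzInv k (3 * (n * (2 * n + 1)) + 1) (sampL n k B0 B lam ts t) := by
  unfold sampL
  have key : ∀ (l : List ℕ) (x : List (List ℕ)) (w : List Bool),
      SzInv k (3 * (n * (2 * n + 1)) + 1) x →
      SzInv k (3 * (n * (2 * n + 1)) + 1)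
        (L6.runL (fun s => stepL n k B0 B (lam s)) (B0 + B) l x w) := by
    intro l
    induction l with
    | nil => intro x w hx; exact hx
    | cons a l ih =>
      intro x w hx
      exact ih _ _ (SzInv.stepL _ _ (by omega) hx)
  exact key _ _ _ (SzInv.initL _ _ _ _)

theorem ptf_loop {t : γ → List Bool} (ht : PTF t) : PTF (fun c => loop (P c) (t c)) := by
  unfold loop
  refine ptf_runSteps_add (f := fun c => roundStep (P c)) (r := fun c => blk (P c))
    (k := fun c => (P c).R) (s := fun _ => (([], []) : LSt)) (t := t) ?_ (ptf_blk hP) hP.R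
    (PTF.const _) ht
    (G := fun c => 2 * (2 * (3 * (P c).n + 8) + 1) +
      (2 * ((P c).k * (2 * (3 * ((P c).n * (2 * (P c).n + 1)) + 1) + 1)) + 1)) ?_ ?_
  · exact ptf_roundStep (hP.comp (f := fun p : γ × LSt × List Bool => p.1) (by fun_prop))
      (st := fun p => p.2.1) (l := fun p => p.2.2) (by fun_prop) (by fun_prop)
  · have h1 := hP.n.pb
    have h2 := hP.k.pb
    fun_prop
  · intro c x l
    unfold roundStep
    have h1 := sz_nextMv (P c) x.1 (popOf (P c) x.1 l)
    have h2 := (szInv_sampL (P c).n (P c).k (P c).B0 (P c).B (fineN (P c) x.1)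
      (reps (x.1.length * (P c).H) (P c).τ)
      (l.take (sampLen (P c).n (P c).k (P c).B0 (P c).B (movesOf (P c) x.1)))).sz_le
    have h3 : sz (popOf (P c) x.1 l) ≤
      (P c).k * (2 * (3 * ((P c).n * (2 * (P c).n + 1)) + 1) + 1) := h2
    generalize nextMv (P c) x.1 (popOf (P c) x.1 l) = a at h1
    generalize popOf (P c) x.1 l = b at h3
    obtain ⟨x1, x2⟩ := x
    rw [sz_prod, sz_prod, sz_append, sz_append, sz_cons, sz_cons, sz_nil, sz_nil]
    simp only
    omega

theorem ptf_estOf {st : γ → LSt} {popF : γ → List (List ℕ)} (hst : PTF st) (hpop : PTF popF) :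
    PTF (fun c => estOf (P c) (st c) (popF c)) := by
  unfold estOf
  have h1 : PTF (fun c => (st c).1) := by fun_prop
  have h2 : PTF (fun c => (st c).2) := by fun_prop
  refine PTF.ratMul (PTF.ratMul (ptf_Z0 hP) (PTF.ratProdRange hP.R ?_)) (ptf_finM hP h1 hpop)
  have hP' := hP.comp (f := fun p : γ × ℕ => p.1) (by fun_prop)
  have h1' : PTF (fun p : γ × ℕ => (st p.1).1) := PTF.comp (g := fun c => (st c).1) h1 PTF.fst
  have h2' : PTF (fun p : γ × ℕ => (st p.1).2) := PTF.comp (g := fun c => (st c).2) h2 PTF.fst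
  refine ptf_rhat hP' ?_ ?_ ?_
  · exact ptf_take' (by fun_prop) h1'
  · exact ptf_take' (PTF.natAdd (by fun_prop) (PTF.const 1)) h1'
  · exact ptf_getD' (by fun_prop) h2' (PTF.const [])

/-- **The whole estimator is polynomial-time.** -/
theorem ptf_est {t : γ → List Bool} (ht : PTF t) : PTF (fun c => est (P c) (t c)) := by
  unfold est
  have h1 := ptf_loop hP ht
  have h2 : PTF (fun c => (loop (P c) (t c)).1) := by fun_prop
  refine ptf_estOf hP h1 (ptf_popOf hP h2 (ptf_drop' ?_ ht))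
  exact PTF.natMul (PTU.toPTF hP.R) (ptf_blk hP)

end PT

/-! ### elementary facts -/

theorem estOf_nonneg (P : Prm) (st : LSt) (popF : List (List ℕ)) : 0 ≤ estOf P st popF := by
  have hsum : ∀ l : List ℚ, (∀ x ∈ l, 0 ≤ x) → 0 ≤ l.sum := fun l h => List.sum_nonneg h
  unfold estOf
  refine mul_nonneg (mul_nonneg ?_ ?_) ?_
  · unfold Z0
    positivity
  · refine Finset.prod_nonneg (fun t _ => ?_)
    unfold rhat
    refine div_nonneg (hsum _ (fun x hx => ?_)) (by positivity)
    obtain ⟨s, _, rfl⟩ := List.mem_map.1 hx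
    positivity
  · unfold finM
    refine div_nonneg (hsum _ (fun x hx => ?_)) (by positivity)
    obtain ⟨s, _, rfl⟩ := List.mem_map.1 hx
    unfold finW
    refine Finset.prod_nonneg (fun v _ => ?_)
    split_ifs
    · positivity
    · exact le_refl _
    · exact zero_le_one

theorem est_nonneg (P : Prm) (t : List Bool) : 0 ≤ est P t := estOf_nonneg _ _ _

end Crest.Agent.R304.Loop
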