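import Crest.Agent.R304.L6Kern
import Crest.Agent.R304.Fine922
import Crest.Agent.R304.Start555
import Crest.Agent.R304.Loop180

/-!
# R304 / S0464, block L6 (helper168): the population of the program samples from the product law
-/

set_option autoImplicit false
set_option linter.unusedSectionVars false

namespace Crest.Agent.R304.L6

open Finset Crest.Agent.R309.Tape
open Crest.Agent.R304.Samp Crest.Agent.R304.Sim Crest.Agent.R304.Loop
open Crest.Agent.R304.Lab922 Crest.Agent.R304.GK922 Crest.Agent.R304.Fine922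

noncomputable section

/-! ### list plumbing -/

theorem runL_map {S T U : Type*} (f : T → S → List Bool → S) (g : U → T) (r : ℕ) (us : List U)
    (s : S) (l : List Bool) :
    L6.runL f r (us.map g) s l = L6.runL (fun u => f (g u)) r us s l := by
  induction us generalizing s l with
  | nil => rfl
  | cons u us ih => simp only [List.map_cons, L6.runL]; exact ih _ _

theorem stages_map {T U : Type*} (g : U → T) (τ : ℕ) (us : List U) :
    stages τ (us.map g) = (stages τ us).map g := by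
  unfold stages
  rw [List.flatMap_map, List.map_flatMap]
  congr 1
  funext u
  rw [List.map_replicate]

theorem stages_stO (H t τ : ℕ) : stages τ (stO H t) = (reps (t * H) τ).map some := by
  unfold stO reps
  rw [stages_map]
  rfl

theorem length_stO (H t : ℕ) : (stO H t).length = t * H := by simp [stO]

/-! ### the kernel of the program -/

section ker

variable {n k : ℕ} [NeZero n] [NeZero k]

theorem nIdx_eq (n k : ℕ) : LM.nIdx n k = idxN n k := by
  unfold LM.nIdx idxN; rfl

theorem ofNat_mod {a : ℕ} [NeZero a] (i : ℕ) : Fin.ofNat a (i % a) = Fin.ofNat a i :=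
  Fin.ext (by simp [Fin.ofNat])

/-- the decoded label -/
def decL (n k : ℕ) [NeZero n] (i : ℕ) : LabT (Fin n) :=
  (Fin.ofNat 4 (i / k / (k - 1) % 4), Fin.ofNat n (i / k / (k - 1) / 4 % n),
    Fin.ofNat n (i / k / (k - 1) / 4 / n % n), Fin.ofNat n (i / k / (k - 1) / 4 / n / n % n),
    Fin.ofNat n (i / k / (k - 1) / 4 / n / n / n % n))

theorem lab_decL (i : ℕ) : lab (decL n k i) = lF n k i := by
  unfold lab decL lF
  simp only [ofNat_mod]
  refine Prod.ext ?_ rfl
  simp [Fin.ofNat]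

/-- **The kernel of one pair move of the program.** -/
theorem hbK_prog (hk : 2 ≤ k) (lam : ℕ → ℕ → ℕ) (x y : Fin k → Mov.Om (Fin n)) :
    hbK (LM.nIdx n k) mvA (aA lam) (bA lam) x y =
      Pop.popK (GoodK.hb (GoodK.pw fun s : Mov.Om (Fin n) => (wtN lam s.1 : ℝ))
        (tauL (V := Fin n))) x y := by
  have h := hbK_eq_popK (Ω := Mov.Om (Fin n)) (L := LabT (Fin n)) (k := k) (LM.nIdx n k)
    (by rw [nIdx_eq]; exact idxN_cast (by omega)) (tauL (V := Fin n))
    (fun s => wtN lam s.1) (fun i => Fin.ofNat k (i % k))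
    (fun i => Fin.ofNat k ((i % k + 1 + i / k % (k - 1)) % k)) (decL n k)
    (fun F => by rw [nIdx_eq]; exact sum_idx n k F)
    mvA (aA lam) (bA lam)
    (fun i _ x => by
      unfold mvA popMove upd2 newA tauL
      rw [lab_decL]
      simp only [ofNat_mod]
      rfl)
    (fun i _ x => by
      unfold aA
      simp only [ofNat_mod]
      rfl)
    (fun i _ x => by
      unfold bA newA tauL
      rw [lab_decL]
      simp only [ofNat_mod]
      rfl) x y
  exact h

end ker

/-! ### scaling of the weights -/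

theorem wtN_eq_wt {n : ℕ} {lamN : ℕ → ℕ → ℕ} {lam : Fin n → Fin n → ℝ} {c : ℝ}
    (h : ∀ u v : Fin n, u < v → (lamN u v : ℝ) = c * lam u v) (s : Mov.Om (Fin n)) :
    (wtN lamN s.1 : ℝ) = c ^ (n / 2) * wo lam s := by
  unfold wtN wo Br.wt
  have h1 : ∏ v ∈ univ.filter (fun v => v < s.1 v), (lamN v (s.1 v) : ℝ) =
      ∏ v ∈ univ.filter (fun v => v < s.1 v), (c * lam v (s.1 v)) :=
    prod_congr rfl fun v hv => h _ _ (mem_filter.1 hv).2
  have h3 : (∏ v ∈ univ.filter (fun v => v < s.1 v), (lamN v (s.1 v) : ℝ)) =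
      c ^ (n / 2) * ∏ v ∈ univ.filter (fun v => v < s.1 v), lam v (s.1 v) := by
    rw [h1, prod_mul_distrib, prod_const, Br.card_low s]
  rw [← h3, prod_filter, Nat.cast_prod]
  exact prod_congr rfl fun v _ => by split_ifs <;> simp

theorem pw_smul {Ω : Type*} (c : ℝ) (w : Ω → ℝ) (z : Ω × Ω) :
    GoodK.pw (fun s => c * w s) z = c ^ 2 * GoodK.pw w z := by
  unfold GoodK.pw; ring

/-- the program kernel is the ideal kernel -/
theorem ker_eq {n : ℕ} {lamN : ℕ → ℕ → ℕ} {lam : Fin n → Fin n → ℝ} {c : ℝ} (hc : 0 < c)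
    (h : ∀ u v : Fin n, u < v → (lamN u v : ℝ) = c * lam u v) :
    GoodK.hb (GoodK.pw fun s : Mov.Om (Fin n) => (wtN lamN s.1 : ℝ)) (tauL (V := Fin n)) =
      GoodK.hb (GoodK.pw (wo lam)) (tauL (V := Fin n)) := by
  have e : (GoodK.pw fun s : Mov.Om (Fin n) => (wtN lamN s.1 : ℝ)) =
      fun z => (c ^ (n / 2)) ^ 2 * GoodK.pw (wo lam) z := by
    funext z
    have h1 : (fun s : Mov.Om (Fin n) => (wtN lamN s.1 : ℝ)) =
        fun s => c ^ (n / 2) * wo lam s := funext fun s => wtN_eq_wt h s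
    rw [h1, pw_smul]
  funext z z'
  rw [e]
  exact GoodK.hb_smul (by positivity) z z'

/-! ### the population -/

theorem law_const {n : ℕ} {lam : Fin n → Fin n → ℝ} {c : ℝ} (hc : 0 < c)
    (h : ∀ u v, lam u v = c) (s : Mov.Om (Fin n)) :
    GoodK.law (wo lam) s = 1 / (Fintype.card (Mov.Om (Fin n)) : ℝ) := by
  have e : ∀ s : Mov.Om (Fin n), wo lam s = c ^ (n / 2) := by
    intro s
    unfold wo Br.wt
    simp only [h, prod_const, Br.card_low s]
  unfold GoodK.law
  simp only [e, sum_const, card_univ, nsmul_eq_mul]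
  have : (0 : ℝ) < c ^ (n / 2) := by positivity
  rw [mul_comm, ← div_div, div_self this.ne']

/-- total error of one population -/
def popErr (n k B0 B τ H t : ℕ) (γ ε : ℝ) : ℝ :=
  k * (n * (2 * n / 2 ^ B)) + (t * H : ℕ) * τ * (2 * (LM.nIdx n k : ℕ) / 2 ^ B0 + 2 / 2 ^ B) +
    annErr k τ (t * H) γ ε

/-- **The population of the program samples from the product law.** -/
theorem approx_pop (hPA : Pop.PopAnneal) (P : Prm) (hn : 3 ≤ P.n) (hk : 2 ≤ P.k)
    (hH : 0 < P.H) (h : List Mv) {m : ℕ} {q : ℝ} {Lm : ℕ → Fin P.n → Fin P.n → ℝ}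
    (M : Macro P.n m h.length q Lm) {c : ℝ} (hc : 0 < c)
    (hLm : ∀ j ≤ h.length, ∀ u v : Fin P.n, u < v →
      (lamN P (h.take j) u v : ℝ) = c * Lm j u v)
    (hpos : ∀ j ≤ h.length, ∀ u v : ℕ, 0 < lamN P (h.take j) u v)
    {c1 : ℝ} (hc1 : 0 < c1) (hconst : ∀ u v, Lm 0 u v = c1)
    {γ : ℝ} (hγ : 0 < γ) (hγ1 : γ ≤ 1) (hkγ : 6400 ≤ γ ^ 2 * P.k)
    (hε : (P.k : ℝ) * (4 * P.n / (m * P.H)) ^ 2 ≤ 1)
    (hgood : ∀ o ∈ stO P.H h.length, Pop.GoodKernel (piO Lm P.H o) (kerO Lm P.H o) γ)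
    (hlen : sampLen P.n P.k P.B0 P.B (movesOf P h) ≤ blk P) :
    Approx (popOf P h) (blk P) (encP (n := P.n) (K := P.k))
      (prodLaw (GoodK.law (wo (Lm h.length))))
      (popErr P.n P.k P.B0 P.B P.τ P.H h.length γ (4 * P.n / (m * P.H))) := by
  have hn0 : NeZero P.n := ⟨by omega⟩
  have hk0 : NeZero P.k := ⟨by omega⟩
  set f : Option ℕ → List (List ℕ) → List Bool → List (List ℕ) :=
    fun o => stepL P.n P.k P.B0 P.B (fineN P h (o.getD 0)) with hf
  -- fine tables
  have hfine : ∀ s < h.length * P.H, ∀ u v : Fin P.n, u < v →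
      (fineN P h s u v : ℝ) = c * fine Lm P.H s u v := by
    intro s hs u v huv
    have h1 : s / P.H < h.length := by
      rw [Nat.div_lt_iff_lt_mul hH]; exact hs
    unfold fineN fine
    push_cast [hLm _ h1.le u v huv, hLm _ (Nat.succ_le_of_lt h1) u v huv]
    ring
  have hfpos : ∀ s < h.length * P.H, ∀ u v : ℕ, 0 < fineN P h s u v := by
    intro s hs u v
    have h1 : s / P.H < h.length := by
      rw [Nat.div_lt_iff_lt_mul hH]; exact hs
    unfold fineN
    have := hpos _ (Nat.succ_le_of_lt h1) u v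
    positivity
  -- steps
  have hstep : ∀ o ∈ stO P.H h.length, ∀ x : Fin P.k → Mov.Om (Fin P.n),
      Approx (f o (encP x)) (P.B0 + P.B) encP (Pop.popK (kerO Lm P.H o) x)
        (2 * (LM.nIdx P.n P.k : ℕ) / 2 ^ P.B0 + 2 / 2 ^ P.B) := by
    intro o ho x
    unfold stO at ho
    rw [List.mem_map] at ho
    obtain ⟨i, hi, rfl⟩ := ho
    rw [List.mem_range] at hi
    have h1 := approx_stepL (n := P.n) (k := P.k) (B0 := P.B0) (B := P.B)
      (lam := fineN P h i) hk (hfpos i hi) x
    refine h1.congr_law fun y => ?_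
    rw [hbK_prog hk, ker_eq hc (hfine i hi)]
    rfl
  -- start
  have hstart : Approx (initL P.n P.k P.B) (P.k * (P.n / 2 * P.B)) (encP (n := P.n) (K := P.k))
      (prodLaw (piO Lm P.H none)) (P.k * (P.n * (2 * P.n / 2 ^ P.B))) := by
    refine (Start.approx_initL' M.even P.k P.B).congr_law fun x => ?_
    unfold prodLaw
    refine prod_congr rfl fun i _ => ?_
    exact law_const hc1 hconst _
  have hd : (0 : ℝ) ≤ 2 * (LM.nIdx P.n P.k : ℕ) / 2 ^ P.B0 + 2 / 2 ^ P.B := by positivity
  have hmain := approx_anneal hPA (S := List (List ℕ)) P.k P.τ γ (4 * P.n / (m * P.H))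
    (piO Lm P.H) (kerO Lm P.H) none (stO P.H h.length) hγ hγ1 hkγ (by positivity) hε
    (fun o ho s => M.piO_pos hH le_rfl o ho s) (fun o ho => M.piO_sum hH le_rfl o ho)
    hgood (M.chain hH (h.length * P.H) le_rfl) hstart (f := f) hd hstep
  rw [M.piO_last hH, length_stO] at hmain
  have e1 : stages P.τ (stO P.H h.length) = (reps (h.length * P.H) P.τ).map some :=
    stages_stO P.H h.length P.τ
  have hlen2 : P.k * (P.n / 2 * P.B) + h.length * P.H * P.τ * (P.B0 + P.B) =
      sampLen P.n P.k P.B0 P.B (movesOf P h) := rfl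
  rw [hlen2] at hmain
  have h2 := hmain.take hlen
  refine (h2.congr fun l _ => ?_).mono (le_of_eq ?_)
  · unfold popOf sampL
    rw [e1, runL_map]
    rfl
  · unfold popErr; rfl

end

end Crest.Agent.R304.L6
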