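import Mathlib

/-!
# R304 / S0464, block L4: the scalar recurrence for the three level norms
-/

set_option autoImplicit false

namespace Crest.Agent.R304.PopRec

/-- If `A, B, R` bound the norms of the three Hoeffding levels and one step of the population
chain acts as below (`l = 5 / (k √k)`), then after `T` steps the total norm is at most
`((1 - g/(4k))^T + 160/(k g²)) A₀`. -/
theorem rec_bound {k g l : ℝ} (hg : 0 < g) (hg1 : g ≤ 1) (hk : 6400 ≤ g ^ 2 * k)
    (hl : l = 5 / (k * √k)) {A B R : ℕ → ℝ}
    (hA0 : ∀ n, 0 ≤ A n) (hB0 : ∀ n, 0 ≤ B n)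
    (hA : ∀ n, A (n + 1) ≤ (1 - g / k + l) * A n + l * B n)
    (hB : ∀ n, B (n + 1) ≤ (1 - g / (2 * k) + 2 * l) * B n + l * A n)
    (hR : ∀ n, R (n + 1) ≤ R n + l * B n) (hBz : B 0 = 0) (hRz : R 0 = 0) (T : ℕ) :
    A T + B T + R T ≤ ((1 - g / (4 * k)) ^ T + 160 / (k * g ^ 2)) * A 0 := by
  have hk0 : 0 < k := by
    by_contra h
    have : g ^ 2 * k ≤ 0 := mul_nonpos_of_nonneg_of_nonpos (by positivity) (not_lt.mp h)
    linarith
  have hgsq : g ^ 2 ≤ 1 := by nlinarith
  have hk6 : 6400 ≤ k := by nlinarith
  have hs0 : 0 < √k := Real.sqrt_pos.mpr hk0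
  have hss : √k * √k = k := Real.mul_self_sqrt hk0.le
  have hgs : 80 ≤ g * √k := by
    have h1 : (80 : ℝ) ^ 2 ≤ (g * √k) ^ 2 := by
      have : (g * √k) ^ 2 = g ^ 2 * k := by
        rw [mul_pow, sq (√k), hss]
      rw [this]; linarith
    exact (pow_le_pow_iff_left₀ (by norm_num) (by positivity) (by norm_num)).mp h1
  have hl0 : 0 < l := by rw [hl]; positivity
  -- `l ≤ g / (16 k)`
  have hl1 : l ≤ g / (16 * k) := by
    rw [hl, div_le_div_iff₀ (by positivity) (by positivity)]
    have : g * (k * √k) = (g * √k) * k := by ring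
    rw [this]
    nlinarith
  have hgk : 0 < g / k := by positivity
  have e2 : g / (2 * k) = (g / k) / 2 := by field_simp
  have e4 : g / (4 * k) = (g / k) / 4 := by field_simp
  have e16 : g / (16 * k) = (g / k) / 16 := by field_simp
  set u : ℝ := g / k with hu
  rw [e16] at hl1
  rw [e4]
  have hu1 : u ≤ 1 / 6400 := by
    rw [hu, div_le_div_iff₀ hk0 (by norm_num)]; linarith
  have hq0 : 0 ≤ 1 - u / 4 := by linarith
  -- the sum of the first two levels decays
  have hsum : ∀ n, A n + B n ≤ (1 - u / 4) ^ n * A 0 := by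
    intro n
    induction n with
    | zero => simp [hBz]
    | succ n ih =>
      have h1 := hA n
      have h2 := hB n
      rw [e2] at h2
      have h3 : A (n + 1) + B (n + 1) ≤ (1 - u / 4) * (A n + B n) := by
        have ha := hA0 n
        have hb := hB0 n
        have hla : l * A n ≤ (u / 16) * A n := mul_le_mul_of_nonneg_right hl1 ha
        have hlb : l * B n ≤ (u / 16) * B n := mul_le_mul_of_nonneg_right hl1 hb
        nlinarith [mul_nonneg hgk.le ha, mul_nonneg hgk.le hb]
      calc A (n + 1) + B (n + 1) ≤ (1 - u / 4) * (A n + B n) := h3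
        _ ≤ (1 - u / 4) * ((1 - u / 4) ^ n * A 0) := mul_le_mul_of_nonneg_left ih hq0
        _ = (1 - u / 4) ^ (n + 1) * A 0 := by ring
  -- potential for the third level
  have hu0 : u ≠ 0 := hgk.ne'
  set x : ℝ := 4 * l / u with hx
  set y : ℝ := 160 / (k * g ^ 2) with hy
  have hx0 : 0 ≤ x := by positivity
  have hy0 : 0 ≤ y := by positivity
  have hy1 : y ≤ 1 / 40 := by
    rw [hy, div_le_div_iff₀ (by positivity) (by norm_num)]
    nlinarith
  have hxu : x * u = 4 * l := by rw [hx]; field_simp
  have hll : l * l = 25 / (k * k * k) := by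
    rw [hl, div_mul_div_comm]
    have : k * √k * (k * √k) = k * k * k := by
      calc k * √k * (k * √k) = k * k * (√k * √k) := by ring
        _ = k * k * k := by rw [hss]
    rw [this]; norm_num
  have hxl : x * l ≤ (15 / 16) * (y * u) := by
    have h1 : x * l = 100 / (k * k * g) := by
      rw [hx, hu, div_mul_eq_mul_div, mul_assoc, hll]
      field_simp
      ring
    have h2 : y * u = 160 / (k * k * g) := by
      rw [hy, hu]
      field_simp
    rw [h1, h2]
    have : (100 : ℝ) / (k * k * g) = 100 * (1 / (k * k * g)) := by ring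
    rw [this]
    have h3 : (15 / 16 : ℝ) * (160 / (k * k * g)) = 150 * (1 / (k * k * g)) := by ring
    rw [h3]
    have : 0 ≤ 1 / (k * k * g) := by positivity
    linarith
  have hpot : ∀ n, R n + x * B n + y * A n ≤ y * A 0 := by
    intro n
    induction n with
    | zero => simp [hBz, hRz]
    | succ n ih =>
      have ha := hA0 n
      have hb := hB0 n
      have h1 := hA n
      have h2 := hB n
      have h3 := hR n
      rw [e2] at h2
      have h1' : y * A (n + 1) ≤ y * ((1 - u + l) * A n + l * B n) :=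
        mul_le_mul_of_nonneg_left h1 hy0
      have h2' : x * B (n + 1) ≤ x * ((1 - u / 2 + 2 * l) * B n + l * A n) :=
        mul_le_mul_of_nonneg_left h2 hx0
      have hA' : y * ((1 - u + l) * A n) ≤ y * ((1 - 15 / 16 * u) * A n) := by
        apply mul_le_mul_of_nonneg_left _ hy0
        apply mul_le_mul_of_nonneg_right _ ha
        linarith
      have hB' : x * ((1 - u / 2 + 2 * l) * B n) ≤ x * ((1 - 3 / 8 * u) * B n) := by
        apply mul_le_mul_of_nonneg_left _ hx0
        apply mul_le_mul_of_nonneg_right _ hb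
        linarith
      have hxlA : x * l * A n ≤ (15 / 16) * (y * u) * A n :=
        mul_le_mul_of_nonneg_right hxl ha
      have hylB : y * (l * B n) ≤ (1 / 40) * (l * B n) :=
        mul_le_mul_of_nonneg_right hy1 (mul_nonneg hl0.le hb)
      have hxuB : x * (3 / 8 * u * B n) = (3 / 2) * (l * B n) := by
        have : x * (3 / 8 * u * B n) = 3 / 8 * (x * u) * B n := by ring
        rw [this, hxu]; ring
      have hlB : 0 ≤ l * B n := mul_nonneg hl0.le hb
      have expand1 : x * ((1 - u / 2 + 2 * l) * B n + l * A n)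
          = x * ((1 - u / 2 + 2 * l) * B n) + x * l * A n := by ring
      have expand2 : y * ((1 - u + l) * A n + l * B n)
          = y * ((1 - u + l) * A n) + y * (l * B n) := by ring
      have expand3 : x * ((1 - 3 / 8 * u) * B n) = x * B n - x * (3 / 8 * u * B n) := by ring
      have expand4 : y * ((1 - 15 / 16 * u) * A n)
          = y * A n - (15 / 16) * (y * u) * A n := by ring
      linarith
  have hRT : R T ≤ y * A 0 := by
    have h := hpot T
    have h1 : 0 ≤ x * B T := mul_nonneg hx0 (hB0 T)
    have h2 : 0 ≤ y * A T := mul_nonneg hy0 (hA0 T)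
    linarith
  have := hsum T
  calc A T + B T + R T ≤ (1 - u / 4) ^ T * A 0 + y * A 0 := by linarith
    _ = ((1 - u / 4) ^ T + y) * A 0 := by ring

end Crest.Agent.R304.PopRec
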