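import Crest.Agent.R304.PopIter
import Crest.Agent.R304.PopRec

/-!
# R304 / S0464, block L4: annealing, the theorem `PopAnneal`
-/

set_option autoImplicit false
set_option linter.unusedSectionVars false

noncomputable section

namespace Crest.Agent.R304.Pop

open Finset Function

section push

variable {X : Type*} [Fintype X] {w : X → ℝ} {P : X → X → ℝ}

theorem push_density (h : RevPsd w P) (F : X → ℝ) :
    push P (fun x => w x * F x) = fun x => w x * op P F x := by
  funext y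
  unfold push op
  rw [mul_sum]
  refine sum_congr rfl fun x _ => ?_
  have := h.rev x y
  calc w x * F x * P x y = (w x * P x y) * F x := by ring
    _ = w y * (P y x * F x) := by rw [this]; ring

theorem push_iter_density (h : RevPsd w P) (F : X → ℝ) (t : ℕ) :
    (push P)^[t] (fun x => w x * F x) = fun x => w x * (op P)^[t] F x := by
  induction t with
  | zero => rfl
  | succ t ih => rw [Function.iterate_succ_apply', ih, push_density h, Function.iterate_succ_apply']

theorem push_add (ν μ : X → ℝ) : push P (ν + μ) = push P ν + push P μ := by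
  funext y; simp only [push, Pi.add_apply]; rw [← sum_add_distrib]
  exact sum_congr rfl fun x _ => by ring

theorem push_sub (ν μ : X → ℝ) : push P (ν - μ) = push P ν - push P μ := by
  funext y; simp only [push, Pi.sub_apply]; rw [← sum_sub_distrib]
  exact sum_congr rfl fun x _ => by ring

theorem push_iter_sub (ν μ : X → ℝ) (t : ℕ) :
    (push P)^[t] (ν - μ) = (push P)^[t] ν - (push P)^[t] μ := by
  induction t with
  | zero => rfl
  | succ t ih => simp only [Function.iterate_succ_apply', ih, push_sub]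

theorem push_l1 (h : RevPsd w P) (ν : X → ℝ) : ∑ y, |push P ν y| ≤ ∑ x, |ν x| := by
  calc ∑ y, |push P ν y| ≤ ∑ y, ∑ x, |ν x| * P x y := by
        refine sum_le_sum fun y _ => ?_
        refine (abs_sum_le_sum_abs _ _).trans (le_of_eq ?_)
        exact sum_congr rfl fun x _ => by rw [abs_mul, abs_of_nonneg (h.nonneg x y)]
    _ = ∑ x, |ν x| := by
        rw [sum_comm]
        exact sum_congr rfl fun x _ => by rw [← mul_sum, h.sum_one, mul_one]

theorem push_iter_l1 (h : RevPsd w P) (ν : X → ℝ) (t : ℕ) :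
    ∑ y, |(push P)^[t] ν y| ≤ ∑ x, |ν x| := by
  induction t with
  | zero => exact le_rfl
  | succ t ih => rw [Function.iterate_succ_apply']; exact (push_l1 h _).trans ih

theorem nm_iter_le (h : RevPsd w P) (F : X → ℝ) (t : ℕ) : nm w ((op P)^[t] F) ≤ nm w F := by
  induction t with
  | zero => exact le_rfl
  | succ t ih => rw [Function.iterate_succ_apply']; exact (h.nm_op_le _).trans ih

theorem op_iter_add (F G : X → ℝ) (t : ℕ) :
    (op P)^[t] (F + G) = (op P)^[t] F + (op P)^[t] G := by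
  induction t with
  | zero => rfl
  | succ t ih => simp only [Function.iterate_succ_apply', ih, op_add]

end push

variable {Ω : Type*} [Fintype Ω] [DecidableEq Ω] {k : ℕ}
variable {π : Ω → ℝ} {K : Ω × Ω → Ω × Ω → ℝ} {γ : ℝ}

theorem sum_prodW_pow (q : Ω → ℝ) : ∑ x : Fin k → Ω, prodW q x = (∑ a, q a) ^ k := by
  rw [Fintype.sum_pow]; rfl

/-- The size of `h - S1 g`. -/
theorem rest_sq {π' g : Ω → ℝ} (h1 : ∑ a, π a = 1) (h1' : ∑ a, π' a = 1)
    (hg : ∀ a, π' a = π a * (1 + g a)) :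
    ip (prodW π) ((fun x : Fin k → Ω => ∏ i, (1 + g (x i)) - 1) - S1 g)
      ((fun x : Fin k → Ω => ∏ i, (1 + g (x i)) - 1) - S1 g) =
      (1 + ip π g g) ^ k - 1 - k * ip π g g := by
  have hgz : Mz π g := by
    unfold Mz
    have : ∑ a, π' a = ∑ a, π a + ∑ a, π a * g a := by
      rw [← sum_add_distrib]; exact sum_congr rfl fun a _ => by rw [hg]; ring
    linarith
  have hW : ∀ x : Fin k → Ω, prodW π x * ∏ i, (1 + g (x i)) = prodW π' x := by
    intro x; unfold prodW; rw [← prod_mul_distrib]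
    exact prod_congr rfl fun i _ => (hg _).symm
  have i1 : ∑ x : Fin k → Ω, prodW π x * (∏ i, (1 + g (x i))) ^ 2 = (1 + ip π g g) ^ k := by
    have e : ∑ a, π a * (1 + g a) ^ 2 = 1 + ip π g g := by
      have : ∑ a, π a * (1 + g a) ^ 2 = ∑ a, π a + 2 * ∑ a, π a * g a + ip π g g := by
        unfold ip
        rw [mul_sum, ← sum_add_distrib, ← sum_add_distrib]
        exact sum_congr rfl fun a _ => by ring
      rw [this, h1, hgz]; ring
    rw [← e, ← sum_prodW_pow]
    refine sum_congr rfl fun x _ => ?_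
    unfold prodW
    rw [← prod_pow, ← prod_mul_distrib]
  have i2 : ∑ x : Fin k → Ω, prodW π x * (∏ i, (1 + g (x i))) = 1 := by
    refine Eq.trans ?_ (sum_prodW (k := k) h1')
    exact sum_congr rfl fun x _ => hW x
  have i3 : ∑ x : Fin k → Ω, prodW π x * (∏ i, (1 + g (x i))) * S1 g x = k * ip π g g := by
    have e : ∑ x : Fin k → Ω, prodW π x * (∏ i, (1 + g (x i))) * S1 g x =
        ∑ i : Fin k, ∑ x : Fin k → Ω, prodW π' x * g (x i) := by
      rw [sum_comm]
      refine sum_congr rfl fun x _ => ?_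
      rw [hW, S1, mul_sum]
    rw [e]
    have e2 : ∀ i : Fin k, ∑ x : Fin k → Ω, prodW π' x * g (x i) = ip π g g := by
      intro i
      rw [marg1 h1' i g]
      have : ∑ a, π' a * g a = ∑ a, π a * g a + ip π g g := by
        unfold ip
        rw [← sum_add_distrib]
        exact sum_congr rfl fun a _ => by rw [hg]; ring
      rw [this, hgz, zero_add]
    simp only [e2]
    rw [sum_const, card_univ, Fintype.card_fin, nsmul_eq_mul]
  have i4 : ∑ x : Fin k → Ω, prodW π x * S1 g x = 0 := by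
    have e : ∑ x : Fin k → Ω, prodW π x * S1 g x =
        ∑ i : Fin k, ∑ x : Fin k → Ω, prodW π x * g (x i) := by
      rw [sum_comm]
      exact sum_congr rfl fun x _ => by rw [S1, mul_sum]
    rw [e]
    exact sum_eq_zero fun i _ => by rw [marg1 h1 i g]; exact hgz
  have i5 := ip_S1 (k := k) h1 (f := g) hgz
  have i6 := sum_prodW (k := k) h1
  have key : ip (prodW π) ((fun x : Fin k → Ω => ∏ i, (1 + g (x i)) - 1) - S1 g)
      ((fun x : Fin k → Ω => ∏ i, (1 + g (x i)) - 1) - S1 g) =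
      ∑ x : Fin k → Ω, prodW π x * (∏ i, (1 + g (x i))) ^ 2
      - 2 * ∑ x : Fin k → Ω, prodW π x * (∏ i, (1 + g (x i)))
      - 2 * ∑ x : Fin k → Ω, prodW π x * (∏ i, (1 + g (x i))) * S1 g x
      + 2 * ∑ x : Fin k → Ω, prodW π x * S1 g x
      + ∑ x : Fin k → Ω, prodW π x + ip (prodW π) (S1 (k := k) g) (S1 g) := by
    unfold ip
    simp only [mul_sum, ← sum_sub_distrib, ← sum_add_distrib]
    refine sum_congr rfl fun x _ => ?_
    simp only [Pi.sub_apply]; ring
  rw [key, i1, i2, i3, i4, i5, i6]; ring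

theorem scalar_rest {σ : ℝ} (hσ : 0 ≤ σ) (hk : k * σ ≤ 1) :
    (1 + σ) ^ k - 1 - k * σ ≤ (k * σ) ^ 2 := by
  have e1 : (1 + σ) ^ k ≤ Real.exp (k * σ) := by
    have : (1 + σ) ^ k ≤ (Real.exp σ) ^ k :=
      pow_le_pow_left₀ (by linarith) (by linarith [Real.add_one_le_exp σ]) k
    rwa [← Real.exp_nat_mul] at this
  have h0 : 0 ≤ k * σ := by positivity
  have e2 := Real.abs_exp_sub_one_sub_id_le (x := k * σ) (by rw [abs_of_nonneg h0]; exact hk)
  have e3 := le_of_abs_le e2
  linarith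

/-- One annealing stage: the density `h` of `π'^k` with respect to `π^k` minus one. -/
theorem stage (hk : 2 ≤ k) (h1 : ∑ a, π a = 1) (hπ : ∀ a, 0 ≤ π a) (hK : GoodKernel π K γ)
    (hγ0 : 0 < γ) (hγ1 : γ ≤ 1) (hkγ : 6400 ≤ γ ^ 2 * k) {π' g : Ω → ℝ} (h1' : ∑ a, π' a = 1)
    (hg : ∀ a, π' a = π a * (1 + g a)) {ε : ℝ} (hε0 : 0 ≤ ε) (hkε : k * ε ^ 2 ≤ 1)
    (hgε : ∀ a, |g a| ≤ ε) (τ : ℕ) :
    nm (prodW π) ((op (popK K))^[τ] (fun x : Fin k → Ω => ∏ i, (1 + g (x i)) - 1)) ≤
      ((1 - γ / (4 * k)) ^ τ + 160 / (k * γ ^ 2)) * (√k * ε) + k * ε ^ 2 := by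
  have hkr : (2:ℝ) ≤ k := by exact_mod_cast hk
  have hgz : Mz π g := by
    unfold Mz
    have : ∑ a, π' a = ∑ a, π a + ∑ a, π a * g a := by
      rw [← sum_add_distrib]; exact sum_congr rfl fun a _ => by rw [hg]; ring
    linarith
  have hW : ∀ x : Fin k → Ω, 0 ≤ prodW π x := prodW_nonneg hπ
  have hP := revPsd_popK hk hπ h1 (hK.revPsd hπ)
  have hσ0 : 0 ≤ ip π g g := ip_self_nonneg hπ g
  have hσ : ip π g g ≤ ε ^ 2 := by
    calc ip π g g ≤ ∑ a, π a * ε ^ 2 := by
          unfold ip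
          refine sum_le_sum fun a _ => ?_
          rw [mul_assoc]
          refine mul_le_mul_of_nonneg_left ?_ (hπ a)
          rw [← sq, ← sq_abs]
          exact pow_le_pow_left₀ (abs_nonneg _) (hgε a) 2
      _ = ε ^ 2 := by rw [← sum_mul, h1, one_mul]
  have hkγ' : 2 ≤ γ * ((k:ℝ) - 3) := by nlinarith
  obtain ⟨A, B, C, hA0, hB0, hC0, hA, hB, hC, rA, rB, rC, hN⟩ :=
    exists_traj (k := k) hk h1 hπ hK hγ1 hkγ' hgz
  have hrec := PopRec.rec_bound (k := (k:ℝ)) (l := ell k) hγ0 hγ1 hkγ rfl hA hB rA rB rC hB0 hC0 τ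
  have hS1 : A 0 ≤ √k * ε := by
    rw [hA0]
    apply nm_le_of_sq _ (by positivity)
    rw [ip_S1 h1 hgz, mul_pow, Real.sq_sqrt (Nat.cast_nonneg _)]
    exact mul_le_mul_of_nonneg_left hσ (Nat.cast_nonneg _)
  have hc0 : 0 ≤ (1 - γ / (4 * k)) ^ τ + 160 / (k * γ ^ 2) := by
    have : γ / (4 * k) ≤ 1 := by rw [div_le_one (by linarith)]; linarith
    have : 0 ≤ 1 - γ / (4 * k) := by linarith
    positivity
  have hrest : nm (prodW π) ((fun x : Fin k → Ω => ∏ i, (1 + g (x i)) - 1) - S1 g) ≤ k * ε ^ 2 := by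
    apply nm_le_of_sq _ (by positivity)
    rw [rest_sq h1 h1' hg]
    have hkσ : k * ip π g g ≤ k * ε ^ 2 := mul_le_mul_of_nonneg_left hσ (Nat.cast_nonneg _)
    refine (scalar_rest hσ0 (hkσ.trans hkε)).trans ?_
    exact pow_le_pow_left₀ (by positivity) hkσ 2
  have hsplit : (fun x : Fin k → Ω => ∏ i, (1 + g (x i)) - 1) =
      S1 g + ((fun x : Fin k → Ω => ∏ i, (1 + g (x i)) - 1) - S1 g) := by abel
  rw [hsplit, op_iter_add]
  calc _ ≤ nm (prodW π) ((op (popK K))^[τ] (S1 g)) +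
        nm (prodW π) ((op (popK K))^[τ] ((fun x : Fin k → Ω => ∏ i, (1 + g (x i)) - 1) - S1 g)) :=
        nm_add hW _ _
    _ ≤ (A τ + B τ + C τ) +
        nm (prodW π) ((fun x : Fin k → Ω => ∏ i, (1 + g (x i)) - 1) - S1 g) :=
        add_le_add (hN τ) (nm_iter_le hP _ _)
    _ ≤ ((1 - γ / (4 * k)) ^ τ + 160 / (k * γ ^ 2)) * A 0 + k * ε ^ 2 := add_le_add hrec hrest
    _ ≤ _ := by
        have := mul_le_mul_of_nonneg_left hS1 hc0
        linarith

/-- Invariance of the target. -/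
theorem push_iter_self {X : Type*} [Fintype X] {w : X → ℝ} {P : X → X → ℝ} (h : RevPsd w P)
    (t : ℕ) : (push P)^[t] w = w := by
  have := push_iter_density h (fun _ => (1:ℝ)) t
  have e : ∀ t, (op P)^[t] (fun _ => (1:ℝ)) = fun _ => 1 := by
    intro t
    induction t with
    | zero => rfl
    | succ t ih => rw [Function.iterate_succ_apply', ih, h.op_const]
  rw [e] at this
  simpa using this

/-- Main theorem of the block, for arbitrary universes. -/
theorem popAnneal_aux (k τ T : ℕ) (γ ε : ℝ) (π : ℕ → Ω → ℝ) (K : ℕ → Ω × Ω → Ω × Ω → ℝ)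
    (hγ0 : 0 < γ) (hγ1 : γ ≤ 1) (hkγ : 6400 ≤ γ ^ 2 * k) (hε : 0 ≤ ε) (hkε : k * ε ^ 2 ≤ 1)
    (hpos : ∀ s ≤ T, ∀ a, 0 < π s a) (hone : ∀ s ≤ T, ∑ a, π s a = 1)
    (hK : ∀ s, 1 ≤ s → s ≤ T → GoodKernel (π s) (K s) γ)
    (hd : ∀ s < T, ∀ a, |π s a / π (s + 1) a - 1| ≤ ε) :
    ∑ x : Fin k → Ω, |annLaw k τ π K T x - prodW (π T) x| ≤
      T * (((1 - γ / (4 * k)) ^ τ + 160 / (k * γ ^ 2)) * (√k * ε) + k * ε ^ 2) := by
  have hk : 2 ≤ k := by
    by_contra hlt
    have : k ≤ 1 := by omega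
    have : (k:ℝ) ≤ 1 := by exact_mod_cast this
    nlinarith [sq_nonneg γ]
  induction T with
  | zero => simp [show annLaw k τ π K 0 = prodW (π 0) from rfl]
  | succ T ih =>
    have ih' := ih (fun s hs => hpos s (by omega)) (fun s hs => hone s (by omega))
      (fun s h1 h2 => hK s h1 (by omega)) (fun s hs => hd s (by omega))
    set δ := ((1 - γ / (4 * k)) ^ τ + 160 / (k * γ ^ 2)) * (√k * ε) + k * ε ^ 2 with hδ
    have hKT := hK (T + 1) (by omega) le_rfl
    have hπ : ∀ a, 0 ≤ π (T + 1) a := fun a => (hpos _ le_rfl a).le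
    have h1 := hone (T + 1) le_rfl
    have h1' := hone T (by omega)
    have hP := revPsd_popK hk hπ h1 (hKT.revPsd hπ)
    have hW : ∀ x : Fin k → Ω, 0 ≤ prodW (π (T + 1)) x := prodW_nonneg hπ
    set g : Ω → ℝ := fun a => π T a / π (T + 1) a - 1 with hgdef
    have hg : ∀ a, π T a = π (T + 1) a * (1 + g a) := by
      intro a
      have := (hpos (T + 1) le_rfl a).ne'
      simp only [hgdef]; field_simp; ring
    set H : (Fin k → Ω) → ℝ := fun x => ∏ i, (1 + g (x i)) - 1 with hH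
    have hdens : prodW (π T) - prodW (π (T + 1)) =
        fun x : Fin k → Ω => prodW (π (T + 1)) x * H x := by
      funext x
      simp only [Pi.sub_apply, hH, mul_sub, mul_one]
      congr 1
      unfold prodW; rw [← prod_mul_distrib]
      exact prod_congr rfl fun i _ => hg _
    have hst := stage hk h1 hπ hKT hγ0 hγ1 hkγ h1' hg hε hkε (fun a => hd T (by omega) a) τ
    have e : annLaw k τ π K (T + 1) - prodW (π (T + 1)) =
        (push (popK (K (T + 1))))^[τ] (annLaw k τ π K T - prodW (π T)) +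
        (push (popK (K (T + 1))))^[τ] (prodW (π T) - prodW (π (T + 1))) := by
      rw [push_iter_sub, push_iter_sub, push_iter_self hP]
      change (push (popK (K (T + 1))))^[τ] (annLaw k τ π K T) - _ = _
      abel
    calc ∑ x : Fin k → Ω, |annLaw k τ π K (T + 1) x - prodW (π (T + 1)) x|
        = ∑ x : Fin k → Ω,
          |(annLaw k τ π K (T + 1) - prodW (π (T + 1)) : (Fin k → Ω) → ℝ) x| := rfl
      _ ≤ ∑ x : Fin k → Ω,
            |(push (popK (K (T + 1))))^[τ] (annLaw k τ π K T - prodW (π T)) x| +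
          ∑ x : Fin k → Ω,
            |(push (popK (K (T + 1))))^[τ] (prodW (π T) - prodW (π (T + 1))) x| := by
          rw [e, ← sum_add_distrib]
          exact sum_le_sum fun x _ => by simp only [Pi.add_apply]; exact abs_add_le _ _
      _ ≤ T * δ + δ := by
          refine add_le_add ((push_iter_l1 hP _ τ).trans ih') ?_
          rw [hdens, push_iter_density hP]
          refine le_trans (le_of_eq ?_) ((sum_abs_le_nm hW (sum_prodW h1) _).trans hst)
          exact sum_congr rfl fun x _ => by rw [abs_mul, abs_of_nonneg (hW x)]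
      _ = ((T + 1 : ℕ) : ℝ) * δ := by push_cast; ring

/-- The theorem of the block. -/
theorem popAnneal : PopAnneal := by
  intro Ω _ _ k τ T γ ε π K h1 h2 h3 h4 h5 h6 h7 h8 h9
  exact popAnneal_aux k τ T γ ε π K h1 h2 h3 h4 h5 h6 h7 h8 h9

end Crest.Agent.R304.Pop
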