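import Crest.Agent.R304.ConfQ7
import Crest.Agent.R304.GN922

/-!
# R304 / S0464 : Theorem L, unconditional
-/

set_option autoImplicit false

namespace Crest.Agent.R304

open Finset

/-- `lemmaQ` in the form of `ThmL256` -/
theorem lemmaQ_holds (V : Type) [Fintype V] [DecidableEq V] : LemmaQ V (CQ.KQ V) :=
  fun _ hsym hpos _ hc hc1 hN f => lemmaQ hsym hpos hc hc1 hN f

/-- **Theorem L**, unconditional -/
theorem thmL_holds (n : ℕ) : GK922.ThmL n (KL n (CQ.KQ (Fin n)) (CQ.Krep (Fin n))) :=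
  ThmL_of_lemmaQ (lemmaQ_holds (Fin n))

theorem KQ_nonneg {V : Type} [Fintype V] {c0 : ℝ} : 0 ≤ CQ.KQ V c0 := by
  unfold CQ.KQ
  have : (0 : ℝ) ≤ CQ.kap V c0 ^ 10 := by
    have : CQ.kap V c0 ^ 10 = (CQ.kap V c0 ^ 5) ^ 2 := by ring
    rw [this]; exact sq_nonneg _
  positivity

/-- the inverse gap -/
def gN542 (n : ℕ) : ℕ := GN922.gN 290952 10 n

theorem gN542_pos (n : ℕ) : 0 < gN542 n := GN922.gN_pos _ _ _

open Crest.Agent.Lib.PT in
theorem ptu_gN542 {α : Type} [PTCode α] {n : α → ℕ} (hn : PTU n) : PTU (fun a => gN542 (n a)) :=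
  GN922.ptu_gN 290952 10 hn

open Fine922 in
/-- **All stages of the annealing have a good pair kernel**, unconditional -/
theorem good_stage_holds {n m T : ℕ} {Lm : ℕ → Fin n → Fin n → ℝ}
    (M : Macro n m T (8 * (8 * (n : ℝ) ^ 2)) Lm)
    {H : ℕ} (hH : 0 < H) {t : ℕ} (ht : t ≤ T) (o : Option ℕ) (ho : o ∈ stO H t) :
    Pop.GoodKernel (piO Lm H o) (kerO Lm H o) (1 / (gN542 n : ℝ)) := by
  have h3 : 3 ≤ n := M.three
  have hq : (1 : ℝ) ≤ 8 * (8 * (n : ℝ) ^ 2) * 2 := by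
    have : (1 : ℝ) ≤ n := by exact_mod_cast (by omega : 1 ≤ n)
    nlinarith
  refine GN922.good_stage (KQ := CQ.KQ (Fin n)) M (thmL_holds n) ?_ (GN922.KL_pos h3 hq KQ_nonneg)
    hH ht o ho
  unfold CQ.KQ
  push_cast
  exact le_rfl

end Crest.Agent.R304
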