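import Crest.Agent.R304.GlueC168
import Crest.Agent.R304.L6Pop
import Crest.Agent.R304.PopAnn
import Crest.Agent.R304.ThmL542

/-!
# R304 / S0464 (helper168): the probability statement about `Loop.est`
-/

set_option autoImplicit false
set_option linter.unusedSectionVars false

namespace Crest.Agent.R304.Glue

open Finset Crest.Agent.R309.Tape
open Crest.Agent.R304.Loop Crest.Agent.R304.Sim Crest.Agent.R304.LM Crest.Agent.R304.Samp
open Crest.Agent.R304.Ctl Crest.Agent.R304.L6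
open Crest.Agent.R304.GK922 Crest.Agent.R304.Fine922

noncomputable section

variable {P : Prm}

/-! ### plumbing -/

theorem runSteps_take {S : Type*} (f : S → List Bool → S) (r k : ℕ) (s : S) (l : List Bool) :
    runSteps f r k s (l.take (k * r)) = runSteps f r k s l := by
  induction k generalizing s l with
  | zero => rfl
  | succ k ih =>
    simp only [runSteps]
    have e1 : (l.take ((k + 1) * r)).take r = l.take r := by
      rw [List.take_take, min_eq_left (by nlinarith)]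
    have e2 : (l.take ((k + 1) * r)).drop r = (l.drop r).take (k * r) := by
      rw [List.drop_take]
      congr 1
      rw [add_mul, one_mul, Nat.add_sub_cancel]
    rw [e1, e2, ih]

theorem length_loop (P : Prm) (r k : ℕ) (s : LSt) (l : List Bool) :
    (runSteps (roundStep P) r k s l).1.length = s.1.length + k := by
  induction k generalizing s l with
  | zero => rfl
  | succ k ih =>
    simp only [runSteps]
    rw [ih]
    unfold roundStep
    simp only [List.length_append, List.length_singleton]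
    ring

theorem sampLen_mono (P : Prm) {T T' : ℕ} (h : T ≤ T') :
    sampLen P.n P.k P.B0 P.B T ≤ sampLen P.n P.k P.B0 P.B T' := by
  unfold sampLen
  exact Nat.add_le_add_left (Nat.mul_le_mul_right _ h) _

theorem movesOf_le (P : Prm) {h : List Mv} (hh : h.length ≤ P.R) :
    sampLen P.n P.k P.B0 P.B (movesOf P h) ≤ blk P := by
  unfold blk movesOf
  refine sampLen_mono P ?_
  exact Nat.mul_le_mul_right _ (Nat.mul_le_mul_right _ hh)

/-- what is needed about the macro tables of a history with good prefixes -/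
def MacroHyp (P : Prm) : Prop :=
  ∀ h : List Mv, h.length ≤ P.R → (∀ c ∈ h, c ∈ mvSet P) →
    (∀ t ≤ h.length, Good prs (GP P) (P.n / 2) (P.n - 1) P.q P.m (P.n ^ 2) (stf P (h.take t))) →
    ∃ (Lm : ℕ → Fin P.n → Fin P.n → ℝ) (c1 : ℝ), 0 < c1 ∧ (∀ u v, Lm 0 u v = c1) ∧
      Macro P.n P.m h.length (8 * (8 * (P.n : ℝ) ^ 2)) Lm ∧
      (∀ j ≤ h.length, ∀ u v : Fin P.n, u < v →
        (lamN P (h.take j) u v : ℝ) = scaleN P * Lm j u v) ∧
      ∀ s, GoodK.law (wo (Lm h.length)) s =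
        gib prs (lamH (GP P) (P.n - 1) P.q P.m (stf P) h) s

/-- the inverse gap -/
def gInv (P : Prm) : ℝ := 1 / (Crest.Agent.R304.gN542 P.n : ℝ)

/-- numerical conditions on the parameters -/
structure NumHyp (P : Prm) (E : ℕ) : Prop where
  even : Even P.n
  four : 4 ≤ P.n
  k2 : 2 ≤ P.k
  H0 : 0 < P.H
  hS : P.S = Smax P.m (P.n ^ 2)
  par : Par (Mov.Om (Fin P.n)) (P.n / 2) (P.n - 1) P.q P.m (P.n ^ 2) P.gd
  rounds : Rounds (P.n / 2) P.m (P.n ^ 2) P.gd ≤ P.R
  kg : 6400 ≤ gInv P ^ 2 * P.k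
  keps : (P.k : ℝ) * (4 * P.n / (P.m * P.H)) ^ 2 ≤ 1
  samp : ∀ t ≤ P.R, popErr P.n P.k P.B0 P.B P.τ P.H t (gInv P) (4 * P.n / (P.m * P.H)) ≤
    1 / (8 * (P.R + 1))
  stat : (P.n : ℝ) ^ 2 / (P.k * (1 / (2 * P.gd)) ^ 2) +
    (2 * (P.n : ℝ) ^ 2 + 1) * (2 / (P.k * (1 / (2 * E * (P.R + 1))) ^ 2 * (1 / 2))) ≤
      1 / (8 * (P.R + 1))

/-- **The population after a history samples from the product of the Gibbs law.** -/
theorem approx_popOf (hw : WtHyp P) {E : ℕ} (hN : NumHyp P E) (hM : MacroHyp P)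
    {h : List Mv} (hh : h.length ≤ P.R) (hC : ∀ c ∈ h, c ∈ mvSet P)
    (hg : ∀ t ≤ h.length,
      Good prs (GP P) (P.n / 2) (P.n - 1) P.q P.m (P.n ^ 2) (stf P (h.take t))) :
    Approx (popOf P h) (blk P) (encP (n := P.n) (K := P.k))
      (prodLaw (gib prs (lamH (GP P) (P.n - 1) P.q P.m (stf P) h))) (1 / (8 * (P.R + 1))) := by
  obtain ⟨Lm, c1, hc1, hconst, M, hLm, hlaw⟩ := hM h hh hC hg
  have hg1 : 1 ≤ Crest.Agent.R304.gN542 P.n := Crest.Agent.R304.gN542_pos P.n
  have hgR : (1 : ℝ) ≤ Crest.Agent.R304.gN542 P.n := by exact_mod_cast hg1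
  have hγ : 0 < gInv P := by unfold gInv; positivity
  have hγ1 : gInv P ≤ 1 := by unfold gInv; rw [div_le_one (by linarith)]; exact hgR
  have h1 := approx_pop Pop.popAnneal P (by have := hN.four; omega) hN.k2 hN.H0 h M
    (c := scaleN P) (by exact_mod_cast hw.scale_pos) hLm
    (fun j hj u v => hw.lam_pos _ ((List.length_take_le _ _).trans
      (by omega)) u v) hc1 hconst hγ hγ1 hN.kg hN.keps
    (fun o ho => Crest.Agent.R304.good_stage_holds M hN.H0 le_rfl o ho) (movesOf_le P hh)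
  refine (h1.congr_law fun x => ?_).mono (hN.samp _ hh)
  unfold prodLaw
  exact prod_congr rfl fun i _ => (hlaw _).symm

/-- **The estimate is accurate with probability `3/4`** (real-number form). -/
theorem est_real (hw : WtHyp P) (hst : StHyp P) {E : ℕ} (hE : 1 ≤ E) (hN : NumHyp P E)
    (hM : MacroHyp P)
    (hZ0 : ((Z0 P : ℚ) : ℝ) = Z prs (lamH (GP P) (P.n - 1) P.q P.m (stf P) []))
    (hcP : Fintype.card (Pr P.n) ≤ P.n ^ 2) (hcM : (mvSet P).card ≤ 2 * P.n ^ 2 + 1)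
    (hcnt : 0 < cntG prs (GP P)) :
    3 / 4 ≤ pr (estLen P) (fun t =>
      (1 - 1 / (E : ℝ)) * cntG prs (GP P) ≤ ((est P t : ℚ) : ℝ) ∧
      ((est P t : ℚ) : ℝ) ≤ (1 + 1 / (E : ℝ)) * cntG prs (GP P)) := by
  have hn2 : 2 ≤ P.n := by have := hN.four; omega
  have hOm : Nonempty (Mov.Om (Fin P.n)) := Ctl.nonempty_Om hN.even
  have hD := loopData hw hst hN.hS hN.par (by have := hN.k2; omega)
  have hkR : (0 : ℝ) < P.k := by
    have := hN.k2
    exact_mod_cast (by omega : 0 < P.k)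
  have hgd : (0 : ℝ) < P.gd := by exact_mod_cast hN.par.gdpos
  have hER : (1 : ℝ) ≤ E := by exact_mod_cast hE
  have hRR : (0 : ℝ) < (P.R : ℝ) + 1 := by positivity
  set ζ : ℝ := 1 / (2 * E * (P.R + 1)) with hζ
  have hζ0 : 0 < ζ := by rw [hζ]; positivity
  have hcP' : (Fintype.card (Pr P.n) : ℝ) ≤ (P.n : ℝ) ^ 2 := by exact_mod_cast hcP
  have hcM' : ((mvSet P).card : ℝ) ≤ 2 * (P.n : ℝ) ^ 2 + 1 := by exact_mod_cast hcM
  have hst8 := hN.stat
  rw [← hζ] at hst8
  have hA : 0 < (P.k : ℝ) * (1 / (2 * P.gd)) ^ 2 := by positivity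
  have hB : 0 < 2 / ((P.k : ℝ) * ζ ^ 2 * (1 / 2)) := by positivity
  have hdd : 1 / (8 * ((P.R : ℝ) + 1)) + 1 / (8 * ((P.R : ℝ) + 1)) = 1 / (4 * (P.R + 1)) := by
    field_simp; norm_num
  have hstat : (Fintype.card (Pr P.n) : ℝ) / (P.k * (1 / (2 * P.gd)) ^ 2) +
      (mvSet P).card * (2 / (P.k * ζ ^ 2 * (1 / 2))) + 1 / (8 * ((P.R : ℝ) + 1)) ≤
      1 / (4 * (P.R + 1)) := by
    have h1 : (Fintype.card (Pr P.n) : ℝ) / (P.k * (1 / (2 * P.gd)) ^ 2) ≤
        (P.n : ℝ) ^ 2 / (P.k * (1 / (2 * P.gd)) ^ 2) := div_le_div_of_nonneg_right hcP' hA.le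
    have h2 := mul_le_mul_of_nonneg_right hcM' hB.le
    linarith
  have hstat1 : 1 / (P.k * ζ ^ 2 * (1 / 2)) + 1 / (8 * ((P.R : ℝ) + 1)) ≤
      1 / (4 * (P.R + 1)) := by
    have h1 : 1 / ((P.k : ℝ) * ζ ^ 2 * (1 / 2)) ≤
        (2 * (P.n : ℝ) ^ 2 + 1) * (2 / (P.k * ζ ^ 2 * (1 / 2))) := by
      have h2 : 1 / ((P.k : ℝ) * ζ ^ 2 * (1 / 2)) ≤ 2 / (P.k * ζ ^ 2 * (1 / 2)) :=
        div_le_div_of_nonneg_right (by norm_num) (by positivity)
      have h3 : 1 * (2 / ((P.k : ℝ) * ζ ^ 2 * (1 / 2))) ≤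
          (2 * (P.n : ℝ) ^ 2 + 1) * (2 / (P.k * ζ ^ 2 * (1 / 2))) :=
        mul_le_mul_of_nonneg_right (by nlinarith [sq_nonneg (P.n : ℝ)]) hB.le
      linarith
    have h4 : 0 ≤ (P.n : ℝ) ^ 2 / (P.k * (1 / (2 * P.gd)) ^ 2) := by positivity
    linarith
  have hround : ∀ s : LSt, WF s → (hist s).length < P.R → (∀ c ∈ hist s, c ∈ mvSet P) →
      (∀ t ≤ (hist s).length, Good prs (GP P) (P.n / 2) (P.n - 1) P.q P.m (P.n ^ 2)
        (stf P ((hist s).take t))) →
      Approx (roundStep P s) (blk P) (fun x : Fin P.k → Mov.Om (Fin P.n) => upd P s x)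
        (prodLaw (gib prs (lamH (GP P) (P.n - 1) P.q P.m (stf P) (hist s))))
        (1 / (8 * ((P.R : ℝ) + 1))) := by
    intro s _ hlt hC hg
    have h1 := approx_popOf hw hN hM (h := hist s) hlt.le hC hg
    exact h1.map (fun pop => (s.1 ++ [nextMv P s.1 pop], s.2 ++ [pop]))
  have hfin : ∀ s : LSt, WF s → (hist s).length = P.R → (∀ c ∈ hist s, c ∈ mvSet P) →
      (∀ t ≤ (hist s).length, Good prs (GP P) (P.n / 2) (P.n - 1) P.q P.m (P.n ^ 2)
        (stf P ((hist s).take t))) →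
      Approx (fun l => ((finM P s.1 (popOf P s.1 l) : ℚ) : ℝ)) (blk P)
        (fun x : Fin P.k → Mov.Om (Fin P.n) =>
          finR prs (GP P) (P.n - 1) P.q P.m (stf P) (hist s) x)
        (prodLaw (gib prs (lamH (GP P) (P.n - 1) P.q P.m (stf P) (hist s))))
        (1 / (8 * ((P.R : ℝ) + 1))) := by
    intro s _ hlen hC hg
    have h1 := approx_popOf hw hN hM (h := hist s) hlen.le hC hg
    have h2 := h1.map (fun pop => ((finM P s.1 pop : ℚ) : ℝ))
    have e : (fun x : Fin P.k → Mov.Om (Fin P.n) => ((finM P s.1 (encP x) : ℚ) : ℝ)) =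
        fun x => finR prs (GP P) (P.n - 1) P.q P.m (stf P) (hist s) x := by
      funext x
      exact finM_real hw hlen.le x
    rw [e] at h2
    exact h2
  have hmain := main_loop (sys_prs hn2) hN.par hD hN.rounds hcnt hE hζ hstat hstat1 (blk P)
    (roundStep P) (fun s l => ((finM P s.1 (popOf P s.1 l) : ℚ) : ℝ)) ([], []) rfl rfl
    (by simp [val]) hround hfin
  have hlen : P.R * blk P + blk P = estLen P := by unfold estLen; ring
  rw [hlen] at hmain
  have hest : ∀ t : List Bool, ((est P t : ℚ) : ℝ) =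
      Z prs (lamH (GP P) (P.n - 1) P.q P.m (stf P) []) *
        val P (runSteps (roundStep P) (blk P) P.R ([], []) (t.take (P.R * blk P))) *
        ((finM P (runSteps (roundStep P) (blk P) P.R ([], []) (t.take (P.R * blk P))).1
          (popOf P (runSteps (roundStep P) (blk P) P.R ([], []) (t.take (P.R * blk P))).1
            (t.drop (P.R * blk P))) : ℚ) : ℝ) := by
    intro t
    rw [runSteps_take]
    unfold est estOf loop val
    rw [length_loop, Rat.cast_mul, Rat.cast_mul, hZ0]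
    simp only [List.length_nil, zero_add]
  refine hmain.trans (le_of_eq (pr_congr fun t _ => ?_))
  rw [hest t]

end

end Crest.Agent.R304.Glue
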