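import Crest.Agent.R304.L6Step
import Crest.Agent.R304.L6Law
import Crest.Agent.R304.GoodK922

/-!
# R304 / S0464, block L6 (helper168): the index kernel is the population kernel `popK`
-/

set_option autoImplicit false
set_option linter.unusedSectionVars false

namespace Crest.Agent.R304.L6

open Finset Crest.Agent.R309.Tape

/-! ### sums over mixed-radix indices -/

theorem sum_range_mod_div {M : Type*} [AddCommMonoid M] (a b : ℕ) (F : ℕ → ℕ → M) :
    ∑ i ∈ range (a * b), F (i % a) (i / a) = ∑ y ∈ range b, ∑ x ∈ range a, F x y := by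
  induction b with
  | zero => simp
  | succ b ih =>
    rw [mul_add, mul_one, sum_range_add, ih, sum_range_succ]
    congr 1
    refine sum_congr rfl fun x hx => ?_
    have hx' := mem_range.1 hx
    have ha : 0 < a := by omega
    rw [Nat.mul_add_mod, Nat.mod_eq_of_lt hx', Nat.mul_add_div ha, Nat.div_eq_of_lt hx', add_zero]

theorem sum_range_shift (k : ℕ) (G : ℕ → ℝ) (c : ℕ) :
    ∑ d ∈ range k, G ((c + d) % k) = ∑ d ∈ range k, G d := by
  induction c with
  | zero =>
    exact sum_congr rfl fun d hd => by rw [zero_add, Nat.mod_eq_of_lt (mem_range.1 hd)]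
  | succ c ih =>
    rw [← ih]
    have h1 := sum_range_succ (fun d => G ((c + d) % k)) k
    have h2 := sum_range_succ' (fun d => G ((c + d) % k)) k
    have e : ∑ d ∈ range k, G ((c + 1 + d) % k) = ∑ d ∈ range k, G ((c + (d + 1)) % k) :=
      sum_congr rfl fun d _ => by rw [show c + 1 + d = c + (d + 1) by ring]
    rw [e]
    have h3 : G ((c + k) % k) = G ((c + 0) % k) := by rw [Nat.add_mod_right, add_zero]
    linarith

theorem sum_range_others {k p : ℕ} (hp : p < k) (G : ℕ → ℝ) :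
    ∑ d ∈ range (k - 1), G ((p + 1 + d) % k) = ∑ q ∈ range k, if p ≠ q then G q else 0 := by
  have h1 := sum_range_shift k G (p + 1)
  have hk : k = (k - 1) + 1 := by omega
  have h2 : ∑ d ∈ range k, G ((p + 1 + d) % k) =
      ∑ d ∈ range (k - 1), G ((p + 1 + d) % k) + G p := by
    conv_lhs => rw [show range k = range ((k - 1) + 1) by rw [← hk]]
    rw [sum_range_succ]
    congr 2
    rw [show p + 1 + (k - 1) = p + k by omega, Nat.add_mod_right, Nat.mod_eq_of_lt hp]
  have h3 : ∑ q ∈ range k, G q = ∑ q ∈ range k, (if p ≠ q then G q else 0) + G p := by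
    have e : ∀ q, G q = (if p ≠ q then G q else 0) + (if q = p then G q else 0) := by
      intro q
      by_cases h : q = p
      · subst h; simp
      · rw [if_pos (fun h' => h h'.symm), if_neg h, add_zero]
    calc ∑ q ∈ range k, G q
        = ∑ q ∈ range k, ((if p ≠ q then G q else 0) + (if q = p then G q else 0)) :=
          sum_congr rfl fun q _ => e q
      _ = _ := by rw [sum_add_distrib, sum_ite_eq', if_pos (mem_range.2 hp)]
  linarith

/-! ### the general identification -/

section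

variable {Ω : Type} [Fintype Ω] [DecidableEq Ω] {L : Type} [Fintype L]

/-- the move with replicas `p`, `q` and label `l` on a population -/
def popMove {k : ℕ} (tau : L → Ω × Ω → Ω × Ω) (p q : Fin k) (l : L) (x : Fin k → Ω) : Fin k → Ω :=
  upd2 x p q (tau l (x p, x q))

theorem sum_popK_mul {k : ℕ} (K : Ω × Ω → Ω × Ω → ℝ) (x : Fin k → Ω) (ψ : (Fin k → Ω) → ℝ) :
    ∑ y, Pop.popK K x y * ψ y =
      (∑ p, ∑ q, if p ≠ q then ∑ z, K (x p, x q) z * ψ (upd2 x p q z) else 0) /
        ((k : ℝ) * ((k : ℝ) - 1)) := by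
  unfold Pop.popK
  simp only [div_mul_eq_mul_div]
  rw [← sum_div]
  congr 1
  simp only [sum_mul]
  rw [sum_comm]
  refine sum_congr rfl fun p _ => ?_
  rw [sum_comm]
  refine sum_congr rfl fun q _ => ?_
  by_cases h : p ≠ q
  · simp only [if_pos h]
    exact sum_pairK_mul K h x ψ
  · simp only [if_neg h, zero_mul, sum_const_zero]

theorem sum_hb_mul (w : Ω × Ω → ℝ) (tau : L → Ω × Ω → Ω × Ω) (z : Ω × Ω) (ψ : Ω × Ω → ℝ) :
    ∑ z', GoodK.hb w tau z z' * ψ z' =
      (∑ l, (w (tau l z) / (w z + w (tau l z)) * ψ (tau l z) +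
        w z / (w z + w (tau l z)) * ψ z)) / (Fintype.card L : ℝ) := by
  unfold GoodK.hb
  simp only [div_mul_eq_mul_div]
  rw [← sum_div]
  congr 1
  simp only [sum_mul]
  rw [sum_comm]
  refine sum_congr rfl fun l _ => ?_
  rw [GoodK.hb1_sum]
  ring

/-- a kernel on a finite type is determined by its action on functions -/
theorem ker_ext {α : Type*} [Fintype α] [DecidableEq α] {K K' : α → α → ℝ} {x : α}
    (h : ∀ ψ : α → ℝ, ∑ y, K x y * ψ y = ∑ y, K' x y * ψ y) (y : α) : K x y = K' x y := by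
  have := h (fun z => if z = y then 1 else 0)
  simpa using this

/-- **The index kernel is the population kernel.** -/
theorem hbK_eq_popK {k : ℕ} (N : ℕ) (hN : (N : ℝ) = (k : ℝ) * (k - 1) * (Fintype.card L : ℝ))
    (tau : L → Ω × Ω → Ω × Ω) (w : Ω → ℕ) (decP decQ : ℕ → Fin k) (decL : ℕ → L)
    (hdec : ∀ F : Fin k → Fin k → L → ℝ, ∑ i ∈ range N, F (decP i) (decQ i) (decL i) =
      ∑ p, ∑ q, if p ≠ q then ∑ l, F p q l else 0)
    (mv : ℕ → (Fin k → Ω) → (Fin k → Ω)) (a b : ℕ → (Fin k → Ω) → ℕ)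
    (hmv : ∀ i < N, ∀ x, mv i x = popMove tau (decP i) (decQ i) (decL i) x)
    (ha : ∀ i < N, ∀ x, a i x = w (x (decP i)) * w (x (decQ i)))
    (hb : ∀ i < N, ∀ x, b i x = w (tau (decL i) (x (decP i), x (decQ i))).1 *
      w (tau (decL i) (x (decP i), x (decQ i))).2) (x y : Fin k → Ω) :
    hbK N mv a b x y =
      Pop.popK (GoodK.hb (GoodK.pw fun s => (w s : ℝ)) tau) x y := by
  refine ker_ext (K := hbK N mv a b)
    (K' := Pop.popK (GoodK.hb (GoodK.pw fun s => (w s : ℝ)) tau)) (fun ψ => ?_) y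
  rw [sum_hbK_mul, sum_popK_mul]
  set F : Fin k → Fin k → L → ℝ := fun p q l =>
        GoodK.pw (fun s => (w s : ℝ)) (tau l (x p, x q)) /
            (GoodK.pw (fun s => (w s : ℝ)) (x p, x q) +
              GoodK.pw (fun s => (w s : ℝ)) (tau l (x p, x q))) * ψ (upd2 x p q (tau l (x p, x q)))
          + GoodK.pw (fun s => (w s : ℝ)) (x p, x q) /
            (GoodK.pw (fun s => (w s : ℝ)) (x p, x q) +
              GoodK.pw (fun s => (w s : ℝ)) (tau l (x p, x q))) * ψ x with hF
  have h1 : ∀ i ∈ range N, (b i x : ℝ) / (a i x + b i x) * ψ (mv i x) +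
      (a i x : ℝ) / (a i x + b i x) * ψ x = F (decP i) (decQ i) (decL i) := by
    intro i hi
    have hi' := mem_range.1 hi
    rw [hmv i hi', ha i hi', hb i hi', hF]
    simp only [GoodK.pw, popMove]
    push_cast
    rfl
  rw [sum_congr rfl h1, hdec F, hN]
  have h2 : ∀ p q : Fin k, (if p ≠ q then ∑ z, GoodK.hb (GoodK.pw fun s => (w s : ℝ)) tau
      (x p, x q) z * ψ (upd2 x p q z) else 0) =
      (if p ≠ q then ∑ l, (GoodK.pw (fun s => (w s : ℝ)) (tau l (x p, x q)) /
            (GoodK.pw (fun s => (w s : ℝ)) (x p, x q) +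
              GoodK.pw (fun s => (w s : ℝ)) (tau l (x p, x q))) * ψ (upd2 x p q (tau l (x p, x q)))
          + GoodK.pw (fun s => (w s : ℝ)) (x p, x q) /
            (GoodK.pw (fun s => (w s : ℝ)) (x p, x q) +
              GoodK.pw (fun s => (w s : ℝ)) (tau l (x p, x q))) * ψ x) else 0) /
        (Fintype.card L : ℝ) := by
    intro p q
    by_cases h : p ≠ q
    · rw [if_pos h, if_pos h,
        sum_hb_mul (GoodK.pw fun s => (w s : ℝ)) tau (x p, x q) (fun z => ψ (upd2 x p q z)),
        upd2_self h]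
    · rw [if_neg h, if_neg h, zero_div]
  simp only [h2]
  simp only [← sum_div]
  rw [div_div, mul_comm ((k : ℝ) * (k - 1))]

end

/-! ### the concrete decoding -/

/-- number of indices -/
def idxN (n k : ℕ) : ℕ := k * (k - 1) * (4 * n ^ 4)

theorem idxN_cast {n k : ℕ} (hk : 1 ≤ k) :
    (idxN n k : ℝ) = (k : ℝ) * (k - 1) * (Fintype.card (Fin 4 × Fin n × Fin n × Fin n × Fin n) : ℝ) := by
  unfold idxN
  simp only [Fintype.card_prod, Fintype.card_fin]
  push_cast [Nat.cast_sub hk]
  ring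

theorem sum_fin_ofNat {n : ℕ} [NeZero n] {M : Type*} [AddCommMonoid M] (F : Fin n → M) :
    ∑ x ∈ range n, F (Fin.ofNat n x) = ∑ x : Fin n, F x := by
  rw [Finset.sum_range]
  refine sum_congr rfl fun x _ => ?_
  congr 1
  exact Fin.ext (by simp [Fin.ofNat, Nat.mod_eq_of_lt x.2])

/-- **The mod/div decoding enumerates all ordered pairs of replicas and all labels.** -/
theorem sum_idx (n k : ℕ) [NeZero n] [NeZero k]
    (F : Fin k → Fin k → Fin 4 × Fin n × Fin n × Fin n × Fin n → ℝ) :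
    ∑ i ∈ range (idxN n k), F (Fin.ofNat k (i % k))
        (Fin.ofNat k ((i % k + 1 + i / k % (k - 1)) % k))
        (Fin.ofNat 4 (i / k / (k - 1) % 4), Fin.ofNat n (i / k / (k - 1) / 4 % n),
          Fin.ofNat n (i / k / (k - 1) / 4 / n % n), Fin.ofNat n (i / k / (k - 1) / 4 / n / n % n),
          Fin.ofNat n (i / k / (k - 1) / 4 / n / n / n % n)) =
      ∑ p, ∑ q, if p ≠ q then ∑ l, F p q l else 0 := by
  have e1 : idxN n k = k * ((k - 1) * (4 * (n * (n * (n * n))))) := by
    unfold idxN; ring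
  rw [e1]
  rw [sum_range_mod_div k _ (fun p r => F (Fin.ofNat k p)
        (Fin.ofNat k ((p + 1 + r % (k - 1)) % k))
        (Fin.ofNat 4 (r / (k - 1) % 4), Fin.ofNat n (r / (k - 1) / 4 % n),
          Fin.ofNat n (r / (k - 1) / 4 / n % n), Fin.ofNat n (r / (k - 1) / 4 / n / n % n),
          Fin.ofNat n (r / (k - 1) / 4 / n / n / n % n)))]
  rw [sum_comm]
  rw [← sum_fin_ofNat (n := k) (fun p => ∑ q, if p ≠ q then ∑ l, F p q l else 0)]
  refine sum_congr rfl fun p hp => ?_
  have hp' := mem_range.1 hp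
  rw [sum_range_mod_div (k - 1) _ (fun d r => F (Fin.ofNat k p)
        (Fin.ofNat k ((p + 1 + d) % k))
        (Fin.ofNat 4 (r % 4), Fin.ofNat n (r / 4 % n),
          Fin.ofNat n (r / 4 / n % n), Fin.ofNat n (r / 4 / n / n % n),
          Fin.ofNat n (r / 4 / n / n / n % n)))]
  rw [sum_comm]
  rw [sum_range_others hp' (fun q => ∑ r ∈ range (4 * (n * (n * (n * n)))),
    F (Fin.ofNat k p) (Fin.ofNat k q)
        (Fin.ofNat 4 (r % 4), Fin.ofNat n (r / 4 % n),
          Fin.ofNat n (r / 4 / n % n), Fin.ofNat n (r / 4 / n / n % n),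
          Fin.ofNat n (r / 4 / n / n / n % n)))]
  rw [← sum_fin_ofNat (n := k) (fun q => if Fin.ofNat k p ≠ q then ∑ l, F (Fin.ofNat k p) q l else 0)]
  refine sum_congr rfl fun q hq => ?_
  have hq' := mem_range.1 hq
  have hpq : (Fin.ofNat k p ≠ Fin.ofNat k q) ↔ p ≠ q := by
    rw [not_iff_not, Fin.ext_iff]
    simp [Fin.ofNat, Nat.mod_eq_of_lt hp', Nat.mod_eq_of_lt hq']
  by_cases h : p ≠ q
  · rw [if_pos h, if_pos (hpq.2 h)]
    rw [sum_range_mod_div 4 _ (fun c r => F (Fin.ofNat k p) (Fin.ofNat k q)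
        (Fin.ofNat 4 c, Fin.ofNat n (r % n),
          Fin.ofNat n (r / n % n), Fin.ofNat n (r / n / n % n),
          Fin.ofNat n (r / n / n / n % n)))]
    rw [sum_comm]
    simp only [Fintype.sum_prod_type]
    rw [← sum_fin_ofNat (n := 4)]
    refine sum_congr rfl fun c _ => ?_
    rw [sum_range_mod_div n _ (fun u r => F (Fin.ofNat k p) (Fin.ofNat k q)
        (Fin.ofNat 4 c, Fin.ofNat n u,
          Fin.ofNat n (r % n), Fin.ofNat n (r / n % n),
          Fin.ofNat n (r / n / n % n)))]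
    rw [sum_comm, ← sum_fin_ofNat (n := n)]
    refine sum_congr rfl fun u _ => ?_
    rw [sum_range_mod_div n _ (fun v r => F (Fin.ofNat k p) (Fin.ofNat k q)
        (Fin.ofNat 4 c, Fin.ofNat n u,
          Fin.ofNat n v, Fin.ofNat n (r % n),
          Fin.ofNat n (r / n % n)))]
    rw [sum_comm, ← sum_fin_ofNat (n := n)]
    refine sum_congr rfl fun v _ => ?_
    rw [sum_range_mod_div n _ (fun w r => F (Fin.ofNat k p) (Fin.ofNat k q)
        (Fin.ofNat 4 c, Fin.ofNat n u,
          Fin.ofNat n v, Fin.ofNat n w,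
          Fin.ofNat n (r % n)))]
    rw [sum_comm, ← sum_fin_ofNat (n := n)]
    refine sum_congr rfl fun w _ => ?_
    rw [← sum_fin_ofNat (n := n)]
    refine sum_congr rfl fun y hy => ?_
    rw [Nat.mod_eq_of_lt (mem_range.1 hy)]
  · rw [if_neg h, if_neg (fun h' => h (hpq.1 h'))]

end Crest.Agent.R304.L6
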