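import Crest.Agent.R304.L6Approx
import Crest.Agent.R304.L6Cheb

/-!
# R304 / S0464, block L6 (helper168): the rounds of the control loop, abstractly
-/

set_option autoImplicit false
set_option linter.unusedSectionVars false

namespace Crest.Agent.R304.L6

open Finset Crest.Agent.R309.Tape

/-! ### union bounds under a law -/

section law

variable {X : Type*} [Fintype X]

theorem ind_or_le (p q : Prop) : ind (p ∨ q) ≤ ind p + ind q := by
  by_cases h : p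
  · rw [ind_of h, ind_of (Or.inl h)]; linarith [ind_nonneg q]
  · by_cases h' : q
    · rw [ind_of h', ind_of (Or.inr h')]; linarith [ind_nonneg p]
    · rw [ind_of_not h, ind_of_not h', ind_of_not (by tauto)]; norm_num

theorem ind_exists_le {ι : Type*} (s : Finset ι) (P : ι → Prop) :
    ind (∃ i ∈ s, P i) ≤ ∑ i ∈ s, ind (P i) := by
  by_cases h : ∃ i ∈ s, P i
  · obtain ⟨i, hi, hPi⟩ := h
    rw [ind_of ⟨i, hi, hPi⟩]
    calc (1 : ℝ) = ind (P i) := (ind_of hPi).symm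
      _ ≤ ∑ i ∈ s, ind (P i) :=
        Finset.single_le_sum (f := fun i => ind (P i)) (fun i _ => ind_nonneg _) hi
  · rw [ind_of_not h]
    exact Finset.sum_nonneg fun i _ => ind_nonneg _

theorem sum_ind_mono {p : X → ℝ} (hp : ∀ x, 0 ≤ p x) {P Q : X → Prop} (h : ∀ x, P x → Q x) :
    ∑ x, p x * ind (P x) ≤ ∑ x, p x * ind (Q x) :=
  sum_le_sum fun x _ => mul_le_mul_of_nonneg_left (ind_mono (h x)) (hp x)

theorem sum_ind_or_le {p : X → ℝ} (hp : ∀ x, 0 ≤ p x) (P Q : X → Prop) :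
    ∑ x, p x * ind (P x ∨ Q x) ≤ ∑ x, p x * ind (P x) + ∑ x, p x * ind (Q x) := by
  rw [← sum_add_distrib]
  exact sum_le_sum fun x _ => by
    rw [← mul_add]; exact mul_le_mul_of_nonneg_left (ind_or_le _ _) (hp x)

theorem sum_ind_exists_le {ι : Type*} (s : Finset ι) {p : X → ℝ} (hp : ∀ x, 0 ≤ p x)
    (P : ι → X → Prop) :
    ∑ x, p x * ind (∃ i ∈ s, P i x) ≤ ∑ i ∈ s, ∑ x, p x * ind (P i x) := by
  rw [sum_comm]
  refine sum_le_sum fun x _ => ?_
  rw [← mul_sum]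
  exact mul_le_mul_of_nonneg_left (ind_exists_le s fun i => P i x) (hp x)

end law

section samples

variable {α : Type*} [Fintype α]

/-- additive deviation bound, strict form -/
theorem bad_add {k : ℕ} (hk : 0 < k) {p : α → ℝ} (hp : ∀ x, 0 ≤ p x) (hp1 : ∑ x, p x = 1)
    {g : α → ℝ} (hg0 : ∀ x, 0 ≤ g x) (hg1 : ∀ x, g x ≤ 1) {t : ℝ} (ht : 0 < t) :
    ∑ x : Fin k → α, prodLaw p x * ind (¬ |(∑ i, g (x i)) / k - ∑ a, p a * g a| ≤ t) ≤
      1 / (k * t ^ 2) :=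
  (sum_ind_mono (prodLaw_nonneg hp) fun x h => (not_le.1 h).le).trans (cheb_add hk hp hp1 hg0 hg1 ht)

/-- relative deviation bound, strict form, for `[0, M]`-valued functions of mean at least `μ0` -/
theorem bad_mul {k : ℕ} (hk : 0 < k) {p : α → ℝ} (hp : ∀ x, 0 ≤ p x) (hp1 : ∑ x, p x = 1)
    {g : α → ℝ} {M : ℝ} (hg0 : ∀ x, 0 ≤ g x) (hgM : ∀ x, g x ≤ M) {ζ μ0 : ℝ} (hζ : 0 < ζ)
    (hμ0 : 0 < μ0) (hμ : μ0 ≤ ∑ a, p a * g a) :
    ∑ x : Fin k → α, prodLaw p x *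
      ind (¬ |(∑ i, g (x i)) / k - ∑ a, p a * g a| ≤ ζ * ∑ a, p a * g a) ≤
      M / (k * ζ ^ 2 * μ0) := by
  have hμp : 0 < ∑ a, p a * g a := lt_of_lt_of_le hμ0 hμ
  have hM : 0 ≤ M := by
    by_contra h
    push Not at h
    have : ∑ a, p a * g a ≤ 0 := by
      refine sum_nonpos fun a _ => ?_
      have h1 : g a ≤ 0 := (hgM a).trans h.le
      exact mul_nonpos_of_nonneg_of_nonpos (hp a) h1
    linarith
  have hkR : (0 : ℝ) < k := by exact_mod_cast hk
  refine ((sum_ind_mono (prodLaw_nonneg hp) fun x h => (not_le.1 h).le).trans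
    (cheb_mul hk hp hp1 hg0 hgM hζ hμp)).trans ?_
  refine div_le_div_of_nonneg_left hM (by positivity) ?_
  exact mul_le_mul_of_nonneg_left hμ (by positivity)

/-- **One round**: all additive estimates (`e ∈ E`) and all relative estimates (`c ∈ C`) are
simultaneously accurate, except with small probability. -/
theorem round_bad {k : ℕ} (hk : 0 < k) {p : α → ℝ} (hp : ∀ x, 0 ≤ p x) (hp1 : ∑ x, p x = 1)
    {ι κ : Type*} (E : Finset ι) (C : Finset κ) (g : ι → α → ℝ) (f : κ → α → ℝ)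
    (hg0 : ∀ e ∈ E, ∀ x, 0 ≤ g e x) (hg1 : ∀ e ∈ E, ∀ x, g e x ≤ 1) {t : ℝ} (ht : 0 < t)
    {M ζ μ0 : ℝ} (hf0 : ∀ c ∈ C, ∀ x, 0 ≤ f c x) (hfM : ∀ c ∈ C, ∀ x, f c x ≤ M) (hζ : 0 < ζ)
    (hμ0 : 0 < μ0) (hμ : ∀ c ∈ C, μ0 ≤ ∑ a, p a * f c a) :
    ∑ x : Fin k → α, prodLaw p x *
      ind (¬ ((∀ e ∈ E, |(∑ i, g e (x i)) / k - ∑ a, p a * g e a| ≤ t) ∧
        ∀ c ∈ C, |(∑ i, f c (x i)) / k - ∑ a, p a * f c a| ≤ ζ * ∑ a, p a * f c a)) ≤
      E.card / (k * t ^ 2) + C.card * (M / (k * ζ ^ 2 * μ0)) := by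
  have hP := prodLaw_nonneg (k := k) hp
  calc ∑ x : Fin k → α, prodLaw p x *
        ind (¬ ((∀ e ∈ E, |(∑ i, g e (x i)) / k - ∑ a, p a * g e a| ≤ t) ∧
          ∀ c ∈ C, |(∑ i, f c (x i)) / k - ∑ a, p a * f c a| ≤ ζ * ∑ a, p a * f c a))
      ≤ ∑ x : Fin k → α, prodLaw p x *
        ind ((∃ e ∈ E, ¬ |(∑ i, g e (x i)) / k - ∑ a, p a * g e a| ≤ t) ∨
          ∃ c ∈ C, ¬ |(∑ i, f c (x i)) / k - ∑ a, p a * f c a| ≤ ζ * ∑ a, p a * f c a) := by
        refine sum_ind_mono hP fun x h => ?_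
        by_contra hc
        push Not at hc
        exact h ⟨hc.1, hc.2⟩
    _ ≤ _ := sum_ind_or_le hP _ _
    _ ≤ E.card / (k * t ^ 2) + C.card * (M / (k * ζ ^ 2 * μ0)) := by
        refine add_le_add ?_ ?_
        · refine (sum_ind_exists_le E hP _).trans ?_
          refine (sum_le_sum fun e he => bad_add hk hp hp1 (hg0 e he) (hg1 e he) ht).trans ?_
          rw [sum_const, nsmul_eq_mul, mul_one_div]
        · refine (sum_ind_exists_le C hP _).trans ?_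
          refine (sum_le_sum fun c hc =>
            bad_mul hk hp hp1 (hf0 c hc) (hfM c hc) hζ hμ0 (hμ c hc)).trans ?_
          rw [sum_const, nsmul_eq_mul]

end samples

/-! ### floors on the grid `2 ^ -B` -/

theorem floor_div_err (a b B : ℕ) (hb : 0 < b) :
    ((a * 2 ^ B / b : ℕ) : ℝ) / 2 ^ B ≤ (a : ℝ) / b ∧
      (a : ℝ) / b - 1 / 2 ^ B ≤ ((a * 2 ^ B / b : ℕ) : ℝ) / 2 ^ B := by
  have hbR : (0 : ℝ) < b := by exact_mod_cast hb
  have hP : (0 : ℝ) < 2 ^ B := by positivity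
  constructor
  · rw [div_le_div_iff₀ hP hbR]
    exact_mod_cast Nat.div_mul_le_self (a * 2 ^ B) b
  · have h := Nat.lt_mul_div_succ (a * 2 ^ B) hb
    have h2 : (a : ℝ) * 2 ^ B ≤ b * ((a * 2 ^ B / b : ℕ) + 1) := by exact_mod_cast h.le
    rw [sub_le_iff_le_add, ← add_div, div_le_div_iff₀ hbR hP]
    calc (a : ℝ) * 2 ^ B ≤ b * ((a * 2 ^ B / b : ℕ) + 1) := h2
      _ = (((a * 2 ^ B / b : ℕ) : ℝ) + 1) * b := by ring

/-- the mean of floored ratios is close to the mean of the ratios -/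
theorem floor_mean {k : ℕ} (hk : 0 < k) (B : ℕ) (a b : Fin k → ℕ) (hb : ∀ i, 0 < b i) :
    |(((∑ i, a i * 2 ^ B / b i : ℕ) : ℝ)) / (k * 2 ^ B) - (∑ i, (a i : ℝ) / b i) / k| ≤
      1 / 2 ^ B := by
  have hkR : (0 : ℝ) < k := by exact_mod_cast hk
  have hP : (0 : ℝ) < 2 ^ B := by positivity
  have e : (((∑ i, a i * 2 ^ B / b i : ℕ) : ℝ)) / (k * 2 ^ B) =
      (∑ i, ((a i * 2 ^ B / b i : ℕ) : ℝ) / 2 ^ B) / k := by
    push_cast
    rw [← sum_div, div_div, mul_comm ((2 : ℝ) ^ B)]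
  rw [e, ← sub_div, ← sum_sub_distrib, abs_div, abs_of_pos hkR, div_le_iff₀ hkR]
  refine (abs_sum_le_sum_abs _ _).trans ?_
  calc ∑ i, |((a i * 2 ^ B / b i : ℕ) : ℝ) / 2 ^ B - (a i : ℝ) / b i| ≤ ∑ _i : Fin k, 1 / (2 : ℝ) ^ B := by
        refine sum_le_sum fun i _ => ?_
        have h := floor_div_err (a i) (b i) B (hb i)
        rw [abs_le]
        constructor <;> linarith [h.1, h.2]
    _ = 1 / 2 ^ B * k := by
        rw [sum_const, card_univ, Fintype.card_fin, nsmul_eq_mul, mul_comm]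

/-! ### the loop -/

section loop

variable {S Q : Type*}

/-- probability that one round keeps the invariant -/
theorem pr_round {α : Type*} [Fintype α] {R : List Bool → S} {r : ℕ} {enc : α → S} {p : α → ℝ}
    {d δ : ℝ} (h : Approx R r enc p d) (E : S → Prop)
    (hbad : ∑ x, p x * ind (¬ E (enc x)) ≤ δ) : 1 - (δ + d) ≤ pr r (fun l => E (R l)) := by
  have h1 := h.pr_le (fun s => ¬ E s)
  rw [pr_not] at h1
  linarith

/-- **Rounds and a final block.**  `round` keeps the indexed invariant with probability `1 - δ`,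
the final block is successful with probability `1 - δ`. -/
theorem pr_loop (round : Q → List Bool → Q) (r R : ℕ) (Inv : ℕ → Q → Prop)
    (δ : ℝ) (hδ : 0 ≤ δ) (s0 : Q) (h0 : Inv 0 s0)
    (hstep : ∀ i < R, ∀ s, Inv i s → 1 - δ ≤ pr r (fun l => Inv (i + 1) (round s l)))
    (fin : Q → List Bool → Prop) (hfin : ∀ s, Inv R s → 1 - δ ≤ pr r (fun l => fin s l)) :
    1 - (R + 1) * δ ≤ pr (R * r + r) (fun l =>
      fin (runSteps round r R s0 (l.take (R * r))) (l.drop (R * r))) := by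
  have h1 := runSteps_inv round r Inv δ hδ R hstep R 0 (by omega) s0 h0
  have key : pr (R * r + r) (fun l =>
      fin (runSteps round r R s0 (l.take (R * r))) (l.drop (R * r))) =
      avg (R * r) (fun l => pr r (fun l' => fin (runSteps round r R s0 l) l')) := by
    unfold pr
    rw [avg_take_drop (R * r) r (fun l l' => ind (fin (runSteps round r R s0 l) l'))]
  rw [key]
  have h2 : ∀ l : List Bool, l.length = R * r →
      ind (Inv R (runSteps round r R s0 l)) - δ ≤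
        pr r (fun l' => fin (runSteps round r R s0 l) l') := by
    intro l _
    by_cases h : Inv R (runSteps round r R s0 l)
    · rw [ind_of h]; exact hfin _ h
    · rw [ind_of_not h]
      have := pr_nonneg r (fun l' => fin (runSteps round r R s0 l) l')
      linarith
  have h3 := avg_mono h2
  rw [avg_sub, avg_const] at h3
  have h4 : avg (R * r) (fun l => ind (Inv R (runSteps round r R s0 l))) =
      pr (R * r) (fun l => Inv R (runSteps round r R s0 l)) := rfl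
  rw [h4] at h3
  linarith

end loop

/-! ### products of relative errors -/

theorem one_add_pow_le_of {R E : ℕ} (hE : 1 ≤ E) {ζ : ℝ} (hζ0 : 0 ≤ ζ)
    (hζ : ζ * ((R + 1 : ℕ) : ℝ) ≤ 1 / (2 * E)) : (1 + ζ) ^ (R + 1) ≤ 1 + 1 / (E : ℝ) := by
  have hER : (1 : ℝ) ≤ E := by exact_mod_cast hE
  have h1 : (1 + ζ) ^ (R + 1) ≤ Real.exp (1 / (2 * E)) := by
    calc (1 + ζ) ^ (R + 1) ≤ (Real.exp ζ) ^ (R + 1) :=
          pow_le_pow_left₀ (by linarith) (by linarith [Real.add_one_le_exp ζ]) _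
      _ = Real.exp (ζ * ((R + 1 : ℕ) : ℝ)) := by rw [← Real.exp_nat_mul]; ring_nf
      _ ≤ Real.exp (1 / (2 * E)) := Real.exp_le_exp.2 hζ
  refine h1.trans ?_
  have hx0 : (0 : ℝ) ≤ 1 / (2 * E) := by positivity
  have hx1 : (1 : ℝ) / (2 * E) ≤ 1 / 2 := by
    rw [div_le_div_iff₀ (by positivity) (by norm_num)]; linarith
  have h2 := Real.abs_exp_sub_one_sub_id_le (x := 1 / (2 * E)) (by
    rw [abs_of_nonneg hx0]; linarith)
  have h3 := (abs_le.1 h2).2
  have h4 : (1 / (2 * (E : ℝ))) ^ 2 ≤ 1 / (2 * E) := by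
    rw [sq]
    calc 1 / (2 * (E : ℝ)) * (1 / (2 * E)) ≤ 1 / (2 * E) * 1 :=
          mul_le_mul_of_nonneg_left (by linarith) hx0
      _ = _ := mul_one _
  have h5 : (1 : ℝ) / E = 1 / (2 * E) + 1 / (2 * E) := by field_simp; norm_num
  linarith

theorem one_sub_pow_ge_of {R E : ℕ} (hE : 1 ≤ E) {ζ : ℝ} (hζ1 : ζ ≤ 1)
    (hζ : ζ * ((R + 1 : ℕ) : ℝ) ≤ 1 / (2 * E)) : 1 - 1 / (E : ℝ) ≤ (1 - ζ) ^ (R + 1) := by
  have h1 := one_add_mul_le_pow (a := -ζ) (by linarith) (R + 1)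
  have hER : (1 : ℝ) ≤ E := by exact_mod_cast hE
  have h5 : (1 : ℝ) / E = 1 / (2 * E) + 1 / (2 * E) := by field_simp; norm_num
  have hx0 : (0 : ℝ) ≤ 1 / (2 * E) := by positivity
  have h6 : (1 + -ζ) ^ (R + 1) = (1 - ζ) ^ (R + 1) := by ring
  rw [h6] at h1
  have h7 : 1 + ((R + 1 : ℕ) : ℝ) * -ζ = 1 - ζ * ((R + 1 : ℕ) : ℝ) := by ring
  rw [h7] at h1
  linarith

end Crest.Agent.R304.L6
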