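import Crest.Agent.R309.PTSolve

/-!
# R304 / S0464: the guarded moves on lists, and their polynomial-time proofs

Everything mirrors `Crest/Agent/R304/Moves.lean`: a matching is the list of the partners of
`0, …, n-1`.
-/

set_option autoImplicit false
set_option linter.dupNamespace false

namespace Crest.Agent.R304.LM

open Crest.Agent.Lib.PT Crest.Agent.R309.Tape Crest.Agent.R309.PTX

variable {γ : Type} [PTCode γ]

/-- apply a table -/
def ap (s : List ℕ) (v : ℕ) : ℕ := s.getD v 0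

theorem ptf_ap {s : γ → List ℕ} {v : γ → ℕ} (hs : PTF s) (hv : PTF v) :
    PTF (fun c => ap (s c) (v c)) := by
  unfold ap
  exact ptf_getD' hv hs (PTF.const 0)

theorem sz_ap_le (s : List ℕ) (v : ℕ) : sz (ap s v) ≤ sz s := by
  unfold ap
  rw [List.getD_eq_getElem?_getD]
  rcases h : s[v]? with _ | a
  · simp [sz_nat]
  · simp only [Option.getD_some]
    exact sz_mem_le (List.mem_of_getElem? h)

/-- tabulate a function on `0, …, n-1` -/
def tab (n : ℕ) (f : ℕ → ℕ) : List ℕ := (List.range n).map f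

theorem ptf_tab {n : γ → ℕ} {f : γ → ℕ → ℕ} (hn : PTU n) (hf : PTF₂ f) :
    PTF (fun c => tab (n c) (f c)) := PTF.tabulate hn hf

@[simp] theorem length_tab (n : ℕ) (f : ℕ → ℕ) : (tab n f).length = n := by simp [tab]

theorem ap_tab {n : ℕ} {f : ℕ → ℕ} {v : ℕ} (hv : v < n) : ap (tab n f) v = f v := by
  simp [ap, tab, List.getD_eq_getElem?_getD, hv]

/-- one step of the walk along a component -/
def rho (s t : List ℕ) (x : ℕ) : ℕ := ap t (ap s x)

/-- the walk: current point and list of points met so far -/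
def orb (n : ℕ) (s t : List ℕ) (a : ℕ) : ℕ × List ℕ :=
  (fun p : ℕ × List ℕ => (rho s t p.1, p.1 :: ap s p.1 :: p.2))^[n] (a, [])

theorem orb_zero (s t : List ℕ) (a : ℕ) : orb 0 s t a = (a, []) := rfl

theorem orb_succ (n : ℕ) (s t : List ℕ) (a : ℕ) :
    orb (n + 1) s t a = (rho s t (orb n s t a).1, (orb n s t a).1 :: ap s (orb n s t a).1 ::
      (orb n s t a).2) := by
  unfold orb
  rw [Function.iterate_succ_apply']

theorem orb_fst (n : ℕ) (s t : List ℕ) (a : ℕ) : (orb n s t a).1 = (rho s t)^[n] a := by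
  induction n with
  | zero => rfl
  | succ n ih => rw [orb_succ, Function.iterate_succ_apply', ih]

/-- the list of the vertices of the component of `a` -/
def compL (n : ℕ) (s t : List ℕ) (a : ℕ) : List ℕ := (orb n s t a).2

theorem mem_compL {n : ℕ} {s t : List ℕ} {a v : ℕ} :
    v ∈ compL n s t a ↔ ∃ k < n, v = (rho s t)^[k] a ∨ v = ap s ((rho s t)^[k] a) := by
  unfold compL
  induction n with
  | zero => simp [orb_zero]
  | succ n ih =>
    rw [orb_succ]
    simp only [List.mem_cons, ih, orb_fst]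
    constructor
    · rintro (h | h | ⟨k, hk, h⟩)
      · exact ⟨n, by omega, Or.inl h⟩
      · exact ⟨n, by omega, Or.inr h⟩
      · exact ⟨k, by omega, h⟩
    · rintro ⟨k, hk, h⟩
      rcases Nat.lt_succ_iff_lt_or_eq.1 hk with h' | rfl
      · exact Or.inr (Or.inr ⟨k, h', h⟩)
      · rcases h with h | h
        · exact Or.inl h
        · exact Or.inr (Or.inl h)

theorem sz_orb_le (n : ℕ) (s t : List ℕ) (a : ℕ) :
    sz (orb n s t a).1 ≤ sz a + sz s + sz t ∧
      sz (orb n s t a).2 ≤ n * (4 * (sz a + sz s + sz t) + 2) := by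
  induction n with
  | zero => simp [orb_zero]; omega
  | succ n ih =>
    rw [orb_succ]
    have h1 := sz_ap_le s (orb n s t a).1
    have h2 := sz_ap_le t (ap s (orb n s t a).1)
    refine ⟨?_, ?_⟩
    · simp only [rho]; omega
    · simp only [sz_cons]
      have e : (n + 1) * (4 * (sz a + sz s + sz t) + 2) =
        n * (4 * (sz a + sz s + sz t) + 2) + (4 * (sz a + sz s + sz t) + 2) := by ring
      rw [e]
      omega

theorem ptf_compL {n : γ → ℕ} {s t : γ → List ℕ} {a : γ → ℕ} (hn : PTU n) (hs : PTF s)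
    (ht : PTF t) (ha : PTF a) : PTF (fun c => compL (n c) (s c) (t c) (a c)) := by
  have hstep : PTF₂ (fun (c : γ) (p : ℕ × List ℕ) =>
      (rho (s c) (t c) p.1, p.1 :: ap (s c) p.1 :: p.2)) := by
    have h1 : PTF (fun q : γ × ℕ × List ℕ => ap (s q.1) q.2.1) :=
      ptf_ap (PTF.comp hs PTF.fst) (by fun_prop)
    have h2 : PTF (fun q : γ × ℕ × List ℕ => ap (t q.1) (ap (s q.1) q.2.1)) :=
      ptf_ap (PTF.comp ht PTF.fst) h1
    exact PTF.prodMk h2 (PTF.listCons (by fun_prop) (PTF.listCons h1 (by fun_prop)))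
  have h := PTF.iterate' (n := n)
    (f := fun (c : γ) (p : ℕ × List ℕ) => (rho (s c) (t c) p.1, p.1 :: ap (s c) p.1 :: p.2))
    (a := fun c => (a c, [])) hn hstep (PTF.prodMk ha (PTF.const []))
    (B := fun c => 2 * (sz (a c) + sz (s c) + sz (t c)) + 1 +
      n c * (4 * (sz (a c) + sz (s c) + sz (t c)) + 2)) (by
        have := hn.pb
        have := ha.sz
        have := hs.sz
        have := ht.sz
        fun_prop) (fun c i hi => by
      have h3 := sz_orb_le i (s c) (t c) (a c)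
      simp only [orb] at h3
      rw [sz_prod]
      have h4 : i * (4 * (sz (a c) + sz (s c) + sz (t c)) + 2) ≤
        n c * (4 * (sz (a c) + sz (s c) + sz (t c)) + 2) := Nat.mul_le_mul_right _ hi
      omega)
  exact PTF.comp (g := fun p : ℕ × List ℕ => p.2) (by fun_prop) h

/-- `mix` on lists -/
def mixL (n : ℕ) (C s t : List ℕ) : List ℕ :=
  tab n (fun v => if v ∈ C then ap t v else ap s v)

theorem ptf_mixL {n : γ → ℕ} {C s t : γ → List ℕ} (hn : PTU n) (hC : PTF C) (hs : PTF s)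
    (ht : PTF t) : PTF (fun c => mixL (n c) (C c) (s c) (t c)) := by
  unfold mixL
  refine ptf_tab hn ?_
  refine PTF.ite ?_ ?_ ?_
  · exact PTPred.mem (by fun_prop) (PTF.comp hC PTF.fst)
  · exact ptf_ap (PTF.comp ht PTF.fst) (by fun_prop)
  · exact ptf_ap (PTF.comp hs PTF.fst) (by fun_prop)

/-- `cut` on lists -/
def cutL (n : ℕ) (s : List ℕ) (u v : ℕ) : List ℕ :=
  tab n (fun w => if w = u ∨ w = v then w else ap s w)

theorem ptf_cutL {n : γ → ℕ} {s : γ → List ℕ} {u v : γ → ℕ} (hn : PTU n) (hs : PTF s)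
    (hu : PTF u) (hv : PTF v) : PTF (fun c => cutL (n c) (s c) (u c) (v c)) := by
  unfold cutL
  refine ptf_tab hn ?_
  refine PTF.ite (PTPred.or (PTPred.natEq (by fun_prop) (by fun_prop))
    (PTPred.natEq (by fun_prop) (by fun_prop))) (by fun_prop) ?_
  exact ptf_ap (PTF.comp hs PTF.fst) (by fun_prop)

/-- `join` on lists -/
def joinL (n : ℕ) (s : List ℕ) (u v : ℕ) : List ℕ :=
  tab n (fun w => if w = u then v else if w = v then u else ap s w)

theorem ptf_joinL {n : γ → ℕ} {s : γ → List ℕ} {u v : γ → ℕ} (hn : PTU n) (hs : PTF s)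
    (hu : PTF u) (hv : PTF v) : PTF (fun c => joinL (n c) (s c) (u c) (v c)) := by
  unfold joinL
  refine ptf_tab hn ?_
  refine PTF.ite (PTPred.natEq (by fun_prop) (by fun_prop)) (by fun_prop)
    (PTF.ite (PTPred.natEq (by fun_prop) (by fun_prop)) (by fun_prop) ?_)
  exact ptf_ap (PTF.comp hs PTF.fst) (by fun_prop)

/-- perfect matching test -/
def pmL (n : ℕ) (s : List ℕ) : Bool :=
  (List.range n).all (fun v => decide (ap s v < n) && decide (ap s (ap s v) = v) &&
    decide (ap s v ≠ v))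

theorem ptf_pmL {n : γ → ℕ} {s : γ → List ℕ} (hn : PTU n) (hs : PTF s) :
    PTF (fun c => pmL (n c) (s c)) := by
  unfold pmL
  have h1 : PTF (fun q : γ × ℕ => ap (s q.1) q.2) := ptf_ap (PTF.comp hs PTF.fst) (by fun_prop)
  have h2 : PTF (fun q : γ × ℕ => ap (s q.1) (ap (s q.1) q.2)) :=
    ptf_ap (PTF.comp hs PTF.fst) h1
  have h3 : PTF (fun q : γ × ℕ => n q.1) := PTU.toPTF (PTU.comp hn PTF.fst)
  refine PTF.all (PTF.range hn) ?_
  refine PTF.and (PTF.and ?_ ?_) ?_
  · exact PTPred.toPTF (PTPred.natLt h1 h3)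
  · exact PTPred.toPTF (PTPred.natEq h2 (by fun_prop))
  · exact PTPred.toPTF (PTPred.not (PTPred.natEq h1 (by fun_prop)))

/-! ### candidates -/

/-- exchange of the component of `u` -/
def exL (n u : ℕ) (p : List ℕ × List ℕ) : List ℕ × List ℕ :=
  (mixL n (compL n p.1 p.2 u) p.1 p.2, mixL n (compL n p.1 p.2 u) p.2 p.1)

/-- switch -/
def swL (n u v x y : ℕ) (s : List ℕ) : List ℕ :=
  if ap s u = v ∧ ap s x = y then joinL n (joinL n s u x) v y
  else if ap s u = x ∧ ap s v = y then joinL n (joinL n s u v) x y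
  else s

/-- double switch, one direction: cut `uv` in `s`, `xy` in `t`; swap; join `xv`, `uy` -/
def twoHalf (n u v x y : ℕ) (s t : List ℕ) : List ℕ × List ℕ :=
  (joinL n (mixL n (compL n (cutL n s u v) (cutL n t x y) u) (cutL n s u v) (cutL n t x y)) x v,
    joinL n (mixL n (compL n (cutL n s u v) (cutL n t x y) u) (cutL n t x y) (cutL n s u v)) u y)

/-- double switch -/
def twoL (n u v x y : ℕ) (p : List ℕ × List ℕ) : List ℕ × List ℕ :=
  if ap p.1 u = v ∧ ap p.2 x = y then twoHalf n u v x y p.1 p.2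
  else if ap p.1 x = v ∧ ap p.2 u = y then twoHalf n x v u y p.1 p.2
  else p

/-- labels: kind and four vertices -/
abbrev LabL := ℕ × ℕ × ℕ × ℕ × ℕ

/-- the candidate of a label -/
def candL (n : ℕ) (l : LabL) (p : List ℕ × List ℕ) : List ℕ × List ℕ :=
  if l.1 = 0 then exL n l.2.1 p
  else if l.1 = 1 then (swL n l.2.1 l.2.2.1 l.2.2.2.1 l.2.2.2.2 p.1, p.2)
  else if l.1 = 2 then (p.1, swL n l.2.1 l.2.2.1 l.2.2.2.1 l.2.2.2.2 p.2)
  else twoL n l.2.1 l.2.2.1 l.2.2.2.1 l.2.2.2.2 p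

theorem ptf_exL {n u : γ → ℕ} {p : γ → List ℕ × List ℕ} (hn : PTU n) (hu : PTF u) (hp : PTF p) :
    PTF (fun c => exL (n c) (u c) (p c)) := by
  unfold exL
  have hC : PTF (fun c => compL (n c) (p c).1 (p c).2 (u c)) :=
    ptf_compL hn (by fun_prop) (by fun_prop) hu
  exact PTF.prodMk (ptf_mixL hn hC (by fun_prop) (by fun_prop))
    (ptf_mixL hn hC (by fun_prop) (by fun_prop))

theorem ptf_swL {n u v x y : γ → ℕ} {s : γ → List ℕ} (hn : PTU n) (hu : PTF u) (hv : PTF v)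
    (hx : PTF x) (hy : PTF y) (hs : PTF s) :
    PTF (fun c => swL (n c) (u c) (v c) (x c) (y c) (s c)) := by
  unfold swL
  refine PTF.ite (PTPred.and ?_ ?_) ?_ (PTF.ite (PTPred.and ?_ ?_) ?_ hs)
  · exact PTPred.natEq (ptf_ap hs hu) hv
  · exact PTPred.natEq (ptf_ap hs hx) hy
  · exact ptf_joinL hn (ptf_joinL hn hs hu hx) hv hy
  · exact PTPred.natEq (ptf_ap hs hu) hx
  · exact PTPred.natEq (ptf_ap hs hv) hy
  · exact ptf_joinL hn (ptf_joinL hn hs hu hv) hx hy

theorem ptf_twoHalf {n u v x y : γ → ℕ} {s t : γ → List ℕ} (hn : PTU n) (hu : PTF u) (hv : PTF v)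
    (hx : PTF x) (hy : PTF y) (hs : PTF s) (ht : PTF t) :
    PTF (fun c => twoHalf (n c) (u c) (v c) (x c) (y c) (s c) (t c)) := by
  unfold twoHalf
  have h1 := ptf_cutL hn hs hu hv
  have h2 := ptf_cutL hn ht hx hy
  have h3 := ptf_compL hn h1 h2 hu
  exact PTF.prodMk (ptf_joinL hn (ptf_mixL hn h3 h1 h2) hx hv)
    (ptf_joinL hn (ptf_mixL hn h3 h2 h1) hu hy)

theorem ptf_twoL {n u v x y : γ → ℕ} {p : γ → List ℕ × List ℕ} (hn : PTU n) (hu : PTF u)
    (hv : PTF v) (hx : PTF x) (hy : PTF y) (hp : PTF p) :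
    PTF (fun c => twoL (n c) (u c) (v c) (x c) (y c) (p c)) := by
  unfold twoL
  have h1 : PTF (fun c => (p c).1) := by fun_prop
  have h2 : PTF (fun c => (p c).2) := by fun_prop
  refine PTF.ite (PTPred.and ?_ ?_) ?_ (PTF.ite (PTPred.and ?_ ?_) ?_ hp)
  · exact PTPred.natEq (ptf_ap h1 hu) hv
  · exact PTPred.natEq (ptf_ap h2 hx) hy
  · exact ptf_twoHalf hn hu hv hx hy h1 h2
  · exact PTPred.natEq (ptf_ap h1 hx) hv
  · exact PTPred.natEq (ptf_ap h2 hu) hy
  · exact ptf_twoHalf hn hx hv hu hy h1 h2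

theorem ptf_candL {n : γ → ℕ} {l : γ → LabL} {p : γ → List ℕ × List ℕ} (hn : PTU n)
    (hl : PTF l) (hp : PTF p) : PTF (fun c => candL (n c) (l c) (p c)) := by
  unfold candL
  have hk : PTF (fun c => (l c).1) := by fun_prop
  have hu : PTF (fun c => (l c).2.1) := by fun_prop
  have hv : PTF (fun c => (l c).2.2.1) := by fun_prop
  have hx : PTF (fun c => (l c).2.2.2.1) := by fun_prop
  have hy : PTF (fun c => (l c).2.2.2.2) := by fun_prop
  have h1 : PTF (fun c => (p c).1) := by fun_prop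
  have h2 : PTF (fun c => (p c).2) := by fun_prop
  refine PTF.ite (PTPred.natEq hk (by fun_prop)) (ptf_exL hn hu hp)
    (PTF.ite (PTPred.natEq hk (by fun_prop)) (PTF.prodMk (ptf_swL hn hu hv hx hy h1) h2)
      (PTF.ite (PTPred.natEq hk (by fun_prop)) (PTF.prodMk h1 (ptf_swL hn hu hv hx hy h2))
        (ptf_twoL hn hu hv hx hy hp)))

/-- the guard -/
def okL (n : ℕ) (l : LabL) (p : List ℕ × List ℕ) : Bool :=
  pmL n (candL n l p).1 && pmL n (candL n l p).2 && decide (candL n l (candL n l p) = p)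

theorem ptf_okL {n : γ → ℕ} {l : γ → LabL} {p : γ → List ℕ × List ℕ} (hn : PTU n)
    (hl : PTF l) (hp : PTF p) : PTF (fun c => okL (n c) (l c) (p c)) := by
  unfold okL
  have h := ptf_candL hn hl hp
  refine PTF.and (PTF.and ?_ ?_) (PTPred.toPTF (PTPred.eq ?_ hp))
  · exact ptf_pmL hn (by fun_prop)
  · exact ptf_pmL hn (by fun_prop)
  · exact ptf_candL hn hl h

/-- weight of a matching (natural-number tables) -/
def wtL (n : ℕ) (lam : ℕ → ℕ → ℕ) (s : List ℕ) : ℕ :=
  ∏ v ∈ Finset.range n, if v < ap s v then lam v (ap s v) else 1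

theorem ptf_wtL {n : γ → ℕ} {lam : γ → ℕ → ℕ → ℕ} {s : γ → List ℕ} (hn : PTU n)
    (hlam : PTF (fun q : γ × ℕ × ℕ => lam q.1 q.2.1 q.2.2)) (hs : PTF s) :
    PTF (fun c => wtL (n c) (lam c) (s c)) := by
  unfold wtL
  have h1 : PTF (fun q : γ × ℕ => ap (s q.1) q.2) := ptf_ap (PTF.comp hs PTF.fst) (by fun_prop)
  refine PTF.natProdRange hn ?_
  refine PTF.ite (PTPred.natLt (by fun_prop) h1) ?_ (PTF.const 1)
  exact PTF.comp (g := fun q : γ × ℕ × ℕ => lam q.1 q.2.1 q.2.2)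
    (f := fun q : γ × ℕ => (q.1, q.2, ap (s q.1) q.2)) hlam
    (PTF.prodMk (by fun_prop) (PTF.prodMk (by fun_prop) h1))

/-- the guarded move on lists -/
def tauL (n : ℕ) (l : LabL) (p : List ℕ × List ℕ) : List ℕ × List ℕ :=
  if okL n l p = true then candL n l p else p

theorem ptf_tauL {n : γ → ℕ} {l : γ → LabL} {p : γ → List ℕ × List ℕ} (hn : PTU n)
    (hl : PTF l) (hp : PTF p) : PTF (fun c => tauL (n c) (l c) (p c)) := by
  unfold tauL
  exact PTF.ite (PTF.toPTPred (ptf_okL hn hl hp)) (ptf_candL hn hl hp) hp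

/-! ### decoding of a move index -/

/-- first replica -/
def pIdx (k i : ℕ) : ℕ := i % k

/-- second replica -/
def qIdx (k i : ℕ) : ℕ := (i % k + 1 + (i / k) % (k - 1)) % k

/-- label -/
def lIdx (n k i : ℕ) : LabL :=
  ((i / k / (k - 1)) % 4, (i / k / (k - 1) / 4) % n, (i / k / (k - 1) / 4 / n) % n,
    (i / k / (k - 1) / 4 / n / n) % n, (i / k / (k - 1) / 4 / n / n / n) % n)

/-- number of indices -/
def nIdx (n k : ℕ) : ℕ := k * (k - 1) * (4 * n ^ 4)

/-- the new pair produced by move `i` -/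
def newL (n k i : ℕ) (pop : List (List ℕ)) : List ℕ × List ℕ :=
  tauL n (lIdx n k i) (pop.getD (pIdx k i) [], pop.getD (qIdx k i) [])

/-- move `i` on a population -/
def mvL (n k : ℕ) (i : ℕ) (pop : List (List ℕ)) : List (List ℕ) :=
  (pop.set (pIdx k i) (newL n k i pop).1).set (qIdx k i) (newL n k i pop).2

/-- old weight of the pair touched by move `i` -/
def aL (n k : ℕ) (lam : ℕ → ℕ → ℕ) (i : ℕ) (pop : List (List ℕ)) : ℕ :=
  wtL n lam (pop.getD (pIdx k i) []) * wtL n lam (pop.getD (qIdx k i) [])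

/-- new weight of the pair touched by move `i` -/
def bL (n k : ℕ) (lam : ℕ → ℕ → ℕ) (i : ℕ) (pop : List (List ℕ)) : ℕ :=
  wtL n lam (newL n k i pop).1 * wtL n lam (newL n k i pop).2

theorem ptf_pIdx {k i : γ → ℕ} (hk : PTF k) (hi : PTF i) : PTF (fun c => pIdx (k c) (i c)) :=
  PTF.natMod hi hk

theorem ptf_qIdx {k i : γ → ℕ} (hk : PTF k) (hi : PTF i) : PTF (fun c => qIdx (k c) (i c)) := by
  unfold qIdx
  exact PTF.natMod (PTF.natAdd (PTF.natAdd (PTF.natMod hi hk) (PTF.const 1))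
    (PTF.natMod (PTF.natDiv hi hk) (PTF.natSub hk (PTF.const 1)))) hk

theorem ptf_lIdx {n k i : γ → ℕ} (hn : PTF n) (hk : PTF k) (hi : PTF i) :
    PTF (fun c => lIdx (n c) (k c) (i c)) := by
  unfold lIdx
  have h1 : PTF (fun c => i c / k c / (k c - 1)) :=
    PTF.natDiv (PTF.natDiv hi hk) (PTF.natSub hk (PTF.const 1))
  have h2 := PTF.natDiv h1 (PTF.const 4)
  have h3 := PTF.natDiv h2 hn
  have h4 := PTF.natDiv h3 hn
  have h5 := PTF.natDiv h4 hn
  exact PTF.prodMk (PTF.natMod h1 (PTF.const 4)) (PTF.prodMk (PTF.natMod h2 hn)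
    (PTF.prodMk (PTF.natMod h3 hn) (PTF.prodMk (PTF.natMod h4 hn) (PTF.natMod h5 hn))))

theorem ptf_newL {n k i : γ → ℕ} {pop : γ → List (List ℕ)} (hn : PTU n) (hk : PTF k)
    (hi : PTF i) (hpop : PTF pop) : PTF (fun c => newL (n c) (k c) (i c) (pop c)) := by
  unfold newL
  exact ptf_tauL hn (ptf_lIdx (PTU.toPTF hn) hk hi)
    (PTF.prodMk (ptf_getD' (ptf_pIdx hk hi) hpop (PTF.const []))
      (ptf_getD' (ptf_qIdx hk hi) hpop (PTF.const [])))

theorem ptf_mvL {n k i : γ → ℕ} {pop : γ → List (List ℕ)} (hn : PTU n) (hk : PTF k)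
    (hi : PTF i) (hpop : PTF pop) : PTF (fun c => mvL (n c) (k c) (i c) (pop c)) := by
  unfold mvL
  have h := ptf_newL hn hk hi hpop
  exact ptf_set' (ptf_set' hpop (ptf_pIdx hk hi) (by fun_prop)) (ptf_qIdx hk hi) (by fun_prop)

theorem ptf_aL {n k i : γ → ℕ} {lam : γ → ℕ → ℕ → ℕ} {pop : γ → List (List ℕ)} (hn : PTU n)
    (hk : PTF k) (hlam : PTF (fun q : γ × ℕ × ℕ => lam q.1 q.2.1 q.2.2)) (hi : PTF i)
    (hpop : PTF pop) : PTF (fun c => aL (n c) (k c) (lam c) (i c) (pop c)) := by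
  unfold aL
  exact PTF.natMul
    (ptf_wtL hn hlam (ptf_getD' (ptf_pIdx hk hi) hpop (PTF.const [])))
    (ptf_wtL hn hlam (ptf_getD' (ptf_qIdx hk hi) hpop (PTF.const [])))

theorem ptf_bL {n k i : γ → ℕ} {lam : γ → ℕ → ℕ → ℕ} {pop : γ → List (List ℕ)} (hn : PTU n)
    (hk : PTF k) (hlam : PTF (fun q : γ × ℕ × ℕ => lam q.1 q.2.1 q.2.2)) (hi : PTF i)
    (hpop : PTF pop) : PTF (fun c => bL (n c) (k c) (lam c) (i c) (pop c)) := by
  unfold bL
  have h := ptf_newL hn hk hi hpop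
  exact PTF.natMul (ptf_wtL hn hlam (by fun_prop)) (ptf_wtL hn hlam (by fun_prop))

end Crest.Agent.R304.LM
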