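import Crest.Agent.R304.Loop180
import Crest.Agent.R304.Top119
import Crest.Agent.R304.L6Pop
import Crest.Agent.R304.Ctl787F
import Crest.Agent.R304.ThmL542

/-!
# R304 / S0464: the choice of the parameters (helper180)

`prm : Inp → Prm` and `prmOK : 4 ≤ n → Even n → 1 ≤ E → PrmOK (prm (⟨n⟩, bits, ⟨E⟩)) E`:
all inequalities between the parameters which the analysis needs; `prmPT : PrmPT prm`.
-/

set_option autoImplicit false
set_option linter.dupNamespace false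

namespace Crest.Agent.R304.Prm180

open Crest.Agent.Lib.PT Crest.Agent.R309.Tape Crest.Agent.R309.PTX Crest.Agent.R304.LM
open Crest.Agent.R304.Samp Crest.Agent.R304.Loop Crest.Agent.R304.Ctl Crest.Agent.R304.L6
open Crest.Agent.R304.Top119

/-! ### the parameters -/

def qP (n : ℕ) : ℕ := 8 * (n * n)
def dP (n : ℕ) : ℕ := n * n + 6 * n + n * (n * n)
def gdP (n : ℕ) : ℕ := 6 * (qP n * qP n) * dP n
def mP (n : ℕ) : ℕ := 4 * gdP n
def SP (n : ℕ) : ℕ := mP n * (n * n + 4)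
def RP (n : ℕ) : ℕ := SP n + 4 * gdP n * (mP n + 1) * dP n + 1
/-- statistical part of `κ` -/
def stP (n E : ℕ) : ℕ :=
  8 * (RP n + 1) * (4 * (n * n) * (gdP n * gdP n) +
    (2 * (n * n) + 1) * (16 * (E * E) * ((RP n + 1) * (RP n + 1))))
/-- `k = κ²` -/
def kapP (n E : ℕ) : ℕ :=
  80 * gN542 n + stP n E + 64 * (RP n + 1) * (4 * n * RP n) * 160 * (gN542 n * gN542 n) + 1
def kP (n E : ℕ) : ℕ := kapP n E * kapP n E
def HP (n E : ℕ) : ℕ := 64 * (RP n + 1) * (16 * (n * n)) * (RP n + 1) * kP n E + 1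
def XP (n E : ℕ) : ℕ := 64 * (RP n + 1) * (4 * n * RP n) * kapP n E + 1
def tauP (n E : ℕ) : ℕ := 4 * kP n E * gN542 n * XP n E
def BP (n E : ℕ) : ℕ :=
  64 * (RP n + 1) * (2 * kP n E * (n * n) +
    RP n * HP n E * tauP n E * (2 * nIdx n (kP n E) + 2))

/-- the parameters of the algorithm -/
def prm (I : Inp) : Prm where
  n := I.1.val
  bits := I.2.1
  q := qP I.1.val
  gd := gdP I.1.val
  m := mP I.1.val
  S := SP I.1.val
  L := RP I.1.val
  k := kP I.1.val I.2.2.val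
  H := HP I.1.val I.2.2.val
  τ := tauP I.1.val I.2.2.val
  B0 := BP I.1.val I.2.2.val
  B := BP I.1.val I.2.2.val
  R := RP I.1.val

/-! ### polynomial time -/

section PT

variable {γ : Type} [PTCode γ] {n E : γ → ℕ}

theorem ptu_qP (hn : PTU n) : PTU (fun c => qP (n c)) :=
  PTU.mul (PTU.const 8) (PTU.mul hn hn)

theorem ptu_dP (hn : PTU n) : PTU (fun c => dP (n c)) :=
  PTU.add (PTU.add (PTU.mul hn hn) (PTU.mul (PTU.const 6) hn)) (PTU.mul hn (PTU.mul hn hn))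

theorem ptu_gdP (hn : PTU n) : PTU (fun c => gdP (n c)) :=
  PTU.mul (PTU.mul (PTU.const 6) (PTU.mul (ptu_qP hn) (ptu_qP hn))) (ptu_dP hn)

theorem ptu_mP (hn : PTU n) : PTU (fun c => mP (n c)) := PTU.mul (PTU.const 4) (ptu_gdP hn)

theorem ptu_SP (hn : PTU n) : PTU (fun c => SP (n c)) :=
  PTU.mul (ptu_mP hn) (PTU.add (PTU.mul hn hn) (PTU.const 4))

theorem ptu_RP (hn : PTU n) : PTU (fun c => RP (n c)) :=
  PTU.add (PTU.add (ptu_SP hn) (PTU.mul (PTU.mul (PTU.mul (PTU.const 4) (ptu_gdP hn))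
    (PTU.add (ptu_mP hn) (PTU.const 1))) (ptu_dP hn))) (PTU.const 1)

theorem ptu_R1 (hn : PTU n) : PTU (fun c => RP (n c) + 1) := PTU.add (ptu_RP hn) (PTU.const 1)

theorem ptu_stP (hn : PTU n) (hE : PTU E) : PTU (fun c => stP (n c) (E c)) :=
  PTU.mul (PTU.mul (PTU.const 8) (ptu_R1 hn))
    (PTU.add (PTU.mul (PTU.mul (PTU.const 4) (PTU.mul hn hn))
      (PTU.mul (ptu_gdP hn) (ptu_gdP hn)))
      (PTU.mul (PTU.add (PTU.mul (PTU.const 2) (PTU.mul hn hn)) (PTU.const 1))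
        (PTU.mul (PTU.mul (PTU.const 16) (PTU.mul hE hE)) (PTU.mul (ptu_R1 hn) (ptu_R1 hn)))))

theorem ptu_kapP (hn : PTU n) (hE : PTU E) : PTU (fun c => kapP (n c) (E c)) :=
  PTU.add (PTU.add (PTU.add (PTU.mul (PTU.const 80) (ptu_gN542 hn)) (ptu_stP hn hE))
    (PTU.mul (PTU.mul (PTU.mul (PTU.mul (PTU.const 64) (ptu_R1 hn))
      (PTU.mul (PTU.mul (PTU.const 4) hn) (ptu_RP hn))) (PTU.const 160))
      (PTU.mul (ptu_gN542 hn) (ptu_gN542 hn)))) (PTU.const 1)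

theorem ptu_kP (hn : PTU n) (hE : PTU E) : PTU (fun c => kP (n c) (E c)) :=
  PTU.mul (ptu_kapP hn hE) (ptu_kapP hn hE)

theorem ptu_HP (hn : PTU n) (hE : PTU E) : PTU (fun c => HP (n c) (E c)) :=
  PTU.add (PTU.mul (PTU.mul (PTU.mul (PTU.mul (PTU.const 64) (ptu_R1 hn))
    (PTU.mul (PTU.const 16) (PTU.mul hn hn))) (ptu_R1 hn)) (ptu_kP hn hE)) (PTU.const 1)

theorem ptu_XP (hn : PTU n) (hE : PTU E) : PTU (fun c => XP (n c) (E c)) :=
  PTU.add (PTU.mul (PTU.mul (PTU.mul (PTU.const 64) (ptu_R1 hn))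
    (PTU.mul (PTU.mul (PTU.const 4) hn) (ptu_RP hn))) (ptu_kapP hn hE)) (PTU.const 1)

theorem ptu_tauP (hn : PTU n) (hE : PTU E) : PTU (fun c => tauP (n c) (E c)) :=
  PTU.mul (PTU.mul (PTU.mul (PTU.const 4) (ptu_kP hn hE)) (ptu_gN542 hn)) (ptu_XP hn hE)

theorem ptu_nIdx (hn : PTU n) {k : γ → ℕ} (hk : PTU k) : PTU (fun c => nIdx (n c) (k c)) := by
  have h : PTU (fun c => k c * (k c - 1) * (4 * (n c * n c * (n c * n c)))) :=
    PTU.mul (PTU.mul hk (PTU.sub hk (PTU.const 1)))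
      (PTU.mul (PTU.const 4) (PTU.mul (PTU.mul hn hn) (PTU.mul hn hn)))
  have e : (fun c => nIdx (n c) (k c)) =
      fun c => k c * (k c - 1) * (4 * (n c * n c * (n c * n c))) := by
    funext c
    unfold nIdx
    ring
  rw [e]
  exact h

theorem ptu_BP (hn : PTU n) (hE : PTU E) : PTU (fun c => BP (n c) (E c)) :=
  PTU.mul (PTU.mul (PTU.const 64) (ptu_R1 hn))
    (PTU.add (PTU.mul (PTU.mul (PTU.const 2) (ptu_kP hn hE)) (PTU.mul hn hn))
      (PTU.mul (PTU.mul (PTU.mul (ptu_RP hn) (ptu_HP hn hE)) (ptu_tauP hn hE))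
        (PTU.add (PTU.mul (PTU.const 2) (ptu_nIdx hn (ptu_kP hn hE))) (PTU.const 2))))

end PT

/-- **the parameters are computable in polynomial time** -/
theorem prmPT : PrmPT prm := by
  have hn : PTU (fun I : Inp => I.1.val) := PTU.val (by fun_prop)
  have hE : PTU (fun I : Inp => I.2.2.val) := PTU.val (by fun_prop)
  exact ⟨hn, by unfold prm; fun_prop, ptu_qP hn, ptu_gdP hn, ptu_mP hn, ptu_SP hn, ptu_RP hn,
    ptu_kP hn hE, ptu_HP hn hE, ptu_tauP hn hE, ptu_BP hn hE, ptu_BP hn hE, ptu_RP hn⟩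

/-! ### the inequalities -/

/-- everything the analysis needs -/
structure PrmOK (P : Prm) (E : ℕ) : Prop where
  q_eq : P.q = 8 * P.n ^ 2
  par : Par (Mov.Om (Fin P.n)) (P.n / 2) (P.n - 1) P.q P.m (P.n ^ 2) P.gd
  S_eq : P.S = Smax P.m (P.n ^ 2)
  R_ge : Rounds (P.n / 2) P.m (P.n ^ 2) P.gd ≤ P.R
  L_ge : P.R ≤ P.L
  m_pos : 0 < P.m
  q_gt : P.n - 1 < P.q
  H_pos : 0 < P.H
  k_two : 2 ≤ P.k
  gap : 6400 ≤ (1 / (gN542 P.n : ℝ)) ^ 2 * P.k
  eps : (P.k : ℝ) * (4 * P.n / (P.m * P.H)) ^ 2 ≤ 1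
  err : ∀ t ≤ P.R, popErr P.n P.k P.B0 P.B P.τ P.H t (1 / (gN542 P.n : ℝ))
    (4 * P.n / (P.m * P.H)) ≤ 1 / (8 * (P.R + 1))
  stat : ∀ ζ : ℝ, ζ = 1 / (2 * E * (P.R + 1)) →
    ((P.n : ℝ) ^ 2) / (P.k * (1 / (2 * P.gd)) ^ 2) +
      (2 * (P.n : ℝ) ^ 2 + 1) * (2 / (P.k * ζ ^ 2 * (1 / 2))) ≤ 1 / (8 * (P.R + 1))
  stat1 : ∀ ζ : ℝ, ζ = 1 / (2 * E * (P.R + 1)) →
    1 / (P.k * ζ ^ 2 * (1 / 2)) ≤ 1 / (8 * (P.R + 1))
  len : ∀ h : List Mv, h.length ≤ P.R → sampLen P.n P.k P.B0 P.B (movesOf P h) ≤ blk P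

theorem sampLen_le (P : Prm) (h : List Mv) (hh : h.length ≤ P.R) :
    sampLen P.n P.k P.B0 P.B (movesOf P h) ≤ blk P := by
  unfold sampLen blk sampLen movesOf
  gcongr

/-- `(1 - x)^τ ≤ 1 / X` if `x τ = X` -/
theorem one_sub_pow_le {x X : ℝ} {τ : ℕ} (hx1 : x ≤ 1) (hX : 0 < X)
    (h : x * τ = X) : (1 - x) ^ τ ≤ 1 / X := by
  have h1 : 1 - x ≤ Real.exp (-x) := by
    have := Real.add_one_le_exp (-x)
    linarith
  have h2 : (1 - x) ^ τ ≤ Real.exp (-X) := by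
    calc (1 - x) ^ τ ≤ (Real.exp (-x)) ^ τ := pow_le_pow_left₀ (by linarith) h1 τ
      _ = Real.exp (-X) := by
          rw [← Real.exp_nat_mul, ← h]
          congr 1
          ring
  refine h2.trans ?_
  rw [Real.exp_neg, ← one_div]
  refine one_div_le_one_div_of_le hX ?_
  have := Real.add_one_le_exp X
  linarith

section ineq

variable {n E : ℕ}

theorem RP_pos (n : ℕ) : 1 ≤ RP n := by unfold RP; omega

theorem mP_pos (hn : 4 ≤ n) : 0 < mP n := by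
  unfold mP gdP qP dP
  positivity

theorem kapP_ge1 (n E : ℕ) : 1 ≤ kapP n E := by unfold kapP; omega

theorem par_ok (hn : 4 ≤ n) :
    Par (Mov.Om (Fin n)) (n / 2) (n - 1) (qP n) (mP n) (n ^ 2) (gdP n) := by
  have h2 : n / 2 ≤ n := Nat.div_le_self _ _
  have hq1 : 1 ≤ qP n := by unfold qP; nlinarith
  have hd : n ^ 2 + 6 * (n / 2) + (n / 2) * n ^ 2 ≤ dP n := by
    unfold dP
    have e1 : n ^ 2 = n * n := sq n
    rw [e1]
    have := Nat.mul_le_mul_right (n * n) h2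
    omega
  have hgd : 6 * qP n ^ 2 * (n ^ 2 + 6 * (n / 2) + (n / 2) * n ^ 2) ≤ gdP n := by
    unfold gdP
    rw [sq (qP n)]
    exact Nat.mul_le_mul_left _ hd
  refine par_prs (by omega) ?_ hgd ?_ ?_
  · unfold qP
    rw [sq]
  · -- 2 q (n/2) ≤ m
    unfold mP gdP
    have h3 : n ≤ dP n := by
      unfold dP
      nlinarith
    calc 2 * qP n * (n / 2) ≤ 2 * qP n * n := Nat.mul_le_mul_left _ h2
      _ ≤ 2 * qP n * dP n := Nat.mul_le_mul_left _ h3
      _ ≤ (4 * 6 * (qP n * qP n)) * dP n := by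
          refine Nat.mul_le_mul_right _ ?_
          nlinarith
      _ = _ := by ring
  · unfold mP
    calc 4 * gdP n = 1 * (4 * gdP n) := (one_mul _).symm
      _ ≤ qP n * (4 * gdP n) := Nat.mul_le_mul_right _ hq1

theorem rounds_ok : Rounds (n / 2) (mP n) (n ^ 2) (gdP n) ≤ RP n := by
  have h2 : n / 2 ≤ n := Nat.div_le_self _ _
  have hd : n ^ 2 + 6 * (n / 2) + (n / 2) * n ^ 2 ≤ dP n := by
    unfold dP
    have e1 : n ^ 2 = n * n := sq n
    rw [e1]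
    have := Nat.mul_le_mul_right (n * n) h2
    omega
  have hS : Smax (mP n) (n ^ 2) = SP n := by
    unfold Smax SP
    rw [sq]
  unfold Rounds RP
  rw [hS]
  have := Nat.mul_le_mul_left (4 * gdP n * (mP n + 1)) hd
  omega

variable (n E) in
theorem kP_ge_stP : stP n E ≤ kP n E := by
  have h1 := kapP_ge1 n E
  have h2 : stP n E ≤ kapP n E := by unfold kapP; omega
  unfold kP
  nlinarith

theorem two_le_kP : 2 ≤ kP n E := by
  have h1 : 2 ≤ kapP n E := by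
    have := gN542_pos n
    unfold kapP
    omega
  unfold kP
  nlinarith

theorem gap_ok : 6400 ≤ (1 / (gN542 n : ℝ)) ^ 2 * (kP n E : ℝ) := by
  have hg : (0:ℝ) < gN542 n := by exact_mod_cast gN542_pos n
  have h1 : 80 * gN542 n ≤ kapP n E := by unfold kapP; omega
  have h2 : (80:ℝ) * gN542 n ≤ kapP n E := by exact_mod_cast h1
  unfold kP
  rw [one_div, inv_pow, Nat.cast_mul, inv_mul_eq_div, le_div_iff₀ (by positivity)]
  calc (6400:ℝ) * (gN542 n : ℝ) ^ 2 = (80 * gN542 n) * (80 * gN542 n) := by ring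
    _ ≤ _ := by gcongr

/-- the statistical errors -/
theorem stat_aux (hn : 4 ≤ n) (hE : 1 ≤ E) {ζ : ℝ} (hζ : ζ = 1 / (2 * E * ((RP n : ℝ) + 1))) :
    ((n : ℝ) ^ 2) / (kP n E * (1 / (2 * gdP n)) ^ 2) +
      (2 * (n : ℝ) ^ 2 + 1) * (2 / (kP n E * ζ ^ 2 * (1 / 2))) ≤ 1 / (8 * (RP n + 1)) := by
  have hE' : (0:ℝ) < E := by exact_mod_cast hE
  have hR : (0:ℝ) < (RP n : ℝ) + 1 := by positivity
  have hk : (0:ℝ) < kP n E := by exact_mod_cast (by have := two_le_kP (n := n) (E := E); omega)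
  have hgd : (0:ℝ) < gdP n := by
    have := mP_pos hn
    unfold mP at this
    exact_mod_cast (by omega : 0 < gdP n)
  have e1 : ((n : ℝ) ^ 2) / (kP n E * (1 / (2 * gdP n)) ^ 2) +
      (2 * (n : ℝ) ^ 2 + 1) * (2 / (kP n E * ζ ^ 2 * (1 / 2))) =
      (4 * ((n:ℝ) * n) * (gdP n * gdP n) +
        (2 * ((n:ℝ) * n) + 1) * (16 * (E * E) * ((RP n + 1) * (RP n + 1)))) / kP n E := by
    rw [hζ]
    field_simp
    ring
  rw [e1, div_le_div_iff₀ hk (by positivity), one_mul]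
  have h := kP_ge_stP n E
  have h' : (stP n E : ℝ) ≤ kP n E := by exact_mod_cast h
  unfold stP at h'
  push_cast at h'
  linarith

theorem stat1_aux (hn : 4 ≤ n) (hE : 1 ≤ E) {ζ : ℝ} (hζ : ζ = 1 / (2 * E * ((RP n : ℝ) + 1))) :
    1 / (kP n E * ζ ^ 2 * (1 / 2)) ≤ 1 / (8 * ((RP n : ℝ) + 1)) := by
  refine le_trans ?_ (stat_aux hn hE hζ)
  have hE' : (0:ℝ) < E := by exact_mod_cast hE
  have hζ0 : 0 < ζ := by rw [hζ]; positivity
  have hk : (0:ℝ) < kP n E := by exact_mod_cast (by have := two_le_kP (n := n) (E := E); omega)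
  have hx : 0 < 1 / (kP n E * ζ ^ 2 * (1 / 2)) := by positivity
  have e2 : 2 / (kP n E * ζ ^ 2 * (1 / 2)) = 2 * (1 / (kP n E * ζ ^ 2 * (1 / 2))) := by ring
  have h1 : 0 ≤ ((n : ℝ) ^ 2) / (kP n E * (1 / (2 * gdP n)) ^ 2) := by positivity
  rw [e2]
  generalize 1 / (kP n E * ζ ^ 2 * (1 / 2)) = y at hx
  have h2 : 0 ≤ (n:ℝ) ^ 2 := by positivity
  nlinarith [mul_nonneg h2 hx.le]

/-- condition on `ε` -/
theorem eps_ok (hn : 4 ≤ n) :
    (kP n E : ℝ) * (4 * n / (mP n * HP n E)) ^ 2 ≤ 1 := by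
  have hm : (1:ℝ) ≤ mP n := by exact_mod_cast mP_pos hn
  have hH : 16 * (n * n) * kP n E ≤ HP n E := by
    unfold HP
    have h1 : 1 ≤ 64 * (RP n + 1) * (RP n + 1) := Nat.succ_le_of_lt (by positivity)
    calc 16 * (n * n) * kP n E = 1 * (16 * (n * n) * kP n E) := (one_mul _).symm
      _ ≤ (64 * (RP n + 1) * (RP n + 1)) * (16 * (n * n) * kP n E) := Nat.mul_le_mul_right _ h1
      _ = 64 * (RP n + 1) * (16 * (n * n)) * (RP n + 1) * kP n E := by ring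
      _ ≤ _ := Nat.le_succ _
  have hH1 : 1 ≤ HP n E := Nat.le_add_left _ _
  have hH' : (16:ℝ) * (n * n) * kP n E ≤ HP n E := by exact_mod_cast hH
  have hH1' : (1:ℝ) ≤ HP n E := by exact_mod_cast hH1
  have hpos : (0:ℝ) < (mP n * HP n E) := by positivity
  rw [div_pow, mul_div_assoc', div_le_one (by positivity)]
  have h1 : (HP n E : ℝ) ≤ (HP n E : ℝ) ^ 2 := by nlinarith
  have h2 : (HP n E : ℝ) ^ 2 ≤ (mP n * HP n E : ℝ) ^ 2 := by
    refine pow_le_pow_left₀ (by positivity) ?_ 2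
    nlinarith
  calc (kP n E : ℝ) * (4 * n) ^ 2 = 16 * (n * n) * kP n E := by ring
    _ ≤ _ := hH'
    _ ≤ _ := h1.trans h2

/-- the pure inequality behind the sampling error -/
theorem err_real {R κ k g m H X τ n t P2 nI c : ℝ} (hg : 1 ≤ g) (hm : 1 ≤ m) (hR1 : 1 ≤ R)
    (hn : 4 ≤ n) (hκ : 1 ≤ κ) (hk : k = κ ^ 2) (hH1 : 1 ≤ H) (hX1 : 1 ≤ X) (hτ : 0 ≤ τ)
    (ht0 : 0 ≤ t) (ht : t ≤ R) (hnI : 0 ≤ nI) (hP2 : 0 < P2)
    (hB : 64 * (R + 1) * (2 * k * (n * n) + R * H * τ * (2 * nI + 2)) ≤ P2)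
    (hc : c ≤ 1 / X) (hX : 64 * (R + 1) * (4 * n * R) * κ ≤ X)
    (hκg : 64 * (R + 1) * (4 * n * R) * 160 * (g * g) ≤ κ)
    (hHge : 64 * (R + 1) * (16 * (n * n)) * (R + 1) * k ≤ H) :
    k * (n * (2 * n / P2)) + t * H * τ * (2 * nI / P2 + 2 / P2) +
      t * H * ((c + 160 / (k * (1 / g) ^ 2)) * (κ * (4 * n / (m * H))) +
        k * (4 * n / (m * H)) ^ 2) ≤ 1 / (8 * (R + 1)) := by
  have hk1 : 1 ≤ k := by rw [hk]; nlinarith
  have p1 : k * (n * (2 * n / P2)) + t * H * τ * (2 * nI / P2 + 2 / P2) ≤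
      1 / (64 * (R + 1)) := by
    have e1 : k * (n * (2 * n / P2)) + t * H * τ * (2 * nI / P2 + 2 / P2) =
      (2 * k * (n * n) + t * H * τ * (2 * nI + 2)) / P2 := by
      field_simp
    rw [e1, div_le_div_iff₀ hP2 (by positivity), one_mul]
    refine le_trans ?_ hB
    have h3 : t * H * τ * (2 * nI + 2) ≤ R * H * τ * (2 * nI + 2) := by gcongr
    calc _ ≤ (2 * k * (n * n) + R * H * τ * (2 * nI + 2)) * (64 * (R + 1)) := by gcongr
      _ = _ := by ring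
  have hTe : t * H * (4 * n / (m * H)) ≤ 4 * n * R := by
    have e2 : t * H * (4 * n / (m * H)) = 4 * n * t / m := by field_simp
    rw [e2, div_le_iff₀ (by linarith)]
    have h1 : 4 * n * t ≤ 4 * n * R := by gcongr
    have h4 : 0 ≤ 4 * n * R := by positivity
    nlinarith
  have p2 : t * H * (c * (κ * (4 * n / (m * H)))) ≤ 1 / (64 * (R + 1)) := by
    have h0 : 0 ≤ κ * (4 * n / (m * H)) := by positivity
    calc t * H * (c * (κ * (4 * n / (m * H))))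
        ≤ t * H * (1 / X * (κ * (4 * n / (m * H)))) := by gcongr
      _ = (t * H * (4 * n / (m * H))) * (κ / X) := by ring
      _ ≤ (4 * n * R) * (κ / X) := by gcongr
      _ = (4 * n * R * κ) / X := by ring
      _ ≤ 1 / (64 * (R + 1)) := by
          rw [div_le_div_iff₀ (by linarith) (by positivity)]
          linarith
  have p3 : t * H * (160 / (k * (1 / g) ^ 2) * (κ * (4 * n / (m * H)))) ≤
      1 / (64 * (R + 1)) := by
    calc t * H * (160 / (k * (1 / g) ^ 2) * (κ * (4 * n / (m * H))))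
        = (t * H * (4 * n / (m * H))) * (160 * (g * g) / κ) := by
          rw [hk]
          field_simp
      _ ≤ (4 * n * R) * (160 * (g * g) / κ) := by gcongr
      _ = (4 * n * R * 160 * (g * g)) / κ := by ring
      _ ≤ 1 / (64 * (R + 1)) := by
          rw [div_le_div_iff₀ (by linarith) (by positivity)]
          linarith
  have p4 : t * H * (k * (4 * n / (m * H)) ^ 2) ≤ 1 / (64 * (R + 1)) := by
    have e4 : t * H * (k * (4 * n / (m * H)) ^ 2) = (16 * (n * n) * t * k) / (m * m * H) := by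
      field_simp
      ring
    rw [e4, div_le_div_iff₀ (by positivity) (by positivity)]
    have h6 : (16 * (n * n) * t * k) * (64 * (R + 1)) ≤ H := by
      refine le_trans ?_ hHge
      have h7 : t ≤ R + 1 := by linarith
      calc (16 * (n * n) * t * k) * (64 * (R + 1)) ≤
            (16 * (n * n) * (R + 1) * k) * (64 * (R + 1)) := by gcongr
        _ = _ := by ring
    have h8 : H ≤ m * m * H := by
      have : 1 ≤ m * m := by nlinarith
      nlinarith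
    linarith
  have h9 : 4 * (1 / (64 * (R + 1))) ≤ 1 / (8 * (R + 1)) := by
    rw [mul_one_div, div_le_div_iff₀ (by positivity) (by positivity)]
    linarith
  have e5 : t * H * ((c + 160 / (k * (1 / g) ^ 2)) * (κ * (4 * n / (m * H))) +
        k * (4 * n / (m * H)) ^ 2) = t * H * (c * (κ * (4 * n / (m * H)))) +
        t * H * (160 / (k * (1 / g) ^ 2) * (κ * (4 * n / (m * H)))) +
        t * H * (k * (4 * n / (m * H)) ^ 2) := by ring
  rw [e5]
  linarith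

/-- **the sampling error** -/
theorem err_ok (hn : 4 ≤ n) {t : ℕ} (ht : t ≤ RP n) :
    popErr n (kP n E) (BP n E) (BP n E) (tauP n E) (HP n E) t (1 / (gN542 n : ℝ))
      (4 * n / (mP n * HP n E)) ≤ 1 / (8 * (RP n + 1)) := by
  have hg : (1:ℝ) ≤ gN542 n := by exact_mod_cast gN542_pos n
  have hm : (1:ℝ) ≤ mP n := by exact_mod_cast mP_pos hn
  have hR1 : (1:ℝ) ≤ RP n := by exact_mod_cast RP_pos n
  have hn' : (4:ℝ) ≤ n := by exact_mod_cast hn
  have hκ : (1:ℝ) ≤ kapP n E := by exact_mod_cast kapP_ge1 n E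
  have hk : (kP n E : ℝ) = (kapP n E : ℝ) ^ 2 := by
    unfold kP
    rw [Nat.cast_mul, sq]
  have hH1 : (1:ℝ) ≤ HP n E := by
    have : 1 ≤ HP n E := Nat.le_add_left _ _
    exact_mod_cast this
  have hX1 : (1:ℝ) ≤ XP n E := by
    have : 1 ≤ XP n E := Nat.le_add_left _ _
    exact_mod_cast this
  have ht' : (t:ℝ) ≤ RP n := by exact_mod_cast ht
  have hsq : √(kP n E : ℝ) = kapP n E := by
    rw [hk, Real.sqrt_sq (by linarith)]
  have hB : 64 * ((RP n : ℝ) + 1) * (2 * (kP n E : ℝ) * ((n:ℝ) * n) +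
      (RP n : ℝ) * (HP n E : ℝ) * (tauP n E : ℝ) * (2 * (nIdx n (kP n E) : ℝ) + 2)) ≤
      2 ^ (BP n E) := by
    have h1 : BP n E ≤ 2 ^ (BP n E) := (Nat.lt_two_pow_self).le
    have h2 : ((64 * (RP n + 1) * (2 * kP n E * (n * n) +
      RP n * HP n E * tauP n E * (2 * nIdx n (kP n E) + 2)) : ℕ) : ℝ) ≤
      ((2 ^ (BP n E) : ℕ) : ℝ) := Nat.cast_le.2 h1
    simpa only [Nat.cast_mul, Nat.cast_add, Nat.cast_pow, Nat.cast_ofNat, Nat.cast_one] using h2
  have hτ : ((tauP n E : ℕ) : ℝ) = 4 * (kP n E : ℝ) * (gN542 n : ℝ) * (XP n E : ℝ) := by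
    unfold tauP
    simp only [Nat.cast_mul, Nat.cast_ofNat]
  have hX : 64 * ((RP n : ℝ) + 1) * (4 * (n:ℝ) * (RP n : ℝ)) * (kapP n E : ℝ) ≤ XP n E := by
    have h1 : 64 * (RP n + 1) * (4 * n * RP n) * kapP n E ≤ XP n E := Nat.le_succ _
    have h2 : ((64 * (RP n + 1) * (4 * n * RP n) * kapP n E : ℕ) : ℝ) ≤ (XP n E : ℝ) :=
      Nat.cast_le.2 h1
    simpa only [Nat.cast_mul, Nat.cast_add, Nat.cast_ofNat, Nat.cast_one] using h2
  have hκg : 64 * ((RP n : ℝ) + 1) * (4 * (n:ℝ) * (RP n : ℝ)) * 160 *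
      ((gN542 n : ℝ) * (gN542 n : ℝ)) ≤ kapP n E := by
    have h1 : 64 * (RP n + 1) * (4 * n * RP n) * 160 * (gN542 n * gN542 n) ≤ kapP n E := by
      unfold kapP
      exact (Nat.le_add_left _ _).trans (Nat.le_succ _)
    have h2 : ((64 * (RP n + 1) * (4 * n * RP n) * 160 * (gN542 n * gN542 n) : ℕ) : ℝ) ≤
        (kapP n E : ℝ) := Nat.cast_le.2 h1
    simpa only [Nat.cast_mul, Nat.cast_add, Nat.cast_ofNat, Nat.cast_one] using h2
  have hHge : 64 * ((RP n : ℝ) + 1) * (16 * ((n:ℝ) * n)) * ((RP n : ℝ) + 1) * (kP n E : ℝ) ≤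
      HP n E := by
    have h1 : 64 * (RP n + 1) * (16 * (n * n)) * (RP n + 1) * kP n E ≤ HP n E := Nat.le_succ _
    have h2 : ((64 * (RP n + 1) * (16 * (n * n)) * (RP n + 1) * kP n E : ℕ) : ℝ) ≤
        (HP n E : ℝ) := Nat.cast_le.2 h1
    simpa only [Nat.cast_mul, Nat.cast_add, Nat.cast_ofNat, Nat.cast_one] using h2
  have hk1 : (1:ℝ) ≤ kP n E := by rw [hk]; nlinarith
  have hc : (1 - 1 / (gN542 n : ℝ) / (4 * (kP n E : ℝ))) ^ (tauP n E) ≤ 1 / (XP n E : ℝ) := by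
    refine one_sub_pow_le ?_ (by linarith) ?_
    · rw [div_div, div_le_one (by positivity)]
      exact one_le_mul_of_one_le_of_one_le hg (by linarith)
    · rw [hτ]
      field_simp
  unfold popErr annErr
  rw [hsq, Nat.cast_mul]
  exact err_real hg hm hR1 hn' hκ hk hH1 hX1 (Nat.cast_nonneg _) (Nat.cast_nonneg _) ht'
    (Nat.cast_nonneg _) (by positivity) hB hc hX hκg hHge

end ineq

/-- **the parameters satisfy all inequalities of the analysis** -/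
theorem prmOK {n E : ℕ} (bits : List Bool) (hn : 4 ≤ n) (hE : 1 ≤ E) :
    PrmOK (prm (⟨n⟩, bits, ⟨E⟩)) E where
  q_eq := by
    show qP n = 8 * n ^ 2
    unfold qP; ring
  par := par_ok hn
  S_eq := by
    show SP n = Smax (mP n) (n ^ 2)
    unfold SP Smax; rw [sq]
  R_ge := rounds_ok
  L_ge := le_refl _
  m_pos := mP_pos hn
  q_gt := by
    show n - 1 < qP n
    unfold qP
    nlinarith [Nat.sub_le n 1]
  H_pos := by
    show 0 < HP n E
    unfold HP; omega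
  k_two := two_le_kP
  gap := gap_ok
  eps := eps_ok hn
  err := fun t ht => err_ok hn ht
  stat := fun ζ hζ => stat_aux hn hE hζ
  stat1 := fun ζ hζ => stat1_aux hn hE hζ
  len := fun h hh => sampLen_le _ h hh

end Crest.Agent.R304.Prm180
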