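import Crest.Agent.R304.Final168
import Crest.Agent.R304.Prm180

/-!
# R304 / S0464: the core estimator exists
-/

set_option autoImplicit false
set_option linter.dupNamespace false

namespace Crest.Agent.R304.Last180

open Crest.Agent.R304.Loop Crest.Agent.R304.L6 Crest.Agent.R304.Prm180

theorem prmOK' : Glue.PrmOK prm where
  pt := prmPT
  hn := fun _ => rfl
  hbits := fun _ => rfl
  hk := fun _ => lt_of_lt_of_le two_pos two_le_kP
  hq := fun I => by
    show qP I.1.val = 8 * I.1.val ^ 2
    unfold qP
    ring
  hL := fun _ => le_refl _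
  num := by
    rintro ⟨⟨n⟩, bits, ⟨E⟩⟩ hev h4 hE
    have h := prmOK (n := n) (E := E) bits h4 hE
    exact ⟨hev, h4, h.k_two, h.H_pos, h.S_eq, h.par, h.R_ge, h.gap, h.eps, h.err,
      h.stat _ rfl⟩

/-- **the core estimator** -/
theorem core : Top119.Core := Glue.core_of_ok prmOK'

end Crest.Agent.R304.Last180
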