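import Crest.Agent.R304.MWOpt

/-!
# R304 / S0467, block M1a: structure at a local optimum

`D` = support of the null space, `A` = outer neighbours of `D`. The number of components of `D`
is at least nullity + |A|, and every component is factor-critical.
-/

set_option autoImplicit false
set_option linter.dupNamespace false
set_option linter.unusedSectionVars false

namespace Crest.Agent.R304.MWStruct

open Finset Matrix Crest.Agent.R304.MWSkew Crest.Agent.R304.MWOpt

variable {F : Type*} [Field F] {V : Type*} [Fintype V] [DecidableEq V]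

/-- The hypotheses: a skew-symmetric matrix supported on the edges of a symmetric graph, locally
optimal, over a field with more than `|V|` elements. -/
structure Hyp (adj : V → V → Prop) (T : Matrix V V F) [Fintype F] : Prop where
  card : Fintype.card V < Fintype.card F
  symm : ∀ i j, adj i j → adj j i
  edge : ∀ i j, T i j ≠ 0 → adj i j
  skew : Skew T
  opt : LocOpt adj T

/-- outer neighbours of the support of the null space -/
def Aset (adj : V → V → Prop) (T : Matrix V V F) : Set V :=
  {j | j ∉ Dset T ∧ ∃ i ∈ Dset T, adj i j}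

/-- vectors whose image is supported on `A` -/
def Wsp (adj : V → V → Prop) (T : Matrix V V F) : Submodule F (V → F) where
  carrier := {z | ∀ w, w ∉ Aset adj T → (T *ᵥ z) w = 0}
  add_mem' := by
    intro a b ha hb w hw
    rw [mulVec_add, Pi.add_apply, ha w hw, hb w hw, add_zero]
  zero_mem' := by
    intro w _
    rw [mulVec_zero]; rfl
  smul_mem' := by
    intro c a ha w hw
    rw [mulVec_smul, Pi.smul_apply, ha w hw, smul_zero]

theorem mem_Wsp {adj : V → V → Prop} {T : Matrix V V F} {z : V → F} :
    z ∈ Wsp adj T ↔ ∀ w, w ∉ Aset adj T → (T *ᵥ z) w = 0 := Iff.rfl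

theorem notD {T : Matrix V V F} {k : V} (hk : k ∉ Dset T) {x : V → F} (hx : x ∈ nul T) :
    x k = 0 := by
  by_contra h
  exact hk ⟨x, hx, h⟩

theorem exists_y {T : Matrix V V F} (hT : Skew T) {j : V} (hj : j ∉ Dset T) :
    ∃ y, T *ᵥ y = Pi.single j (1 : F) := by
  apply hT.exists_solve
  intro x hx
  have := notD hj (mem_nul.2 hx)
  simp [this]

variable [Fintype F]

theorem Hyp.y_supp {adj : V → V → Prop} {T : Matrix V V F} (H : Hyp adj T) {j : V}
    (hj : j ∈ Aset adj T) {y : V → F} (hy : T *ᵥ y = Pi.single j (1 : F)) {k : V}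
    (hk : k ∉ Dset T) : y k = 0 := by
  classical
  obtain ⟨hjD, i, hi, hij⟩ := hj
  have := H.opt.supported H.card H.skew (H.symm i j hij) hi (c := 0)
    (fun x hx => by rw [notD hjD hx, zero_mul]) (y := -y)
    (by rw [mulVec_neg, hy, zero_smul, zero_sub]) hk
  simpa using this

/-- (W1) -/
theorem Hyp.W_supp {adj : V → V → Prop} {T : Matrix V V F} (H : Hyp adj T) {z : V → F}
    (hz : z ∈ Wsp adj T) {k : V} (hk : k ∉ Dset T) : z k = 0 := by
  obtain ⟨y, hy⟩ := exists_y H.skew hk
  have h := H.skew.dot z y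
  rw [hy, dotProduct_single, mul_one] at h
  rw [h, neg_eq_zero]
  simp only [dotProduct]
  refine Finset.sum_eq_zero fun w _ => ?_
  by_cases hw : w ∈ Aset adj T
  · obtain ⟨yw, hyw⟩ := exists_y H.skew hw.1
    have h1 := H.skew.dot yw y
    rw [hy, hyw, dotProduct_single, mul_one, single_dotProduct, one_mul,
      H.y_supp hw hyw hk] at h1
    rw [neg_eq_zero.1 h1.symm, mul_zero]
  · rw [hz w hw, zero_mul]

/-- (W2) -/
theorem Hyp.W_prop {adj : V → V → Prop} {T : Matrix V V F} (H : Hyp adj T) {i j : V}
    (hij : adj i j) (hi : i ∈ Dset T) (hj : j ∈ Dset T) :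
    ∃ c : F, c ≠ 0 ∧ ∀ z ∈ Wsp adj T, z i = c * z j := by
  classical
  obtain ⟨c, hc⟩ := H.opt.prop H.skew hij hj
  have hc0 : c ≠ 0 := by
    rintro rfl
    obtain ⟨x, hx, hx0⟩ := hi
    exact hx0 (by rw [hc x hx, zero_mul])
  refine ⟨c, hc0, ?_⟩
  obtain ⟨y, hy⟩ := H.skew.exists_solve (c • (Pi.single j (1 : F) : V → F) - Pi.single i 1) (by
    intro x hx
    rw [sub_dotProduct, smul_dotProduct, single_dotProduct, single_dotProduct, one_mul, one_mul,
      smul_eq_mul, hc x (mem_nul.2 hx), sub_self])
  have hyD : ∀ k, k ∉ Dset T → y k = 0 := fun k hk =>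
    H.opt.supported H.card H.skew hij hj hc hy hk
  intro z hz
  have h := H.skew.dot z y
  rw [hy, dotProduct_sub, dotProduct_smul, dotProduct_single, dotProduct_single, mul_one,
    mul_one, smul_eq_mul] at h
  have h2 : (T *ᵥ z) ⬝ᵥ y = 0 := by
    simp only [dotProduct]
    refine Finset.sum_eq_zero fun w _ => ?_
    by_cases hw : w ∈ Aset adj T
    · rw [hyD w hw.1, mul_zero]
    · rw [hz w hw, zero_mul]
  rw [h2, neg_zero] at h
  linear_combination -h

/-- (W3) -/
theorem Hyp.W_dim {adj : V → V → Prop} {T : Matrix V V F} (H : Hyp adj T) :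
    Module.finrank F (nul T) + (Set.toFinite (Aset adj T)).toFinset.card
      ≤ Module.finrank F (Wsp adj T) := by
  classical
  set A := (Set.toFinite (Aset adj T)).toFinset with hA
  have hmemA : ∀ w, w ∈ A ↔ w ∈ Aset adj T := fun w => Set.Finite.mem_toFinset _
  -- restriction of the image to `A`
  let φ : (Wsp adj T) →ₗ[F] (A → F) :=
    { toFun := fun z w => (T *ᵥ z.1) w.1
      map_add' := fun a b => by
        ext w; simp [mulVec_add]
      map_smul' := fun c a => by
        ext w; simp [mulVec_smul] }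
  have hsurj : Function.Surjective φ := by
    intro g
    have hex : ∀ w : A, ∃ y, T *ᵥ y = Pi.single w.1 (1 : F) := fun w =>
      exists_y H.skew ((hmemA w.1).1 w.2).1
    choose y hy using hex
    have hT : T *ᵥ (∑ w : A, g w • y w) = ∑ w : A, g w • (Pi.single w.1 (1 : F) : V → F) := by
      have := map_sum T.mulVecLin (fun w : A => g w • y w) Finset.univ
      simp only [Matrix.mulVecLin_apply] at this
      rw [this]
      refine Finset.sum_congr rfl fun w _ => ?_
      rw [mulVec_smul, hy]
    refine ⟨⟨∑ w : A, g w • y w, ?_⟩, ?_⟩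
    · intro u hu
      rw [hT, Finset.sum_apply]
      refine Finset.sum_eq_zero fun w _ => ?_
      have : u ≠ w.1 := fun h => hu (h ▸ (hmemA w.1).1 w.2)
      simp [this]
    · ext u
      show (T *ᵥ (∑ w : A, g w • y w)) u.1 = g u
      rw [hT, Finset.sum_apply, Finset.sum_eq_single u]
      · simp
      · intro w _ hw
        have : u.1 ≠ w.1 := fun h => hw (Subtype.ext h.symm)
        simp [this]
      · simp
  have hker : Module.finrank F (nul T) ≤ Module.finrank F (LinearMap.ker φ) := by
    let ψ : nul T →ₗ[F] LinearMap.ker φ :=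
      { toFun := fun x => ⟨⟨x.1, fun w _ => by rw [mem_nul.1 x.2]; rfl⟩, by
          rw [LinearMap.mem_ker]
          ext w
          show (T *ᵥ x.1) w.1 = 0
          rw [mem_nul.1 x.2]; rfl⟩
        map_add' := fun a b => rfl
        map_smul' := fun c a => rfl }
    refine LinearMap.finrank_le_finrank_of_injective (f := ψ) ?_
    intro a b hab
    have := congrArg (fun z => z.1.1) hab
    exact Subtype.ext this
  have hrn := LinearMap.finrank_range_add_finrank_ker φ
  rw [LinearMap.range_eq_top.2 hsurj, finrank_top, Module.finrank_fintype_fun_eq_card,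
    Fintype.card_coe] at hrn
  omega

/-- labels of the components of `D` -/
structure Labels (adj : V → V → Prop) (T : Matrix V V F) {ι : Type*} (lab : V → ι) : Prop where
  adj_eq : ∀ i j, i ∈ Dset T → j ∈ Dset T → adj i j → lab i = lab j
  conn : ∀ i j, i ∈ Dset T → j ∈ Dset T → lab i = lab j →
    Relation.ReflTransGen (fun a b => a ∈ Dset T ∧ b ∈ Dset T ∧ adj a b) i j

theorem Hyp.conn_zero {adj : V → V → Prop} {T : Matrix V V F} (H : Hyp adj T) {i j : V}
    (h : Relation.ReflTransGen (fun a b => a ∈ Dset T ∧ b ∈ Dset T ∧ adj a b) i j)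
    {z : V → F} (hz : z ∈ Wsp adj T) (hi : z i = 0) : z j = 0 := by
  induction h with
  | refl => exact hi
  | tail _ hbc ih =>
    obtain ⟨c, hc, hcz⟩ := H.W_prop hbc.2.2 hbc.1 hbc.2.1
    have := hcz z hz
    rw [ih] at this
    exact (mul_eq_zero.1 this.symm).resolve_left hc

/-- (W4) the number of components -/
theorem Hyp.count {adj : V → V → Prop} {T : Matrix V V F} (H : Hyp adj T) {ι : Type*}
    [DecidableEq ι] {lab : V → ι} (hlab : Labels adj T lab) (D A : Finset V)
    (hD : ∀ v, v ∈ D ↔ v ∈ Dset T) (hA : ∀ v, v ∈ A ↔ v ∈ Aset adj T) :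
    Module.finrank F (nul T) + A.card ≤ (D.image lab).card := by
  classical
  have hAA : A = (Set.toFinite (Aset adj T)).toFinset := by
    ext v; rw [hA, Set.Finite.mem_toFinset]
  rw [hAA]
  refine H.W_dim.trans ?_
  -- representatives
  have hex : ∀ l : D.image lab, ∃ v ∈ D, lab v = l.1 := fun l => Finset.mem_image.1 l.2
  choose r hr hrl using hex
  let φ : (Wsp adj T) →ₗ[F] ((D.image lab) → F) :=
    { toFun := fun z l => z.1 (r l)
      map_add' := fun a b => rfl
      map_smul' := fun c a => rfl }
  have hinj : Function.Injective φ := by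
    rw [← LinearMap.ker_eq_bot, LinearMap.ker_eq_bot']
    intro z hz
    apply Subtype.ext
    funext v
    show z.1 v = 0
    by_cases hv : v ∈ Dset T
    · have hvD : v ∈ D := (hD v).2 hv
      have hl : lab v ∈ D.image lab := Finset.mem_image_of_mem _ hvD
      have h0 : z.1 (r ⟨lab v, hl⟩) = 0 := congrFun hz ⟨lab v, hl⟩
      exact H.conn_zero (hlab.conn _ _ ((hD _).1 (hr _)) hv (hrl ⟨lab v, hl⟩)) z.2 h0
    · exact H.W_supp z.2 hv
  have := LinearMap.finrank_le_finrank_of_injective hinj
  rwa [Module.finrank_fintype_fun_eq_card, Fintype.card_coe] at this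

/-- (W5) components are factor-critical -/
theorem Hyp.factorCritical {adj : V → V → Prop} {T : Matrix V V F} (H : Hyp adj T) {ι : Type*}
    {lab : V → ι} (hlab : Labels adj T lab) {v : V} (hv : v ∈ Dset T) (S : Finset V)
    (hS : ∀ u, u ∈ S ↔ u ∈ Dset T ∧ lab u = lab v ∧ u ≠ v) :
    ∃ f : V → V, ∀ u ∈ S, f u ∈ S ∧ f (f u) = u ∧ adj u (f u) := by
  classical
  have hns : NonSing T S := by
    intro z hz0 hz
    have hzv : z v = 0 := hz0 v (fun h => ((hS v).1 h).2.2 rfl)
    -- a coordinate of `T z` outside the component vanishes off `A`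
    have hfar : ∀ w, w ∉ Aset adj T → ¬ (w ∈ Dset T ∧ lab w = lab v) → (T *ᵥ z) w = 0 := by
      intro w hwA hw
      simp only [mulVec, dotProduct]
      refine Finset.sum_eq_zero fun u _ => ?_
      by_cases hu : u ∈ S
      · obtain ⟨huD, hul, huv⟩ := (hS u).1 hu
        by_cases hT0 : T w u = 0
        · rw [hT0, zero_mul]
        · exfalso
          have hadj := H.edge w u hT0
          by_cases hwD : w ∈ Dset T
          · exact hw ⟨hwD, (hlab.adj_eq w u hwD huD hadj).trans hul⟩
          · exact hwA ⟨hwD, u, huD, H.symm w u hadj⟩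
      · rw [hz0 u hu, mul_zero]
    -- the coordinate `v`
    have hTv : (T *ᵥ z) v = 0 := by
      obtain ⟨n, hn, hnv⟩ := hv
      have h := nul_dot H.skew hn z
      simp only [dotProduct] at h
      rw [Finset.sum_eq_single v] at h
      · exact (mul_eq_zero.1 h).resolve_left hnv
      · intro w _ hwv
        by_cases hwD : w ∈ Dset T
        · by_cases hwl : lab w = lab v
          · rw [hz w ((hS w).2 ⟨hwD, hwl, hwv⟩), mul_zero]
          · rw [hfar w (fun h => h.1 hwD) (fun h => hwl h.2), mul_zero]
        · rw [notD hwD hn, zero_mul]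
      · simp
    have hzW : z ∈ Wsp adj T := by
      intro w hwA
      by_cases hw : w ∈ Dset T ∧ lab w = lab v
      · by_cases hwv : w = v
        · rw [hwv, hTv]
        · exact hz w ((hS w).2 ⟨hw.1, hw.2, hwv⟩)
      · exact hfar w hwA hw
    funext u
    show z u = 0
    by_cases hu : u ∈ S
    · obtain ⟨huD, hul, huv⟩ := (hS u).1 hu
      exact H.conn_zero (hlab.conn v u hv huD hul.symm) hzW hzv
    · exact hz0 u hu
  obtain ⟨f, hf⟩ := exists_pm_of_nonSing H.skew _ S rfl hns
  exact ⟨f, fun u hu => ⟨(hf u hu).1, (hf u hu).2.1, H.edge _ _ (hf u hu).2.2⟩⟩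

/-- nullity zero: a perfect matching -/
theorem pm_of_nul_zero {adj : V → V → Prop} {T : Matrix V V F} (hT : Skew T)
    (he : ∀ i j, T i j ≠ 0 → adj i j) (h0 : Module.finrank F (nul T) = 0) :
    ∃ f : V → V, ∀ u, f (f u) = u ∧ adj u (f u) := by
  classical
  have hns : NonSing T Finset.univ := by
    intro z _ hz
    have : z ∈ nul T := by
      rw [mem_nul]
      funext w
      exact hz w (Finset.mem_univ w)
    rw [Submodule.finrank_eq_zero.1 h0] at this
    exact (Submodule.mem_bot F).1 this
  obtain ⟨f, hf⟩ := exists_pm_of_nonSing hT _ _ rfl hns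
  exact ⟨f, fun u => ⟨(hf u (Finset.mem_univ u)).2.1, he _ _ (hf u (Finset.mem_univ u)).2.2⟩⟩

end Crest.Agent.R304.MWStruct
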