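import Crest.Agent.R304.MWNull
import Crest.Agent.R304.MWStruct

/-!
# R304 / S0467, block M1b: the matching oracle on lists

The null basis modulo a prime on lists of natural numbers, and the local search.
-/

set_option autoImplicit false
set_option linter.dupNamespace false
set_option linter.unusedSectionVars false

namespace Crest.Agent.R304.MWList

open Matrix Crest.Agent.R304.MWSkew Crest.Agent.R304.MWNull Crest.Agent.R304.MWOpt
  Crest.Agent.R304.MWStruct

/-! ### the program -/

/-- dot product modulo `p` -/
def dotp (k p : ℕ) (r b : List ℕ) : ℕ :=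
  ((List.range k).map (fun i => r.getD i 0 * b.getD i 0)).sum % p

/-- `c0 b - c b0` modulo `p` -/
def combp (k p c0 c : ℕ) (b b0 : List ℕ) : List ℕ :=
  (List.range k).map (fun i => (c0 * b.getD i 0 + (p - c) * b0.getD i 0) % p)

/-- one elimination step -/
def stepL (k p : ℕ) (r : List ℕ) (B : List (List ℕ)) : List (List ℕ) :=
  match B.dropWhile (fun b => decide (dotp k p r b = 0)) with
  | [] => B
  | b0 :: post => B.takeWhile (fun b => decide (dotp k p r b = 0)) ++
      post.map (fun b => combp k p (dotp k p r b0) (dotp k p r b) b b0)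

/-- the standard basis -/
def stdL (k : ℕ) : List (List ℕ) :=
  (List.range k).map (fun i => (List.range k).map (fun j => if j = i then 1 else 0))

/-- the rows of a table -/
def rowsL (k : ℕ) (T : List (List ℕ)) : List (List ℕ) :=
  (List.range k).map (fun i => T.getD i [])

/-- a basis of the null space -/
def nullL (k p : ℕ) (T : List (List ℕ)) : List (List ℕ) :=
  (rowsL k T).foldl (fun B r => stepL k p r B) (stdL k)

/-- indicator list of the support of the span of a list of vectors -/
def suppL (k p : ℕ) (B : List (List ℕ)) : List Bool :=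
  (List.range k).map (fun i => B.any (fun b => decide (b.getD i 0 % p ≠ 0)))

/-- change of the entry `(i, j)` by `a` -/
def bumpL (k p : ℕ) (T : List (List ℕ)) (i j a : ℕ) : List (List ℕ) :=
  (List.range k).map (fun u => (List.range k).map (fun v =>
    ((T.getD u []).getD v 0 + (if u = i ∧ v = j then a else 0)
      + (if u = j ∧ v = i then p - a else 0)) % p))

/-- the potential -/
def potL (k p : ℕ) (T : List (List ℕ)) : ℕ :=
  (k - (nullL k p T).length) * (k + 1) + (suppL k p (nullL k p T)).countP id

/-- adjacency read off a table -/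
def adjL (Q : List (List Bool)) (i j : ℕ) : Bool := (Q.getD i []).getD j false

/-- candidates for a change -/
def cands (k p : ℕ) (Q : List (List Bool)) : List (ℕ × ℕ × ℕ) :=
  (List.range k).flatMap (fun i => ((List.range k).filter (fun j => adjL Q i j)).flatMap
    (fun j => (List.range p).map (fun a => (i, j, a))))

/-- one step of the local search -/
def searchStep (k p : ℕ) (Q : List (List Bool)) (T : List (List ℕ)) : List (List ℕ) :=
  match (cands k p Q).find? (fun c => decide (potL k p T < potL k p (bumpL k p T c.1 c.2.1 c.2.2))) with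
  | none => T
  | some c => bumpL k p T c.1 c.2.1 c.2.2

/-- the local search -/
def search (k p : ℕ) (Q : List (List Bool)) : List (List ℕ) :=
  (searchStep k p Q)^[(k + 1) * (k + 1)] []

/-- the oracle -/
def oracle (k p : ℕ) (Q : List (List Bool)) : List Bool :=
  suppL k p (nullL k p (search k p Q))

/-! ### correctness of the null basis -/

section null

variable {k p : ℕ} [hp : Fact p.Prime]

/-- a list as a vector -/
def vec (k p : ℕ) (b : List ℕ) : Fin k → ZMod p := fun i => ((b.getD i 0 : ℕ) : ZMod p)

/-- a table as a matrix -/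
def matL (k p : ℕ) (T : List (List ℕ)) : Matrix (Fin k) (Fin k) (ZMod p) :=
  fun i j => (((T.getD i []).getD j 0 : ℕ) : ZMod p)

theorem getD_range_map {α : Type*} (f : ℕ → α) {k i : ℕ} (hi : i < k) (d : α) :
    ((List.range k).map f).getD i d = f i := by
  rw [List.getD_eq_getElem?_getD, List.getElem?_map, List.getElem?_range hi]
  rfl

theorem range_map_eq {α : Type*} (f : ℕ → α) (k : ℕ) :
    (List.range k).map f = (List.finRange k).map (fun i : Fin k => f i) := by
  rw [← List.map_coe_finRange_eq_range, List.map_map]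
  rfl

theorem dotp_cast (r b : List ℕ) :
    ((dotp k p r b : ℕ) : ZMod p) = vec k p r ⬝ᵥ vec k p b := by
  unfold dotp
  rw [ZMod.natCast_mod, Nat.cast_list_sum, List.map_map, range_map_eq, ← Fin.sum_univ_def]
  simp [dotProduct, vec]

theorem dotp_eq_zero (r b : List ℕ) : dotp k p r b = 0 ↔ vec k p r ⬝ᵥ vec k p b = 0 := by
  rw [← dotp_cast, ZMod.natCast_eq_zero_iff]
  have h : dotp k p r b < p := Nat.mod_lt _ hp.out.pos
  constructor
  · intro h0; rw [h0]; exact dvd_zero _
  · intro h0; exact Nat.eq_zero_of_dvd_of_lt h0 h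

theorem vec_combp {r b b0 : List ℕ} :
    vec k p (combp k p (dotp k p r b0) (dotp k p r b) b b0) =
      (vec k p r ⬝ᵥ vec k p b0) • vec k p b - (vec k p r ⬝ᵥ vec k p b) • vec k p b0 := by
  funext i
  have hlt : dotp k p r b < p := Nat.mod_lt _ hp.out.pos
  simp only [Pi.sub_apply, Pi.smul_apply, smul_eq_mul]
  rw [← dotp_cast, ← dotp_cast]
  show (((combp k p (dotp k p r b0) (dotp k p r b) b b0).getD i 0 : ℕ) : ZMod p) =
    _ * ((b.getD i 0 : ℕ) : ZMod p) - _ * ((b0.getD i 0 : ℕ) : ZMod p)
  unfold combp
  rw [getD_range_map _ i.2, ZMod.natCast_mod, Nat.cast_add, Nat.cast_mul, Nat.cast_mul,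
    Nat.cast_sub hlt.le, ZMod.natCast_self]
  ring

theorem map_stepL (r : List ℕ) (B : List (List ℕ)) :
    (stepL k p r B).map (vec k p) = stepA (vec k p r) (B.map (vec k p)) := by
  have hfun : (fun b => decide (vec k p r ⬝ᵥ b = 0)) ∘ vec k p =
      fun b => decide (dotp k p r b = 0) := by
    funext b
    simp only [Function.comp]
    congr 1
    exact propext (dotp_eq_zero r b).symm
  unfold stepL stepA
  rw [List.dropWhile_map, List.takeWhile_map, hfun]
  rcases B.dropWhile (fun b => decide (dotp k p r b = 0)) with _ | ⟨b0, post⟩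
  · simp
  · simp only [List.map_cons, List.map_append, List.map_map]
    congr 1
    refine List.map_congr_left fun b _ => ?_
    exact vec_combp

theorem map_stdL : (stdL k).map (vec k p) =
    (List.finRange k).map (fun i => (Pi.single i (1 : ZMod p) : Fin k → ZMod p)) := by
  unfold stdL
  rw [range_map_eq, List.map_map]
  refine List.map_congr_left fun i _ => ?_
  funext j
  simp only [Function.comp, vec]
  rw [getD_range_map _ j.2, Pi.single_apply]
  by_cases h : j = i
  · simp [h]
  · have : (j : ℕ) ≠ i := fun h' => h (Fin.ext h')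
    simp [h, this]

theorem map_foldl (R : List (List ℕ)) (B : List (List ℕ)) :
    (R.foldl (fun B r => stepL k p r B) B).map (vec k p) =
      (R.map (vec k p)).foldl (fun B r => stepA r B) (B.map (vec k p)) := by
  induction R generalizing B with
  | nil => rfl
  | cons r R ih => rw [List.foldl_cons, ih, map_stepL]; rfl

theorem map_rowsL (T : List (List ℕ)) :
    (rowsL k T).map (vec k p) = (List.finRange k).map (matL k p T) := by
  unfold rowsL
  rw [range_map_eq, List.map_map]
  rfl

theorem nullL_length (T : List (List ℕ)) :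
    (nullL k p T).length = Module.finrank (ZMod p) (nul (matL k p T)) := by
  rw [← (null_spec (matL k p T)).1, ← map_rowsL, ← map_stdL, ← map_foldl, List.length_map]
  rfl

theorem nullL_span (T : List (List ℕ)) :
    lspan ((nullL k p T).map (vec k p)) = nul (matL k p T) := by
  rw [← (null_spec (matL k p T)).2, ← map_rowsL, ← map_stdL, ← map_foldl]
  rfl

theorem mem_Dset_iff (T : List (List ℕ)) (v : Fin k) :
    v ∈ Dset (matL k p T) ↔ ∃ b ∈ nullL k p T, b.getD v 0 % p ≠ 0 := by
  have h := supp_iff ((nullL k p T).map (vec k p)) v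
  rw [nullL_span] at h
  show (∃ x ∈ nul (matL k p T), x v ≠ 0) ↔ _
  rw [h]
  constructor
  · rintro ⟨b', hb', hbv⟩
    obtain ⟨b, hb, rfl⟩ := List.mem_map.1 hb'
    refine ⟨b, hb, fun h0 => hbv ?_⟩
    unfold vec
    rw [ZMod.natCast_eq_zero_iff]
    exact Nat.dvd_of_mod_eq_zero h0
  · rintro ⟨b, hb, hbv⟩
    refine ⟨vec k p b, List.mem_map.2 ⟨b, hb, rfl⟩, fun h0 => hbv ?_⟩
    unfold vec at h0
    rw [ZMod.natCast_eq_zero_iff] at h0
    exact Nat.mod_eq_zero_of_dvd h0

theorem suppL_getD (T : List (List ℕ)) (v : Fin k) :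
    (suppL k p (nullL k p T)).getD v false = true ↔ v ∈ Dset (matL k p T) := by
  rw [mem_Dset_iff]
  unfold suppL
  rw [getD_range_map _ v.2]
  simp

end null

end Crest.Agent.R304.MWList
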