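import Crest.Agent.R304.MWSkew

/-!
# R304 / S0467, block M1b: null basis by elimination

Abstract elimination on lists of vectors over a field and its implementation on lists of natural
numbers modulo a prime.
-/

set_option autoImplicit false
set_option linter.dupNamespace false
set_option linter.unusedSectionVars false

namespace Crest.Agent.R304.MWNull

open Matrix Crest.Agent.R304.MWSkew

section abs

variable {F : Type*} [Field F] [DecidableEq F] {V : Type*} [Fintype V] [DecidableEq V]

/-- span of the members of a list -/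
def lspan (B : List (V → F)) : Submodule F (V → F) := Submodule.span F {x | x ∈ B}

/-- one elimination step -/
def stepA (r : V → F) (B : List (V → F)) : List (V → F) :=
  match B.dropWhile (fun b => decide (r ⬝ᵥ b = 0)) with
  | [] => B
  | b0 :: post => B.takeWhile (fun b => decide (r ⬝ᵥ b = 0)) ++
      post.map (fun b => (r ⬝ᵥ b0) • b - (r ⬝ᵥ b) • b0)

/-- good lists: the members are a basis of their span (counted) -/
def Good (B : List (V → F)) : Prop := B.length = Module.finrank F (lspan B)

theorem mem_lspan_of_mem {B : List (V → F)} {b : V → F} (h : b ∈ B) : b ∈ lspan B :=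
  Submodule.subset_span h

theorem stepA_spec (r : V → F) (B : List (V → F)) (hB : Good B) :
    Good (stepA r B) ∧ ∀ x, x ∈ lspan (stepA r B) ↔ x ∈ lspan B ∧ r ⬝ᵥ x = 0 := by
  classical
  unfold stepA
  rcases hd : B.dropWhile (fun b => decide (r ⬝ᵥ b = 0)) with _ | ⟨b0, post⟩
  · -- all dot products vanish
    have hall : ∀ b ∈ B, r ⬝ᵥ b = 0 := by
      rw [List.dropWhile_eq_nil_iff] at hd
      intro b hb
      simpa using hd b hb
    refine ⟨hB, fun x => ⟨fun hx => ⟨hx, ?_⟩, fun hx => hx.1⟩⟩
    have : lspan B ≤ LinearMap.ker (dotF r) := by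
      rw [lspan, Submodule.span_le]
      intro b hb
      exact hall b hb
    exact this hx
  · simp only
    set pre := B.takeWhile (fun b => decide (r ⬝ᵥ b = 0)) with hpre
    have hsplit : B = pre ++ b0 :: post := by
      rw [hpre, ← hd, List.takeWhile_append_dropWhile]
    have hpre0 : ∀ b ∈ pre, r ⬝ᵥ b = 0 := by
      intro b hb
      have := List.mem_takeWhile_imp hb
      simpa using this
    have hb0 : r ⬝ᵥ b0 ≠ 0 := by
      have h1 := List.head?_dropWhile_not (fun b => decide (r ⬝ᵥ b = 0)) B
      rw [hd] at h1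
      simpa using h1
    set N := lspan (pre ++ post.map (fun b => (r ⬝ᵥ b0) • b - (r ⬝ᵥ b) • b0)) with hN
    have hpreB : ∀ b ∈ pre, b ∈ lspan B := fun b hb =>
      mem_lspan_of_mem (by rw [hsplit]; simp [hb])
    have hpostB : ∀ b ∈ post, b ∈ lspan B := fun b hb =>
      mem_lspan_of_mem (by rw [hsplit]; simp [hb])
    have hb0B : b0 ∈ lspan B := mem_lspan_of_mem (by rw [hsplit]; simp)
    have hNle : N ≤ lspan B ⊓ LinearMap.ker (dotF r) := by
      rw [hN, lspan, Submodule.span_le]
      intro x hx
      replace hx : x ∈ pre ++ post.map (fun b => (r ⬝ᵥ b0) • b - (r ⬝ᵥ b) • b0) := hx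
      simp only [List.mem_append, List.mem_map] at hx
      rcases hx with hx | ⟨b, hb, rfl⟩
      · exact ⟨hpreB x hx, hpre0 x hx⟩
      · refine ⟨Submodule.sub_mem _ (Submodule.smul_mem _ _ (hpostB b hb))
          (Submodule.smul_mem _ _ hb0B), ?_⟩
        show r ⬝ᵥ ((r ⬝ᵥ b0) • b - (r ⬝ᵥ b) • b0) = 0
        rw [dotProduct_sub, dotProduct_smul, dotProduct_smul, smul_eq_mul, smul_eq_mul]
        ring
    have hBle : lspan B ≤ N ⊔ Submodule.span F {b0} := by
      refine Submodule.span_le.2 ?_
      intro b hb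
      replace hb : b ∈ B := hb
      rw [hsplit, List.mem_append, List.mem_cons] at hb
      have hb0' : b0 ∈ N ⊔ Submodule.span F {b0} :=
        Submodule.mem_sup_right (Submodule.mem_span_singleton_self b0)
      rcases hb with hb | rfl | hb
      · exact Submodule.mem_sup_left (mem_lspan_of_mem (List.mem_append_left _ hb))
      · exact hb0'
      · have h1 : (r ⬝ᵥ b0) • b - (r ⬝ᵥ b) • b0 ∈ N ⊔ Submodule.span F {b0} :=
          Submodule.mem_sup_left (mem_lspan_of_mem (List.mem_append_right _
            (List.mem_map.2 ⟨b, hb, rfl⟩)))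
        have h2 : b = (r ⬝ᵥ b0)⁻¹ • (((r ⬝ᵥ b0) • b - (r ⬝ᵥ b) • b0) + (r ⬝ᵥ b) • b0) := by
          rw [sub_add_cancel, smul_smul, inv_mul_cancel₀ hb0, one_smul]
        rw [SetLike.mem_coe, h2]
        exact Submodule.smul_mem _ _ (Submodule.add_mem _ h1 (Submodule.smul_mem _ _ hb0'))
    have hmem : ∀ x, x ∈ N ↔ x ∈ lspan B ∧ r ⬝ᵥ x = 0 := by
      intro x
      refine ⟨fun hx => ⟨(hNle hx).1, (hNle hx).2⟩, fun ⟨hx, hrx⟩ => ?_⟩
      obtain ⟨y, hy, z, hz, rfl⟩ := Submodule.mem_sup.1 (hBle hx)
      obtain ⟨t, rfl⟩ := Submodule.mem_span_singleton.1 hz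
      have hy0 : r ⬝ᵥ y = 0 := (hNle hy).2
      rw [dotProduct_add, hy0, zero_add, dotProduct_smul, smul_eq_mul] at hrx
      have ht : t = 0 := (mul_eq_zero.1 hrx).resolve_right hb0
      rw [ht, zero_smul, add_zero]
      exact hy
    refine ⟨?_, hmem⟩
    have hBeq : lspan B = N ⊔ Submodule.span F {b0} := by
      apply le_antisymm hBle
      refine sup_le (fun x hx => (hNle hx).1) ?_
      rw [Submodule.span_singleton_le_iff_mem]
      exact hb0B
    have hinf : N ⊓ Submodule.span F {b0} = ⊥ := by
      rw [Submodule.eq_bot_iff]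
      rintro x ⟨hx1, hx2⟩
      obtain ⟨t, rfl⟩ := Submodule.mem_span_singleton.1 hx2
      have h0 : r ⬝ᵥ (t • b0) = 0 := (hNle hx1).2
      rw [dotProduct_smul, smul_eq_mul] at h0
      rw [(mul_eq_zero.1 h0).resolve_right hb0, zero_smul]
    have hdim := Submodule.finrank_sup_add_finrank_inf_eq N (Submodule.span F {b0})
    rw [hinf, finrank_bot, add_zero, ← hBeq, finrank_span_singleton (by
      rintro rfl
      exact hb0 (by simp))] at hdim
    have hlen : B.length = (pre ++ post.map
        (fun b => (r ⬝ᵥ b0) • b - (r ⬝ᵥ b) • b0)).length + 1 := by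
      conv_lhs => rw [hsplit]
      simp
      omega
    unfold Good at hB ⊢
    rw [← hN]
    omega

/-- elimination with a list of rows -/
theorem foldl_spec (R : List (V → F)) (B : List (V → F)) (hB : Good B) :
    Good (R.foldl (fun B r => stepA r B) B) ∧
      ∀ x, x ∈ lspan (R.foldl (fun B r => stepA r B) B) ↔ x ∈ lspan B ∧ ∀ r ∈ R, r ⬝ᵥ x = 0 := by
  induction R generalizing B with
  | nil => simp [hB]
  | cons r R ih =>
    obtain ⟨h1, h2⟩ := stepA_spec r B hB
    obtain ⟨h3, h4⟩ := ih (stepA r B) h1
    refine ⟨h3, fun x => ?_⟩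
    rw [List.foldl_cons, h4, h2]
    simp only [List.mem_cons, forall_eq_or_imp]
    tauto

theorem std_good {k : ℕ} : Good ((List.finRange k).map (fun i => (Pi.single i (1 : F) : Fin k → F)))
    ∧ ∀ x, x ∈ lspan ((List.finRange k).map (fun i => (Pi.single i (1 : F) : Fin k → F))) := by
  have h : lspan ((List.finRange k).map (fun i => (Pi.single i (1 : F) : Fin k → F))) = ⊤ := by
    rw [eq_top_iff]
    intro x _
    have hx : x = ∑ v, x v • (Pi.single v (1 : F) : Fin k → F) := by
      ext w
      simp [Finset.sum_apply, Pi.single_apply]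
    rw [hx]
    refine Submodule.sum_mem _ fun v _ => Submodule.smul_mem _ _ (mem_lspan_of_mem ?_)
    exact List.mem_map.2 ⟨v, List.mem_finRange v, rfl⟩
  refine ⟨?_, fun x => by rw [h]; trivial⟩
  unfold Good
  rw [h, finrank_top, Module.finrank_fintype_fun_eq_card, List.length_map, List.length_finRange,
    Fintype.card_fin]

/-- the rows of a matrix, eliminated from the standard basis: a basis of the null space -/
theorem null_spec {k : ℕ} (T : Matrix (Fin k) (Fin k) F) :
    (((List.finRange k).map T).foldl (fun B r => stepA r B)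
      ((List.finRange k).map (fun i => (Pi.single i (1 : F) : Fin k → F)))).length
        = Module.finrank F (nul T) ∧
    lspan (((List.finRange k).map T).foldl (fun B r => stepA r B)
      ((List.finRange k).map (fun i => (Pi.single i (1 : F) : Fin k → F)))) = nul T := by
  obtain ⟨h1, h2⟩ := foldl_spec ((List.finRange k).map T)
    ((List.finRange k).map (fun i => (Pi.single i (1 : F) : Fin k → F))) std_good.1
  have h3 : lspan (((List.finRange k).map T).foldl (fun B r => stepA r B)
      ((List.finRange k).map (fun i => (Pi.single i (1 : F) : Fin k → F)))) = nul T := by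
    ext x
    rw [h2, mem_nul]
    constructor
    · rintro ⟨_, h⟩
      funext i
      exact h (T i) (List.mem_map.2 ⟨i, List.mem_finRange i, rfl⟩)
    · intro h
      refine ⟨std_good.2 x, ?_⟩
      intro r hr
      obtain ⟨i, _, rfl⟩ := List.mem_map.1 hr
      exact congrFun h i
  exact ⟨by rw [← h3]; exact h1, h3⟩

/-- membership in the support of the span -/
theorem supp_iff (B : List (V → F)) (v : V) :
    (∃ x ∈ lspan B, x v ≠ 0) ↔ ∃ b ∈ B, b v ≠ 0 := by
  constructor
  · rintro ⟨x, hx, hxv⟩
    by_contra hcon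
    push Not at hcon
    have : lspan B ≤ LinearMap.ker (LinearMap.proj v : (V → F) →ₗ[F] F) := by
      rw [lspan, Submodule.span_le]
      intro b hb
      exact hcon b hb
    exact hxv (this hx)
  · rintro ⟨b, hb, h⟩
    exact ⟨b, mem_lspan_of_mem hb, h⟩

end abs

end Crest.Agent.R304.MWNull
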