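import Crest.Agent.R304.MWSkew

/-!
# R304 / S0467, block M1a: locally optimal skew-symmetric matrices

If no change of a single entry increases (rank, support of the null space), the null space shows
the Gallai--Edmonds structure of the graph.
-/

set_option autoImplicit false
set_option linter.dupNamespace false
set_option linter.unusedSectionVars false

namespace Crest.Agent.R304.MWOpt

open Finset Matrix Crest.Agent.R304.MWSkew

variable {F : Type*} [Field F] {V : Type*} [Fintype V] [DecidableEq V]

/-- change the entry `(i, j)` by `a` (skew-symmetrically) -/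
def bump (T : Matrix V V F) (i j : V) (a : F) : Matrix V V F :=
  fun u v => T u v + (if u = i ∧ v = j then a else 0) - (if u = j ∧ v = i then a else 0)

theorem bump_skew {T : Matrix V V F} (hT : Skew T) {i j : V} (hij : i ≠ j) (a : F) :
    Skew (bump T i j a) where
  anti u v := by
    unfold bump
    rw [hT.anti u v]
    by_cases h1 : u = i ∧ v = j <;> by_cases h2 : u = j ∧ v = i
    · exact absurd (h1.1.symm.trans h2.1) hij
    · rw [if_pos h1, if_neg h2, if_neg (fun h => h2 ⟨h.2, h.1⟩), if_pos ⟨h1.2, h1.1⟩]; ring
    · rw [if_neg h1, if_pos h2, if_pos ⟨h2.2, h2.1⟩, if_neg (fun h => h1 ⟨h.2, h.1⟩)]; ring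
    · rw [if_neg h1, if_neg h2, if_neg (fun h => h2 ⟨h.2, h.1⟩),
        if_neg (fun h => h1 ⟨h.2, h.1⟩)]; ring
  diag v := by
    unfold bump
    rw [hT.diag, if_neg (fun h => hij (h.1.symm.trans h.2)),
      if_neg (fun h => hij (h.2.symm.trans h.1))]; ring

theorem bump_mulVec (T : Matrix V V F) {i j : V} (a : F) (x : V → F) :
    bump T i j a *ᵥ x = T *ᵥ x + (a * x j) • (Pi.single i (1 : F) : V → F)
      - (a * x i) • (Pi.single j (1 : F) : V → F) := by
  ext u
  simp only [mulVec, dotProduct, bump, Pi.add_apply, Pi.sub_apply, Pi.smul_apply,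
    Pi.single_apply, smul_eq_mul]
  simp only [sub_mul, add_mul, Finset.sum_sub_distrib, Finset.sum_add_distrib]
  congr 1
  · congr 1
    by_cases hu : u = i
    · simp [hu]
    · simp [hu]
  · by_cases hu : u = j
    · simp [hu]
    · simp [hu]

/-- the support of the null space -/
def Dset (T : Matrix V V F) : Set V := {v | ∃ x ∈ nul T, x v ≠ 0}

/-- local optimality with respect to changes of single entries on edges -/
structure LocOpt (adj : V → V → Prop) (T : Matrix V V F) : Prop where
  rank : ∀ i j, adj i j → ∀ a : F,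
    Module.finrank F (nul T) ≤ Module.finrank F (nul (bump T i j a))
  supp : ∀ i j, adj i j → ∀ a : F,
    Module.finrank F (nul (bump T i j a)) = Module.finrank F (nul T) →
      ¬ (Dset T ⊂ Dset (bump T i j a))

/-- null vectors are orthogonal to the image -/
theorem nul_dot {T : Matrix V V F} (hT : Skew T) {n : V → F} (hn : n ∈ nul T) (x : V → F) :
    n ⬝ᵥ (T *ᵥ x) = 0 := by
  rw [hT.dot, mem_nul.1 hn, zero_dotProduct, neg_zero]

theorem bump_nul_rel {T : Matrix V V F} (hT : Skew T) {i j : V} {a : F} (ha : a ≠ 0)
    {x : V → F} (hx : x ∈ nul (bump T i j a)) {n : V → F} (hn : n ∈ nul T) :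
    x j * n i = x i * n j := by
  have h := mem_nul.1 hx
  rw [bump_mulVec] at h
  have h2 : n ⬝ᵥ (T *ᵥ x + (a * x j) • (Pi.single i (1 : F) : V → F)
      - (a * x i) • (Pi.single j (1 : F) : V → F)) = 0 := by rw [h, dotProduct_zero]
  rw [dotProduct_sub, dotProduct_add, nul_dot hT hn, dotProduct_smul, dotProduct_smul] at h2
  simp only [dotProduct_single, mul_one, smul_eq_mul, zero_add] at h2
  have h3 : a * (x j * n i - x i * n j) = 0 := by linear_combination h2
  exact sub_eq_zero.1 ((mul_eq_zero.1 h3).resolve_left ha)

/-- (A) adjacent coordinates in the support are proportional on the null space -/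
theorem LocOpt.prop {adj : V → V → Prop} {T : Matrix V V F} (hT : Skew T) (hL : LocOpt adj T)
    {i j : V} (hij : adj i j) (hj : j ∈ Dset T) :
    ∃ c : F, ∀ x ∈ nul T, x i = c * x j := by
  by_contra hcon
  push Not at hcon
  -- then the null space gets strictly smaller
  obtain ⟨nj, hnj, hnj0⟩ := hj
  have hi : ∃ x ∈ nul T, x i ≠ 0 := by
    obtain ⟨x, hx, hx0⟩ := hcon 0
    exact ⟨x, hx, by simpa using hx0⟩
  have key : ∀ x ∈ nul (bump T i j 1), x i = 0 ∧ x j = 0 := by
    intro x hx
    have hrel := fun n hn => bump_nul_rel hT one_ne_zero hx (n := n) hn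
    have hxj : x j = 0 := by
      by_contra hxj
      obtain ⟨n, hn, hn0⟩ := hcon (x i / x j)
      apply hn0
      have := hrel n hn
      field_simp
      linear_combination this
    refine ⟨?_, hxj⟩
    have := hrel nj hnj
    rw [hxj, zero_mul] at this
    exact (mul_eq_zero.1 this.symm).resolve_right hnj0
  have hlt : nul (bump T i j 1) < nul T := by
    refine lt_of_le_of_ne ?_ ?_
    · intro x hx
      obtain ⟨h1, h2⟩ := key x hx
      have h := mem_nul.1 hx
      rw [bump_mulVec, h1, h2] at h
      rw [mem_nul]
      simpa using h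
    · intro h
      obtain ⟨x, hx, hx0⟩ := hi
      rw [← h] at hx
      exact hx0 (key x hx).1
  exact absurd (hL.rank i j hij 1) (not_le.2 (Submodule.finrank_lt_finrank_of_lt hlt))

/-- the map between the null spaces -/
def shift (j : V) (y : V → F) (a : F) : (V → F) →ₗ[F] (V → F) where
  toFun x := x + (a * x j) • y
  map_add' x z := by
    ext u; simp; ring
  map_smul' b x := by
    ext u; simp; ring

theorem finrank_le_of_inj {W₁ W₂ : Submodule F (V → F)} (φ : (V → F) →ₗ[F] (V → F))
    (h1 : ∀ x ∈ W₁, φ x ∈ W₂) (h2 : ∀ x ∈ W₁, φ x = 0 → x = 0) :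
    Module.finrank F W₁ ≤ Module.finrank F W₂ := by
  let ψ : W₁ →ₗ[F] W₂ := (φ.domRestrict W₁).codRestrict W₂ (fun x => h1 x x.2)
  have hψ : Function.Injective ψ := by
    rw [← LinearMap.ker_eq_bot, LinearMap.ker_eq_bot']
    intro x hx
    apply Subtype.ext
    apply h2 x x.2
    exact congrArg Subtype.val hx
  exact LinearMap.finrank_le_finrank_of_injective hψ

/-- (B) solutions of `T y = c e_j - e_i` are supported on `D` -/
theorem LocOpt.supported {adj : V → V → Prop} {T : Matrix V V F} [Fintype F] [DecidableEq F]
    (hcard : Fintype.card V < Fintype.card F)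
    (hT : Skew T) (hL : LocOpt adj T)
    {i j : V} (hij : adj i j) (hj : j ∈ Dset T) {c : F} (hc : ∀ x ∈ nul T, x i = c * x j)
    {y : V → F} (hy : T *ᵥ y = c • (Pi.single j (1 : F) : V → F) - Pi.single i 1)
    {k : V} (hk : k ∉ Dset T) : y k = 0 := by
  classical
  by_contra hyk
  obtain ⟨n, hn, hnj⟩ := hj
  have hk0 : ∀ x ∈ nul T, x k = 0 := by
    intro x hx
    by_contra h
    exact hk ⟨x, hx, h⟩
  -- normalise
  set z : V → F := y - (y j / n j) • n with hz
  have hzj : z j = 0 := by
    simp [hz, hnj]
  have hTz : T *ᵥ z = c • (Pi.single j (1 : F) : V → F) - Pi.single i 1 := by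
    rw [hz, mulVec_sub, mulVec_smul, mem_nul.1 hn, smul_zero, sub_zero, hy]
  have hzk : z k ≠ 0 := by
    simp only [hz, Pi.sub_apply, Pi.smul_apply, hk0 n hn, smul_zero, sub_zero]
    exact hyk
  have hzi : z i = 0 := by
    have h := hT.dot_self z
    rw [hTz, dotProduct_sub, dotProduct_smul] at h
    simp only [dotProduct_single, mul_one, hzj, smul_zero, zero_sub] at h
    simpa using h
  -- a good value `a`
  obtain ⟨a, ha0, ha⟩ : ∃ a : F, a ≠ 0 ∧ ∀ d, d ∈ Dset T → ∃ x ∈ nul T, x d + a * x j * z d ≠ 0 := by
    by_contra hcon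
    push Not at hcon
    have : Nonempty V := ⟨k⟩
    choose! d hd1 hd2 using hcon
    have hinj : Set.InjOn d {a | a ≠ 0} := by
      intro a ha b hb hab
      by_contra hne
      have h1 := hd2 a ha
      have h2 := hd2 b hb
      rw [← hab] at h2
      have h3 := h1 n hn
      have h4 := h2 n hn
      have h5 : (a - b) * (n j * z (d a)) = 0 := by linear_combination h3 - h4
      have h6 : n j * z (d a) = 0 := (mul_eq_zero.1 h5).resolve_left (sub_ne_zero.2 hne)
      have h7 : z (d a) = 0 := (mul_eq_zero.1 h6).resolve_left hnj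
      obtain ⟨x, hx, hx0⟩ := hd1 a ha
      apply hx0
      have := h1 x hx
      rw [h7, mul_zero, add_zero] at this
      exact this
    have hsub : (Finset.univ.filter fun a : F => a ≠ 0).card ≤ (Finset.univ.erase k).card := by
      apply Finset.card_le_card_of_injOn d
      · intro a ha
        have ha' : a ≠ 0 := by simpa using ha
        simp only [Finset.coe_erase, Finset.coe_univ, Set.mem_sdiff, Set.mem_univ, true_and,
          Set.mem_singleton_iff]
        intro h
        exact hk (h ▸ hd1 a ha')
      · intro a ha b hb hab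
        exact hinj (by simpa using ha) (by simpa using hb) hab
    rw [Finset.filter_ne' Finset.univ (0 : F), Finset.card_erase_of_mem (Finset.mem_univ _),
      Finset.card_erase_of_mem (Finset.mem_univ _), Finset.card_univ, Finset.card_univ] at hsub
    have : 0 < Fintype.card V := Fintype.card_pos_iff.2 ⟨k⟩
    omega
  -- the null space of the changed matrix
  have hfwd : ∀ x ∈ nul T, x + (a * x j) • z ∈ nul (bump T i j a) := by
    intro x hx
    rw [mem_nul, bump_mulVec, mulVec_add, mulVec_smul, mem_nul.1 hx, hTz]
    simp only [Pi.add_apply, Pi.smul_apply, hzj, hzi, smul_zero, add_zero, hc x hx]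
    ext u
    simp only [Pi.add_apply, Pi.sub_apply, Pi.smul_apply, smul_eq_mul, Pi.zero_apply]
    ring
  have hbwd : ∀ x ∈ nul (bump T i j a), x - (a * x j) • z ∈ nul T := by
    intro x hx
    have h1 := bump_nul_rel hT ha0 hx hn
    rw [hc n hn] at h1
    have h2 : x i = c * x j := by
      have : n j * (c * x j - x i) = 0 := by linear_combination h1
      exact (sub_eq_zero.1 ((mul_eq_zero.1 this).resolve_left hnj)).symm
    have h3 := mem_nul.1 hx
    rw [bump_mulVec] at h3
    rw [mem_nul, mulVec_sub, mulVec_smul, hTz]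
    have h4 : T *ᵥ x = (a * x i) • (Pi.single j (1 : F) : V → F)
        - (a * x j) • (Pi.single i (1 : F) : V → F) := by
      have := h3
      ext u
      have h5 := congrFun h3 u
      simp only [Pi.add_apply, Pi.sub_apply, Pi.zero_apply] at h5 ⊢
      linear_combination h5
    rw [h4, h2]
    ext u
    simp only [Pi.sub_apply, Pi.smul_apply, smul_eq_mul, Pi.zero_apply]
    ring
  have hrank : Module.finrank F (nul (bump T i j a)) = Module.finrank F (nul T) := by
    apply le_antisymm
    · refine finrank_le_of_inj (shift j z (-a)) ?_ ?_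
      · intro x hx
        have := hbwd x hx
        convert this using 1
        ext u
        simp [shift]
        ring
      · intro x hx h
        have hj' := congrFun h j
        simp [shift, hzj] at hj'
        ext u
        have := congrFun h u
        simpa [shift, hj'] using this
    · refine finrank_le_of_inj (shift j z a) ?_ ?_
      · intro x hx
        exact hfwd x hx
      · intro x hx h
        have hj' := congrFun h j
        simp [shift, hzj] at hj'
        ext u
        have := congrFun h u
        simpa [shift, hj'] using this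
  apply hL.supp i j hij a hrank
  rw [Set.ssubset_iff_exists]
  refine ⟨fun d hd => ?_, k, ?_, hk⟩
  · obtain ⟨x, hx, hx0⟩ := ha d hd
    exact ⟨_, hfwd x hx, by simpa using hx0⟩
  · refine ⟨_, hfwd n hn, ?_⟩
    simp only [Pi.add_apply, Pi.smul_apply, hk0 n hn, zero_add, smul_eq_mul]
    exact mul_ne_zero (mul_ne_zero ha0 hnj) hzk

end Crest.Agent.R304.MWOpt
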