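import Crest.Agent.R309.PTSolve

/-!
# R304 / S0467: a prime above a unary bound, in polynomial time
-/

set_option autoImplicit false
set_option linter.dupNamespace false

namespace Crest.Agent.R304.MWPrime

open Crest.Agent.Lib.PT Crest.Agent.R309.PTX

/-- trial division with a bound `B` on the tested divisors -/
def isP (B p : ℕ) : Prop := 2 ≤ p ∧ ∀ d < B, (2 ≤ d ∧ d < p) → p % d ≠ 0

instance (B p : ℕ) : Decidable (isP B p) := by unfold isP; infer_instance

theorem isP_iff {B p : ℕ} (h : p ≤ B) : isP B p ↔ p.Prime := by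
  rw [Nat.prime_def_lt', isP]
  refine and_congr_right (fun _ => ⟨fun hd m h2 hm hdvd => ?_, fun hd d hdB hd2 hmod => ?_⟩)
  · exact hd m (by omega) ⟨h2, hm⟩ (Nat.mod_eq_zero_of_dvd hdvd)
  · exact hd d hd2.1 hd2.2 (Nat.dvd_of_mod_eq_zero hmod)

/-- the least prime above `n` -/
def nextPrime (n : ℕ) : ℕ :=
  min (((List.range (2 * n + 5)).find? (fun p => decide (n < p ∧ isP (2 * n + 5) p))).getD 2)
    (2 * n + 5)

theorem nextPrime_spec (n : ℕ) :
    n < nextPrime n ∧ (nextPrime n).Prime ∧ nextPrime n ≤ 2 * n + 4 := by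
  obtain ⟨q, hq, hnq, hq2⟩ : ∃ q : ℕ, q.Prime ∧ n < q ∧ q ≤ 2 * n + 4 := by
    rcases Nat.eq_zero_or_pos n with rfl | hn
    · exact ⟨2, Nat.prime_two, by norm_num, by norm_num⟩
    · obtain ⟨q, hq, h1, h2⟩ := Nat.exists_prime_lt_and_le_two_mul n (by omega)
      exact ⟨q, hq, h1, by omega⟩
  have hs : ((List.range (2 * n + 5)).find?
      (fun p => decide (n < p ∧ isP (2 * n + 5) p))).isSome := by
    rw [List.find?_isSome]
    refine ⟨q, by rw [List.mem_range]; omega, ?_⟩
    rw [decide_eq_true_iff]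
    exact ⟨hnq, (isP_iff (by omega)).2 hq⟩
  obtain ⟨p, hp⟩ := Option.isSome_iff_exists.1 hs
  have h1 := List.find?_some hp
  have h2 := List.mem_of_find?_eq_some hp
  rw [List.mem_range] at h2
  rw [decide_eq_true_iff] at h1
  have e : nextPrime n = p := by
    unfold nextPrime
    rw [hp, Option.getD_some]
    exact min_eq_left (by omega)
  rw [e]
  exact ⟨h1.1, (isP_iff (by omega)).1 h1.2, by omega⟩

theorem lt_nextPrime (n : ℕ) : n < nextPrime n := (nextPrime_spec n).1

theorem prime_nextPrime (n : ℕ) : (nextPrime n).Prime := (nextPrime_spec n).2.1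

theorem nextPrime_le (n : ℕ) : nextPrime n ≤ 2 * n + 4 := (nextPrime_spec n).2.2

variable {γ : Type} [PTCode γ]

theorem ptu_nextPrime {n : γ → ℕ} (hn : PTU n) : PTU (fun c => nextPrime (n c)) := by
  have hb : PTU (fun c => 2 * n c + 5) := by fun_prop
  have hnF : PTF n := PTU.toPTF hn
  have hp : PTF (fun c => ((List.range (2 * n c + 5)).find?
      (fun p => decide (n c < p ∧ isP (2 * n c + 5) p))).getD 2) := by
    refine PTF.optionGetD (PTF.find? (PTF.range hb) ?_) (PTF.const 2)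
    refine PTPred.toPTF (α := γ × ℕ) (p := fun x => n x.1 < x.2 ∧ isP (2 * n x.1 + 5) x.2) ?_
    refine PTPred.and ?_ (PTPred.and ?_ ?_)
    · exact PTPred.natLt (PTF.comp hnF PTF.fst) PTF.snd
    · exact PTPred.natLe (PTF.const 2) PTF.snd
    · refine PTPred.forall_lt (n := fun x : γ × ℕ => 2 * n x.1 + 5)
        (p := fun x d => (2 ≤ d ∧ d < x.2) → x.2 % d ≠ 0) (PTU.comp (n := fun c => 2 * n c + 5) (f := fun x : γ × ℕ => x.1) hb PTF.fst) ?_
      show PTPred (fun y : (γ × ℕ) × ℕ => (2 ≤ y.2 ∧ y.2 < y.1.2) → y.1.2 % y.2 ≠ 0)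
      have h1 : PTF (fun y : (γ × ℕ) × ℕ => y.2) := PTF.snd
      have h2 : PTF (fun y : (γ × ℕ) × ℕ => y.1.2) := PTF.comp PTF.snd PTF.fst
      exact PTPred.imp (PTPred.and (PTPred.natLe (PTF.const 2) h1) (PTPred.natLt h1 h2))
        (PTPred.not (PTPred.natEq (PTF.natMod h2 h1) (PTF.const 0)))
  exact PTF.natMinUn hp hb

theorem ptf_nextPrime {n : γ → ℕ} (hn : PTU n) : PTF (fun c => nextPrime (n c)) := by
  exact PTU.toPTF (ptu_nextPrime hn)

end Crest.Agent.R304.MWPrime
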