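import Crest.Agent.R309.PTSolve

/-!
# Row 304, S0467: the interface between the Gallai-Edmonds oracle (M1) and the primal-dual routine (M2)
-/

set_option autoImplicit false

namespace Crest.Agent.R304.Pd292O

open Crest.Agent.Lib.PT

/-- reachability inside `D` (for `v ∈ D`: the component of `v` in the graph induced on `D`) -/
def comp {k : ℕ} (adj : Fin k → Fin k → Prop) (D : Finset (Fin k)) (v u : Fin k) : Prop :=
  Relation.ReflTransGen (fun a b => adj a b ∧ b ∈ D) v u

/-- what the oracle promises for the graph `adj` on `k` nodes -/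
structure OracleSpec (k : ℕ) (adj : Fin k → Fin k → Prop) (D : Finset (Fin k)) : Prop where
  crit : ∀ v ∈ D, ∃ s : Fin k → Fin k, ∀ u, comp adj D v u → u ≠ v →
    comp adj D v (s u) ∧ s u ≠ v ∧ s u ≠ u ∧ s (s u) = u ∧ adj u (s u)
  pm : D = ∅ → ∃ s : Fin k → Fin k, ∀ u, s u ≠ u ∧ s (s u) = u ∧ adj u (s u)
  cnt : D.Nonempty → ∃ I : Finset (Fin k), I ⊆ D ∧
    (∀ a ∈ I, ∀ b ∈ I, comp adj D a b → a = b) ∧
    ∀ A : Finset (Fin k), (∀ a ∈ A, a ∉ D ∧ ∃ d ∈ D, adj a d) → A.card + 1 ≤ I.card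

/-- adjacency read off a table -/
def tadj (Q : List (List Bool)) (i j : ℕ) : Prop := (Q.getD i []).getD j false = true

/-- the table is a symmetric irreflexive `k × k` table -/
structure GoodTab (k : ℕ) (Q : List (List Bool)) : Prop where
  len : Q.length = k
  row : ∀ r ∈ Q, r.length = k
  symm : ∀ i j, i < k → j < k → tadj Q i j → tadj Q j i
  irr : ∀ i, i < k → ¬ tadj Q i i

/-- the oracle -/
def Oracle : Prop :=
  ∃ g : Un × List (List Bool) → List Bool, PTF g ∧ ∀ (k : ℕ) (Q : List (List Bool)), GoodTab k Q →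
    OracleSpec k (fun i j => tadj Q (i : ℕ) (j : ℕ))
      (Finset.univ.filter fun v : Fin k => (g (⟨k⟩, Q)).getD (v : ℕ) false = true)

end Crest.Agent.R304.Pd292O
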