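import Crest.Agent.R304.MWSearch
import Crest.Agent.R304.MWPrime
import Crest.Agent.R304.Pd292O
import Crest.Agent.R309.PTSolve

/-!
# R304 / S0467, block M1c: the matching oracle is poly-time
-/

set_option autoImplicit false
set_option linter.dupNamespace false
set_option linter.unusedSectionVars false

namespace Crest.Agent.R304.MWPT

open Crest.Agent.Lib.PT Crest.Agent.R309.PTX Crest.Agent.R304.MWList

variable {γ : Type} [PTCode γ]

theorem ptf_dotp {k p : γ → ℕ} {r b : γ → List ℕ} (hk : PTU k) (hp : PTF p) (hr : PTF r)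
    (hb : PTF b) : PTF (fun c => dotp (k c) (p c) (r c) (b c)) := by
  have h : PTF (fun x : (Un × ℕ) × List ℕ × List ℕ => dotp x.1.1.val x.1.2 x.2.1 x.2.2) := by
    unfold dotp
    pt_solve
  exact PTF.comp (g := fun x : (Un × ℕ) × List ℕ × List ℕ => dotp x.1.1.val x.1.2 x.2.1 x.2.2)
    (f := fun c => ((⟨k c⟩, p c), r c, b c)) h
    (PTF.prodMk (PTF.prodMk hk hp) (PTF.prodMk hr hb))

theorem ptf_combp {k p c0 c1 : γ → ℕ} {b b0 : γ → List ℕ} (hk : PTU k) (hp : PTF p)
    (hc0 : PTF c0) (hc1 : PTF c1) (hb : PTF b) (hb0 : PTF b0) :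
    PTF (fun c => combp (k c) (p c) (c0 c) (c1 c) (b c) (b0 c)) := by
  have h : PTF (fun x : (Un × ℕ) × (ℕ × ℕ) × List ℕ × List ℕ =>
      combp x.1.1.val x.1.2 x.2.1.1 x.2.1.2 x.2.2.1 x.2.2.2) := by
    unfold combp
    pt_solve
  exact PTF.comp (g := fun x : (Un × ℕ) × (ℕ × ℕ) × List ℕ × List ℕ =>
      combp x.1.1.val x.1.2 x.2.1.1 x.2.1.2 x.2.2.1 x.2.2.2)
    (f := fun c => ((⟨k c⟩, p c), (c0 c, c1 c), b c, b0 c)) h
    (PTF.prodMk (PTF.prodMk hk hp) (PTF.prodMk (PTF.prodMk hc0 hc1) (PTF.prodMk hb hb0)))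

/-- the elimination step -/
theorem ptf_stepL : PTF (fun x : (Un × ℕ) × List (List ℕ) × List ℕ =>
    stepL x.1.1.val x.1.2 x.2.2 x.2.1) := by
  have hpred : PTF₂ (fun (x : (Un × ℕ) × List (List ℕ) × List ℕ) (b : List ℕ) =>
      decide (dotp x.1.1.val x.1.2 x.2.2 b = 0)) := by
    refine PTPred.toPTF (PTPred.natEq (ptf_dotp ?_ ?_ ?_ ?_) (PTF.const 0)) <;> fun_prop
  have hd : PTF (fun x : (Un × ℕ) × List (List ℕ) × List ℕ =>
      x.2.1.dropWhile (fun b => decide (dotp x.1.1.val x.1.2 x.2.2 b = 0))) :=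
    PTF.dropWhile (by fun_prop) hpred
  have ht : PTF (fun x : (Un × ℕ) × List (List ℕ) × List ℕ =>
      x.2.1.takeWhile (fun b => decide (dotp x.1.1.val x.1.2 x.2.2 b = 0))) :=
    PTF.takeWhile (by fun_prop) hpred
  refine PTF.of_eq (PTF.listCasesOn hd (f := fun x => x.2.1) (g := fun x b0 post =>
    x.2.1.takeWhile (fun b => decide (dotp x.1.1.val x.1.2 x.2.2 b = 0)) ++
      post.map (fun b => combp x.1.1.val x.1.2 (dotp x.1.1.val x.1.2 x.2.2 b0)
        (dotp x.1.1.val x.1.2 x.2.2 b) b b0)) (by fun_prop) ?_) (fun x => by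
          unfold stepL
          rcases x.2.1.dropWhile (fun b => decide (dotp x.1.1.val x.1.2 x.2.2 b = 0)) with
            _ | ⟨b0, post⟩ <;> rfl)
  refine PTF.append (PTF.comp (g := fun x : (Un × ℕ) × List (List ℕ) × List ℕ =>
      x.2.1.takeWhile (fun b => decide (dotp x.1.1.val x.1.2 x.2.2 b = 0))) ht PTF.fst)
    (PTF.map (by fun_prop) ?_)
  refine ptf_combp ?_ ?_ (ptf_dotp ?_ ?_ ?_ ?_) (ptf_dotp ?_ ?_ ?_ ?_) ?_ ?_ <;> fun_prop

/-- size invariant of the elimination -/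
def BInv (k p : ℕ) (B : List (List ℕ)) : Prop :=
  B.length ≤ k ∧ ∀ b ∈ B, sz b ≤ k * (2 * (p + 1) + 1)

theorem sz_combp {k p c0 c1 : ℕ} {b b0 : List ℕ} (hp : 0 < p) :
    sz (combp k p c0 c1 b b0) ≤ k * (2 * (p + 1) + 1) := by
  have h := sz_list_le (l := combp k p c0 c1 b b0) (m := p + 1) (by
    intro x hx
    unfold combp at hx
    obtain ⟨i, _, rfl⟩ := List.mem_map.1 hx
    have := Nat.mod_lt (c0 * b.getD i 0 + (p - c1) * b0.getD i 0) hp
    have := sz_nat_le ((c0 * b.getD i 0 + (p - c1) * b0.getD i 0) % p)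
    omega)
  have hlen : (combp k p c0 c1 b b0).length = k := by simp [combp]
  rwa [hlen] at h

theorem binv_step {k p : ℕ} (hp : 0 < p) {B : List (List ℕ)} (hB : BInv k p B) (r : List ℕ) :
    BInv k p (stepL k p r B) := by
  unfold stepL
  rcases hd : B.dropWhile (fun b => decide (dotp k p r b = 0)) with _ | ⟨b0, post⟩
  · simpa using hB
  · simp only
    have hsplit : B = B.takeWhile (fun b => decide (dotp k p r b = 0)) ++ b0 :: post := by
      rw [← hd, List.takeWhile_append_dropWhile]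
    have hlen := congrArg List.length hsplit
    rw [List.length_append, List.length_cons] at hlen
    refine ⟨?_, ?_⟩
    · rw [List.length_append, List.length_map]
      have := hB.1
      omega
    · intro b hb
      rw [List.mem_append, List.mem_map] at hb
      rcases hb with hb | ⟨b', _, rfl⟩
      · exact hB.2 b ((List.takeWhile_sublist _).subset hb)
      · exact sz_combp hp

theorem binv_foldl {k p : ℕ} (hp : 0 < p) (R : List (List ℕ)) {B : List (List ℕ)}
    (hB : BInv k p B) : BInv k p (R.foldl (fun B r => stepL k p r B) B) := by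
  induction R generalizing B with
  | nil => exact hB
  | cons r R ih => rw [List.foldl_cons]; exact ih (binv_step hp hB r)

theorem binv_std {k p : ℕ} : BInv k p (stdL k) := by
  refine ⟨by simp [stdL], ?_⟩
  intro b hb
  unfold stdL at hb
  obtain ⟨i, _, rfl⟩ := List.mem_map.1 hb
  have h := sz_list_le (l := (List.range k).map (fun j => if j = i then 1 else 0)) (m := p + 1) (by
    intro x hx
    obtain ⟨j, _, rfl⟩ := List.mem_map.1 hx
    have := sz_nat_le (if j = i then 1 else 0)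
    split_ifs at this ⊢ <;> omega)
  have hlen : ((List.range k).map (fun j => if j = i then 1 else 0)).length = k := by simp
  rwa [hlen] at h

theorem BInv.sz_le {k p : ℕ} {B : List (List ℕ)} (hB : BInv k p B) :
    sz B ≤ k * (2 * (k * (2 * (p + 1) + 1)) + 1) :=
  (sz_list_le hB.2).trans (Nat.mul_le_mul_right _ hB.1)

theorem ptf_stdL {k : γ → ℕ} (hk : PTU k) : PTF (fun c => stdL (k c)) := by
  have h : PTF (fun x : Un => stdL x.val) := by
    unfold stdL
    pt_solve
  exact PTF.comp (g := fun x : Un => stdL x.val) (f := fun c => ⟨k c⟩) h hk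

theorem ptf_rowsL : PTF (fun x : Un × List (List ℕ) => rowsL x.1.val x.2) := by
  unfold rowsL
  pt_solve

/-- the null basis -/
theorem ptf_nullL : PTF (fun x : (Un × Un) × List (List ℕ) =>
    nullL x.1.1.val (x.1.2.val + 1) x.2) := by
  unfold nullL
  refine PTF.foldl (f := fun (x : (Un × Un) × List (List ℕ)) B r =>
      stepL x.1.1.val (x.1.2.val + 1) r B)
    (PTF.comp (g := fun x : Un × List (List ℕ) => rowsL x.1.val x.2)
      (f := fun x : (Un × Un) × List (List ℕ) => (x.1.1, x.2)) ptf_rowsL (by fun_prop))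
    ?_ (ptf_stdL (by fun_prop))
    (B := fun x => x.1.1.val * (2 * (x.1.1.val * (2 * (x.1.2.val + 1 + 1) + 1)) + 1)) ?_ ?_
  · refine PTF.comp (g := fun x : (Un × ℕ) × List (List ℕ) × List ℕ =>
      stepL x.1.1.val x.1.2 x.2.2 x.2.1)
      (f := fun y : ((Un × Un) × List (List ℕ)) × List (List ℕ) × List ℕ =>
        ((y.1.1.1, y.1.1.2.val + 1), y.2.1, y.2.2)) ptf_stepL ?_
    pt_solve
  · have h1 : PTU (fun x : (Un × Un) × List (List ℕ) =>
      x.1.1.val * (2 * (x.1.1.val * (2 * (x.1.2.val + 1 + 1) + 1)) + 1)) := by fun_prop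
    exact h1.pb
  · intro x i _
    exact (binv_foldl (Nat.succ_pos _) _ binv_std).sz_le

theorem ptf_suppL : PTF (fun x : (Un × ℕ) × List (List ℕ) => suppL x.1.1.val x.1.2 x.2) := by
  unfold suppL
  pt_solve

theorem ptf_bumpL : PTF (fun x : (Un × ℕ) × List (List ℕ) × ℕ × ℕ × ℕ =>
    bumpL x.1.1.val x.1.2 x.2.1 x.2.2.1 x.2.2.2.1 x.2.2.2.2) := by
  unfold bumpL
  pt_solve

theorem ptf_bumpL' {k p i j a : γ → ℕ} {T : γ → List (List ℕ)} (hk : PTU k) (hp : PTF p)
    (hT : PTF T) (hi : PTF i) (hj : PTF j) (ha : PTF a) :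
    PTF (fun c => bumpL (k c) (p c) (T c) (i c) (j c) (a c)) :=
  PTF.comp (g := fun x : (Un × ℕ) × List (List ℕ) × ℕ × ℕ × ℕ =>
    bumpL x.1.1.val x.1.2 x.2.1 x.2.2.1 x.2.2.2.1 x.2.2.2.2)
    (f := fun c => ((⟨k c⟩, p c), T c, i c, j c, a c)) ptf_bumpL
    (PTF.prodMk (PTF.prodMk hk hp) (PTF.prodMk hT (PTF.prodMk hi (PTF.prodMk hj ha))))

theorem ptu_potL : PTU (fun x : (Un × Un) × List (List ℕ) =>
    potL x.1.1.val (x.1.2.val + 1) x.2) := by
  unfold potL
  have h1 := ptf_nullL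
  have h2 : PTF (fun x : (Un × Un) × List (List ℕ) =>
      suppL x.1.1.val (x.1.2.val + 1) (nullL x.1.1.val (x.1.2.val + 1) x.2)) := by
    refine PTF.comp (g := fun x : (Un × ℕ) × List (List ℕ) => suppL x.1.1.val x.1.2 x.2)
      (f := fun x : (Un × Un) × List (List ℕ) => ((x.1.1, x.1.2.val + 1),
        nullL x.1.1.val (x.1.2.val + 1) x.2)) ptf_suppL ?_
    refine PTF.prodMk (by pt_solve) h1
  refine PTU.add (PTU.mul (PTU.sub (by fun_prop) (PTU.length h1)) (by fun_prop))
    (PTU.countP (p := fun _ b => id b) h2 ?_)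
  show PTF (fun q : ((Un × Un) × List (List ℕ)) × Bool => q.2)
  fun_prop

theorem ptu_potL' {k q : γ → ℕ} {T : γ → List (List ℕ)} (hk : PTU k) (hq : PTU q)
    (hT : PTF T) : PTU (fun c => potL (k c) (q c + 1) (T c)) :=
  PTU.comp (n := fun x : (Un × Un) × List (List ℕ) => potL x.1.1.val (x.1.2.val + 1) x.2)
    (f := fun c => ((⟨k c⟩, ⟨q c⟩), T c)) ptu_potL
    (PTF.prodMk (PTF.prodMk hk hq) hT)

theorem ptf_nullL' {k q : γ → ℕ} {T : γ → List (List ℕ)} (hk : PTU k) (hq : PTU q)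
    (hT : PTF T) : PTF (fun c => nullL (k c) (q c + 1) (T c)) :=
  PTF.comp (g := fun x : (Un × Un) × List (List ℕ) => nullL x.1.1.val (x.1.2.val + 1) x.2)
    (f := fun c => ((⟨k c⟩, ⟨q c⟩), T c)) ptf_nullL
    (PTF.prodMk (PTF.prodMk hk hq) hT)

theorem ptf_suppL' {k p : γ → ℕ} {B : γ → List (List ℕ)} (hk : PTU k) (hp : PTF p)
    (hB : PTF B) : PTF (fun c => suppL (k c) (p c) (B c)) :=
  PTF.comp (g := fun x : (Un × ℕ) × List (List ℕ) => suppL x.1.1.val x.1.2 x.2)
    (f := fun c => ((⟨k c⟩, p c), B c)) ptf_suppL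
    (PTF.prodMk (PTF.prodMk hk hp) hB)

theorem ptf_cands : PTF (fun x : (Un × Un) × List (List Bool) =>
    cands x.1.1.val (x.1.2.val + 1) x.2) := by
  unfold cands adjL
  pt_solve

theorem ptf_cands' {k q : γ → ℕ} {Q : γ → List (List Bool)} (hk : PTU k) (hq : PTU q)
    (hQ : PTF Q) : PTF (fun c => cands (k c) (q c + 1) (Q c)) :=
  PTF.comp (g := fun x : (Un × Un) × List (List Bool) => cands x.1.1.val (x.1.2.val + 1) x.2)
    (f := fun c => ((⟨k c⟩, ⟨q c⟩), Q c)) ptf_cands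
    (PTF.prodMk (PTF.prodMk hk hq) hQ)

theorem ptf_searchStep {k q : γ → ℕ} {Q : γ → List (List Bool)} {T : γ → List (List ℕ)}
    (hk : PTU k) (hq : PTU q) (hQ : PTF Q) (hT : PTF T) :
    PTF (fun c => searchStep (k c) (q c + 1) (Q c) (T c)) := by
  have hk' : PTU (fun y : γ × (ℕ × ℕ × ℕ) => k y.1) := PTU.comp hk PTF.fst
  have hq' : PTU (fun y : γ × (ℕ × ℕ × ℕ) => q y.1) := PTU.comp hq PTF.fst
  have hT' : PTF (fun y : γ × (ℕ × ℕ × ℕ) => T y.1) := PTF.comp hT PTF.fst
  have hq1 : PTF (fun y : γ × (ℕ × ℕ × ℕ) => q y.1 + 1) :=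
    PTU.toPTF (PTU.add hq' (PTU.const 1))
  have h1 : PTF (fun y : γ × (ℕ × ℕ × ℕ) => y.2.1) := by fun_prop
  have h2 : PTF (fun y : γ × (ℕ × ℕ × ℕ) => y.2.2.1) := by fun_prop
  have h3 : PTF (fun y : γ × (ℕ × ℕ × ℕ) => y.2.2.2) := by fun_prop
  have hbump : PTF (fun y : γ × (ℕ × ℕ × ℕ) =>
      bumpL (k y.1) (q y.1 + 1) (T y.1) y.2.1 y.2.2.1 y.2.2.2) :=
    ptf_bumpL' hk' hq1 hT' h1 h2 h3
  have hfind : PTF (fun c => (cands (k c) (q c + 1) (Q c)).find? (fun a =>
        decide (potL (k c) (q c + 1) (T c) <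
          potL (k c) (q c + 1) (bumpL (k c) (q c + 1) (T c) a.1 a.2.1 a.2.2)))) := by
    refine PTF.find? (ptf_cands' hk hq hQ) ?_
    exact PTPred.toPTF (α := γ × (ℕ × ℕ × ℕ)) (p := fun y =>
      potL (k y.1) (q y.1 + 1) (T y.1) <
          potL (k y.1) (q y.1 + 1) (bumpL (k y.1) (q y.1 + 1) (T y.1) y.2.1 y.2.2.1 y.2.2.2))
      (PTU.lt (ptu_potL' hk' hq' hT') (ptu_potL' hk' hq' hbump))
  refine PTF.of_eq (PTF.optionCasesOn hfind (f := fun c => T c)
    (g := fun c a => bumpL (k c) (q c + 1) (T c) a.1 a.2.1 a.2.2) hT hbump) (fun c => ?_)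
  unfold searchStep
  generalize (cands (k c) (q c + 1) (Q c)).find? (fun a =>
        decide (potL (k c) (q c + 1) (T c) <
          potL (k c) (q c + 1) (bumpL (k c) (q c + 1) (T c) a.1 a.2.1 a.2.2))) = o
  cases o <;> rfl

theorem sz_bumpL {k p : ℕ} (hp : 0 < p) (T : List (List ℕ)) (i j a : ℕ) :
    sz (bumpL k p T i j a) ≤ k * (2 * (k * (2 * (p + 1) + 1)) + 1) := by
  have h := sz_list_le (l := bumpL k p T i j a) (m := k * (2 * (p + 1) + 1)) (by
    intro r hr
    unfold bumpL at hr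
    obtain ⟨u, _, rfl⟩ := List.mem_map.1 hr
    have h := sz_list_le (l := (List.range k).map (fun v =>
      ((T.getD u []).getD v 0 + (if u = i ∧ v = j then a else 0)
      + (if u = j ∧ v = i then p - a else 0)) % p)) (m := p + 1) (by
        intro x hx
        obtain ⟨v, _, rfl⟩ := List.mem_map.1 hx
        have h1 := Nat.mod_lt ((T.getD u []).getD v 0 + (if u = i ∧ v = j then a else 0)
          + (if u = j ∧ v = i then p - a else 0)) hp
        have h2 := sz_nat_le (((T.getD u []).getD v 0 + (if u = i ∧ v = j then a else 0)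
          + (if u = j ∧ v = i then p - a else 0)) % p)
        omega)
    rwa [List.length_map, List.length_range] at h)
  have hlen : (bumpL k p T i j a).length = k := by simp [bumpL]
  rwa [hlen] at h

theorem searchStep_or (k p : ℕ) (Q : List (List Bool)) (T : List (List ℕ)) :
    searchStep k p Q T = T ∨ ∃ c : ℕ × ℕ × ℕ, searchStep k p Q T = bumpL k p T c.1 c.2.1 c.2.2 := by
  unfold searchStep
  split
  · exact Or.inl rfl
  · exact Or.inr ⟨_, rfl⟩

theorem ptf_search {k q : γ → ℕ} {Q : γ → List (List Bool)} (hk : PTU k) (hq : PTU q)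
    (hQ : PTF Q) : PTF (fun c => search (k c) (q c + 1) (Q c)) := by
  unfold search
  have hn : PTU (fun c => (k c + 1) * (k c + 1)) := by fun_prop
  refine PTF.iterate' (n := fun c => (k c + 1) * (k c + 1))
    (f := fun c T => searchStep (k c) (q c + 1) (Q c) T) (a := fun _ => [])
    hn (ptf_searchStep (k := fun y : γ × List (List ℕ) => k y.1) (q := fun y => q y.1)
      (Q := fun y => Q y.1) (T := fun y => y.2) (PTU.comp hk PTF.fst) (PTU.comp hq PTF.fst)
      (PTF.comp hQ PTF.fst) PTF.snd) (PTF.const _)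
    (B := fun c => k c * (2 * (k c * (2 * (q c + 1 + 1) + 1)) + 1)) ?_ ?_
  · have h1 : PTU (fun c => k c * (2 * (k c * (2 * (q c + 1 + 1) + 1)) + 1)) := by fun_prop
    exact h1.pb
  · intro x i _
    induction i with
    | zero => simp
    | succ i ih =>
      rw [Function.iterate_succ_apply']
      rcases searchStep_or (k x) (q x + 1) (Q x)
        ((fun T => searchStep (k x) (q x + 1) (Q x) T)^[i] []) with h | ⟨c, h⟩
      · rw [h]
        exact ih (by omega)
      · rw [h]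
        exact sz_bumpL (Nat.succ_pos _) _ _ _ _

/-- the oracle as a poly-time function -/
def orc (x : Un × List (List Bool)) : List Bool :=
  oracle x.1.val (MWPrime.nextPrime x.1.val - 1 + 1) x.2

theorem ptf_orc : PTF orc := by
  unfold orc oracle
  have hk : PTU (fun x : Un × List (List Bool) => x.1.val) := by fun_prop
  have hq : PTU (fun x : Un × List (List Bool) => MWPrime.nextPrime x.1.val - 1) :=
    PTU.sub (MWPrime.ptu_nextPrime hk) (PTU.const 1)
  have hq1 : PTF (fun x : Un × List (List Bool) => MWPrime.nextPrime x.1.val - 1 + 1) :=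
    PTU.toPTF (PTU.add hq (PTU.const 1))
  exact ptf_suppL' hk hq1 (ptf_nullL' hk hq (ptf_search hk hq PTF.snd))

theorem adjL_iff (Q : List (List Bool)) (i j : ℕ) : adjL Q i j = true ↔ Pd292O.tadj Q i j :=
  Iff.rfl

/-- the oracle exists -/
theorem oracle_exists : Pd292O.Oracle := by
  refine ⟨orc, ptf_orc, fun k Q hQ => ?_⟩
  have hp := MWPrime.prime_nextPrime k
  have hlt := MWPrime.lt_nextPrime k
  have he : MWPrime.nextPrime k - 1 + 1 = MWPrime.nextPrime k := by omega
  have h := MWSearch.oracle_spec (k := k) (p := MWPrime.nextPrime k) hp hlt (Q := Q)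
    (fun i j hij => hQ.symm i j i.2 j.2 hij)
    (fun i => by
      have := hQ.irr i i.2
      unfold Pd292O.tadj at this
      unfold adjL
      simpa using this)
  have horc : orc (⟨k⟩, Q) = oracle k (MWPrime.nextPrime k) Q := by
    unfold orc
    rw [he]
  rw [horc]
  exact ⟨h.crit, h.pm, h.cnt⟩

end Crest.Agent.R304.MWPT
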