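import Crest.Agent.R304.MWList

/-!
# R304 / S0467, block M1b: correctness of the local search and the oracle
-/

set_option autoImplicit false
set_option linter.dupNamespace false
set_option linter.unusedSectionVars false

namespace Crest.Agent.R304.MWSearch

open Matrix Crest.Agent.R304.MWSkew Crest.Agent.R304.MWNull Crest.Agent.R304.MWOpt
  Crest.Agent.R304.MWStruct Crest.Agent.R304.MWList

/-- a bounded potential forces a fixed point -/
theorem iterate_fixed {α : Type*} (f : α → α) (pot : α → ℕ) (M : ℕ)
    (h1 : ∀ x, f x ≠ x → pot x < pot (f x)) (h2 : ∀ x, pot x ≤ M) (x : α) :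
    f (f^[M + 1] x) = f^[M + 1] x := by
  by_contra hne
  have hall : ∀ i, i ≤ M + 1 → f (f^[i] x) ≠ f^[i] x := by
    intro i hi h
    apply hne
    obtain ⟨d, hd⟩ : ∃ d, M + 1 = d + i := ⟨M + 1 - i, by omega⟩
    rw [hd, Function.iterate_add_apply, Function.iterate_fixed h]
    exact h
  have hpot : ∀ i, i ≤ M + 1 → i ≤ pot (f^[i] x) := by
    intro i
    induction i with
    | zero => intro _; exact Nat.zero_le _
    | succ i ih =>
      intro hi
      have := ih (by omega)
      have h3 := h1 _ (hall i (by omega))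
      rw [Function.iterate_succ_apply']
      omega
  have := hpot (M + 1) le_rfl
  have := h2 (f^[M + 1] x)
  omega

section

variable {k p : ℕ} [hp : Fact p.Prime]

theorem matL_bumpL (T : List (List ℕ)) (i j : Fin k) {a : ℕ} (ha : a < p) :
    matL k p (bumpL k p T i j a) = bump (matL k p T) i j (a : ZMod p) := by
  funext u v
  unfold matL bumpL bump
  rw [getD_range_map _ u.2, getD_range_map _ v.2, ZMod.natCast_mod, Nat.cast_add, Nat.cast_add]
  have e1 : ((u : ℕ) = i ∧ (v : ℕ) = j) ↔ (u = i ∧ v = j) := by
    rw [Fin.ext_iff, Fin.ext_iff]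
  have e2 : ((u : ℕ) = j ∧ (v : ℕ) = i) ↔ (u = j ∧ v = i) := by
    rw [Fin.ext_iff, Fin.ext_iff]
  simp only [e1, e2]
  rw [sub_eq_add_neg]
  congr 1
  · congr 1
    split_ifs <;> simp
  · split_ifs
    · rw [Nat.cast_sub ha.le, ZMod.natCast_self, zero_sub]
    · simp

/-- the support as a finset -/
noncomputable def Dfin (T : List (List ℕ)) : Finset (Fin k) :=
  (Set.toFinite (Dset (matL k p T))).toFinset

theorem mem_Dfin (T : List (List ℕ)) (v : Fin k) :
    v ∈ Dfin (p := p) T ↔ v ∈ Dset (matL k p T) := Set.Finite.mem_toFinset _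

theorem countP_suppL (T : List (List ℕ)) :
    (suppL k p (nullL k p T)).countP id = (Dfin (k := k) (p := p) T).card := by
  classical
  have h1 : (suppL k p (nullL k p T)).countP id =
      ((List.finRange k).filter (fun v => decide (v ∈ Dset (matL k p T)))).length := by
    unfold suppL
    rw [range_map_eq, List.countP_map, List.countP_eq_length_filter]
    congr 2
    funext v
    have := suppL_getD (k := k) (p := p) T v
    unfold suppL at this
    rw [getD_range_map _ v.2] at this
    simp only [Function.comp, id]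
    by_cases h : v ∈ Dset (matL k p T)
    · rw [this.2 h, decide_eq_true h]
    · rw [decide_eq_false h]
      by_contra h'
      exact h (this.1 (by simpa using h'))
  rw [h1]
  have h2 : Dfin (k := k) (p := p) T =
      ((List.finRange k).filter (fun v => decide (v ∈ Dset (matL k p T)))).toFinset := by
    ext v
    rw [mem_Dfin]
    simp
  rw [h2, List.toFinset_card_of_nodup ((List.nodup_finRange k).filter _)]

theorem potL_eq (T : List (List ℕ)) :
    potL k p T = (k - Module.finrank (ZMod p) (nul (matL k p T))) * (k + 1)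
      + (Dfin (k := k) (p := p) T).card := by
  unfold potL
  rw [nullL_length, countP_suppL]

theorem finrank_le (T : Matrix (Fin k) (Fin k) (ZMod p)) :
    Module.finrank (ZMod p) (nul T) ≤ k := by
  have := Submodule.finrank_le (nul T)
  rwa [Module.finrank_fintype_fun_eq_card, Fintype.card_fin] at this

theorem Dfin_card_le (T : List (List ℕ)) : (Dfin (k := k) (p := p) T).card ≤ k := by
  have := Finset.card_le_univ (Dfin (k := k) (p := p) T)
  rwa [Fintype.card_fin] at this

theorem potL_le (T : List (List ℕ)) : potL k p T ≤ k * (k + 1) + k := by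
  rw [potL_eq]
  have h1 := Dfin_card_le (k := k) (p := p) T
  have h2 : (k - Module.finrank (ZMod p) (nul (matL k p T))) * (k + 1) ≤ k * (k + 1) :=
    Nat.mul_le_mul_right _ (Nat.sub_le _ _)
  omega

theorem mem_cands {Q : List (List Bool)} {c : ℕ × ℕ × ℕ} :
    c ∈ cands k p Q ↔ c.1 < k ∧ c.2.1 < k ∧ adjL Q c.1 c.2.1 = true ∧ c.2.2 < p := by
  obtain ⟨i, j, a⟩ := c
  unfold cands
  simp only [List.mem_flatMap, List.mem_filter, List.mem_map, List.mem_range, Prod.mk.injEq]
  constructor
  · rintro ⟨i', hi', j', ⟨hj', hadj⟩, a', ha', rfl, rfl, rfl⟩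
    exact ⟨hi', hj', hadj, ha'⟩
  · rintro ⟨hi, hj, hadj, ha⟩
    exact ⟨i, hi, j, ⟨hj, hadj⟩, a, ha, rfl, rfl, rfl⟩

theorem searchStep_cases (Q : List (List Bool)) (T : List (List ℕ)) :
    (searchStep k p Q T = T ∧ ∀ c ∈ cands k p Q,
      ¬ potL k p T < potL k p (bumpL k p T c.1 c.2.1 c.2.2)) ∨
    (∃ c ∈ cands k p Q, searchStep k p Q T = bumpL k p T c.1 c.2.1 c.2.2 ∧
      potL k p T < potL k p (searchStep k p Q T)) := by
  unfold searchStep
  rcases h : (cands k p Q).find? (fun c => decide (potL k p T <
      potL k p (bumpL k p T c.1 c.2.1 c.2.2))) with _ | c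
  · left
    simp only [h]
    refine ⟨trivial, fun c hc => ?_⟩
    rw [List.find?_eq_none] at h
    simpa using h c hc
  · right
    have h1 := List.mem_of_find?_eq_some h
    have h2 := List.find?_some h
    simp only [h]
    exact ⟨c, h1, rfl, by simpa using h2⟩

theorem search_fixed (Q : List (List Bool)) :
    ∀ c ∈ cands k p Q, ¬ potL k p (search k p Q) <
      potL k p (bumpL k p (search k p Q) c.1 c.2.1 c.2.2) := by
  have h := iterate_fixed (searchStep k p Q) (potL k p) (k * (k + 1) + k)
    (fun T hT => by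
      rcases searchStep_cases (k := k) (p := p) Q T with h | ⟨c, _, _, h⟩
      · exact absurd h.1 hT
      · exact h) potL_le []
  have e : (k + 1) * (k + 1) = k * (k + 1) + k + 1 := by ring
  rw [← e] at h
  rcases searchStep_cases (k := k) (p := p) Q (search k p Q) with h' | ⟨c, _, _, h'⟩
  · exact h'.2
  · exfalso
    have : searchStep k p Q (search k p Q) = search k p Q := h
    rw [this] at h'
    exact lt_irrefl _ h'

/-- invariant of the search -/
structure Inv (Q : List (List Bool)) (T : List (List ℕ)) : Prop where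
  skew : Skew (matL k p T)
  edge : ∀ i j : Fin k, matL k p T i j ≠ 0 → adjL Q i j = true

theorem inv_nil (Q : List (List Bool)) : Inv (k := k) (p := p) Q [] where
  skew := ⟨fun u v => by simp [matL], fun v => by simp [matL]⟩
  edge i j h := absurd (by simp [matL]) h

theorem inv_bump {Q : List (List Bool)} (hs : ∀ i j : Fin k, adjL Q i j = true → adjL Q j i = true)
    (hi : ∀ i : Fin k, adjL Q i i = false) {T : List (List ℕ)} (hT : Inv (k := k) (p := p) Q T)
    {c : ℕ × ℕ × ℕ} (hc : c ∈ cands k p Q) :
    Inv (k := k) (p := p) Q (bumpL k p T c.1 c.2.1 c.2.2) := by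
  obtain ⟨h1, h2, h3, h4⟩ := mem_cands.1 hc
  have hne : (⟨c.1, h1⟩ : Fin k) ≠ ⟨c.2.1, h2⟩ := by
    intro h
    have h' : c.1 = c.2.1 := congrArg Fin.val h
    have := hi ⟨c.1, h1⟩
    simp only at this
    rw [← h', this] at h3
    exact absurd h3 (by simp)
  have hm := matL_bumpL (k := k) (p := p) T ⟨c.1, h1⟩ ⟨c.2.1, h2⟩ h4
  simp only at hm
  constructor
  · rw [hm]
    exact bump_skew hT.skew hne _
  · intro i j hij
    rw [hm] at hij
    unfold bump at hij
    by_cases h5 : i = ⟨c.1, h1⟩ ∧ j = ⟨c.2.1, h2⟩
    · rw [h5.1, h5.2]; exact h3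
    by_cases h6 : i = ⟨c.2.1, h2⟩ ∧ j = ⟨c.1, h1⟩
    · rw [h6.1, h6.2]; exact hs ⟨c.1, h1⟩ ⟨c.2.1, h2⟩ h3
    rw [if_neg h5, if_neg h6, add_zero, sub_zero] at hij
    exact hT.edge i j hij

theorem inv_search {Q : List (List Bool)}
    (hs : ∀ i j : Fin k, adjL Q i j = true → adjL Q j i = true)
    (hi : ∀ i : Fin k, adjL Q i i = false) : Inv (k := k) (p := p) Q (search k p Q) := by
  unfold search
  generalize (k + 1) * (k + 1) = n
  induction n with
  | zero => exact inv_nil Q
  | succ n ih =>
    rw [Function.iterate_succ_apply']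
    rcases searchStep_cases (k := k) (p := p) Q ((searchStep k p Q)^[n] []) with h | ⟨c, hc, h, _⟩
    · rw [h.1]; exact ih
    · rw [h]; exact inv_bump hs hi ih hc

theorem locOpt_search {Q : List (List Bool)} :
    LocOpt (fun i j : Fin k => adjL Q i j = true) (matL k p (search k p Q)) := by
  have key : ∀ i j : Fin k, adjL Q i j = true → ∀ a : ZMod p,
      ¬ potL k p (search k p Q) < potL k p (bumpL k p (search k p Q) i j a.val) ∧
      matL k p (bumpL k p (search k p Q) i j a.val) = bump (matL k p (search k p Q)) i j a := by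
    intro i j hij a
    have ha : a.val < p := ZMod.val_lt a
    refine ⟨search_fixed Q (i, j, a.val) (mem_cands.2 ⟨i.2, j.2, hij, ha⟩), ?_⟩
    rw [matL_bumpL _ _ _ ha, ZMod.natCast_zmod_val]
  set T := search k p Q with hTdef
  constructor
  · intro i j hij a
    obtain ⟨h1, h2⟩ := key i j hij a
    by_contra hlt
    push Not at hlt
    apply h1
    rw [potL_eq, potL_eq, h2]
    have h3 := finrank_le (matL k p T)
    have h4 := Dfin_card_le (k := k) (p := p) T
    set x := Module.finrank (ZMod p) (nul (bump (matL k p T) i j a))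
    set y := Module.finrank (ZMod p) (nul (matL k p T))
    have h5 : (k - y) * (k + 1) + (k + 1) ≤ (k - x) * (k + 1) := by
      have : k - y + 1 ≤ k - x := by omega
      calc (k - y) * (k + 1) + (k + 1) = (k - y + 1) * (k + 1) := by ring
        _ ≤ (k - x) * (k + 1) := Nat.mul_le_mul_right _ this
    omega
  · intro i j hij a heq hss
    obtain ⟨h1, h2⟩ := key i j hij a
    apply h1
    rw [potL_eq, potL_eq, h2, heq]
    have h3 : Dfin (k := k) (p := p) T ⊂ Dfin (k := k) (p := p) (bumpL k p T i j a.val) := by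
      rw [Finset.ssubset_iff_of_subset]
      · obtain ⟨v, hv1, hv2⟩ := Set.exists_of_ssubset hss
        refine ⟨v, ?_, ?_⟩
        · rw [mem_Dfin, h2]; exact hv1
        · rw [mem_Dfin]; exact hv2
      · intro v hv
        rw [mem_Dfin] at hv ⊢
        rw [h2]
        exact hss.1 hv
    have := Finset.card_lt_card h3
    omega

theorem hyp_search {Q : List (List Bool)} (hkp : k < p)
    (hs : ∀ i j : Fin k, adjL Q i j = true → adjL Q j i = true)
    (hi : ∀ i : Fin k, adjL Q i i = false) :
    Hyp (fun i j : Fin k => adjL Q i j = true) (matL k p (search k p Q)) where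
  card := by rw [Fintype.card_fin, ZMod.card]; exact hkp
  symm := hs
  edge := (inv_search hs hi).edge
  skew := (inv_search hs hi).skew
  opt := locOpt_search

end

/-! ### the specification used by the primal-dual part -/

/-- the component of `v`: what is reachable from `v` by adjacency steps into `D` -/
def Reach {k : ℕ} (adj : Fin k → Fin k → Prop) (D : Finset (Fin k)) (v u : Fin k) : Prop :=
  Relation.ReflTransGen (fun a b => adj a b ∧ b ∈ D) v u

/-- what the oracle delivers -/
structure OracleSpec (k : ℕ) (adj : Fin k → Fin k → Prop) (D : Finset (Fin k)) : Prop where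
  crit : ∀ v ∈ D, ∃ s : Fin k → Fin k, ∀ u, Reach adj D v u → u ≠ v →
    Reach adj D v (s u) ∧ s u ≠ v ∧ s u ≠ u ∧ s (s u) = u ∧ adj u (s u)
  pm : D = ∅ → ∃ s : Fin k → Fin k, ∀ u, s u ≠ u ∧ s (s u) = u ∧ adj u (s u)
  cnt : D.Nonempty → ∃ I : Finset (Fin k), I ⊆ D ∧
    (∀ a ∈ I, ∀ b ∈ I, Reach adj D a b → a = b) ∧
    ∀ A : Finset (Fin k), (∀ a ∈ A, a ∉ D ∧ ∃ d ∈ D, adj a d) → A.card + 1 ≤ I.card

theorem oracle_spec {k p : ℕ} (hp : p.Prime) (hkp : k < p) {Q : List (List Bool)}
    (hs : ∀ i j : Fin k, adjL Q i j = true → adjL Q j i = true)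
    (hi : ∀ i : Fin k, adjL Q i i = false) :
    OracleSpec k (fun i j : Fin k => adjL Q i j = true)
      (Finset.univ.filter fun v : Fin k => (oracle k p Q).getD v false = true) := by
  classical
  have : Fact p.Prime := ⟨hp⟩
  set adj : Fin k → Fin k → Prop := fun i j => adjL Q i j = true with hadj
  set T := matL k p (search k p Q) with hT
  have H : Hyp adj T := hyp_search hkp hs hi
  set D := Finset.univ.filter fun v : Fin k => (oracle k p Q).getD v false = true with hDdef
  have hD : ∀ v, v ∈ D ↔ v ∈ Dset T := by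
    intro v
    rw [hDdef, Finset.mem_filter]
    unfold oracle
    rw [suppL_getD]
    simp [hT]
  have hirr : ∀ i j, adj i j → i ≠ j := by
    rintro i j hij rfl
    have h1 : adjL Q i i = true := hij
    rw [hi i] at h1
    exact absurd h1 (by simp)
  have hreachD : ∀ v u, v ∈ D → Reach adj D v u → u ∈ D := by
    intro v u hv h
    induction h with
    | refl => exact hv
    | tail _ h _ => exact h.2
  have hreach_conv : ∀ v u, v ∈ D → Reach adj D v u →
      Relation.ReflTransGen (fun a b => a ∈ Dset T ∧ b ∈ Dset T ∧ adj a b) v u := by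
    intro v u hv h
    induction h with
    | refl => exact Relation.ReflTransGen.refl
    | tail h1 h2 ih =>
      refine ih.tail ⟨?_, (hD _).1 h2.2, h2.1⟩
      exact (hD _).1 (hreachD _ _ hv h1)
  have hreach_symm : ∀ v u, v ∈ D → Reach adj D v u → Reach adj D u v := by
    intro v u hv h
    induction h with
    | refl => exact Relation.ReflTransGen.refl
    | tail h1 h2 ih =>
      exact Relation.ReflTransGen.head ⟨hs _ _ h2.1, hreachD _ _ hv h1⟩ ih
  -- labels: the set of reachable vertices
  let lab : Fin k → Set (Fin k) := fun v => {u | Reach adj D v u}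
  have hlab_eq : ∀ v u, v ∈ D → Reach adj D v u → lab u = lab v := by
    intro v u hv h
    ext w
    exact ⟨fun hw => h.trans hw, fun hw => (hreach_symm v u hv h).trans hw⟩
  have hlab : Labels adj T lab := by
    constructor
    · intro i j hi' hj' hij
      exact (hlab_eq i j ((hD i).2 hi') (Relation.ReflTransGen.single ⟨hij, (hD j).2 hj'⟩)).symm
    · intro i j hi' hj' hij
      have : Reach adj D i j := by
        have h1 : j ∈ lab j := Relation.ReflTransGen.refl
        rw [← hij] at h1
        exact h1
      exact hreach_conv i j ((hD i).2 hi') this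
  refine ⟨?_, ?_, ?_⟩
  · intro v hv
    have hvD := (hD v).1 hv
    obtain ⟨s, hs'⟩ := H.factorCritical hlab hvD
      (Finset.univ.filter fun u => u ∈ Dset T ∧ lab u = lab v ∧ u ≠ v) (fun u => by simp)
    refine ⟨s, fun u hu huv => ?_⟩
    have huD := hreachD v u hv hu
    have hu' : u ∈ Finset.univ.filter fun u => u ∈ Dset T ∧ lab u = lab v ∧ u ≠ v := by
      rw [Finset.mem_filter]
      exact ⟨Finset.mem_univ _, (hD u).1 huD, hlab_eq v u hv hu, huv⟩
    obtain ⟨h1, h2, h3⟩ := hs' u hu'
    rw [Finset.mem_filter] at h1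
    obtain ⟨_, h4, h5, h6⟩ := h1
    refine ⟨?_, h6, (hirr _ _ h3).symm, h2, h3⟩
    have h7 : s u ∈ lab (s u) := Relation.ReflTransGen.refl
    rw [h5] at h7
    exact h7
  · intro hD0
    have h0 : Module.finrank (ZMod p) (nul T) = 0 := by
      rw [Submodule.finrank_eq_zero, Submodule.eq_bot_iff]
      intro x hx
      funext v
      by_contra hxv
      have : v ∈ D := (hD v).2 ⟨x, hx, hxv⟩
      rw [hD0] at this
      exact absurd this (Finset.notMem_empty v)
    obtain ⟨s, hs'⟩ := pm_of_nul_zero H.skew H.edge h0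
    exact ⟨s, fun u => ⟨(hirr _ _ (hs' u).2).symm, (hs' u).1, (hs' u).2⟩⟩
  · intro hne
    obtain ⟨v0, hv0⟩ := hne
    have hnul : 1 ≤ Module.finrank (ZMod p) (nul T) := by
      rw [Nat.one_le_iff_ne_zero]
      intro h0
      rw [Submodule.finrank_eq_zero] at h0
      obtain ⟨x, hx, hxv⟩ := (hD v0).1 hv0
      rw [h0] at hx
      exact hxv (by rw [(Submodule.mem_bot _).1 hx]; rfl)
    let A0 : Finset (Fin k) := Finset.univ.filter fun v => v ∈ Aset adj T
    have hcount := H.count hlab D A0 hD (fun v => by simp [A0])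
    -- representatives
    have hex : ∀ l ∈ D.image lab, ∃ v ∈ D, lab v = l := fun l hl => by
      simpa using hl
    have : Nonempty (Fin k) := ⟨v0⟩
    choose! r hr hrl using hex
    refine ⟨(D.image lab).image r, ?_, ?_, ?_⟩
    · intro v hv
      obtain ⟨l, hl, rfl⟩ := Finset.mem_image.1 hv
      exact hr l hl
    · intro a ha b hb hab
      obtain ⟨l, hl, rfl⟩ := Finset.mem_image.1 ha
      obtain ⟨l', hl', rfl⟩ := Finset.mem_image.1 hb
      have := hlab_eq _ _ (hr l hl) hab
      rw [hrl l hl, hrl l' hl'] at this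
      rw [this]
    · intro A hA
      have h1 : A ⊆ A0 := by
        intro a ha
        obtain ⟨h2, d, hd, had⟩ := hA a ha
        simp only [A0, Finset.mem_filter, Finset.mem_univ, true_and]
        refine ⟨fun h => h2 ((hD a).2 h), d, (hD d).1 hd, hs _ _ had⟩
      have h2 : ((D.image lab).image r).card = (D.image lab).card := by
        apply Finset.card_image_of_injOn
        intro l hl l' hl' h
        have h3 := congrArg lab h
        rwa [hrl l hl, hrl l' hl'] at h3
      have h3 := Finset.card_le_card h1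
      omega

end Crest.Agent.R304.MWSearch
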