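import Mathlib

/-!
# R304 / S0467, block M1a: skew-symmetric matrices and matchings

Linear algebra behind the deterministic algebraic matching routine (local search over single
entries of a skew-symmetric matrix supported on the edges of a graph).
-/

set_option autoImplicit false
set_option linter.dupNamespace false
set_option linter.unusedSectionVars false

namespace Crest.Agent.R304.MWSkew

open Finset Matrix

section general

variable {F : Type*} [Field F] {V : Type*} [Fintype V] [DecidableEq V]

/-- skew-symmetric with zero diagonal -/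
structure Skew (T : Matrix V V F) : Prop where
  anti : ∀ u v, T u v = - T v u
  diag : ∀ v, T v v = 0

theorem Skew.dot {T : Matrix V V F} (hT : Skew T) (x y : V → F) :
    x ⬝ᵥ (T *ᵥ y) = - ((T *ᵥ x) ⬝ᵥ y) := by
  simp only [dotProduct, mulVec, Finset.mul_sum, Finset.sum_mul]
  rw [Finset.sum_comm, ← Finset.sum_neg_distrib]
  refine Finset.sum_congr rfl fun u _ => ?_
  rw [← Finset.sum_neg_distrib]
  refine Finset.sum_congr rfl fun v _ => ?_
  rw [hT.anti v u]
  ring

theorem Skew.dot_self {T : Matrix V V F} (hT : Skew T) (x : V → F) :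
    x ⬝ᵥ (T *ᵥ x) = 0 := by
  simp only [dotProduct, mulVec, Finset.mul_sum]
  rw [← Finset.sum_product']
  refine Finset.sum_involution (fun p _ => (p.2, p.1)) ?_ ?_ ?_ ?_
  · intro p _
    rw [hT.anti p.2 p.1]
    simp only
    ring
  · intro p _ hp h
    apply hp
    have h1 : p.2 = p.1 := congrArg Prod.fst h
    simp [h1, hT.diag]
  · intro p _; simp
  · intro p _; rfl

/-- the null space -/
def nul (T : Matrix V V F) : Submodule F (V → F) := LinearMap.ker T.mulVecLin

theorem mem_nul {T : Matrix V V F} {x : V → F} : x ∈ nul T ↔ T *ᵥ x = 0 := by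
  simp [nul]

/-- the functional `x ↦ h ⬝ᵥ x` -/
def dotF (h : V → F) : Module.Dual F (V → F) where
  toFun x := h ⬝ᵥ x
  map_add' := dotProduct_add h
  map_smul' a x := by simp

theorem dotF_apply (h x : V → F) : dotF h x = h ⬝ᵥ x := rfl

/-- solvability criterion -/
theorem Skew.exists_solve {T : Matrix V V F} (hT : Skew T) (h : V → F)
    (hh : ∀ x, T *ᵥ x = 0 → h ⬝ᵥ x = 0) : ∃ y, T *ᵥ y = h := by
  classical
  have h1 : dotF h ∈ (LinearMap.ker T.mulVecLin).dualAnnihilator := by
    rw [Submodule.mem_dualAnnihilator]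
    intro x hx
    rw [dotF_apply]
    exact hh x (by simpa using hx)
  rw [← LinearMap.range_dualMap_eq_dualAnnihilator_ker] at h1
  obtain ⟨ψ, hψ⟩ := h1
  let c : V → F := fun v => ψ (Pi.single v 1)
  have hc : ∀ z : V → F, ψ z = c ⬝ᵥ z := by
    intro z
    have hz : z = ∑ v, z v • (Pi.single v (1 : F) : V → F) := by
      ext w
      simp [Finset.sum_apply, Pi.single_apply]
    conv_lhs => rw [hz]
    rw [map_sum]
    simp only [dotProduct]
    refine Finset.sum_congr rfl fun v _ => ?_
    rw [map_smul]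
    simp [c, mul_comm]
  refine ⟨-c, ?_⟩
  have key : ∀ x : V → F, h ⬝ᵥ x = (T *ᵥ (-c)) ⬝ᵥ x := by
    intro x
    have h2 : (T.mulVecLin.dualMap ψ) x = dotF h x := by rw [hψ]
    rw [LinearMap.dualMap_apply, dotF_apply, Matrix.mulVecLin_apply, hc, hT.dot] at h2
    rw [← h2, mulVec_neg, neg_dotProduct]
  funext v
  have := key (Pi.single v 1)
  simpa using this.symm

/-- restriction of a matrix to a set of indices -/
def restr (T : Matrix V V F) (S : Finset V) : Matrix V V F :=
  fun u v => if u ∈ S ∧ v ∈ S then T u v else 0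

theorem Skew.restr {T : Matrix V V F} (hT : Skew T) (S : Finset V) : Skew (restr T S) where
  anti u v := by
    unfold MWSkew.restr
    by_cases hu : u ∈ S <;> by_cases hv : v ∈ S <;> simp [hu, hv, hT.anti u v]
  diag v := by
    unfold MWSkew.restr
    simp [hT.diag]

/-- `T[S]` is nonsingular -/
def NonSing (T : Matrix V V F) (S : Finset V) : Prop :=
  ∀ x : V → F, (∀ v, v ∉ S → x v = 0) → (∀ v ∈ S, (T *ᵥ x) v = 0) → x = 0

theorem restr_mulVec {T : Matrix V V F} {S : Finset V} (x : V → F) {v : V} (hv : v ∈ S) :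
    (restr T S *ᵥ x) v = (T *ᵥ (fun u => if u ∈ S then x u else 0)) v := by
  simp only [mulVec, dotProduct]
  refine Finset.sum_congr rfl fun u _ => ?_
  unfold restr
  by_cases hu : u ∈ S <;> simp [hu, hv]

theorem NonSing.solve {T : Matrix V V F} (hT : Skew T) {S : Finset V} (hS : NonSing T S)
    {v : V} (hv : v ∈ S) : ∃ x : V → F, (∀ u, u ∉ S → x u = 0) ∧
      ∀ u ∈ S, (T *ᵥ x) u = if u = v then 1 else 0 := by
  classical
  obtain ⟨y, hy⟩ := (hT.restr S).exists_solve (Pi.single v 1) (by
    intro x hx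
    have h0 : (fun u => if u ∈ S then x u else 0) = 0 := by
      apply hS
      · intro u hu; simp [hu]
      · intro u hu
        rw [← restr_mulVec x hu, hx]; rfl
    have := congrFun h0 v
    simpa [hv] using this)
  refine ⟨fun u => if u ∈ S then y u else 0, fun u hu => by simp [hu], fun u hu => ?_⟩
  rw [← restr_mulVec y hu, hy]
  simp [Pi.single_apply]

/-- dot product against a vector supported on `S` only sees the values on `S` -/
theorem dot_supp {S : Finset V} {x z : V → F} (hx : ∀ u, u ∉ S → x u = 0) :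
    x ⬝ᵥ z = ∑ u ∈ S, x u * z u := by
  simp only [dotProduct]
  symm
  apply Finset.sum_subset (Finset.subset_univ S)
  intro u _ hu
  simp [hx u hu]

/-- pairing with a solution of `T q = e_v` on `S` -/
theorem dot_solve {T : Matrix V V F} {S : Finset V} {p q : V → F} {v : V} (hv : v ∈ S)
    (hp : ∀ u, u ∉ S → p u = 0) (hq : ∀ u ∈ S, (T *ᵥ q) u = if u = v then 1 else 0) :
    p ⬝ᵥ (T *ᵥ q) = p v := by
  rw [dot_supp hp]
  have : ∀ u ∈ S, p u * (T *ᵥ q) u = if u = v then p u else 0 := by
    intro u hu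
    rw [hq u hu]
    split_ifs <;> simp
  rw [Finset.sum_congr rfl this]
  simp [hv]

/-- a nonsingular skew-symmetric matrix supported on the edges of a graph: the graph has a
perfect matching -/
theorem exists_pm_of_nonSing {T : Matrix V V F} (hT : Skew T) :
    ∀ (m : ℕ) (S : Finset V), S.card = m → NonSing T S →
      ∃ f : V → V, ∀ v ∈ S, f v ∈ S ∧ f (f v) = v ∧ T v (f v) ≠ 0 := by
  classical
  intro m
  induction m using Nat.strong_induction_on with
  | _ m ih =>
  intro S hm hS
  rcases S.eq_empty_or_nonempty with rfl | ⟨v, hv⟩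
  · exact ⟨id, by simp⟩
  obtain ⟨x, hx0, hx⟩ := hS.solve hT hv
  -- `x v = 0`
  have hxv : x v = 0 := by
    have h := hT.dot_self x
    rwa [dot_solve hv hx0 hx] at h
  -- a neighbour `u` of `v` with `x u ≠ 0`
  obtain ⟨u, hu⟩ : ∃ u, T v u * x u ≠ 0 := by
    by_contra hcon
    push Not at hcon
    have h := hx v hv
    simp only [mulVec, dotProduct, if_true] at h
    rw [Finset.sum_eq_zero (fun u _ => hcon u)] at h
    exact zero_ne_one h
  have hTvu : T v u ≠ 0 := left_ne_zero_of_mul hu
  have hxu : x u ≠ 0 := right_ne_zero_of_mul hu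
  have huS : u ∈ S := by
    by_contra h
    exact hxu (hx0 u h)
  have huv : u ≠ v := by
    rintro rfl
    exact hxu hxv
  obtain ⟨x', hx'0, hx'⟩ := hS.solve hT huS
  have hx'u : x' u = 0 := by
    have h := hT.dot_self x'
    rwa [dot_solve huS hx'0 hx'] at h
  have hx'v : x' v = - x u := by
    have h := hT.dot x x'
    rw [dot_solve huS hx0 hx', dotProduct_comm, dot_solve hv hx'0 hx] at h
    rw [h]; ring
  -- the smaller set is nonsingular
  have hS' : NonSing T ((S.erase u).erase v) := by
    intro z hz0 hz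
    have hz0' : ∀ w, w ∉ S → z w = 0 := fun w hw => hz0 w (by
      intro h; exact hw (Finset.mem_of_mem_erase (Finset.mem_of_mem_erase h)))
    have hzu : z u = 0 := hz0 u (by simp)
    have hzv : z v = 0 := hz0 v (by simp)
    have hTz : ∀ w ∈ S, w ≠ u → w ≠ v → (T *ᵥ z) w = 0 := fun w hw h1 h2 =>
      hz w (Finset.mem_erase.2 ⟨h2, Finset.mem_erase.2 ⟨h1, hw⟩⟩)
    have pairing : ∀ p : V → F, (∀ w, w ∉ S → p w = 0) →
        p ⬝ᵥ (T *ᵥ z) = p u * (T *ᵥ z) u + p v * (T *ᵥ z) v := by
      intro p hp
      rw [dot_supp hp, ← Finset.add_sum_erase S _ huS,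
        ← Finset.add_sum_erase (S.erase u) _ (Finset.mem_erase.2 ⟨huv.symm, hv⟩),
        Finset.sum_eq_zero, add_zero]
      intro w hw
      rw [hz w hw, mul_zero]
    have h1 : (T *ᵥ z) u = 0 := by
      have h := hT.dot x z
      rw [pairing x hx0, hxv, dotProduct_comm, dot_solve hv hz0' hx, hzv] at h
      have h' : x u * (T *ᵥ z) u = 0 := by simpa using h
      exact (mul_eq_zero.1 h').resolve_left hxu
    have h2 : (T *ᵥ z) v = 0 := by
      have h := hT.dot x' z
      rw [pairing x' hx'0, hx'u, hx'v, dotProduct_comm, dot_solve huS hz0' hx', hzu] at h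
      have h' : x u * (T *ᵥ z) v = 0 := by simpa using h
      exact (mul_eq_zero.1 h').resolve_left hxu
    apply hS z hz0'
    intro w hw
    by_cases hwu : w = u
    · rw [hwu, h1]
    by_cases hwv : w = v
    · rw [hwv, h2]
    exact hTz w hw hwu hwv
  have hcard : ((S.erase u).erase v).card < m := by
    rw [← hm]
    exact (Finset.card_erase_le).trans_lt (Finset.card_erase_lt_of_mem huS)
  obtain ⟨f, hf⟩ := ih _ hcard _ rfl hS'
  refine ⟨fun w => if w = u then v else if w = v then u else f w, ?_⟩
  intro w hw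
  by_cases hwu : w = u
  · subst hwu
    simp [hv, huv.symm]
    rw [hT.anti]; simpa using hTvu
  by_cases hwv : w = v
  · subst hwv
    simp [huS, hwu, hTvu]
  have hw' : w ∈ (S.erase u).erase v := Finset.mem_erase.2 ⟨hwv, Finset.mem_erase.2 ⟨hwu, hw⟩⟩
  obtain ⟨h1, h2, h3⟩ := hf w hw'
  have hfu : f w ≠ u := by
    intro h; rw [h] at h1; simp at h1
  have hfv : f w ≠ v := by
    intro h; rw [h] at h1; simp at h1
  simp only [hwu, hwv, if_false, hfu, hfv]
  exact ⟨Finset.mem_of_mem_erase (Finset.mem_of_mem_erase h1), h2, h3⟩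

end general

end Crest.Agent.R304.MWSkew
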