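import Mathlib

/-!
# Row 304, S0467: classes of an equivalence relation on `range n` as lists

`classes n S R` is the list of classes (sorted lists) of a relation `R` that is an equivalence on the
vertices `v < n` with `S v`.
-/

set_option autoImplicit false

namespace Crest.Agent.R304.Pd292A

/-- the class of `v` -/
def cls (n : ℕ) (R : ℕ → ℕ → Bool) (v : ℕ) : List ℕ := (List.range n).filter (fun u => R v u)

/-- the leaders (least elements of classes) -/
def lead (n : ℕ) (S : ℕ → Bool) (R : ℕ → ℕ → Bool) : List ℕ :=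
  (List.range n).filter (fun v => S v && (List.range v).all (fun u => !R u v))

/-- the classes -/
def classes (n : ℕ) (S : ℕ → Bool) (R : ℕ → ℕ → Bool) : List (List ℕ) :=
  (lead n S R).map (cls n R)

/-- `R` is an equivalence relation on the `v < n` with `S v` -/
structure EqOn (n : ℕ) (S : ℕ → Bool) (R : ℕ → ℕ → Bool) : Prop where
  refl : ∀ v, v < n → S v = true → R v v = true
  symm : ∀ u v, u < n → v < n → R u v = true → R v u = true
  trans : ∀ u v x, u < n → v < n → x < n → R u v = true → R v x = true → R u x = true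
  left : ∀ u v, u < n → v < n → R u v = true → S u = true

variable {n : ℕ} {S : ℕ → Bool} {R : ℕ → ℕ → Bool}

theorem mem_cls {v u : ℕ} : u ∈ cls n R v ↔ u < n ∧ R v u = true := by
  simp [cls]

theorem mem_lead {l : ℕ} : l ∈ lead n S R ↔ l < n ∧ S l = true ∧ ∀ u, u < l → R u l = false := by
  simp [lead]

theorem nodup_lead : (lead n S R).Nodup := List.Nodup.filter _ List.nodup_range

theorem nodup_cls (v : ℕ) : (cls n R v).Nodup := List.Nodup.filter _ List.nodup_range

theorem exists_lead (h : EqOn n S R) {v : ℕ} (hv : v < n) (hS : S v = true) :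
    ∃ l ∈ lead n S R, R l v = true := by
  classical
  have hex : ∃ u, u < n ∧ R u v = true := ⟨v, hv, h.refl v hv hS⟩
  obtain ⟨h1, h2⟩ := Nat.find_spec hex
  refine ⟨Nat.find hex, mem_lead.2 ⟨h1, h.left _ _ h1 hv h2, fun u hu => ?_⟩, h2⟩
  by_contra hR
  rw [Bool.not_eq_false] at hR
  have hun : u < n := lt_trans hu h1
  exact Nat.find_min hex hu ⟨hun, h.trans u _ v hun h1 hv hR h2⟩

theorem lead_unique (h : EqOn n S R) {l l' v : ℕ} (hl : l ∈ lead n S R) (hl' : l' ∈ lead n S R)
    (hv : v < n) (h1 : R l v = true) (h2 : R l' v = true) : l = l' := by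
  obtain ⟨a1, a2, a3⟩ := mem_lead.1 hl
  obtain ⟨b1, b2, b3⟩ := mem_lead.1 hl'
  have e1 : R l l' = true := h.trans l v l' a1 hv b1 h1 (h.symm _ _ b1 hv h2)
  have e2 : R l' l = true := h.symm _ _ a1 b1 e1
  rcases lt_trichotomy l l' with hlt | he | hlt
  · rw [b3 l hlt] at e1; exact absurd e1 (by simp)
  · exact he
  · rw [a3 l' hlt] at e2; exact absurd e2 (by simp)

theorem cls_congr (h : EqOn n S R) {u v : ℕ} (hu : u < n) (hv : v < n) (hR : R u v = true) :
    cls n R u = cls n R v := by
  unfold cls
  refine List.filter_congr fun x hx => ?_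
  have hx' : x < n := by simpa using hx
  rw [Bool.eq_iff_iff]
  exact ⟨fun hx2 => h.trans _ _ _ hv hu hx' (h.symm _ _ hu hv hR) hx2,
    fun hx2 => h.trans _ _ _ hu hv hx' hR hx2⟩

theorem mem_classes (h : EqOn n S R) {K : List ℕ} :
    K ∈ classes n S R ↔ ∃ v, v < n ∧ S v = true ∧ K = cls n R v := by
  constructor
  · intro hK
    obtain ⟨l, hl, rfl⟩ := List.mem_map.1 hK
    obtain ⟨a1, a2, a3⟩ := mem_lead.1 hl
    exact ⟨l, a1, a2, rfl⟩
  · rintro ⟨v, hv, hS, rfl⟩
    obtain ⟨l, hl, hlv⟩ := exists_lead h hv hS
    exact List.mem_map.2 ⟨l, hl, cls_congr h (mem_lead.1 hl).1 hv hlv⟩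

theorem countP_unique {α : Type*} [DecidableEq α] {L : List α} (hL : L.Nodup) {p : α → Bool} {a : α}
    (ha : a ∈ L) (hpa : p a = true) (hu : ∀ b ∈ L, p b = true → b = a) : L.countP p = 1 := by
  rw [List.countP_eq_length_filter]
  have h1 : (L.filter p).Nodup := hL.filter _
  rw [← List.toFinset_card_of_nodup h1, Finset.card_eq_one]
  refine ⟨a, ?_⟩
  ext b
  simp only [List.mem_toFinset, List.mem_filter, Finset.mem_singleton]
  exact ⟨fun hb => hu b hb.1 hb.2, fun hb => hb ▸ ⟨ha, hpa⟩⟩

theorem lead_countP (h : EqOn n S R) {v : ℕ} (hv : v < n) :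
    (lead n S R).countP (fun l => R l v) = if S v = true then 1 else 0 := by
  classical
  split_ifs with hS
  · obtain ⟨l, hl, hlv⟩ := exists_lead h hv hS
    exact countP_unique nodup_lead hl hlv fun b hb hbv => lead_unique h hb hl hv hbv hlv
  · rw [List.countP_eq_zero]
    intro l hl hlv
    have hl' := (mem_lead.1 hl).1
    exact hS (h.left v l hv hl' (h.symm _ _ hl' hv hlv))

theorem classes_countP (h : EqOn n S R) {u v : ℕ} (hu : u < n) (hv : v < n) :
    (classes n S R).countP (fun K => decide (u ∈ K) && decide (v ∈ K)) =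
      if R u v = true then 1 else 0 := by
  classical
  rw [classes, List.countP_map]
  split_ifs with hR
  · obtain ⟨l, hl, hlu⟩ := exists_lead h hu (h.left u v hu hv hR)
    have hl' := (mem_lead.1 hl).1
    refine countP_unique nodup_lead hl ?_ fun b hb hbv => ?_
    · simp only [Function.comp, Bool.and_eq_true, decide_eq_true_eq, mem_cls]
      exact ⟨⟨hu, hlu⟩, hv, h.trans _ _ _ hl' hu hv hlu hR⟩
    · simp only [Function.comp, Bool.and_eq_true, decide_eq_true_eq, mem_cls] at hbv
      exact lead_unique h hb hl hu hbv.1.2 hlu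
  · rw [List.countP_eq_zero]
    intro l hl hl2
    simp only [Function.comp, Bool.and_eq_true, decide_eq_true_eq, mem_cls] at hl2
    have hl' := (mem_lead.1 hl).1
    exact hR (h.trans _ _ _ hu hl' hv (h.symm _ _ hl' hu hl2.1.2) hl2.2.2)

theorem length_filter_range (n : ℕ) (p : ℕ → Bool) :
    ((List.range n).filter p).length = ∑ v ∈ Finset.range n, if p v = true then 1 else 0 := by
  rw [← Finset.card_filter, ← List.toFinset_card_of_nodup (List.Nodup.filter _ List.nodup_range)]
  congr 1
  ext x
  simp

theorem sum_length_gen (n : ℕ) (R : ℕ → ℕ → Bool) (L : List ℕ) :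
    (L.map (fun l => (cls n R l).length)).sum =
      ∑ v ∈ Finset.range n, L.countP (fun l => R l v) := by
  induction L with
  | nil => simp
  | cons a L ih =>
    rw [List.map_cons, List.sum_cons, ih]
    simp only [List.countP_cons]
    rw [Finset.sum_add_distrib, cls, length_filter_range, add_comm]

theorem classes_sum_length (h : EqOn n S R) :
    ((classes n S R).map List.length).sum = ((List.range n).filter S).length := by
  rw [classes, List.map_map]
  have e : (List.length ∘ cls n R) = fun l => (cls n R l).length := rfl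
  rw [e, sum_length_gen, length_filter_range]
  refine Finset.sum_congr rfl fun v hv => ?_
  exact lead_countP h (Finset.mem_range.1 hv)

theorem nodup_classes (h : EqOn n S R) : (classes n S R).Nodup := by
  refine (List.nodup_map_iff_inj_on nodup_lead).2 fun l hl l' hl' he => ?_
  obtain ⟨b1, b2, b3⟩ := mem_lead.1 hl'
  have hm : l' ∈ cls n R l' := mem_cls.2 ⟨b1, h.refl _ b1 b2⟩
  rw [← he] at hm
  exact lead_unique h hl hl' b1 (mem_cls.1 hm).2 (h.refl _ b1 b2)

theorem length_classes : (classes n S R).length = (lead n S R).length := by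
  simp [classes]

theorem classes_sum_pred (h : EqOn n S R) :
    ((classes n S R).map (fun K => (K.length : ℤ) - 1)).sum =
      ((List.range n).filter S).length - (classes n S R).length := by
  rw [← classes_sum_length h]
  generalize classes n S R = L
  induction L with
  | nil => simp
  | cons a L ih => simp only [List.map_cons, List.sum_cons, List.length_cons, ih]; push_cast; ring

end Crest.Agent.R304.Pd292A
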