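import Mathlib

/-!
# Row 304, S0467: near-perfect matchings that are tight on a laminar family, and the expansion lemma
-/

set_option autoImplicit false

namespace Crest.Agent.R304.Pd292B

/-- `s` matches the vertices of `S` except `v` perfectly (perfectly if `v ∉ S`) along pairs in `el`, and
every member `C ⊆ S` of `F` has exactly one vertex that is `v` or leaves `C`. -/
structure NM {V : Type} (el : V → V → Prop) (F : List (List V)) (S : V → Prop) (v : V)
    (s : V → V) : Prop where
  maps : ∀ u, S u → S (s u)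
  invol : ∀ u, S u → s (s u) = u
  fix : ∀ u, S u → (s u = u ↔ u = v)
  elg : ∀ u, S u → u ≠ v → el u (s u)
  tight : ∀ C ∈ F, (∀ u ∈ C, S u) → ∃! u, u ∈ C ∧ (u = v ∨ s u ∉ C)

theorem NM.mono {V : Type} {el el' : V → V → Prop} {F F' : List (List V)} {S : V → Prop} {v : V}
    {s : V → V} (h : NM el F S v s) (hel : ∀ a b, S a → S b → el a b → el' a b)
    (hF : ∀ C ∈ F', (∀ u ∈ C, S u) → C ∈ F ∨ ((∀ u, S u → u ∈ C) ∧ S v)) :
    NM el' F' S v s where
  maps := h.maps
  invol := h.invol
  fix := h.fix
  elg u hu huv := hel _ _ hu (h.maps u hu) (h.elg u hu huv)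
  tight C hC hCS := by
    rcases hF C hC hCS with h1 | ⟨h1, hv⟩
    · exact h.tight C h1 hCS
    · refine ⟨v, ⟨h1 v hv, Or.inl rfl⟩, ?_⟩
      rintro u ⟨hu, rfl | hu2⟩
      · rfl
      · exact absurd (h1 _ (h.maps u (hCS u hu))) hu2

/-- **Expansion.** A (near-)perfect matching `t` of the blocks `nod = i` and near-perfect matchings of the
blocks with arbitrary hole give a (near-)perfect matching of the union. -/
theorem expand {V κ : Type} [DecidableEq V] [LinearOrder κ] (el : V → V → Prop)
    (hsym : ∀ a b, el a b → el b a) (F : List (List V)) (S : V → Prop) (v : V) (nod : V → κ)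
    (hF : ∀ C ∈ F, ∀ u ∈ C, ∀ u' ∈ C, nod u = nod u') (hFne : ∀ C ∈ F, C ≠ [])
    (t : κ → κ) (hinv : ∀ u, S u → t (t (nod u)) = nod u)
    (hfix : ∀ u, S u → (t (nod u) = nod u ↔ S v ∧ nod u = nod v))
    (hel : ∀ u, S u → t (nod u) ≠ nod u →
      ∃ a b, S a ∧ S b ∧ nod a = nod u ∧ nod b = t (nod u) ∧ el a b)
    (hgood : ∀ u, S u → ∃ s, NM el F (fun x => S x ∧ nod x = nod u) u s) :
    ∃ s, NM el F S v s := by
  classical
  -- edges between blocks
  let E : κ → κ → Prop := fun i j => ∃ p : V × V, S p.1 ∧ S p.2 ∧ nod p.1 = i ∧ nod p.2 = j ∧ el p.1 p.2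
  let pr : κ → κ → V × V := fun i j => if h : E i j then h.choose else (v, v)
  have hpr : ∀ i j, E i j → S (pr i j).1 ∧ S (pr i j).2 ∧ nod (pr i j).1 = i ∧ nod (pr i j).2 = j ∧
      el (pr i j).1 (pr i j).2 := by
    intro i j h
    have e : pr i j = h.choose := dif_pos h
    rw [e]
    exact h.choose_spec
  let port : κ → V := fun i => if S v ∧ i = nod v then v else
    if i < t i then (pr i (t i)).1 else (pr (t i) i).2
  have hE : ∀ u, S u → t (nod u) ≠ nod u → E (nod u) (t (nod u)) := by
    intro u hu ht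
    obtain ⟨a, b, h1, h2, h3, h4, h5⟩ := hel u hu ht
    exact ⟨(a, b), h1, h2, h3, h4, h5⟩
  have hE' : ∀ u, S u → t (nod u) ≠ nod u → E (t (nod u)) (nod u) := by
    intro u hu ht
    obtain ⟨a, b, h1, h2, h3, h4, h5⟩ := hel u hu ht
    exact ⟨(b, a), h2, h1, h4, h3, hsym _ _ h5⟩
  -- the port of a block of `S`
  have hport : ∀ u, S u → S (port (nod u)) ∧ nod (port (nod u)) = nod u := by
    intro u hu
    by_cases h1 : S v ∧ nod u = nod v
    · have e : port (nod u) = v := if_pos h1
      rw [e]; exact ⟨h1.1, h1.2.symm⟩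
    · have ht : t (nod u) ≠ nod u := fun h => h1 ((hfix u hu).1 h)
      by_cases h2 : nod u < t (nod u)
      · have e : port (nod u) = (pr (nod u) (t (nod u))).1 := by
          simp only [port]; rw [if_neg h1, if_pos h2]
        rw [e]
        obtain ⟨a1, a2, a3, a4, a5⟩ := hpr _ _ (hE u hu ht)
        exact ⟨a1, a3⟩
      · have e : port (nod u) = (pr (t (nod u)) (nod u)).2 := by
          simp only [port]; rw [if_neg h1, if_neg h2]
        rw [e]
        obtain ⟨a1, a2, a3, a4, a5⟩ := hpr _ _ (hE' u hu ht)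
        exact ⟨a2, a4⟩
  -- there is a vertex of `S` in the partner block
  have hpart : ∀ u, S u → t (nod u) ≠ nod u → ∃ x, S x ∧ nod x = t (nod u) := by
    intro u hu ht
    obtain ⟨a, b, h1, h2, h3, h4, h5⟩ := hel u hu ht
    exact ⟨b, h2, h4⟩
  have hpel : ∀ u, S u → t (nod u) ≠ nod u → el (port (nod u)) (port (t (nod u))) := by
    intro u hu ht
    have hi := hinv u hu
    obtain ⟨x, hx, hxn⟩ := hpart u hu ht
    have h1 : ¬ (S v ∧ nod u = nod v) := fun h => ht ((hfix u hu).2 h)
    have h1' : ¬ (S v ∧ t (nod u) = nod v) := fun h => by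
      have := (hfix x hx).2 (by rw [hxn]; exact h)
      rw [hxn, hi] at this
      exact ht this.symm
    rcases lt_or_gt_of_ne ht with h2 | h2
    · have e1 : port (nod u) = (pr (t (nod u)) (nod u)).2 := by
        simp only [port]; rw [if_neg h1, if_neg (not_lt_of_gt h2)]
      have e2 : port (t (nod u)) = (pr (t (nod u)) (nod u)).1 := by
        simp only [port]; rw [if_neg h1', hi, if_pos h2]
      rw [e1, e2]
      exact hsym _ _ (hpr _ _ (hE' u hu ht)).2.2.2.2
    · have e1 : port (nod u) = (pr (nod u) (t (nod u))).1 := by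
        simp only [port]; rw [if_neg h1, if_pos h2]
      have e2 : port (t (nod u)) = (pr (nod u) (t (nod u))).2 := by
        simp only [port]; rw [if_neg h1', hi, if_neg (not_lt_of_gt h2)]
      rw [e1, e2]
      exact (hpr _ _ (hE u hu ht)).2.2.2.2
  -- matchings inside the blocks
  have hsig : ∀ i : κ, ∃ σ : V → V, (∃ u, S u ∧ nod u = i) →
      NM el F (fun x => S x ∧ nod x = i) (port i) σ := by
    intro i
    by_cases h : ∃ u, S u ∧ nod u = i
    · obtain ⟨u, hu, rfl⟩ := h
      obtain ⟨hp1, hp2⟩ := hport u hu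
      obtain ⟨σ, hσ⟩ := hgood _ hp1
      rw [hp2] at hσ
      exact ⟨σ, fun _ => hσ⟩
    · exact ⟨id, fun h' => absurd h' h⟩
  choose σ hσ using hsig
  have hσ' : ∀ u, S u → NM el F (fun x => S x ∧ nod x = nod u) (port (nod u)) (σ (nod u)) :=
    fun u hu => hσ _ ⟨u, hu, rfl⟩
  let s : V → V := fun u => if u = port (nod u) then port (t (nod u)) else σ (nod u) u
  have s1 : ∀ u, u = port (nod u) → s u = port (t (nod u)) := fun u h => if_pos h
  have s2 : ∀ u, u ≠ port (nod u) → s u = σ (nod u) u := fun u h => if_neg h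
  -- the port of the partner block
  have hport2 : ∀ u, S u → S (port (t (nod u))) ∧ nod (port (t (nod u))) = t (nod u) := by
    intro u hu
    by_cases ht : t (nod u) = nod u
    · rw [ht]; exact hport u hu
    · obtain ⟨x, hx, hxn⟩ := hpart u hu ht
      rw [← hxn]; exact hport x hx
  have hv_port : S v → port (nod v) = v := fun h => if_pos ⟨h, rfl⟩
  refine ⟨s, ?_, ?_, ?_, ?_, ?_⟩
  · intro u hu
    by_cases h : u = port (nod u)
    · rw [s1 u h]; exact (hport2 u hu).1
    · rw [s2 u h]; exact ((hσ' u hu).maps u ⟨hu, rfl⟩).1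
  · intro u hu
    by_cases h : u = port (nod u)
    · rw [s1 u h]
      obtain ⟨_, b⟩ := hport2 u hu
      rw [s1 _ (by rw [b]), b, hinv u hu, ← h]
    · rw [s2 u h]
      have hm := (hσ' u hu).maps u ⟨hu, rfl⟩
      have hne : σ (nod u) u ≠ port (nod u) := by
        intro e
        have h3 := (hσ' u hu).invol u ⟨hu, rfl⟩
        have h4 := ((hσ' u hu).fix (port (nod u)) (hport u hu)).2 rfl
        rw [e, h4] at h3
        exact h h3.symm
      rw [s2 _ (by rw [hm.2]; exact hne), hm.2]
      exact (hσ' u hu).invol u ⟨hu, rfl⟩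
  · intro u hu
    by_cases h : u = port (nod u)
    · rw [s1 u h]
      constructor
      · intro e
        have hn : t (nod u) = nod u := by
          have := (hport2 u hu).2
          rw [e] at this; exact this.symm
        obtain ⟨hv, hn2⟩ := (hfix u hu).1 hn
        rw [h, hn2]; exact hv_port hv
      · rintro rfl
        rw [(hfix u hu).2 ⟨hu, rfl⟩, ← h]
    · rw [s2 u h]
      constructor
      · intro e
        exact absurd (((hσ' u hu).fix u ⟨hu, rfl⟩).1 e) h
      · rintro rfl
        exact absurd (hv_port hu).symm h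
  · intro u hu huv
    by_cases h : u = port (nod u)
    · rw [s1 u h]
      have ht : t (nod u) ≠ nod u := by
        intro e
        obtain ⟨hv, hn2⟩ := (hfix u hu).1 e
        apply huv
        rw [h, hn2]; exact hv_port hv
      have := hpel u hu ht
      rwa [← h] at this
    · rw [s2 u h]
      exact (hσ' u hu).elg u ⟨hu, rfl⟩ h
  · intro C hC hCS
    obtain ⟨x, hx⟩ := List.exists_mem_of_ne_nil _ (hFne C hC)
    have hxS := hCS x hx
    have hsub : ∀ u ∈ C, (fun y => S y ∧ nod y = nod x) u := fun u hu =>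
      ⟨hCS u hu, hF C hC u hu x hx⟩
    have key : ∀ u ∈ C, ((u = v ∨ s u ∉ C) ↔ (u = port (nod x) ∨ σ (nod x) u ∉ C)) := by
      intro u hu
      have hun : nod u = nod x := hF C hC u hu x hx
      have huS := hCS u hu
      by_cases h : u = port (nod u)
      · have hR : u = port (nod x) := by rw [← hun]; exact h
        refine ⟨fun _ => Or.inl hR, fun _ => ?_⟩
        by_cases ht : t (nod u) = nod u
        · left
          obtain ⟨hv, hn2⟩ := (hfix u huS).1 ht
          rw [h, hn2]; exact hv_port hv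
        · right
          rw [s1 u h]
          intro hm
          have e1 := hF C hC _ hm x hx
          rw [(hport2 u huS).2, ← hun] at e1
          exact ht e1
      · rw [s2 u h, hun]
        have h' : u ≠ port (nod x) := by rw [← hun]; exact h
        have huv : u ≠ v := by
          rintro rfl
          exact h (hv_port huS).symm
        simp [h', huv]
    obtain ⟨z, ⟨hz1, hz2⟩, hz3⟩ := (hσ' x hxS).tight C hC hsub
    refine ⟨z, ⟨hz1, (key z hz1).2 hz2⟩, ?_⟩
    rintro u ⟨hu1, hu2⟩
    exact hz3 u ⟨hu1, (key u hu1).1 hu2⟩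

end Crest.Agent.R304.Pd292B
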