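import Crest.Agent.R304.Pd292A
import Crest.Agent.R304.Pd292B

/-!
# Row 304, S0467: dual solutions, invariants, weak duality
-/

set_option autoImplicit false

namespace Crest.Agent.R304.Pd292C

open Crest.Agent.R304.Pd292A Crest.Agent.R304.Pd292B

/-- number of members of `F` containing both `u` and `v` -/
def cnt (F : List (List ℕ)) (u v : ℕ) : ℕ := F.countP (fun B => decide (u ∈ B) && decide (v ∈ B))

/-- slack of a pair -/
def slack (w : ℕ → ℕ → ℕ) (y : ℕ → ℤ) (F : List (List ℕ)) (u v : ℕ) : ℤ :=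
  y u + y v + 2 * (cnt F u v : ℤ) - (w u v : ℤ)

/-- eligible pairs -/
def elig (w : ℕ → ℕ → ℕ) (y : ℕ → ℤ) (F : List (List ℕ)) (u v : ℕ) : Bool :=
  decide (0 < w u v) && decide (slack w y F u v ≤ 1)

/-- the vertices are in the same outermost block -/
def same (F : List (List ℕ)) (u v : ℕ) : Bool :=
  decide (u = v) || F.any (fun B => decide (u ∈ B) && decide (v ∈ B))

/-- dual value -/
def dual (n : ℕ) (y : ℕ → ℤ) (F : List (List ℕ)) : ℤ :=
  ∑ v ∈ Finset.range n, y v + (F.map (fun B => (B.length : ℤ) - 1)).sum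

/-- weights -/
structure GoodW (w : ℕ → ℕ → ℕ) : Prop where
  symm : ∀ u v, w u v = w v u
  irr : ∀ v, w v v = 0

/-- perfect matching of the edges of positive weight -/
def PM (n : ℕ) (w : ℕ → ℕ → ℕ) (s : ℕ → ℕ) : Prop :=
  ∀ v, v < n → s v < n ∧ s (s v) = v ∧ s v ≠ v ∧ 0 < w v (s v)

/-- twice the weight of a matching -/
def wt2 (n : ℕ) (w : ℕ → ℕ → ℕ) (s : ℕ → ℕ) : ℕ := ∑ v ∈ Finset.range n, w v (s v)

/-- canonical lists of vertices -/
def Canon (n : ℕ) (B : List ℕ) : Prop := B = (List.range n).filter (fun u => decide (u ∈ B))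

/-- invariants of the primal-dual method -/
structure Inv (n : ℕ) (w : ℕ → ℕ → ℕ) (y : ℕ → ℤ) (F : List (List ℕ)) : Prop where
  slk : ∀ u v, u < n → v < n → 0 < w u v → 0 ≤ slack w y F u v
  canon : ∀ B ∈ F, Canon n B
  ne : ∀ B ∈ F, B ≠ []
  lam : ∀ B ∈ F, ∀ C ∈ F, ∀ x, x ∈ B → x ∈ C → (∀ u ∈ B, u ∈ C) ∨ (∀ u ∈ C, u ∈ B)
  good : ∀ B ∈ F, ∀ v ∈ B, ∃ s, NM (fun a b => elig w y F a b = true) F (fun u => u ∈ B) v s

/-! ### canonical lists -/

theorem Canon.lt {n : ℕ} {B : List ℕ} (h : Canon n B) {u : ℕ} (hu : u ∈ B) : u < n := by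
  rw [h] at hu
  simpa using (List.mem_filter.1 hu).1

theorem Canon.nodup {n : ℕ} {B : List ℕ} (h : Canon n B) : B.Nodup := by
  rw [h]; exact List.Nodup.filter _ List.nodup_range

theorem Canon.ext {n : ℕ} {B C : List ℕ} (h : Canon n B) (h' : Canon n C)
    (he : ∀ u, u < n → (u ∈ B ↔ u ∈ C)) : B = C := by
  rw [h, h']
  refine List.filter_congr fun x hx => ?_
  have hx' : x < n := by simpa using hx
  simp [he x hx']

theorem canon_filter (n : ℕ) (p : ℕ → Bool) : Canon n ((List.range n).filter p) := by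
  unfold Canon
  refine List.filter_congr fun x hx => ?_
  rw [Bool.eq_iff_iff]
  simp only [List.mem_filter, decide_eq_true_eq]
  exact ⟨fun h => ⟨hx, h⟩, fun h => h.2⟩

theorem Canon.length {n : ℕ} {B : List ℕ} (h : Canon n B) :
    B.length = ((Finset.range n).filter (fun u => u ∈ B)).card := by
  rw [← List.toFinset_card_of_nodup h.nodup]
  congr 1
  ext x
  simp only [List.mem_toFinset, Finset.mem_filter, Finset.mem_range]
  exact ⟨fun hx => ⟨h.lt hx, hx⟩, fun hx => hx.2⟩

/-! ### parity -/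

theorem even_card_invol (T : Finset ℕ) (s : ℕ → ℕ)
    (h : ∀ v ∈ T, s v ∈ T ∧ s (s v) = v ∧ s v ≠ v) : Even T.card := by
  have h1 : ∏ _v ∈ T, (-1 : ℤ) = 1 := by
    refine Finset.prod_involution (fun v _ => s v) ?_ ?_ ?_ ?_
    · intro a ha; norm_num
    · intro a ha _; exact (h a ha).2.2
    · intro a ha; exact (h a ha).1
    · intro a ha; exact (h a ha).2.1
  rw [Finset.prod_const] at h1
  exact (neg_one_pow_eq_one_iff_even (by norm_num)).1 h1

theorem odd_of_nm {n : ℕ} {el : ℕ → ℕ → Prop} {F : List (List ℕ)} {B : List ℕ} (hB : Canon n B)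
    {v : ℕ} (hv : v ∈ B) {s : ℕ → ℕ} (h : NM el F (fun u => u ∈ B) v s) : Odd B.length := by
  have h1 : Even (((Finset.range n).filter (fun u => u ∈ B)).erase v).card := by
    refine even_card_invol _ s fun u hu => ?_
    simp only [Finset.mem_erase, Finset.mem_filter, Finset.mem_range] at hu ⊢
    obtain ⟨huv, hun, huB⟩ := hu
    have a1 := h.maps u huB
    have a2 := h.invol u huB
    refine ⟨⟨fun e => ?_, hB.lt a1, a1⟩, a2, fun e => huv ((h.fix u huB).1 e)⟩
    rw [e, (h.fix v hv).2 rfl] at a2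
    exact huv a2.symm
  have h2 : v ∈ (Finset.range n).filter (fun u => u ∈ B) := by
    simp only [Finset.mem_filter, Finset.mem_range]
    exact ⟨hB.lt hv, hv⟩
  have h3 := Finset.card_erase_add_one h2
  rw [hB.length, ← h3]
  exact h1.add_one

theorem Inv.odd {n : ℕ} {w : ℕ → ℕ → ℕ} {y : ℕ → ℤ} {F : List (List ℕ)} (h : Inv n w y F)
    {B : List ℕ} (hB : B ∈ F) : Odd B.length := by
  obtain ⟨x, hx⟩ := List.exists_mem_of_ne_nil _ (h.ne B hB)
  obtain ⟨s, hs⟩ := h.good B hB x hx
  exact odd_of_nm (h.canon B hB) hx hs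

/-! ### sums -/

theorem sum_cnt (n : ℕ) (F : List (List ℕ)) (s : ℕ → ℕ) :
    ∑ v ∈ Finset.range n, cnt F v (s v) =
      (F.map (fun B => ((Finset.range n).filter (fun v => v ∈ B ∧ s v ∈ B)).card)).sum := by
  induction F with
  | nil => simp [cnt]
  | cons B F ih =>
    rw [List.map_cons, List.sum_cons, ← ih, Finset.card_filter, ← Finset.sum_add_distrib]
    refine Finset.sum_congr rfl fun v _ => ?_
    unfold cnt
    rw [List.countP_cons, add_comm]
    simp

theorem sum_invol (n : ℕ) (s : ℕ → ℕ) (h1 : ∀ v, v < n → s v < n) (h2 : ∀ v, v < n → s (s v) = v)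
    (y : ℕ → ℤ) : ∑ v ∈ Finset.range n, y (s v) = ∑ v ∈ Finset.range n, y v := by
  refine Finset.sum_nbij' s s ?_ ?_ ?_ ?_ ?_
  · intro a ha; exact Finset.mem_range.2 (h1 a (Finset.mem_range.1 ha))
  · intro a ha; exact Finset.mem_range.2 (h1 a (Finset.mem_range.1 ha))
  · intro a ha; exact h2 a (Finset.mem_range.1 ha)
  · intro a ha; exact h2 a (Finset.mem_range.1 ha)
  · intro a ha; rfl

theorem sum_slack (n : ℕ) (w : ℕ → ℕ → ℕ) (y : ℕ → ℤ) (F : List (List ℕ)) (s : ℕ → ℕ)
    (h1 : ∀ v, v < n → s v < n) (h2 : ∀ v, v < n → s (s v) = v) :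
    (wt2 n w s : ℤ) = 2 * ∑ v ∈ Finset.range n, y v +
      2 * ((F.map (fun B => ((Finset.range n).filter (fun v => v ∈ B ∧ s v ∈ B)).card)).sum : ℤ) -
      ∑ v ∈ Finset.range n, slack w y F v (s v) := by
  unfold slack wt2
  rw [← sum_cnt]
  rw [Finset.sum_sub_distrib, Finset.sum_add_distrib, Finset.sum_add_distrib, sum_invol n s h1 h2,
    ← Finset.mul_sum]
  push_cast
  ring

theorem list_sum_le {α : Type} (L : List α) (f : α → ℕ) (g : α → ℤ)
    (h : ∀ a ∈ L, (f a : ℤ) ≤ g a) : ((L.map f).sum : ℤ) ≤ (L.map g).sum := by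
  induction L with
  | nil => simp
  | cons a L ih =>
    rw [List.map_cons, List.sum_cons, List.map_cons, List.sum_cons, Nat.cast_add]
    exact add_le_add (h a (by simp)) (ih fun b hb => h b (by simp [hb]))

theorem list_sum_ge {α : Type} (L : List α) (f : α → ℕ) (g : α → ℤ)
    (h : ∀ a ∈ L, g a ≤ (f a : ℤ)) : (L.map g).sum ≤ ((L.map f).sum : ℤ) := by
  induction L with
  | nil => simp
  | cons a L ih =>
    rw [List.map_cons, List.sum_cons, List.map_cons, List.sum_cons, Nat.cast_add]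
    exact add_le_add (h a (by simp)) (ih fun b hb => h b (by simp [hb]))

/-- **weak duality** -/
theorem Inv.weak {n : ℕ} {w : ℕ → ℕ → ℕ} {y : ℕ → ℤ} {F : List (List ℕ)} (h : Inv n w y F)
    {s : ℕ → ℕ} (hs : PM n w s) : (wt2 n w s : ℤ) ≤ 2 * dual n y F := by
  rw [sum_slack n w y F s (fun v hv => (hs v hv).1) (fun v hv => (hs v hv).2.1)]
  unfold dual
  have e1 : 0 ≤ ∑ v ∈ Finset.range n, slack w y F v (s v) := by
    refine Finset.sum_nonneg fun v hv => ?_
    have hv' := Finset.mem_range.1 hv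
    exact h.slk _ _ hv' (hs v hv').1 (hs v hv').2.2.2
  have e2 : ((F.map (fun B => ((Finset.range n).filter (fun v => v ∈ B ∧ s v ∈ B)).card)).sum : ℤ) ≤
      (F.map (fun B => (B.length : ℤ) - 1)).sum := by
    refine list_sum_le F _ _ fun B hB => ?_
    have hodd := h.odd hB
    have heven : Even ((Finset.range n).filter (fun v => v ∈ B ∧ s v ∈ B)).card := by
      refine even_card_invol _ s fun v hv => ?_
      simp only [Finset.mem_filter, Finset.mem_range] at hv ⊢
      obtain ⟨a1, a2, a3, a4⟩ := hs v hv.1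
      rw [a2]
      exact ⟨⟨a1, hv.2.2, hv.2.1⟩, rfl, a3⟩
    have hle : ((Finset.range n).filter (fun v => v ∈ B ∧ s v ∈ B)).card ≤ B.length := by
      rw [(h.canon B hB).length]
      refine Finset.card_le_card fun x hx => ?_
      simp only [Finset.mem_filter] at hx ⊢
      exact ⟨hx.1, hx.2.1⟩
    obtain ⟨a, ha⟩ := hodd
    obtain ⟨b, hb⟩ := heven
    omega
  linarith

/-- value of a tight perfect matching of eligible edges -/
theorem Inv.final {n : ℕ} {w : ℕ → ℕ → ℕ} {y : ℕ → ℤ} {F : List (List ℕ)} (h : Inv n w y F)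
    {s : ℕ → ℕ} (hs : NM (fun a b => elig w y F a b = true) F (fun u => u < n) n s) :
    PM n w s ∧ 2 * dual n y F - n ≤ wt2 n w s := by
  have hPM : PM n w s := by
    intro v hv
    have hne : v ≠ n := ne_of_lt hv
    have he := hs.elg v hv hne
    simp only [elig, Bool.and_eq_true, decide_eq_true_eq] at he
    exact ⟨hs.maps v hv, hs.invol v hv, fun e => hne ((hs.fix v hv).1 e), he.1⟩
  refine ⟨hPM, ?_⟩
  rw [sum_slack n w y F s (fun v hv => (hPM v hv).1) (fun v hv => (hPM v hv).2.1)]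
  unfold dual
  have e1 : ∑ v ∈ Finset.range n, slack w y F v (s v) ≤ n := by
    calc ∑ v ∈ Finset.range n, slack w y F v (s v) ≤ ∑ _v ∈ Finset.range n, (1 : ℤ) := by
          refine Finset.sum_le_sum fun v hv => ?_
          have hv' := Finset.mem_range.1 hv
          have he := hs.elg v hv' (ne_of_lt hv')
          simp only [elig, Bool.and_eq_true, decide_eq_true_eq] at he
          exact he.2
      _ = n := by simp
  have e2 : (F.map (fun B => (B.length : ℤ) - 1)).sum ≤
      ((F.map (fun B => ((Finset.range n).filter (fun v => v ∈ B ∧ s v ∈ B)).card)).sum : ℤ) := by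
    refine list_sum_ge F _ _ fun B hB => ?_
    have hc := h.canon B hB
    obtain ⟨z, ⟨hz1, hz2⟩, hz3⟩ := hs.tight B hB (fun u hu => hc.lt hu)
    have hz4 : s z ∉ B := by
      rcases hz2 with h0 | h0
      · exact absurd h0 (ne_of_lt (hc.lt hz1))
      · exact h0
    have hsub : ((Finset.range n).filter (fun u => u ∈ B)).erase z ⊆
        (Finset.range n).filter (fun v => v ∈ B ∧ s v ∈ B) := by
      intro u hu
      simp only [Finset.mem_erase, Finset.mem_filter, Finset.mem_range] at hu ⊢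
      refine ⟨hu.2.1, hu.2.2, ?_⟩
      by_contra hn
      exact hu.1 (hz3 u ⟨hu.2.2, Or.inr hn⟩)
    have h1 := Finset.card_le_card hsub
    have h2 : z ∈ (Finset.range n).filter (fun u => u ∈ B) := by
      simp only [Finset.mem_filter, Finset.mem_range]
      exact ⟨hc.lt hz1, hz1⟩
    have h3 := Finset.card_erase_add_one h2
    rw [hc.length]
    omega
  linarith

end Crest.Agent.R304.Pd292C
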