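import Crest.Agent.R304.Pd292C

/-!
# Row 304, S0467: one dual change keeps the invariants and lowers the dual value
-/

set_option autoImplicit false

namespace Crest.Agent.R304.Pd292D

open Crest.Agent.R304.Pd292A Crest.Agent.R304.Pd292B Crest.Agent.R304.Pd292C

variable {n : ℕ} {w : ℕ → ℕ → ℕ} {y : ℕ → ℤ} {F : List (List ℕ)}

theorem same_iff {u v : ℕ} : same F u v = true ↔ u = v ∨ ∃ B ∈ F, u ∈ B ∧ v ∈ B := by
  simp [same]

theorem same_eqOn (h : Inv n w y F) : EqOn n (fun _ => true) (same F) where
  refl v _ _ := same_iff.2 (Or.inl rfl)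
  symm u v _ _ huv := by
    rcases same_iff.1 huv with e | ⟨B, hB, h1, h2⟩
    · exact same_iff.2 (Or.inl e.symm)
    · exact same_iff.2 (Or.inr ⟨B, hB, h2, h1⟩)
  trans u v x _ _ _ huv hvx := by
    rcases same_iff.1 huv with rfl | ⟨B, hB, h1, h2⟩
    · exact hvx
    rcases same_iff.1 hvx with rfl | ⟨C, hC, h3, h4⟩
    · exact huv
    rcases h.lam B hB C hC v h2 h3 with h5 | h5
    · exact same_iff.2 (Or.inr ⟨C, hC, h5 _ h1, h4⟩)
    · exact same_iff.2 (Or.inr ⟨B, hB, h1, h5 _ h4⟩)
  left _ _ _ _ _ := rfl

/-- a block with at least two vertices is a member of `F` -/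
theorem blk_mem (h : Inv n w y F) {u v : ℕ} (_hu : u < n) (_hv : v < n) (huv : u ≠ v)
    (hs : same F u v = true) : cls n (same F) u ∈ F := by
  classical
  have hex : ∃ B ∈ F, u ∈ B := by
    rcases same_iff.1 hs with e | ⟨B, hB, h1, _⟩
    · exact absurd e huv
    · exact ⟨B, hB, h1⟩
  -- a member containing `u` of maximal length
  obtain ⟨B, hB, huB, hmax⟩ : ∃ B ∈ F, u ∈ B ∧ ∀ C ∈ F, u ∈ C → C.length ≤ B.length := by
    have hne : (F.toFinset.filter (fun B => u ∈ B)).Nonempty := by
      obtain ⟨B, hB, h1⟩ := hex
      exact ⟨B, by simp [hB, h1]⟩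
    obtain ⟨B, hB, hm⟩ := Finset.exists_max_image _ (fun B : List ℕ => B.length) hne
    simp only [Finset.mem_filter, List.mem_toFinset] at hB hm
    exact ⟨B, hB.1, hB.2, fun C hC huC => hm C ⟨hC, huC⟩⟩
  have e : cls n (same F) u = B := by
    refine Canon.ext (canon_filter n _) (h.canon B hB) fun x hx => ?_
    rw [mem_cls]
    constructor
    · rintro ⟨_, hsx⟩
      rcases same_iff.1 hsx with rfl | ⟨C, hC, h1, h2⟩
      · exact huB
      rcases h.lam B hB C hC u huB h1 with h5 | h5
      · -- `B ⊆ C`, lengths agree, so `C ⊆ B`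
        have hCB := hmax C hC h1
        have hsub : (Finset.range n).filter (fun x => x ∈ B) ⊆
            (Finset.range n).filter (fun x => x ∈ C) := by
          intro z hz
          simp only [Finset.mem_filter] at hz ⊢
          exact ⟨hz.1, h5 z hz.2⟩
        rw [(h.canon B hB).length, (h.canon C hC).length] at hCB
        have heq := Finset.eq_of_subset_of_card_le hsub hCB
        have hxC : x ∈ (Finset.range n).filter (fun x => x ∈ C) := by
          simp only [Finset.mem_filter, Finset.mem_range]
          exact ⟨hx, h2⟩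
        rw [← heq] at hxC
        exact (Finset.mem_filter.1 hxC).2
      · exact h5 x h2
    · intro hxB
      exact ⟨hx, same_iff.2 (Or.inr ⟨B, hB, huB, hxB⟩)⟩
  rw [e]; exact hB

/-- same block, inside `A` -/
def sameA (F : List (List ℕ)) (inA : ℕ → Bool) (u v : ℕ) : Bool := inA u && same F u v

/-- what the dual change needs to know -/
structure StepHyp (n : ℕ) (w : ℕ → ℕ → ℕ) (y : ℕ → ℤ) (F : List (List ℕ)) (inD inA : ℕ → Bool)
    (cp : ℕ → ℕ → Bool) : Prop where
  disj : ∀ v, v < n → inD v = true → inA v = false
  sameD : ∀ u v, u < n → v < n → same F u v = true → inD u = true → inD v = true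
  sameA : ∀ u v, u < n → v < n → same F u v = true → inA u = true → inA v = true
  cpE : EqOn n inD cp
  cpSame : ∀ u v, u < n → v < n → same F u v = true → inD u = true → cp u v = true
  cpElig : ∀ u v, u < n → v < n → elig w y F u v = true → inD u = true → inD v = true →
    cp u v = true
  nbr : ∀ u v, u < n → v < n → inD u = true → elig w y F u v = true → inD v = true ∨ inA v = true
  crit : ∀ v, v < n → inD v = true →
    ∃ s, NM (fun a b => elig w y F a b = true) F (fun u => u < n ∧ cp v u = true) v s
  cntc : (classes n inA (Pd292D.sameA F inA)).length + 1 ≤ (classes n inD cp).length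

/-- the blocks in `A` that are members of `F` -/
def Abl (n : ℕ) (F : List (List ℕ)) (inA : ℕ → Bool) : List (List ℕ) :=
  (classes n inA (sameA F inA)).filter (fun X => decide (X ∈ F))

/-- the dual change on vertices -/
def sig (inD inA : ℕ → Bool) (v : ℕ) : ℤ := if inD v = true then -1 else if inA v = true then 1 else 0

section

variable {inD inA : ℕ → Bool} {cp : ℕ → ℕ → Bool} {F1 : List (List ℕ)}

theorem sameA_eqOn (h : Inv n w y F) (H : StepHyp n w y F inD inA cp) :
    EqOn n inA (sameA F inA) where
  refl v hv hA := by simp [sameA, hA, same]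
  symm u v hu hv huv := by
    simp only [sameA, Bool.and_eq_true] at huv ⊢
    exact ⟨H.sameA u v hu hv huv.2 huv.1, (same_eqOn h).symm u v hu hv huv.2⟩
  trans u v x hu hv hx huv hvx := by
    simp only [sameA, Bool.and_eq_true] at huv hvx ⊢
    exact ⟨huv.1, (same_eqOn h).trans u v x hu hv hx huv.2 hvx.2⟩
  left u v hu hv huv := by
    simp only [sameA, Bool.and_eq_true] at huv
    exact huv.1

theorem cls_sameA {u : ℕ} (hA : inA u = true) : cls n (sameA F inA) u = cls n (same F) u := by
  unfold cls sameA
  simp [hA]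

/-- a class in `A` that is not a member of `F` has one vertex -/
theorem length_of_not_mem (h : Inv n w y F) (H : StepHyp n w y F inD inA cp) {X : List ℕ}
    (hX : X ∈ classes n inA (sameA F inA)) (hXF : X ∉ F) : X.length = 1 := by
  obtain ⟨v, hv, hA, rfl⟩ := (mem_classes (sameA_eqOn h H)).1 hX
  rw [cls_sameA hA] at hXF ⊢
  have hmem : v ∈ cls n (same F) v := mem_cls.2 ⟨hv, same_iff.2 (Or.inl rfl)⟩
  have hall : ∀ u ∈ cls n (same F) v, u = v := by
    intro u hu
    by_contra hne
    obtain ⟨hun, hus⟩ := mem_cls.1 hu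
    exact hXF (blk_mem h hv hun (Ne.symm hne) hus)
  have hnd : (cls n (same F) v).Nodup := nodup_cls v
  rw [← List.toFinset_card_of_nodup hnd, Finset.card_eq_one]
  refine ⟨v, ?_⟩
  ext x
  simp only [List.mem_toFinset, Finset.mem_singleton]
  exact ⟨fun hx => hall x hx, fun hx => hx ▸ hmem⟩

theorem cnt_append (F F' : List (List ℕ)) (u v : ℕ) : cnt (F ++ F') u v = cnt F u v + cnt F' u v := by
  simp [cnt, List.countP_append]

theorem cnt_perm {F F' : List (List ℕ)} (h : F.Perm F') (u v : ℕ) : cnt F u v = cnt F' u v :=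
  h.countP_eq _

theorem cnt_Abl (h : Inv n w y F) (H : StepHyp n w y F inD inA cp) {u v : ℕ} (hu : u < n)
    (hv : v < n) (huv : u ≠ v) :
    cnt (Abl n F inA) u v = if sameA F inA u v = true then 1 else 0 := by
  rw [← classes_countP (sameA_eqOn h H) hu hv]
  unfold cnt Abl
  rw [List.countP_filter]
  refine List.countP_congr fun X hX => ?_
  simp only [Bool.and_eq_true, decide_eq_true_eq]
  refine ⟨fun h1 => h1.1, fun h1 => ⟨h1, ?_⟩⟩
  obtain ⟨x, hx, hA, rfl⟩ := (mem_classes (sameA_eqOn h H)).1 hX
  rw [cls_sameA hA] at h1 ⊢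
  obtain ⟨hxu, hxv⟩ := h1
  rw [mem_cls] at hxu hxv
  by_cases hxe : x = u
  · subst hxe
    exact blk_mem h hx hv huv hxv.2
  · exact blk_mem h hx hu hxe hxu.2

theorem cnt_new (h : Inv n w y F) (H : StepHyp n w y F inD inA cp)
    (hp : (Abl n F inA ++ F1).Perm F) {u v : ℕ} (hu : u < n) (hv : v < n) (huv : u ≠ v) :
    (cnt (classes n inD cp ++ F1) u v : ℤ) = cnt F u v + (if cp u v = true then 1 else 0) -
      (if sameA F inA u v = true then 1 else 0) := by
  have e1 : cnt F u v = (if sameA F inA u v = true then 1 else 0) + cnt F1 u v := by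
    rw [← cnt_perm hp, cnt_append, cnt_Abl h H hu hv huv]
  have e2 : cnt (classes n inD cp ++ F1) u v = (if cp u v = true then 1 else 0) + cnt F1 u v := by
    rw [cnt_append]
    congr 1
    exact classes_countP H.cpE hu hv
  rw [e2, e1]
  push_cast
  split_ifs <;> ring

theorem slack_new (h : Inv n w y F) (H : StepHyp n w y F inD inA cp)
    (hp : (Abl n F inA ++ F1).Perm F) {u v : ℕ} (hu : u < n) (hv : v < n) (huv : u ≠ v) :
    slack w (fun x => y x + sig inD inA x) (classes n inD cp ++ F1) u v =
      slack w y F u v + sig inD inA u + sig inD inA v + 2 * (if cp u v = true then 1 else 0) -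
      2 * (if sameA F inA u v = true then 1 else 0) := by
  unfold slack
  rw [cnt_new h H hp hu hv huv]
  ring

/-- inside a block or a component the slacks do not change -/
theorem slack_same (h : Inv n w y F) (H : StepHyp n w y F inD inA cp)
    (hp : (Abl n F inA ++ F1).Perm F) {u v : ℕ} (hu : u < n) (hv : v < n) (huv : u ≠ v)
    (hs : same F u v = true ∨ cp u v = true) :
    slack w (fun x => y x + sig inD inA x) (classes n inD cp ++ F1) u v = slack w y F u v := by
  rw [slack_new h H hp hu hv huv]
  have hsym := (same_eqOn h).symm u v hu hv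
  by_cases hD : inD u = true
  · have hcp : cp u v = true := by
      rcases hs with hs | hs
      · exact H.cpSame u v hu hv hs hD
      · exact hs
    have hDv : inD v = true := H.cpE.left v u hv hu (H.cpE.symm u v hu hv hcp)
    have hA := H.disj u hu hD
    simp [sig, hD, hDv, hcp, sameA, hA]
    ring
  · have hcp : ¬ cp u v = true := fun hc => hD (H.cpE.left u v hu hv hc)
    have hs' : same F u v = true := by
      rcases hs with hs | hs
      · exact hs
      · exact absurd hs hcp
    have hDv : ¬ inD v = true := fun hc => hD (H.sameD v u hv hu (hsym hs') hc)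
    by_cases hA : inA u = true
    · have hAv : inA v = true := H.sameA u v hu hv hs' hA
      simp [sig, hD, hDv, hcp, sameA, hA, hAv, hs']
      ring
    · have hAv : ¬ inA v = true := fun hc => hA (H.sameA v u hv hu (hsym hs') hc)
      simp [sig, hD, hDv, hcp, sameA, hA, hAv]

theorem elig_same (hw : GoodW w) (h : Inv n w y F) (H : StepHyp n w y F inD inA cp)
    (hp : (Abl n F inA ++ F1).Perm F) {u v : ℕ} (hu : u < n) (hv : v < n)
    (hs : same F u v = true ∨ cp u v = true) (he : elig w y F u v = true) :
    elig w (fun x => y x + sig inD inA x) (classes n inD cp ++ F1) u v = true := by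
  have huv : u ≠ v := by
    rintro rfl
    simp [elig, hw.irr] at he
  unfold elig at he ⊢
  rw [slack_same h H hp hu hv huv hs]
  exact he

/-- the new slacks are nonnegative -/
theorem slk_new (hw : GoodW w) (h : Inv n w y F) (H : StepHyp n w y F inD inA cp)
    (hp : (Abl n F inA ++ F1).Perm F) {u v : ℕ} (hu : u < n) (hv : v < n) (hpos : 0 < w u v) :
    0 ≤ slack w (fun x => y x + sig inD inA x) (classes n inD cp ++ F1) u v := by
  have huv : u ≠ v := by
    rintro rfl
    rw [hw.irr] at hpos
    exact absurd hpos (lt_irrefl _)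
  have h0 := h.slk u v hu hv hpos
  have h0' := h.slk v u hv hu (by rw [hw.symm]; exact hpos)
  by_cases hs : same F u v = true ∨ cp u v = true
  · rw [slack_same h H hp hu hv huv hs]; exact h0
  rw [not_or] at hs
  obtain ⟨hs1, hs2⟩ := hs
  rw [slack_new h H hp hu hv huv]
  have e1 : ¬ sameA F inA u v = true := by
    simp only [sameA, Bool.and_eq_true, not_and]
    exact fun _ => hs1
  rw [if_neg hs2, if_neg e1]
  have hel : slack w y F u v ≤ 1 → elig w y F u v = true := fun hh => by
    simp [elig, hpos, hh]
  have hslsym : slack w y F v u = slack w y F u v := by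
    unfold slack cnt
    rw [hw.symm v u]
    have : (fun B : List ℕ => decide (v ∈ B) && decide (u ∈ B)) =
        fun B => decide (u ∈ B) && decide (v ∈ B) := by
      funext B; rw [Bool.and_comm]
    rw [this]; ring
  have hel' : slack w y F u v ≤ 1 → elig w y F v u = true := fun hh => by
    rw [← hslsym] at hh
    simp [elig, hw.symm v u, hpos, hh]
  by_cases hDu : inD u = true
  · have hAu := H.disj u hu hDu
    by_cases hDv : inD v = true
    · have hAv := H.disj v hv hDv
      have h2 : 2 ≤ slack w y F u v := by
        by_contra hc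
        exact hs2 (H.cpElig u v hu hv (hel (by omega)) hDu hDv)
      simp only [sig, hDu, hDv, if_true]
      omega
    · by_cases hAv : inA v = true
      · simp only [sig, hDu, hDv, hAv, if_true]
        simp
        omega
      · have h2 : 2 ≤ slack w y F u v := by
          by_contra hc
          rcases H.nbr u v hu hv hDu (hel (by omega)) with hh | hh
          · exact hDv hh
          · exact hAv hh
        simp only [sig, hDu, hDv, hAv, if_true]
        simp
        omega
  · by_cases hDv : inD v = true
    · by_cases hAu : inA u = true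
      · simp only [sig, hDu, hDv, hAu, if_true]
        simp
        omega
      · have h2 : 2 ≤ slack w y F u v := by
          by_contra hc
          rcases H.nbr v u hv hu hDv (hel' (by omega)) with hh | hh
          · exact hDu hh
          · exact hAu hh
        simp only [sig, hDu, hDv, hAu, if_true]
        simp
        omega
    · have h1 : 0 ≤ sig inD inA u := by unfold sig; rw [if_neg hDu]; split_ifs <;> norm_num
      have h2 : 0 ≤ sig inD inA v := by unfold sig; rw [if_neg hDv]; split_ifs <;> norm_num
      omega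

/-- **the dual change keeps the invariants** -/
theorem inv_new (hw : GoodW w) (h : Inv n w y F) (H : StepHyp n w y F inD inA cp)
    (hp : (Abl n F inA ++ F1).Perm F) :
    Inv n w (fun x => y x + sig inD inA x) (classes n inD cp ++ F1) := by
  have hF1 : ∀ B ∈ F1, B ∈ F := fun B hB => hp.subset (by simp [hB])
  have hmem : ∀ B ∈ classes n inD cp ++ F1,
      (∃ v, v < n ∧ inD v = true ∧ B = cls n cp v) ∨ B ∈ F := by
    intro B hB
    rcases List.mem_append.1 hB with hB | hB
    · exact Or.inl ((mem_classes H.cpE).1 hB)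
    · exact Or.inr (hF1 B hB)
  have hcanon : ∀ B ∈ classes n inD cp ++ F1, Canon n B := by
    intro B hB
    rcases hmem B hB with ⟨v, hv, hD, rfl⟩ | hB
    · exact canon_filter n _
    · exact h.canon B hB
  have hsameB : ∀ B ∈ F, ∀ a ∈ B, ∀ b ∈ B, same F a b = true :=
    fun B hB a ha b hb => same_iff.2 (Or.inr ⟨B, hB, ha, hb⟩)
  refine ⟨fun u v hu hv hpos => slk_new hw h H hp hu hv hpos, hcanon, ?_, ?_, ?_⟩
  · intro B hB
    rcases hmem B hB with ⟨v, hv, hD, rfl⟩ | hB
    · exact List.ne_nil_of_mem (mem_cls.2 ⟨hv, H.cpE.refl v hv hD⟩)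
    · exact h.ne B hB
  · intro B hB C hC x hxB hxC
    -- class versus member
    have key : ∀ v, v < n → inD v = true → x ∈ cls n cp v → ∀ C' ∈ F, x ∈ C' →
        ∀ u ∈ C', u ∈ cls n cp v := by
      intro v hv hD hx C' hC' hxC' u hu
      obtain ⟨hxn, hvx⟩ := mem_cls.1 hx
      have hun := (h.canon C' hC').lt hu
      have hDx : inD x = true := H.cpE.left x v hxn hv (H.cpE.symm v x hv hxn hvx)
      exact mem_cls.2 ⟨hun, H.cpE.trans v x u hv hxn hun hvx
        (H.cpSame x u hxn hun (hsameB C' hC' x hxC' u hu) hDx)⟩
    rcases hmem B hB with ⟨v, hv, hD, rfl⟩ | hB'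
    · rcases hmem C hC with ⟨v', hv', hD', rfl⟩ | hC'
      · left
        have e : cls n cp v = cls n cp v' := by
          obtain ⟨hxn, hvx⟩ := mem_cls.1 hxB
          obtain ⟨_, hvx'⟩ := mem_cls.1 hxC
          rw [cls_congr H.cpE hv hxn hvx, cls_congr H.cpE hv' hxn hvx']
        rw [e]; exact fun u hu => hu
      · right
        exact key v hv hD hxB C hC' hxC
    · rcases hmem C hC with ⟨v', hv', hD', rfl⟩ | hC'
      · left
        exact key v' hv' hD' hxC B hB' hxB
      · exact h.lam B hB' C hC' x hxB hxC
  · intro B hB v hvB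
    have hvn := (hcanon B hB).lt hvB
    -- members inside `B`
    have hins : ∀ (S : ℕ → Prop), (∀ u, S u → u < n) → S v →
        (∀ a b, S a → S b → same F a b = true ∨ cp a b = true) →
        ∀ s, NM (fun a b => elig w y F a b = true) F S v s →
        NM (fun a b => elig w (fun x => y x + sig inD inA x) (classes n inD cp ++ F1) a b = true)
          (classes n inD cp ++ F1) S v s := by
      intro S hSn hSv hSs s hs
      refine hs.mono (fun a b ha hb he => elig_same hw h H hp (hSn a ha) (hSn b hb) (hSs a b ha hb) he)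
        fun C hC hCS => ?_
      rcases hmem C hC with ⟨x, hx, hD, rfl⟩ | hC'
      · right
        refine ⟨fun u hu => ?_, hSv⟩
        have hxx : x ∈ cls n cp x := mem_cls.2 ⟨hx, H.cpE.refl x hx hD⟩
        have hun := hSn u hu
        refine mem_cls.2 ⟨hun, ?_⟩
        rcases hSs x u (hCS x hxx) hu with h1 | h1
        · exact H.cpSame x u hx hun h1 hD
        · exact h1
      · exact Or.inl hC'
    rcases hmem B hB with ⟨x, hx, hD, rfl⟩ | hB'
    · obtain ⟨_, hxv⟩ := mem_cls.1 hvB
      have hDv : inD v = true := H.cpE.left v x hvn hx (H.cpE.symm x v hx hvn hxv)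
      obtain ⟨s, hs⟩ := H.crit v hvn hDv
      have hiff : (fun u => u ∈ cls n cp x) = fun u => u < n ∧ cp v u = true := by
        funext u
        rw [cls_congr H.cpE hx hvn hxv, mem_cls]
      rw [hiff]
      refine ⟨s, hins _ (fun u hu => hu.1) ⟨hvn, H.cpE.refl v hvn hDv⟩ (fun a b ha hb => ?_) s hs⟩
      exact Or.inr (H.cpE.trans a v b ha.1 hvn hb.1 (H.cpE.symm v a hvn ha.1 ha.2) hb.2)
    · obtain ⟨s, hs⟩ := h.good B hB' v hvB
      exact ⟨s, hins _ (fun u hu => (h.canon B hB').lt hu) hvB
        (fun a b ha hb => Or.inl (hsameB B hB' a ha b hb)) s hs⟩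

theorem sum_filter_zero {α : Type} (L : List α) (q : α → Bool) (g : α → ℤ)
    (h : ∀ x ∈ L, q x = false → g x = 0) : ((L.filter q).map g).sum = (L.map g).sum := by
  induction L with
  | nil => simp
  | cons a L ih =>
    have ih' := ih fun x hx => h x (List.mem_cons_of_mem _ hx)
    by_cases hq : q a = true
    · rw [List.filter_cons_of_pos hq]; simp [ih']
    · rw [List.filter_cons_of_neg hq, ih']
      have := h a (by simp) (by simpa using hq)
      simp [this]

/-- **the dual value drops** -/
theorem dual_new (h : Inv n w y F) (H : StepHyp n w y F inD inA cp)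
    (hp : (Abl n F inA ++ F1).Perm F) :
    dual n (fun x => y x + sig inD inA x) (classes n inD cp ++ F1) + 1 ≤ dual n y F := by
  have e1 : (F.map (fun B => (B.length : ℤ) - 1)).sum =
      ((Abl n F inA).map (fun B => (B.length : ℤ) - 1)).sum +
        (F1.map (fun B => (B.length : ℤ) - 1)).sum := by
    rw [← (hp.map (fun B => (B.length : ℤ) - 1)).sum_eq, List.map_append, List.sum_append]
  have e2 : ((Abl n F inA).map (fun B => (B.length : ℤ) - 1)).sum =
      ((List.range n).filter inA).length - (classes n inA (sameA F inA)).length := by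
    rw [← classes_sum_pred (sameA_eqOn h H), Abl]
    refine sum_filter_zero _ _ _ fun X hX hXF => ?_
    rw [length_of_not_mem h H hX (by simpa using hXF)]
    norm_num
  have e3 := classes_sum_pred H.cpE
  have e4 : ∑ v ∈ Finset.range n, (y v + sig inD inA v) = ∑ v ∈ Finset.range n, y v -
      ((List.range n).filter inD).length + ((List.range n).filter inA).length := by
    rw [Finset.sum_add_distrib, length_filter_range, length_filter_range]
    push_cast
    have : ∑ v ∈ Finset.range n, sig inD inA v =
        ∑ v ∈ Finset.range n, ((if inA v = true then (1 : ℤ) else 0) - if inD v = true then 1 else 0) := by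
      refine Finset.sum_congr rfl fun v hv => ?_
      unfold sig
      by_cases hD : inD v = true
      · rw [H.disj v (Finset.mem_range.1 hv) hD]; simp [hD]
      · by_cases hA : inA v = true <;> simp [hD, hA]
    rw [this, Finset.sum_sub_distrib]
    ring
  unfold dual
  rw [List.map_append, List.sum_append, e1, e2, e3, e4]
  have := H.cntc
  omega

end

end Crest.Agent.R304.Pd292D
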