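import Crest.Agent.R304.Pd292D
import Crest.Agent.R304.Pd292O

/-!
# Row 304, S0467: from the oracle on the block graph to the dual change
-/

set_option autoImplicit false

namespace Crest.Agent.R304.Pd292E

open Crest.Agent.R304.Pd292A Crest.Agent.R304.Pd292B Crest.Agent.R304.Pd292C
  Crest.Agent.R304.Pd292D Crest.Agent.R304.Pd292O

/-! ### closure -/

/-- one closure step -/
def cloStep (n : ℕ) (r : ℕ → ℕ → Bool) (S : List ℕ) : List ℕ :=
  (List.range n).filter (fun v => decide (v ∈ S) || S.any (fun x => r x v))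

/-- the vertices reachable from `u` -/
def clo (n : ℕ) (r : ℕ → ℕ → Bool) (u : ℕ) : List ℕ :=
  (cloStep n r)^[n] ((List.range n).filter (fun v => decide (v = u)))

theorem mem_cloStep {n : ℕ} {r : ℕ → ℕ → Bool} {S : List ℕ} {v : ℕ} :
    v ∈ cloStep n r S ↔ v < n ∧ (v ∈ S ∨ ∃ x ∈ S, r x v = true) := by
  simp [cloStep]

theorem clo_sound {n : ℕ} {r : ℕ → ℕ → Bool} {u : ℕ} (k : ℕ) : ∀ v,
    v ∈ (cloStep n r)^[k] ((List.range n).filter (fun v => decide (v = u))) →
      v < n ∧ Relation.ReflTransGen (fun a b => b < n ∧ r a b = true) u v := by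
  induction k with
  | zero =>
    intro v hv
    simp only [Function.iterate_zero, id, List.mem_filter, List.mem_range, decide_eq_true_eq] at hv
    exact ⟨hv.1, by rw [hv.2]⟩
  | succ k ih =>
    intro v hv
    rw [Function.iterate_succ_apply', mem_cloStep] at hv
    rcases hv with ⟨hvn, hv | ⟨x, hx, hr⟩⟩
    · exact ih v hv
    · exact ⟨hvn, (ih x hx).2.tail ⟨hvn, hr⟩⟩

theorem mem_clo {n : ℕ} {r : ℕ → ℕ → Bool} {u v : ℕ} (hu : u < n) :
    v ∈ clo n r u ↔ Relation.ReflTransGen (fun a b => b < n ∧ r a b = true) u v := by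
  refine ⟨fun h => (clo_sound n v h).2, ?_⟩
  set S0 := (List.range n).filter (fun v => decide (v = u)) with hS0
  have hu0 : u ∈ S0 := by simp [hS0, hu]
  have hcan : ∀ k, Canon n ((cloStep n r)^[k] S0) := by
    intro k
    cases k with
    | zero => exact canon_filter n _
    | succ k => rw [Function.iterate_succ_apply']; exact canon_filter n _
  have hmono : ∀ k, ∀ x, x ∈ (cloStep n r)^[k] S0 → x ∈ (cloStep n r)^[k + 1] S0 := by
    intro k x hx
    rw [Function.iterate_succ_apply', mem_cloStep]
    exact ⟨(hcan k).lt hx, Or.inl hx⟩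
  have hu_all : ∀ k, u ∈ (cloStep n r)^[k] S0 := by
    intro k
    induction k with
    | zero => exact hu0
    | succ k ih => exact hmono k u ih
  have hstat : ∃ j, j < n ∧ (cloStep n r)^[j + 1] S0 = (cloStep n r)^[j] S0 := by
    by_contra hno
    push Not at hno
    have hcard : ∀ k, k ≤ n → k + 1 ≤ ((cloStep n r)^[k] S0).length := by
      intro k
      induction k with
      | zero =>
        intro _
        have : 0 < S0.length := List.length_pos_of_mem hu0
        rw [Function.iterate_zero, id]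
        omega
      | succ k ih =>
        intro hk
        have h1 := ih (by omega)
        have hne := hno k (by omega)
        rw [(hcan k).length] at h1
        rw [(hcan (k + 1)).length]
        have hsub : (Finset.range n).filter (fun x => x ∈ (cloStep n r)^[k] S0) ⊂
            (Finset.range n).filter (fun x => x ∈ (cloStep n r)^[k + 1] S0) := by
          rw [Finset.ssubset_iff_subset_ne]
          constructor
          · intro x hx
            simp only [Finset.mem_filter] at hx ⊢
            exact ⟨hx.1, hmono k x hx.2⟩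
          · intro he
            apply hne
            refine Canon.ext (hcan _) (hcan _) fun x hx => ?_
            have := Finset.ext_iff.1 he x
            simp only [Finset.mem_filter, Finset.mem_range, hx, true_and] at this
            exact this.symm
        have := Finset.card_lt_card hsub
        omega
    have h1 := hcard n le_rfl
    rw [(hcan n).length] at h1
    have h2 := Finset.card_filter_le (Finset.range n) (fun x => x ∈ (cloStep n r)^[n] S0)
    rw [Finset.card_range] at h2
    omega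
  obtain ⟨j, hj, hjs⟩ := hstat
  have hfix : cloStep n r ((cloStep n r)^[j] S0) = (cloStep n r)^[j] S0 := by
    rw [← Function.iterate_succ_apply' (cloStep n r) j S0]; exact hjs
  have hn : (cloStep n r)^[n] S0 = (cloStep n r)^[j] S0 := by
    have e : (cloStep n r)^[n] S0 = (cloStep n r)^[(n - j) + j] S0 := by
      rw [Nat.sub_add_cancel hj.le]
    rw [e, Function.iterate_add_apply]
    exact Function.iterate_fixed hfix (n - j)
  intro h
  unfold clo
  rw [← hS0, hn]
  induction h with
  | refl => exact hu_all j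
  | tail hab hbc ih =>
    rw [← hfix, mem_cloStep]
    exact ⟨hbc.1, Or.inr ⟨_, ih, hbc.2⟩⟩

/-! ### the bridge -/

/-- block numbers and block graph -/
structure Blocks (n : ℕ) (w : ℕ → ℕ → ℕ) (y : ℕ → ℤ) (F : List (List ℕ)) (k : ℕ) (nod : ℕ → ℕ)
    (adj : ℕ → ℕ → Prop) : Prop where
  lt : ∀ v, v < n → nod v < k
  surj : ∀ i, i < k → ∃ v, v < n ∧ nod v = i
  same : ∀ u v, u < n → v < n → (nod u = nod v ↔ same F u v = true)
  adj : ∀ i j, i < k → j < k → (adj i j ↔ i ≠ j ∧ ∃ u v, u < n ∧ v < n ∧ nod u = i ∧ nod v = j ∧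
    elig w y F u v = true)

variable {n : ℕ} {w : ℕ → ℕ → ℕ} {y : ℕ → ℤ} {F : List (List ℕ)}

theorem elig_symm (hw : GoodW w) {u v : ℕ} (h : elig w y F u v = true) : elig w y F v u = true := by
  have hslsym : slack w y F v u = slack w y F u v := by
    unfold slack cnt
    rw [hw.symm v u]
    have : (fun B : List ℕ => decide (v ∈ B) && decide (u ∈ B)) =
        fun B => decide (u ∈ B) && decide (v ∈ B) := by
      funext B; rw [Bool.and_comm]
    rw [this]; ring
  unfold elig at h ⊢
  rw [hslsym, hw.symm v u]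
  exact h

/-- every block has near-perfect matchings with arbitrary hole -/
theorem block_good (h : Inv n w y F) {u : ℕ} (hu : u < n) :
    ∃ s, NM (fun a b => elig w y F a b = true) F (fun x => x < n ∧ same F u x = true) u s := by
  by_cases hex : ∃ v, v < n ∧ u ≠ v ∧ same F u v = true
  · obtain ⟨v, hv, huv, hs⟩ := hex
    have hB := blk_mem h hu hv huv hs
    obtain ⟨s, hs⟩ := h.good _ hB u (mem_cls.2 ⟨hu, same_iff.2 (Or.inl rfl)⟩)
    refine ⟨s, ?_⟩
    have e : (fun x => x < n ∧ same F u x = true) = fun x => x ∈ cls n (same F) u := by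
      funext x; rw [mem_cls]
    rw [e]; exact hs
  · push Not at hex
    have hx : ∀ x, x < n ∧ same F u x = true → x = u := by
      rintro x ⟨hxn, hxs⟩
      by_contra hne
      exact hex x hxn (Ne.symm hne) hxs
    refine ⟨id, ?_, ?_, ?_, ?_, ?_⟩
    · intro x hx; exact hx
    · intro x hx; rfl
    · intro x hxx; simp [hx x hxx]
    · intro x hxx hne; exact absurd (hx x hxx) hne
    · intro C hC hCS
      obtain ⟨z, hz⟩ := List.exists_mem_of_ne_nil _ (h.ne C hC)
      have hzu := hx z (hCS z hz)
      subst hzu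
      exact ⟨z, ⟨hz, Or.inl rfl⟩, fun x hx' => hx x (hCS x hx'.1)⟩

section

variable {k : ℕ} {nod : ℕ → ℕ} {adj : ℕ → ℕ → Prop} {D : Finset (Fin k)}

/-- node of a vertex as an element of `Fin k` -/
def nodF (hB : Blocks n w y F k nod adj) (v : ℕ) (hv : v < n) : Fin k := ⟨nod v, hB.lt v hv⟩

/-- component relation: vertex level versus node level -/
structure Comps (hB : Blocks n w y F k nod adj) (D : Finset (Fin k)) (inD inA : ℕ → Bool)
    (cp : ℕ → ℕ → Bool) : Prop where
  dI : ∀ v (hv : v < n), inD v = true ↔ nodF hB v hv ∈ D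
  aI : ∀ v, v < n → (inA v = true ↔ inD v = false ∧ ∃ u, u < n ∧ inD u = true ∧ adj (nod u) (nod v))
  cI : ∀ u v, u < n → v < n → (cp u v = true ↔ inD u = true ∧ Relation.ReflTransGen
    (fun a b => b < n ∧ inD b = true ∧ (same F a b = true ∨ elig w y F a b = true)) u v)

variable {hB : Blocks n w y F k nod adj} {inD inA : ℕ → Bool} {cp : ℕ → ℕ → Bool}

theorem Comps.inD_congr (C : Comps hB D inD inA cp) {u v : ℕ} (hu : u < n) (hv : v < n)
    (h : nod u = nod v) : inD u = true ↔ inD v = true := by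
  rw [C.dI u hu, C.dI v hv]
  have : nodF hB u hu = nodF hB v hv := Fin.ext h
  rw [this]

theorem Comps.inA_congr (C : Comps hB D inD inA cp) {u v : ℕ} (hu : u < n) (hv : v < n)
    (h : nod u = nod v) : inA u = true ↔ inA v = true := by
  rw [C.aI u hu, C.aI v hv, h]
  have h1 := C.inD_congr hu hv h
  have h2 : inD u = inD v := by rw [Bool.eq_iff_iff]; exact h1
  rw [h2]

theorem Comps.path_symm (hI : Inv n w y F) (hw : GoodW w) {u v : ℕ} (hu : u < n)
    (hD : inD u = true)
    (h : Relation.ReflTransGen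
      (fun a b => b < n ∧ inD b = true ∧ (same F a b = true ∨ elig w y F a b = true)) u v) :
    v < n ∧ inD v = true ∧ Relation.ReflTransGen
      (fun a b => b < n ∧ inD b = true ∧ (same F a b = true ∨ elig w y F a b = true)) v u := by
  induction h with
  | refl => exact ⟨hu, hD, Relation.ReflTransGen.refl⟩
  | tail hab hbc ih =>
    obtain ⟨h1, h2, h3⟩ := ih
    refine ⟨hbc.1, hbc.2.1, Relation.ReflTransGen.head ⟨h1, h2, ?_⟩ h3⟩
    rcases hbc.2.2 with h4 | h4
    · exact Or.inl ((same_eqOn hI).symm _ _ h1 hbc.1 h4)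
    · exact Or.inr (elig_symm hw h4)

theorem Comps.cp_eqOn (C : Comps hB D inD inA cp) (hI : Inv n w y F) (hw : GoodW w) :
    EqOn n inD cp where
  refl v hv hD := (C.cI v v hv hv).2 ⟨hD, Relation.ReflTransGen.refl⟩
  symm u v hu hv huv := by
    obtain ⟨h1, h2⟩ := (C.cI u v hu hv).1 huv
    obtain ⟨_, h4, h5⟩ := Comps.path_symm hI hw hu h1 h2
    exact (C.cI v u hv hu).2 ⟨h4, h5⟩
  trans u v x hu hv hx huv hvx := by
    obtain ⟨h1, h2⟩ := (C.cI u v hu hv).1 huv
    obtain ⟨h3, h4⟩ := (C.cI v x hv hx).1 hvx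
    exact (C.cI u x hu hx).2 ⟨h1, h2.trans h4⟩
  left u v hu hv huv := ((C.cI u v hu hv).1 huv).1

theorem Comps.cpSame (C : Comps hB D inD inA cp) {u v : ℕ} (hu : u < n) (hv : v < n)
    (hs : same F u v = true) (hD : inD u = true) : cp u v = true :=
  (C.cI u v hu hv).2 ⟨hD, Relation.ReflTransGen.single
    ⟨hv, (C.inD_congr hu hv ((hB.same u v hu hv).2 hs)).1 hD, Or.inl hs⟩⟩

theorem Comps.cpElig (C : Comps hB D inD inA cp) {u v : ℕ} (hu : u < n) (hv : v < n)
    (hs : elig w y F u v = true) (hD : inD u = true) (hDv : inD v = true) : cp u v = true :=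
  (C.cI u v hu hv).2 ⟨hD, Relation.ReflTransGen.single ⟨hv, hDv, Or.inr hs⟩⟩

/-- vertex-level and node-level reachability agree -/
theorem Comps.cp_iff (C : Comps hB D inD inA cp) (hI : Inv n w y F) (hw : GoodW w) {u v : ℕ}
    (hu : u < n) (hv : v < n) (hD : inD u = true) :
    cp u v = true ↔ comp (fun i j => adj (i : ℕ) (j : ℕ)) D (nodF hB u hu) (nodF hB v hv) := by
  have hE := C.cp_eqOn hI hw
  constructor
  · intro h
    obtain ⟨_, h2⟩ := (C.cI u v hu hv).1 h
    have key : ∀ x, Relation.ReflTransGen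
      (fun a b => b < n ∧ inD b = true ∧ (same F a b = true ∨ elig w y F a b = true)) u x →
      ∀ hx : x < n, comp (fun i j => adj (i : ℕ) (j : ℕ)) D (nodF hB u hu) (nodF hB x hx) := by
      intro x hx
      induction hx with
      | refl => intro _; exact Relation.ReflTransGen.refl
      | @tail b c hab hbc ih =>
        intro hc
        obtain ⟨hb, hbD, _⟩ := Comps.path_symm hI hw hu hD hab
        have ih' := ih hb
        by_cases he : nod b = nod c
        · have : nodF hB c hc = nodF hB b hb := Fin.ext he.symm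
          rw [this]; exact ih'
        · rcases hbc.2.2 with h4 | h4
          · exact absurd ((hB.same b c hb hc).2 h4) he
          · refine ih'.tail ⟨?_, (C.dI c hc).1 hbc.2.1⟩
            exact (hB.adj _ _ (hB.lt b hb) (hB.lt c hc)).2 ⟨he, b, c, hb, hc, rfl, rfl, h4⟩
    exact key v h2 hv
  · intro h
    have key : ∀ j : Fin k, comp (fun i j => adj (i : ℕ) (j : ℕ)) D (nodF hB u hu) j →
        ∀ x (hx : x < n), nodF hB x hx = j → cp u x = true := by
      intro j hj
      induction hj with
      | refl =>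
        intro x hx hxj
        have : nod x = nod u := congrArg Fin.val hxj
        exact C.cpSame hu hx ((hB.same u x hu hx).1 this.symm) hD
      | @tail b c hab hbc ih =>
        intro x hx hxc
        obtain ⟨hne, a', b', ha', hb', e1, e2, he⟩ := (hB.adj _ _ b.2 c.2).1 hbc.1
        have h1 : cp u a' = true := ih a' ha' (Fin.ext e1)
        have hDa : inD a' = true := hE.left a' u ha' hu (hE.symm u a' hu ha' h1)
        have hDb : inD b' = true := by
          rw [C.dI b' hb']
          have : nodF hB b' hb' = c := Fin.ext e2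
          rw [this]; exact hbc.2
        have h2 : cp a' b' = true := C.cpElig ha' hb' he hDa hDb
        have h3 : nod b' = nod x := by
          have : nod x = (c : ℕ) := congrArg Fin.val hxc
          rw [this]; exact e2
        have h4 : cp b' x = true := C.cpSame hb' hx ((hB.same b' x hb' hx).1 h3) hDb
        exact hE.trans u b' x hu hb' hx (hE.trans u a' b' hu ha' hb' h1 h2) h4
    exact key _ h v hv rfl

/-- `crit` -/
theorem Comps.crit (C : Comps hB D inD inA cp) (hI : Inv n w y F) (hw : GoodW w)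
    (hO : OracleSpec k (fun i j => adj (i : ℕ) (j : ℕ)) D) {v : ℕ} (hv : v < n)
    (hD : inD v = true) :
    ∃ s, NM (fun a b => elig w y F a b = true) F (fun u => u < n ∧ cp v u = true) v s := by
  classical
  have hE := C.cp_eqOn hI hw
  obtain ⟨s, hs⟩ := hO.crit (nodF hB v hv) ((C.dI v hv).1 hD)
  let t : ℕ → ℕ := fun j => if h : j < k then (if j = nod v then j else (s ⟨j, h⟩ : ℕ)) else j
  have ht0 : t (nod v) = nod v := by
    simp only [t]
    rw [dif_pos (hB.lt v hv)]
    simp
  have ht1 : ∀ u (hu : u < n), nod u ≠ nod v → t (nod u) = (s (nodF hB u hu) : ℕ) := by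
    intro u hu hne
    simp only [t]
    rw [dif_pos (hB.lt u hu), if_neg hne]
    rfl
  have hcomp : ∀ u (hu : u < n), cp v u = true →
      comp (fun i j => adj (i : ℕ) (j : ℕ)) D (nodF hB v hv) (nodF hB u hu) :=
    fun u hu h => (C.cp_iff hI hw hv hu hD).1 h
  have hnn : ∀ u (hu : u < n), nod u ≠ nod v → nodF hB u hu ≠ nodF hB v hv :=
    fun u hu hne he => hne (congrArg Fin.val he)
  have hloc : ∀ u (hu : u < n), cp v u = true → nod u ≠ nod v →
      comp (fun i j => adj (i : ℕ) (j : ℕ)) D (nodF hB v hv) (s (nodF hB u hu)) ∧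
      s (nodF hB u hu) ≠ nodF hB v hv ∧ s (nodF hB u hu) ≠ nodF hB u hu ∧
      s (s (nodF hB u hu)) = nodF hB u hu ∧ adj (nodF hB u hu : ℕ) (s (nodF hB u hu) : ℕ) :=
    fun u hu hcp hne => hs _ (hcomp u hu hcp) (hnn u hu hne)
  refine expand (κ := ℕ) _ (fun a b h => elig_symm hw h) F _ v nod ?_ hI.ne t ?_ ?_ ?_ ?_
  · intro B hB' u hu u' hu'
    exact (hB.same u u' ((hI.canon B hB').lt hu) ((hI.canon B hB').lt hu')).2
      (same_iff.2 (Or.inr ⟨B, hB', hu, hu'⟩))
  · rintro u ⟨hu, hcp⟩
    by_cases hne : nod u = nod v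
    · rw [hne, ht0, ht0]
    · obtain ⟨h1, h2, h3, h4, h5⟩ := hloc u hu hcp hne
      rw [ht1 u hu hne]
      have hne2 : ((s (nodF hB u hu) : Fin k) : ℕ) ≠ nod v := fun e => h2 (Fin.ext e)
      simp only [t]
      rw [dif_pos (s (nodF hB u hu)).2, if_neg hne2]
      have : s ⟨(s (nodF hB u hu) : ℕ), (s (nodF hB u hu)).2⟩ = nodF hB u hu := h4
      rw [this]
      rfl
  · rintro u ⟨hu, hcp⟩
    constructor
    · intro ht
      by_contra hne
      have hne' : nod u ≠ nod v := fun e => hne ⟨⟨hv, hE.refl v hv hD⟩, e⟩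
      obtain ⟨h1, h2, h3, h4, h5⟩ := hloc u hu hcp hne'
      rw [ht1 u hu hne'] at ht
      exact h3 (Fin.ext ht)
    · rintro ⟨_, e⟩
      rw [e, ht0]
  · rintro u ⟨hu, hcp⟩ ht
    have hne : nod u ≠ nod v := fun e => ht (by rw [e, ht0])
    obtain ⟨h1, h2, h3, h4, h5⟩ := hloc u hu hcp hne
    rw [ht1 u hu hne]
    obtain ⟨_, a, b, ha, hb, e1, e2, he⟩ := (hB.adj _ _ (hB.lt u hu) (s (nodF hB u hu)).2).1 h5
    have hca : cp v a = true := by
      have : cp u a = true := C.cpSame hu ha ((hB.same u a hu ha).1 e1.symm)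
        (hE.left u v hu hv (hE.symm v u hv hu hcp))
      exact hE.trans v u a hv hu ha hcp this
    have hcb : cp v b = true := by
      rw [C.cp_iff hI hw hv hb hD]
      have : nodF hB b hb = s (nodF hB u hu) := Fin.ext e2
      rw [this]; exact h1
    exact ⟨a, b, ⟨ha, hca⟩, ⟨hb, hcb⟩, e1, e2, he⟩
  · rintro u ⟨hu, hcp⟩
    obtain ⟨σ, hσ⟩ := block_good hI hu
    refine ⟨σ, ?_⟩
    have e : (fun x => (x < n ∧ cp v x = true) ∧ nod x = nod u) =
        fun x => x < n ∧ same F u x = true := by
      funext x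
      rw [eq_iff_iff]
      constructor
      · rintro ⟨⟨hx, hc⟩, hn⟩
        exact ⟨hx, (hB.same u x hu hx).1 hn.symm⟩
      · rintro ⟨hx, hs⟩
        have hDu := hE.left u v hu hv (hE.symm v u hv hu hcp)
        exact ⟨⟨hx, hE.trans v u x hv hu hx hcp (C.cpSame hu hx hs hDu)⟩,
          ((hB.same u x hu hx).2 hs).symm⟩
    rw [e]; exact hσ

/-- number of components versus number of blocks in `A` -/
theorem Comps.cntc (C : Comps hB D inD inA cp) (hI : Inv n w y F) (hw : GoodW w)
    (hO : OracleSpec k (fun i j => adj (i : ℕ) (j : ℕ)) D) (hne : D.Nonempty) :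
    (classes n inA (Pd292D.sameA F inA)).length + 1 ≤ (classes n inD cp).length := by
  classical
  have hE := C.cp_eqOn hI hw
  obtain ⟨I, hID, hIc, hIA⟩ := hO.cnt hne
  rw [length_classes, length_classes]
  -- `A`-nodes
  have hAeq : EqOn n inA (Pd292D.sameA F inA) := {
    refl := fun v hv hA => by simp [Pd292D.sameA, hA, Pd292C.same]
    symm := fun u v hu hv huv => by
      simp only [Pd292D.sameA, Bool.and_eq_true] at huv ⊢
      exact ⟨(C.inA_congr hu hv ((hB.same u v hu hv).2 huv.2)).1 huv.1,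
        (same_eqOn hI).symm u v hu hv huv.2⟩
    trans := fun u v x hu hv hx huv hvx => by
      simp only [Pd292D.sameA, Bool.and_eq_true] at huv hvx ⊢
      exact ⟨huv.1, (same_eqOn hI).trans u v x hu hv hx huv.2 hvx.2⟩
    left := fun u v hu hv huv => by
      simp only [Pd292D.sameA, Bool.and_eq_true] at huv
      exact huv.1 }
  obtain ⟨d0, hd0⟩ := hne
  let f : ℕ → Fin k := fun v => if hv : v < n then nodF hB v hv else d0
  have hf : ∀ v (hv : v < n), f v = nodF hB v hv := fun v hv => dif_pos hv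
  have h1 := hIA (Finset.univ.filter fun i : Fin k =>
    ∃ l ∈ lead n inA (Pd292D.sameA F inA), f l = i) ?_
  · have h2 : (lead n inA (Pd292D.sameA F inA)).length ≤ (Finset.univ.filter fun i : Fin k =>
        ∃ l ∈ lead n inA (Pd292D.sameA F inA), f l = i).card := by
      rw [← List.toFinset_card_of_nodup (nodup_lead (n := n) (S := inA) (R := Pd292D.sameA F inA))]
      refine Finset.card_le_card_of_injOn f (fun l hl => ?_) ?_
      · have hl' : l ∈ lead n inA (Pd292D.sameA F inA) := by simpa using hl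
        simp only [Finset.coe_filter, Finset.mem_univ, true_and, Set.mem_ofPred_eq]
        exact ⟨l, hl', rfl⟩
      · intro l hl l' hl' he
        have hl2 : l ∈ lead n inA (Pd292D.sameA F inA) := by simpa using hl
        have hl2' : l' ∈ lead n inA (Pd292D.sameA F inA) := by simpa using hl'
        obtain ⟨a1, a2, a3⟩ := mem_lead.1 hl2
        obtain ⟨b1, b2, b3⟩ := mem_lead.1 hl2'
        rw [hf l a1, hf l' b1] at he
        have hn : nod l = nod l' := congrArg Fin.val he
        refine lead_unique hAeq hl2 hl2' b1 ?_ (hAeq.refl _ b1 b2)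
        simp only [Pd292D.sameA, Bool.and_eq_true]
        exact ⟨a2, (hB.same l l' a1 b1).1 hn⟩
    have h3 : I.card ≤ (lead n inD cp).length := by
      rw [← List.toFinset_card_of_nodup (nodup_lead (n := n) (S := inD) (R := cp))]
      have hch : ∀ i : Fin k, ∃ l, i ∈ I → (l ∈ lead n inD cp ∧ ∃ v, ∃ hv : v < n,
          nodF hB v hv = i ∧ cp l v = true) := by
        intro i
        by_cases hi : i ∈ I
        · obtain ⟨v, hv, hvi⟩ := hB.surj i i.2
          have hnv : nodF hB v hv = i := Fin.ext hvi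
          have hDv : inD v = true := by rw [C.dI v hv, hnv]; exact hID hi
          obtain ⟨l, hl, hlv⟩ := exists_lead hE hv hDv
          exact ⟨l, fun _ => ⟨hl, v, hv, hnv, hlv⟩⟩
        · exact ⟨0, fun h => absurd h hi⟩
      choose g hg using hch
      refine Finset.card_le_card_of_injOn g (fun i hi => ?_) ?_
      · have := (hg i (by simpa using hi)).1
        simpa using this
      · intro i hi j hj he
        obtain ⟨hl, v, hv, hvi, hlv⟩ := hg i (by simpa using hi)
        obtain ⟨hl', v', hv', hvj, hlv'⟩ := hg j (by simpa using hj)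
        rw [← he] at hlv'
        have hln := (mem_lead.1 hl).1
        have hvv : cp v v' = true := hE.trans _ _ _ hv hln hv' (hE.symm _ _ hln hv hlv) hlv'
        have hDv : inD v = true := hE.left v v' hv hv' hvv
        have := (C.cp_iff hI hw hv hv' hDv).1 hvv
        rw [hvi, hvj] at this
        exact hIc i (by simpa using hi) j (by simpa using hj) this
    omega
  · intro a ha
    simp only [Finset.mem_filter, Finset.mem_univ, true_and] at ha
    obtain ⟨l, hl, hla⟩ := ha
    obtain ⟨a1, a2, a3⟩ := mem_lead.1 hl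
    rw [hf l a1] at hla
    obtain ⟨h4, u, hu, hDu, hadj⟩ := (C.aI l a1).1 a2
    refine ⟨fun haD => ?_, nodF hB u hu, (C.dI u hu).1 hDu, ?_⟩
    · rw [← hla, ← C.dI l a1, h4] at haD
      exact absurd haD (by simp)
    · rw [← hla]
      obtain ⟨hne, x, x', hx, hx', e1, e2, he⟩ := (hB.adj _ _ (hB.lt u hu) (hB.lt l a1)).1 hadj
      exact (hB.adj _ _ (hB.lt l a1) (hB.lt u hu)).2
        ⟨Ne.symm hne, x', x, hx', hx, e2, e1, elig_symm hw he⟩

/-- **everything the dual change needs** -/
theorem Comps.stepHyp (C : Comps hB D inD inA cp) (hI : Inv n w y F) (hw : GoodW w)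
    (hO : OracleSpec k (fun i j => adj (i : ℕ) (j : ℕ)) D) (hne : D.Nonempty) :
    StepHyp n w y F inD inA cp where
  disj v hv hD := by
    by_contra hA
    rw [Bool.not_eq_false] at hA
    have := ((C.aI v hv).1 hA).1
    rw [hD] at this
    exact absurd this (by simp)
  sameD u v hu hv hs hD := (C.inD_congr hu hv ((hB.same u v hu hv).2 hs)).1 hD
  sameA u v hu hv hs hA := (C.inA_congr hu hv ((hB.same u v hu hv).2 hs)).1 hA
  cpE := C.cp_eqOn hI hw
  cpSame u v hu hv hs hD := C.cpSame hu hv hs hD
  cpElig u v hu hv hs hD hDv := C.cpElig hu hv hs hD hDv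
  nbr u v hu hv hD he := by
    by_cases hn : nod u = nod v
    · exact Or.inl ((C.inD_congr hu hv hn).1 hD)
    · by_cases hDv : inD v = true
      · exact Or.inl hDv
      · refine Or.inr ((C.aI v hv).2 ⟨by simpa using hDv, u, hu, hD, ?_⟩)
        exact (hB.adj _ _ (hB.lt u hu) (hB.lt v hv)).2 ⟨hn, u, v, hu, hv, rfl, rfl, he⟩
  crit v hv hD := C.crit hI hw hO hv hD
  cntc := C.cntc hI hw hO hne

/-- **the end**: if the block graph has a perfect matching, it expands -/
theorem final_nm (hB : Blocks n w y F k nod adj) (hI : Inv n w y F) (hw : GoodW w)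
    (hO : ∃ s : Fin k → Fin k, ∀ u, s u ≠ u ∧ s (s u) = u ∧ adj (u : ℕ) (s u : ℕ)) :
    ∃ s, NM (fun a b => elig w y F a b = true) F (fun u => u < n) n s := by
  classical
  obtain ⟨s, hs⟩ := hO
  let t : ℕ → ℕ := fun j => if h : j < k then (s ⟨j, h⟩ : ℕ) else j
  have ht : ∀ u (hu : u < n), t (nod u) = (s (nodF hB u hu) : ℕ) := fun u hu => dif_pos (hB.lt u hu)
  refine expand (κ := ℕ) _ (fun a b h => elig_symm hw h) F _ n nod ?_ hI.ne t ?_ ?_ ?_ ?_
  · intro B hB' u hu u' hu'
    exact (hB.same u u' ((hI.canon B hB').lt hu) ((hI.canon B hB').lt hu')).2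
      (same_iff.2 (Or.inr ⟨B, hB', hu, hu'⟩))
  · intro u hu
    rw [ht u hu]
    simp only [t]
    rw [dif_pos (s (nodF hB u hu)).2]
    have : s ⟨(s (nodF hB u hu) : ℕ), (s (nodF hB u hu)).2⟩ = nodF hB u hu := (hs _).2.1
    rw [this]
    rfl
  · intro u hu
    constructor
    · intro e
      rw [ht u hu] at e
      exact absurd (Fin.ext e) (hs (nodF hB u hu)).1
    · rintro ⟨h, _⟩
      exact absurd h (lt_irrefl _)
  · intro u hu hne
    rw [ht u hu]
    obtain ⟨_, a, b, ha, hb, e1, e2, he⟩ :=
      (hB.adj _ _ (hB.lt u hu) (s (nodF hB u hu)).2).1 (hs (nodF hB u hu)).2.2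
    exact ⟨a, b, ha, hb, e1, e2, he⟩
  · intro u hu
    obtain ⟨σ, hσ⟩ := block_good hI hu
    refine ⟨σ, ?_⟩
    have e : (fun x => x < n ∧ nod x = nod u) = fun x => x < n ∧ same F u x = true := by
      funext x
      rw [eq_iff_iff]
      constructor
      · rintro ⟨hx, hn⟩
        exact ⟨hx, (hB.same u x hu hx).1 hn.symm⟩
      · rintro ⟨hx, hs⟩
        exact ⟨hx, ((hB.same u x hu hx).2 hs).symm⟩
    rw [e]; exact hσ

end

end Crest.Agent.R304.Pd292E
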