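import Crest.Agent.R304.Pd292E

/-!
# Row 304, S0467: the primal-dual program and its correctness (value of a maximum weight perfect matching)
-/

set_option autoImplicit false

namespace Crest.Agent.R304.Pd292F

open Crest.Agent.R304.Pd292A Crest.Agent.R304.Pd292B Crest.Agent.R304.Pd292C
  Crest.Agent.R304.Pd292D Crest.Agent.R304.Pd292E Crest.Agent.R304.Pd292O Crest.Agent.Lib.PT

/-- states: potentials, family -/
abbrev St := List ℤ × List (List ℕ)

/-- oracle functions -/
abbrev Orc := Un × List (List Bool) → List Bool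

/-- potential of a vertex -/
def yf (yl : List ℤ) (v : ℕ) : ℤ := yl.getD v 0

/-- the outermost blocks -/
def blocks (n : ℕ) (F : List (List ℕ)) : List (List ℕ) := classes n (fun _ => true) (same F)

/-- number of the block of `v` -/
def nod (bl : List (List ℕ)) (v : ℕ) : ℕ := (bl.takeWhile (fun X => !decide (v ∈ X))).length

/-- adjacency table of the block graph -/
def Qt (w : ℕ → ℕ → ℕ) (y : ℕ → ℤ) (F bl : List (List ℕ)) : List (List Bool) :=
  bl.map (fun X => bl.map (fun Y => !decide (X = Y) && X.any (fun u => Y.any (fun v => elig w y F u v))))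

/-- membership in the oracle set, by vertices -/
def inDf (bl : List (List ℕ)) (Dl : List Bool) (v : ℕ) : Bool := Dl.getD (nod bl v) false

/-- neighbours of the oracle set, by vertices -/
def inAf (n : ℕ) (bl : List (List ℕ)) (Q : List (List Bool)) (Dl : List Bool) (v : ℕ) : Bool :=
  !inDf bl Dl v && (List.range n).any (fun u => inDf bl Dl u &&
    (Q.getD (nod bl u) []).getD (nod bl v) false)

/-- steps inside the oracle set -/
def rel (w : ℕ → ℕ → ℕ) (y : ℕ → ℤ) (F bl : List (List ℕ)) (Dl : List Bool) (u v : ℕ) : Bool :=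
  inDf bl Dl v && (same F u v || elig w y F u v)

/-- same component inside the oracle set -/
def cpf (n : ℕ) (w : ℕ → ℕ → ℕ) (y : ℕ → ℤ) (F bl : List (List ℕ)) (Dl : List Bool) (u v : ℕ) :
    Bool :=
  inDf bl Dl u && decide (v ∈ clo n (rel w y F bl Dl) u)

/-- erase one copy -/
def er (l : List (List ℕ)) (a : List ℕ) : List (List ℕ) :=
  l.takeWhile (fun x => !decide (x = a)) ++ (l.dropWhile (fun x => !decide (x = a))).tail

/-- new state -/
def upd (n : ℕ) (w : ℕ → ℕ → ℕ) (st : St) (bl : List (List ℕ)) (Q : List (List Bool))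
    (Dl : List Bool) : St :=
  ((List.range n).map (fun v => yf st.1 v + sig (inDf bl Dl) (inAf n bl Q Dl) v),
    classes n (inDf bl Dl) (cpf n w (yf st.1) st.2 bl Dl) ++
      (Abl n st.2 (inAf n bl Q Dl)).foldl er st.2)

/-- the oracle's answer -/
def orc (n : ℕ) (w : ℕ → ℕ → ℕ) (g : Orc) (st : St) : List Bool :=
  g (⟨(blocks n st.2).length⟩, Qt w (yf st.1) st.2 (blocks n st.2))

/-- the oracle set is empty -/
def stop (n : ℕ) (w : ℕ → ℕ → ℕ) (g : Orc) (st : St) : Bool :=
  (List.range (blocks n st.2).length).all (fun i => !(orc n w g st).getD i false)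

/-- one phase -/
def stepSt (n : ℕ) (w : ℕ → ℕ → ℕ) (g : Orc) (st : St) : St :=
  if stop n w g st = true then st else
    upd n w st (blocks n st.2) (Qt w (yf st.1) st.2 (blocks n st.2)) (orc n w g st)

/-- all phases -/
def run (n : ℕ) (w : ℕ → ℕ → ℕ) (g : Orc) (W : ℕ) : St :=
  (stepSt n w g)^[n * W + 1] (List.replicate n (W : ℤ), [])

/-- dual value of a state -/
def dualL (n : ℕ) (st : St) : ℤ :=
  ((List.range n).map (fun v => yf st.1 v)).sum + (st.2.map (fun B => (B.length : ℤ) - 1)).sum

/-- value -/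
def opt (n : ℕ) (w : ℕ → ℕ → ℕ) (g : Orc) (W : ℕ) : Option ℤ :=
  if stop n w g (run n w g W) = true then some (dualL n (run n w g W)) else none

/-! ### lists -/

theorem nod_spec (bl : List (List ℕ)) (v : ℕ) (h : ∃ X ∈ bl, v ∈ X) :
    ∃ X, bl[nod bl v]? = some X ∧ v ∈ X := by
  induction bl with
  | nil => simp at h
  | cons Y bl ih =>
    by_cases hY : v ∈ Y
    · refine ⟨Y, ?_, hY⟩
      simp [nod, hY]
    · have h' : ∃ X ∈ bl, v ∈ X := by
        obtain ⟨X, hX, hv⟩ := h
        rcases List.mem_cons.1 hX with rfl | hX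
        · exact absurd hv hY
        · exact ⟨X, hX, hv⟩
      obtain ⟨X, hX, hv⟩ := ih h'
      refine ⟨X, ?_, hv⟩
      have : nod (Y :: bl) v = nod bl v + 1 := by simp [nod, hY]
      rw [this, List.getElem?_cons_succ]
      exact hX

theorem er_eq_erase (l : List (List ℕ)) (a : List ℕ) : er l a = l.erase a := by
  induction l with
  | nil => simp [er]
  | cons b l ih =>
    by_cases h : b = a
    · subst h; simp [er]
    · rw [List.erase_cons_tail (by simpa using h), ← ih]
      simp [er, h]

theorem foldl_er (l m : List (List ℕ)) : m.foldl er l = l.diff m := by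
  rw [List.diff_eq_foldl]
  induction m generalizing l with
  | nil => rfl
  | cons a m ih => rw [List.foldl_cons, List.foldl_cons, er_eq_erase, ih]

theorem diff_perm {l m : List (List ℕ)} (hm : m.Nodup) (hs : ∀ x ∈ m, x ∈ l) :
    (m ++ m.foldl er l).Perm l := by
  rw [foldl_er]
  refine List.subperm_append_diff_self_of_count_le fun x hx => ?_
  exact (List.subperm_of_subset hm hs).count_le x

/-! ### the blocks -/

section

variable {n : ℕ} {w : ℕ → ℕ → ℕ} {y : ℕ → ℤ} {F : List (List ℕ)}

theorem blocks_eq_cls (h : Inv n w y F) {X : List ℕ} (hX : X ∈ blocks n F) {v : ℕ} (hv : v ∈ X) :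
    v < n ∧ X = cls n (same F) v := by
  have hE := same_eqOn h
  obtain ⟨a, ha, _, rfl⟩ := (mem_classes hE).1 hX
  obtain ⟨hvn, hav⟩ := mem_cls.1 hv
  exact ⟨hvn, cls_congr hE ha hvn hav⟩

theorem blocks_nod (h : Inv n w y F) {v : ℕ} (hv : v < n) :
    (blocks n F)[nod (blocks n F) v]? = some (cls n (same F) v) := by
  have hE := same_eqOn h
  have hmem : cls n (same F) v ∈ blocks n F := (mem_classes hE).2 ⟨v, hv, rfl, rfl⟩
  have hvv : v ∈ cls n (same F) v := mem_cls.2 ⟨hv, hE.refl v hv rfl⟩
  obtain ⟨X, hX, hvX⟩ := nod_spec (blocks n F) v ⟨_, hmem, hvv⟩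
  rw [hX, (blocks_eq_cls h (List.mem_of_getElem? hX) hvX).2]

theorem nod_lt (h : Inv n w y F) {v : ℕ} (hv : v < n) :
    nod (blocks n F) v < (blocks n F).length := by
  have := blocks_nod h hv
  exact (List.getElem?_eq_some_iff.1 this).1

theorem nod_eq_of_mem (h : Inv n w y F) {i : ℕ} {X : List ℕ} (hX : (blocks n F)[i]? = some X)
    {v : ℕ} (hv : v ∈ X) : v < n ∧ nod (blocks n F) v = i := by
  obtain ⟨hvn, he⟩ := blocks_eq_cls h (List.mem_of_getElem? hX) hv
  refine ⟨hvn, ?_⟩
  have h1 := blocks_nod h hvn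
  rw [← he] at h1
  have hnd : (blocks n F).Nodup := nodup_classes (same_eqOn h)
  obtain ⟨hi, hi'⟩ := List.getElem?_eq_some_iff.1 hX
  obtain ⟨hj, hj'⟩ := List.getElem?_eq_some_iff.1 h1
  exact (hnd.getElem_inj_iff).1 (hj'.trans hi'.symm)

theorem mem_of_nod (h : Inv n w y F) {i : ℕ} {X : List ℕ} (hX : (blocks n F)[i]? = some X)
    {v : ℕ} (hv : v < n) (he : nod (blocks n F) v = i) : v ∈ X := by
  have h1 := blocks_nod h hv
  rw [he, hX] at h1
  have : X = cls n (same F) v := by simpa using h1
  rw [this]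
  exact mem_cls.2 ⟨hv, (same_eqOn h).refl v hv rfl⟩

theorem nod_same (h : Inv n w y F) {u v : ℕ} (hu : u < n) (hv : v < n) :
    nod (blocks n F) u = nod (blocks n F) v ↔ same F u v = true := by
  have hE := same_eqOn h
  constructor
  · intro he
    have := mem_of_nod h (blocks_nod h hu) hv he.symm
    exact (mem_cls.1 this).2
  · intro hs
    have h1 : v ∈ cls n (same F) u := mem_cls.2 ⟨hv, hs⟩
    exact ((nod_eq_of_mem h (blocks_nod h hu) h1).2).symm

theorem tadj_Qt (w : ℕ → ℕ → ℕ) (y : ℕ → ℤ) (F bl : List (List ℕ)) {i j : ℕ} {X Y : List ℕ}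
    (hX : bl[i]? = some X) (hY : bl[j]? = some Y) :
    tadj (Qt w y F bl) i j ↔ X ≠ Y ∧ ∃ u ∈ X, ∃ v ∈ Y, elig w y F u v = true := by
  have e : (Qt w y F bl)[i]? = some (bl.map (fun Y => !decide (X = Y) &&
      X.any (fun u => Y.any (fun v => elig w y F u v)))) := by
    unfold Qt
    rw [List.getElem?_map, hX]; rfl
  unfold tadj
  rw [List.getD_eq_getElem?_getD, List.getD_eq_getElem?_getD, e, Option.getD_some,
    List.getElem?_map, hY]
  simp

theorem blocks_spec (h : Inv n w y F) :
    Blocks n w y F (blocks n F).length (nod (blocks n F)) (tadj (Qt w y F (blocks n F))) where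
  lt v hv := nod_lt h hv
  surj i hi := by
    have hX : (blocks n F)[i]? = some ((blocks n F)[i]) := List.getElem?_eq_getElem hi
    obtain ⟨a, ha, _, he⟩ := (mem_classes (same_eqOn h)).1 (List.getElem_mem hi)
    have hmem : a ∈ (blocks n F)[i] := by
      rw [he]; exact mem_cls.2 ⟨ha, (same_eqOn h).refl a ha rfl⟩
    exact ⟨a, nod_eq_of_mem h hX hmem⟩
  same u v hu hv := nod_same h hu hv
  adj i j hi hj := by
    have hX : (blocks n F)[i]? = some ((blocks n F)[i]) := List.getElem?_eq_getElem hi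
    have hY : (blocks n F)[j]? = some ((blocks n F)[j]) := List.getElem?_eq_getElem hj
    rw [tadj_Qt w y F _ hX hY]
    have hnd : (blocks n F).Nodup := nodup_classes (same_eqOn h)
    have hij : (blocks n F)[i] ≠ (blocks n F)[j] ↔ i ≠ j := by
      rw [Ne, hnd.getElem_inj_iff]
    rw [hij]
    refine and_congr_right fun _ => ?_
    constructor
    · rintro ⟨u, hu, v, hv, he⟩
      obtain ⟨a1, a2⟩ := nod_eq_of_mem h hX hu
      obtain ⟨b1, b2⟩ := nod_eq_of_mem h hY hv
      exact ⟨u, v, a1, b1, a2, b2, he⟩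
    · rintro ⟨u, v, hu, hv, a2, b2, he⟩
      exact ⟨u, mem_of_nod h hX hu a2, v, mem_of_nod h hY hv b2, he⟩

theorem goodTab (hw : GoodW w) (h : Inv n w y F) :
    GoodTab (blocks n F).length (Qt w y F (blocks n F)) where
  len := by simp [Qt]
  row r hr := by
    obtain ⟨X, _, rfl⟩ := List.mem_map.1 hr
    simp
  symm i j hi hj hij := by
    have hB := blocks_spec h
    obtain ⟨h1, u, v, hu, hv, e1, e2, he⟩ := (hB.adj i j hi hj).1 hij
    exact (hB.adj j i hj hi).2 ⟨Ne.symm h1, v, u, hv, hu, e2, e1, elig_symm hw he⟩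
  irr i hi hii := ((blocks_spec h).adj i i hi hi).1 hii |>.1 rfl

/-- the oracle set as a `Finset` -/
def Dset (k : ℕ) (Dl : List Bool) : Finset (Fin k) :=
  Finset.univ.filter fun v : Fin k => Dl.getD (v : ℕ) false = true

theorem comps_spec (h : Inv n w y F) (Dl : List Bool) :
    Comps (blocks_spec h) (Dset (blocks n F).length Dl) (inDf (blocks n F) Dl)
      (inAf n (blocks n F) (Qt w y F (blocks n F)) Dl) (cpf n w y F (blocks n F) Dl) where
  dI v hv := by simp [Dset, inDf, nodF]
  aI v hv := by simp [inAf, tadj]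
  cI u v hu hv := by
    unfold cpf
    rw [Bool.and_eq_true, decide_eq_true_eq, mem_clo hu]
    refine and_congr_right fun _ => ?_
    have : (fun a b => b < n ∧ rel w y F (blocks n F) Dl a b = true) =
        fun a b => b < n ∧ inDf (blocks n F) Dl b = true ∧
          (same F a b = true ∨ elig w y F a b = true) := by
      funext a b
      simp [rel]
    rw [this]

end

/-! ### one phase -/

theorem inv_congr {n : ℕ} {w : ℕ → ℕ → ℕ} {y y' : ℕ → ℤ} {F : List (List ℕ)}
    (he : ∀ v, v < n → y v = y' v) (h : Inv n w y F) : Inv n w y' F := by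
  have hsl : ∀ u v, u < n → v < n → slack w y' F u v = slack w y F u v := by
    intro u v hu hv
    unfold slack
    rw [he u hu, he v hv]
  refine ⟨fun u v hu hv hp => by rw [hsl u v hu hv]; exact h.slk u v hu hv hp, h.canon, h.ne, h.lam,
    fun B hB v hv => ?_⟩
  obtain ⟨s, hs⟩ := h.good B hB v hv
  refine ⟨s, hs.mono (fun a b ha hb hel => ?_) fun C hC _ => Or.inl hC⟩
  have hc := h.canon B hB
  unfold elig at hel ⊢
  rw [hsl a b (hc.lt ha) (hc.lt hb)]
  exact hel

theorem dual_congr {n : ℕ} {y y' : ℕ → ℤ} {F : List (List ℕ)}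
    (he : ∀ v, v < n → y v = y' v) : dual n y F = dual n y' F := by
  unfold dual
  rw [Finset.sum_congr rfl fun v hv => he v (Finset.mem_range.1 hv)]

theorem yf_map {n : ℕ} (f : ℕ → ℤ) {v : ℕ} (hv : v < n) : yf ((List.range n).map f) v = f v := by
  unfold yf
  rw [List.getD_eq_getElem?_getD, List.getElem?_map, List.getElem?_range hv]
  rfl

theorem dualL_eq (n : ℕ) (st : St) : dualL n st = dual n (yf st.1) st.2 := by
  unfold dualL dual
  congr 1

/-- what is needed from the oracle function -/
def OrcOK (g : Orc) : Prop := ∀ (k : ℕ) (Q : List (List Bool)), GoodTab k Q →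
    OracleSpec k (fun i j => tadj Q (i : ℕ) (j : ℕ))
      (Finset.univ.filter fun v : Fin k => (g (⟨k⟩, Q)).getD (v : ℕ) false = true)

section

variable {n : ℕ} {w : ℕ → ℕ → ℕ} {g : Orc} {st : St}

theorem stop_iff : stop n w g st = true ↔ Dset (blocks n st.2).length (orc n w g st) = ∅ := by
  unfold stop Dset
  rw [List.all_eq_true, Finset.filter_eq_empty_iff]
  constructor
  · intro h v _
    have := h v (by simp)
    simpa using this
  · intro h i hi
    have := @h ⟨i, by simpa using hi⟩ (Finset.mem_univ _)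
    simpa using this

theorem step_stop (hg : OrcOK g) (hw : GoodW w) (h : Inv n w (yf st.1) st.2)
    (hs : stop n w g st = true) : ∃ s, PM n w s ∧ 2 * dualL n st - n ≤ wt2 n w s := by
  have hO := hg _ _ (goodTab hw h)
  have hD := stop_iff.1 hs
  obtain ⟨s, hs'⟩ := final_nm (blocks_spec h) h hw (hO.pm hD)
  obtain ⟨h1, h2⟩ := h.final hs'
  exact ⟨s, h1, by rw [dualL_eq]; exact h2⟩

theorem step_go (hg : OrcOK g) (hw : GoodW w) (h : Inv n w (yf st.1) st.2)
    (hs : ¬ stop n w g st = true) : Inv n w (yf (stepSt n w g st).1) (stepSt n w g st).2 ∧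
      dualL n (stepSt n w g st) + 1 ≤ dualL n st := by
  have hO := hg _ _ (goodTab hw h)
  have hD : (Dset (blocks n st.2).length (orc n w g st)).Nonempty :=
    Finset.nonempty_iff_ne_empty.2 fun he => hs (stop_iff.2 he)
  have hC := comps_spec h (orc n w g st)
  have hH := hC.stepHyp h hw hO hD
  have hp : (Abl n st.2 (inAf n (blocks n st.2) (Qt w (yf st.1) st.2 (blocks n st.2))
      (orc n w g st)) ++ (Abl n st.2 (inAf n (blocks n st.2)
      (Qt w (yf st.1) st.2 (blocks n st.2)) (orc n w g st))).foldl er st.2).Perm st.2 := by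
    refine diff_perm ((nodup_classes (sameA_eqOn h hH)).filter _) fun x hx => ?_
    simpa using (List.mem_filter.1 hx).2
  have h1 := inv_new hw h hH hp
  have h2 := dual_new h hH hp
  have e : stepSt n w g st = upd n w st (blocks n st.2)
      (Qt w (yf st.1) st.2 (blocks n st.2)) (orc n w g st) := if_neg hs
  rw [dualL_eq, dualL_eq, e]
  unfold upd
  refine ⟨inv_congr (fun v hv => (yf_map _ hv).symm) h1, ?_⟩
  rw [dual_congr (fun v hv => yf_map _ hv)]
  exact h2

theorem init_inv (n W : ℕ) (hW : ∀ u v, w u v ≤ W) :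
    Inv n w (yf (List.replicate n (W : ℤ))) [] := by
  refine ⟨fun u v hu hv _ => ?_, by simp, by simp, by simp, by simp⟩
  have e : ∀ x, x < n → yf (List.replicate n (W : ℤ)) x = W := by
    intro x hx
    unfold yf
    rw [List.getD_eq_getElem?_getD, List.getElem?_replicate, if_pos hx]
    rfl
  unfold slack
  rw [e u hu, e v hv]
  have := hW u v
  simp only [cnt, List.countP_nil]
  push_cast
  omega

theorem init_dual (n W : ℕ) : dualL n (List.replicate n (W : ℤ), []) = n * W := by
  rw [dualL_eq]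
  unfold dual
  have e : ∀ x ∈ Finset.range n, yf (List.replicate n (W : ℤ)) x = W := by
    intro x hx
    unfold yf
    rw [List.getD_eq_getElem?_getD, List.getElem?_replicate, if_pos (Finset.mem_range.1 hx)]
    rfl
  simp only
  rw [Finset.sum_congr rfl e]
  simp

theorem run_spec (hg : OrcOK g) (hw : GoodW w) {W : ℕ} (hW : ∀ u v, w u v ≤ W) (j : ℕ) :
    Inv n w (yf ((stepSt n w g)^[j] (List.replicate n (W : ℤ), [])).1)
      ((stepSt n w g)^[j] (List.replicate n (W : ℤ), [])).2 ∧
    (stop n w g ((stepSt n w g)^[j] (List.replicate n (W : ℤ), [])) = true ∨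
      dualL n ((stepSt n w g)^[j] (List.replicate n (W : ℤ), [])) + j ≤ n * W) := by
  induction j with
  | zero =>
    refine ⟨init_inv n W hW, Or.inr ?_⟩
    simp [init_dual]
  | succ j ih =>
    obtain ⟨h1, h2⟩ := ih
    rw [Function.iterate_succ_apply']
    generalize (stepSt n w g)^[j] (List.replicate n (W : ℤ), []) = st at h1 h2
    by_cases hs : stop n w g st = true
    · have e : stepSt n w g st = st := if_pos hs
      rw [e]
      exact ⟨h1, Or.inl hs⟩
    · obtain ⟨h3, h4⟩ := step_go hg hw h1 hs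
      refine ⟨h3, Or.inr ?_⟩
      rcases h2 with h2 | h2
      · exact absurd h2 hs
      · push_cast
        linarith

/-- **correctness of the value up to `n/2`** -/
theorem opt_spec (hg : OrcOK g) (hw : GoodW w) {W : ℕ} (hW : ∀ u v, w u v ≤ W) :
    (opt n w g W = none → ∀ s, ¬ PM n w s) ∧
    (∀ x, opt n w g W = some x → (∃ s, PM n w s ∧ 2 * x - n ≤ wt2 n w s) ∧
      ∀ s, PM n w s → (wt2 n w s : ℤ) ≤ 2 * x) := by
  obtain ⟨h1, h2⟩ := run_spec (n := n) hg hw hW (n * W + 1)
  constructor
  · intro hn s hs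
    have hst : ¬ stop n w g (run n w g W) = true := by
      intro h
      simp [opt, h] at hn
    have h3 := h1.weak hs
    rcases h2 with h2 | h2
    · exact hst h2
    · rw [dualL_eq] at h2
      have : (0 : ℤ) ≤ wt2 n w s := by positivity
      push_cast at h2
      linarith
  · intro x hx
    have hst : stop n w g (run n w g W) = true := by
      by_contra h
      simp [opt, h] at hx
    have hx' : dualL n (run n w g W) = x := by
      simpa [opt, hst] using hx
    refine ⟨?_, fun s hs => ?_⟩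
    · rw [← hx']
      exact step_stop hg hw h1 hst
    · rw [← hx', dualL_eq]
      exact h1.weak hs

end

/-! ### exact value -/

/-- twice the maximum weight of a perfect matching -/
def val (n : ℕ) (c : ℕ → ℕ → ℕ) (g : Orc) (W : ℕ) : Option ℕ :=
  (opt n (fun u v => (n + 1) * c u v) g ((n + 1) * W)).map
    (fun x => (2 * x / ((n + 1 : ℕ) : ℤ)).toNat)

theorem val_spec {n : ℕ} {c : ℕ → ℕ → ℕ} {g : Orc} (hg : OrcOK g) (hc : GoodW c) {W : ℕ}
    (hW : ∀ u v, c u v ≤ W) :
    (val n c g W = none → ∀ s, ¬ PM n c s) ∧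
    (∀ x, val n c g W = some x → (∃ s, PM n c s ∧ wt2 n c s = x) ∧
      ∀ s, PM n c s → wt2 n c s ≤ x) := by
  have hw : GoodW (fun u v => (n + 1) * c u v) :=
    ⟨fun u v => by rw [hc.symm u v], fun v => by rw [hc.irr v]; ring⟩
  have hPM : ∀ s, PM n (fun u v => (n + 1) * c u v) s ↔ PM n c s := by
    intro s
    unfold PM
    simp
  have hwt : ∀ s, wt2 n (fun u v => (n + 1) * c u v) s = (n + 1) * wt2 n c s := by
    intro s
    unfold wt2
    rw [Finset.mul_sum]
  obtain ⟨h1, h2⟩ := opt_spec (n := n) hg hw (W := (n + 1) * W)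
    (fun u v => Nat.mul_le_mul_left _ (hW u v))
  constructor
  · intro hv s hs
    have : opt n (fun u v => (n + 1) * c u v) g ((n + 1) * W) = none := by
      simpa [val] using hv
    exact h1 this s ((hPM s).2 hs)
  · intro x hx
    unfold val at hx
    rw [Option.map_eq_some_iff] at hx
    obtain ⟨z, hz, hzx⟩ := hx
    obtain ⟨⟨s, hs, hs1⟩, h3⟩ := h2 z hz
    have hs2 := h3 s hs
    rw [hwt] at hs1 hs2
    have key : 2 * z / ((n + 1 : ℕ) : ℤ) = wt2 n c s := by
      rw [Int.ediv_eq_iff_of_pos (by positivity)]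
      push_cast at hs1 hs2 ⊢
      constructor
      · linarith
      · linarith
    have hxs : wt2 n c s = x := by
      rw [← hzx, key]; simp
    refine ⟨⟨s, (hPM s).1 hs, hxs⟩, fun s' hs' => ?_⟩
    have h4 := h3 s' ((hPM s').2 hs')
    rw [hwt] at h4
    rw [← hxs]
    by_contra hlt
    push Not at hlt
    have h5 : (wt2 n c s : ℤ) + 1 ≤ wt2 n c s' := by exact_mod_cast hlt
    push_cast at h4 hs1
    nlinarith

end Crest.Agent.R304.Pd292F
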