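import Crest.Agent.R304.Pd292F
import Crest.Agent.R304.MWTop

/-!
# Row 304, S0467: from the value to an optimal matching (deleting edges), specification `MWSpec`
-/

set_option autoImplicit false

namespace Crest.Agent.R304.Pd292G

open Crest.Agent.R304.Pd292C Crest.Agent.R304.Pd292F Crest.Agent.R304.MWTop Crest.Agent.Lib.PT

/-- the entry joins `u` and `v` -/
def mt (e : Ent) (u v : ℕ) : Prop := (e.1 = u ∧ e.2.1 = v) ∨ (e.1 = v ∧ e.2.1 = u)

instance (e : Ent) (u v : ℕ) : Decidable (mt e u v) := by unfold mt; infer_instance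

/-- sum of `f` over the entries joining `u` and `v` -/
def cLf (f : Ent → ℕ) (L : List Ent) (u v : ℕ) : ℕ :=
  (L.map (fun e => if mt e u v then f e else 0)).sum

/-- internal weights -/
def cL (L : List Ent) (u v : ℕ) : ℕ := cLf (fun e => e.2.2.val + 1) L u v

/-- bound for the weights -/
def WL (L : List Ent) : ℕ := (L.map (fun e => e.2.2.val + 1)).sum

/-- value -/
def valL (n : ℕ) (g : Orc) (L : List Ent) : Option ℕ := val n (cL L) g (WL L)

/-- delete the entries with the pair of `e` -/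
def dl (R : List Ent) (e : Ent) : List Ent :=
  R.filter (fun x => !decide ((x.1, x.2.1) = (e.1, e.2.1)))

/-- delete `e` if the value stays -/
def delStep (n : ℕ) (g : Orc) (t : Option ℕ) (R : List Ent) (e : Ent) : List Ent :=
  if valL n g (dl R e) = t then dl R e else R

/-- delete as much as possible -/
def extract (n : ℕ) (g : Orc) (L : List Ent) : List Ent :=
  L.foldl (delStep n g (valL n g L)) L

/-- the matching routine -/
def mwg (g : Orc) (p : Un × List Ent) : Option (List (ℕ × ℕ)) :=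
  (valL p.1.val g p.2).map (fun _ => prs (extract p.1.val g p.2))

/-- admissible lists -/
structure AdL (n : ℕ) (L : List Ent) : Prop where
  lt : ∀ e ∈ L, e.1 < e.2.1 ∧ e.2.1 < n
  nodup : (prs L).Nodup

theorem AdL.sublist {n : ℕ} {L R : List Ent} (h : AdL n L) (hs : R.Sublist L) : AdL n R :=
  ⟨fun e he => h.lt e (hs.subset he), h.nodup.sublist (hs.map _)⟩

theorem mt_symm {e : Ent} {u v : ℕ} (h : mt e u v) : mt e v u := Or.symm h

theorem cLf_symm (f : Ent → ℕ) (L : List Ent) (u v : ℕ) : cLf f L u v = cLf f L v u := by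
  unfold cLf
  congr 1
  refine List.map_congr_left fun e _ => ?_
  have : mt e u v ↔ mt e v u := ⟨mt_symm, mt_symm⟩
  simp [this]

theorem cLf_zero {f : Ent → ℕ} {L : List Ent} {u v : ℕ} (h : ∀ e ∈ L, ¬ mt e u v) :
    cLf f L u v = 0 := by
  induction L with
  | nil => rfl
  | cons a L ih =>
    have h1 := ih fun e he => h e (List.mem_cons_of_mem _ he)
    unfold cLf at h1 ⊢
    rw [List.map_cons, List.sum_cons, h1, if_neg (h a (by simp))]

theorem mt_eq {e e' : Ent} {u v : ℕ} (h : mt e u v) (h' : mt e' u v) (hl : e.1 < e.2.1)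
    (hl' : e'.1 < e'.2.1) : (e.1, e.2.1) = (e'.1, e'.2.1) := by
  unfold mt at h h'
  rw [Prod.mk.injEq]
  omega

theorem cLf_eq {f : Ent → ℕ} {L : List Ent} {u v : ℕ} (hlt : ∀ e ∈ L, e.1 < e.2.1)
    (hnd : (prs L).Nodup) {e : Ent} (he : e ∈ L) (hm : mt e u v) : cLf f L u v = f e := by
  induction L with
  | nil => simp at he
  | cons a L ih =>
    have hnd' : (prs L).Nodup := (List.nodup_cons.1 hnd).2
    have hna : (a.1, a.2.1) ∉ prs L := (List.nodup_cons.1 hnd).1
    have hlt' : ∀ e ∈ L, e.1 < e.2.1 := fun e he => hlt e (List.mem_cons_of_mem _ he)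
    by_cases hae : e = a
    · subst hae
      have h0 : cLf f L u v = 0 := cLf_zero fun e' he' hm' => by
        apply hna
        rw [mt_eq hm hm' (hlt e (by simp)) (hlt' e' he')]
        exact List.mem_map.2 ⟨e', he', rfl⟩
      unfold cLf at h0 ⊢
      rw [List.map_cons, List.sum_cons, h0, if_pos hm, add_zero]
    · have he' : e ∈ L := by
        rcases List.mem_cons.1 he with h | h
        · exact absurd h hae
        · exact h
      have h1 := ih hlt' hnd' he'
      have h2 : ¬ mt a u v := fun hma => by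
        apply hna
        rw [mt_eq hma hm (hlt a (by simp)) (hlt' e he')]
        exact List.mem_map.2 ⟨e, he', rfl⟩
      unfold cLf at h1 ⊢
      rw [List.map_cons, List.sum_cons, h1, if_neg h2, zero_add]

theorem cL_pos {L : List Ent} {u v : ℕ} : 0 < cL L u v ↔ ∃ e ∈ L, mt e u v := by
  constructor
  · intro h
    by_contra hno
    push Not at hno
    rw [cL, cLf_zero hno] at h
    exact absurd h (lt_irrefl _)
  · rintro ⟨e, he, hm⟩
    induction L with
    | nil => simp at he
    | cons a L ih =>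
      unfold cL cLf at ih ⊢
      rw [List.map_cons, List.sum_cons]
      rcases List.mem_cons.1 he with rfl | he'
      · rw [if_pos hm]; dsimp only; omega
      · have := ih he'
        omega

theorem cL_le (L : List Ent) (u v : ℕ) : cL L u v ≤ WL L := by
  unfold cL cLf WL
  induction L with
  | nil => simp
  | cons a L ih =>
    simp only [List.map_cons, List.sum_cons]
    have : (if mt a u v then a.2.2.val + 1 else 0) ≤ a.2.2.val + 1 := by split_ifs <;> omega
    dsimp only at ih
    omega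

theorem AdL.goodW {n : ℕ} {L : List Ent} (h : AdL n L) : GoodW (cL L) := by
  refine ⟨fun u v => cLf_symm _ L u v, fun v => cLf_zero fun e he hm => ?_⟩
  have := (h.lt e he).1
  unfold mt at hm
  omega

theorem valL_spec {n : ℕ} {g : Orc} (hg : OrcOK g) {L : List Ent} (hL : AdL n L) :
    (valL n g L = none → ∀ s, ¬ PM n (cL L) s) ∧
    (∀ x, valL n g L = some x → (∃ s, PM n (cL L) s ∧ wt2 n (cL L) s = x) ∧
      ∀ s, PM n (cL L) s → wt2 n (cL L) s ≤ x) :=
  val_spec hg hL.goodW (cL_le L)

/-- a perfect matching of a sublist is one of the list, with the same weight -/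
theorem PM_sub {n : ℕ} {L R : List Ent} (hL : AdL n L) (hR : R.Sublist L) {s : ℕ → ℕ}
    (h : PM n (cL R) s) : PM n (cL L) s ∧ wt2 n (cL R) s = wt2 n (cL L) s := by
  have key : ∀ v, v < n → cL R v (s v) = cL L v (s v) := by
    intro v hv
    obtain ⟨e, he, hm⟩ := cL_pos.1 (h v hv).2.2.2
    have h1 : cL R v (s v) = e.2.2.val + 1 :=
      cLf_eq (fun e he => ((hL.sublist hR).lt e he).1) (hL.sublist hR).nodup he hm
    have h2 : cL L v (s v) = e.2.2.val + 1 :=
      cLf_eq (fun e he => (hL.lt e he).1) hL.nodup (hR.subset he) hm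
    rw [h1, h2]
  refine ⟨fun v hv => ?_, ?_⟩
  · obtain ⟨a, b, c, d⟩ := h v hv
    exact ⟨a, b, c, by rw [← key v hv]; exact d⟩
  · unfold wt2
    exact Finset.sum_congr rfl fun v hv => key v (Finset.mem_range.1 hv)

theorem PM_filter {n : ℕ} {R : List Ent} (_hR : AdL n R) {s : ℕ → ℕ} (h : PM n (cL R) s) {e : Ent}
    (_he : e ∈ R) (hne : s e.1 ≠ e.2.1) : PM n (cL (dl R e)) s := by
  intro v hv
  obtain ⟨a, b, c, d⟩ := h v hv
  refine ⟨a, b, c, cL_pos.2 ?_⟩
  obtain ⟨e', he', hm⟩ := cL_pos.1 d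
  refine ⟨e', ?_, hm⟩
  unfold dl
  rw [List.mem_filter]
  refine ⟨he', ?_⟩
  simp only [Bool.not_eq_true', decide_eq_false_iff_not]
  intro hp
  have p1 : e'.1 = e.1 := (Prod.mk.inj hp).1
  have p2 : e'.2.1 = e.2.1 := (Prod.mk.inj hp).2
  rcases hm with ⟨h1, h2⟩ | ⟨h1, h2⟩
  · exact hne (by rw [← p1, ← p2, h1, h2])
  · exact hne (by rw [← p1, ← p2, h1, h2, b])

/-- invariant of the deletion loop -/
structure DInv (n : ℕ) (g : Orc) (L : List Ent) (x : ℕ) (P R : List Ent) : Prop where
  sub : R.Sublist L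
  val : valL n g R = some x
  used : ∀ e ∈ P, e ∈ R → ∀ s, PM n (cL R) s → wt2 n (cL R) s = x → s e.1 = e.2.1

theorem DInv.step {n : ℕ} {g : Orc} (hg : OrcOK g) {L : List Ent} (hL : AdL n L) {x : ℕ}
    {P R : List Ent} (h : DInv n g L x P R) (e : Ent) :
    DInv n g L x (P ++ [e]) (delStep n g (some x) R e) := by
  have hsub : (dl R e).Sublist R := List.filter_sublist
  have hR := hL.sublist h.sub
  unfold delStep
  split_ifs with hv
  · refine ⟨hsub.trans h.sub, hv, fun e' he' heR s hs hw => ?_⟩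
    obtain ⟨h1, h2⟩ := PM_sub hR hsub hs
    rcases List.mem_append.1 he' with h3 | h3
    · exact h.used e' h3 (hsub.subset heR) s h1 (by rw [← h2]; exact hw)
    · have : e' = e := by simpa using h3
      subst this
      simp [dl] at heR
  · refine ⟨h.sub, h.val, fun e' he' heR s hs hw => ?_⟩
    rcases List.mem_append.1 he' with h3 | h3
    · exact h.used e' h3 heR s hs hw
    · have : e' = e := by simpa using h3
      subst this
      by_contra hne
      apply hv
      have hs' := PM_filter hR hs heR hne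
      have hR' := hR.sublist hsub
      obtain ⟨v1, v2⟩ := valL_spec hg hR'
      rcases hval : valL n g (dl R e') with _ | x'
      · exact absurd hs' (v1 hval s)
      · obtain ⟨⟨s2, hs2, hw2⟩, h4⟩ := v2 x' hval
        obtain ⟨h5, h6⟩ := PM_sub hR hsub hs2
        obtain ⟨_, v4⟩ := (valL_spec hg hR).2 x h.val
        have h7 := v4 s2 h5
        have h8 := h4 s hs'
        rw [(PM_sub hR hsub hs').2, hw] at h8
        rw [← h6, hw2] at h7
        rw [le_antisymm h7 h8]

theorem extract_inv {n : ℕ} {g : Orc} (hg : OrcOK g) {L : List Ent} (hL : AdL n L) {x : ℕ}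
    (hx : valL n g L = some x) : DInv n g L x L (extract n g L) := by
  have key : ∀ (Q P R : List Ent), DInv n g L x P R →
      DInv n g L x (P ++ Q) (Q.foldl (delStep n g (some x)) R) := by
    intro Q
    induction Q with
    | nil => intro P R h; simpa using h
    | cons e Q ih =>
      intro P R h
      rw [List.foldl_cons]
      have := ih _ _ (h.step hg hL e)
      simpa using this
  have h0 : DInv n g L x [] L := ⟨List.Sublist.refl _, hx, by simp⟩
  have := key L [] L h0
  rw [List.nil_append] at this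
  unfold extract
  rw [hx]
  exact this

/-! ### weights of matchings as sums over entries -/

theorem wt2_eq {n : ℕ} (f : Ent → ℕ) {L : List Ent} (hlt : ∀ e ∈ L, e.1 < e.2.1 ∧ e.2.1 < n)
    {s : ℕ → ℕ} (h2 : ∀ v, v < n → s (s v) = v) :
    wt2 n (cLf f L) s = 2 * (L.map (fun e => if s e.1 = e.2.1 then f e else 0)).sum := by
  unfold wt2
  induction L with
  | nil => simp [cLf]
  | cons a L ih =>
    have ih' := ih fun e he => hlt e (List.mem_cons_of_mem _ he)
    have e1 : ∀ v, cLf f (a :: L) v (s v) = (if mt a v (s v) then f a else 0) + cLf f L v (s v) := by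
      intro v; simp [cLf]
    rw [Finset.sum_congr rfl fun v _ => e1 v, Finset.sum_add_distrib, ih', List.map_cons,
      List.sum_cons, mul_add]
    congr 1
    obtain ⟨ha1, ha2⟩ := hlt a (by simp)
    by_cases hs : s a.1 = a.2.1
    · rw [if_pos hs]
      have hs' : s a.2.1 = a.1 := by rw [← hs]; exact h2 _ (by omega)
      have e2 : ∀ v ∈ Finset.range n, (if mt a v (s v) then f a else 0) =
          (if v = a.1 then f a else 0) + (if v = a.2.1 then f a else 0) := by
        intro v _
        by_cases h3 : v = a.1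
        · subst h3
          have h4 : a.1 ≠ a.2.1 := ne_of_lt ha1
          rw [if_pos (show mt a a.1 (s a.1) from Or.inl ⟨rfl, hs.symm⟩), if_pos rfl, if_neg h4,
            add_zero]
        · by_cases h4 : v = a.2.1
          · subst h4
            rw [if_pos (show mt a a.2.1 (s a.2.1) from Or.inr ⟨hs'.symm, rfl⟩), if_neg h3,
              if_pos rfl, zero_add]
          · have : ¬ mt a v (s v) := by
              rintro (⟨h5, h6⟩ | ⟨h5, h6⟩)
              · exact h3 h5.symm
              · exact h4 h6.symm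
            rw [if_neg this, if_neg h3, if_neg h4]
      rw [Finset.sum_congr rfl e2, Finset.sum_add_distrib, Finset.sum_ite_eq' , Finset.sum_ite_eq',
        if_pos (Finset.mem_range.2 (by omega)), if_pos (Finset.mem_range.2 (by omega))]
      ring
    · rw [if_neg hs, mul_zero]
      refine Finset.sum_eq_zero fun v hv => ?_
      have hv' := Finset.mem_range.1 hv
      have : ¬ mt a v (s v) := by
        rintro (⟨h5, h6⟩ | ⟨h5, h6⟩)
        · exact hs (by rw [h5, h6])
        · exact hs (by rw [h5, h6, h2 v hv'])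
      rw [if_neg this]

theorem tot_eq (L : List Ent) (R : List (ℕ × ℕ)) :
    tot L R = (L.map (fun e => if (e.1, e.2.1) ∈ R then e.2.2.val else 0)).sum := by
  unfold tot
  induction L with
  | nil => simp
  | cons a L ih =>
    by_cases h : (a.1, a.2.1) ∈ R
    · rw [List.filter_cons_of_pos (by simpa using h)]; simp [h, ← ih]
    · rw [List.filter_cons_of_neg (by simpa using h)]; simp [h, ← ih]

/-- total weight versus `wt2` -/
theorem tot_wt2 {n : ℕ} {L : List Ent} (hL : AdL n L) {s : ℕ → ℕ} (hs : PM n (cL L) s)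
    {R : List (ℕ × ℕ)} (hR : ∀ e ∈ L, ((e.1, e.2.1) ∈ R ↔ s e.1 = e.2.1)) :
    2 * tot L R + n = wt2 n (cL L) s := by
  have h2 : ∀ v, v < n → s (s v) = v := fun v hv => (hs v hv).2.1
  have e1 : wt2 n (cL L) s = wt2 n (cLf (fun e => e.2.2.val) L) s + wt2 n (cLf (fun _ => 1) L) s := by
    unfold wt2 cL cLf
    rw [← Finset.sum_add_distrib]
    refine Finset.sum_congr rfl fun v _ => ?_
    rw [← List.sum_map_add]
    congr 1
    refine List.map_congr_left fun e _ => ?_
    split_ifs <;> rfl
  have e2 : wt2 n (cLf (fun _ => 1) L) s = n := by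
    unfold wt2
    have : ∀ v ∈ Finset.range n, cLf (fun _ => 1) L v (s v) = 1 := by
      intro v hv
      obtain ⟨e, he, hm⟩ := cL_pos.1 (hs v (Finset.mem_range.1 hv)).2.2.2
      exact cLf_eq (fun e he => (hL.lt e he).1) hL.nodup he hm
    rw [Finset.sum_congr rfl this]
    simp
  rw [e1, e2, wt2_eq _ hL.lt h2, tot_eq]
  congr 3
  refine List.map_congr_left fun e he => ?_
  by_cases h : s e.1 = e.2.1
  · rw [if_pos ((hR e he).2 h), if_pos h]
  · rw [if_neg fun h' => h ((hR e he).1 h'), if_neg h]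

/-- the matching function of a perfect list of pairs -/
theorem exists_fun {n : ℕ} {L : List Ent} (hL : AdL n L) {R : List (ℕ × ℕ)}
    (hRL : ∀ q ∈ R, q ∈ prs L) (hR : IsPML n R) :
    ∃ s, PM n (cL L) s ∧ ∀ e ∈ L, ((e.1, e.2.1) ∈ R ↔ s e.1 = e.2.1) := by
  classical
  have hch : ∀ v, ∃ q : ℕ × ℕ, v < n → (q ∈ R ∧ (q.1 = v ∨ q.2 = v) ∧
      ∀ q' ∈ R, (q'.1 = v ∨ q'.2 = v) → q' = q) := by
    intro v
    by_cases hv : v < n
    · obtain ⟨q, ⟨h1, h2⟩, h3⟩ := hR v hv
      exact ⟨q, fun _ => ⟨h1, h2, fun q' hq' hm => h3 q' ⟨hq', hm⟩⟩⟩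
    · exact ⟨(0, 0), fun h => absurd h hv⟩
  choose q hq using hch
  have hqL : ∀ q' ∈ R, q'.1 < q'.2 ∧ q'.2 < n ∧ ∃ e ∈ L, (e.1, e.2.1) = q' := by
    intro q' hq'
    obtain ⟨e, he, rfl⟩ := List.mem_map.1 (hRL q' hq')
    exact ⟨(hL.lt e he).1, (hL.lt e he).2, e, he, rfl⟩
  let s : ℕ → ℕ := fun v => if (q v).1 = v then (q v).2 else (q v).1
  have hs : ∀ v, v < n → ((q v).1 = v ∧ (q v).2 = s v ∨ (q v).1 = s v ∧ (q v).2 = v) ∧
      s v < n ∧ s v ≠ v := by
    intro v hv
    obtain ⟨h1, h2, h3⟩ := hq v hv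
    obtain ⟨h4, h5, _⟩ := hqL _ h1
    by_cases h6 : (q v).1 = v
    · have : s v = (q v).2 := if_pos h6
      rw [this]
      exact ⟨Or.inl ⟨h6, rfl⟩, h5, by omega⟩
    · have : s v = (q v).1 := if_neg h6
      rw [this]
      have h7 : (q v).2 = v := by tauto
      exact ⟨Or.inr ⟨rfl, h7⟩, by omega, by omega⟩
  have hss : ∀ v, v < n → s (s v) = v := by
    intro v hv
    obtain ⟨h1, h2, h3⟩ := hs v hv
    obtain ⟨h4, h5, h6⟩ := hq v hv
    have h7 : q v = q (s v) := (hq (s v) h2).2.2 (q v) h4 (by tauto)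
    obtain ⟨h8, _, _⟩ := hs (s v) h2
    rw [← h7] at h8
    rcases h1 with ⟨a, b⟩ | ⟨a, b⟩ <;> rcases h8 with ⟨c, d⟩ | ⟨c, d⟩ <;> omega
  refine ⟨s, fun v hv => ?_, fun e he => ?_⟩
  · obtain ⟨h1, h2, h3⟩ := hs v hv
    refine ⟨h2, hss v hv, h3, cL_pos.2 ?_⟩
    obtain ⟨_, _, e, he, heq⟩ := hqL _ (hq v hv).1
    refine ⟨e, he, ?_⟩
    have e1 : e.1 = (q v).1 := congrArg Prod.fst heq
    have e2 : e.2.1 = (q v).2 := congrArg Prod.snd heq
    unfold mt
    rw [e1, e2]
    tauto
  · have hlt := hL.lt e he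
    have hen : e.1 < n := by omega
    obtain ⟨h1, h2, h3⟩ := hs e.1 hen
    obtain ⟨h4, h5, h6⟩ := hq e.1 hen
    obtain ⟨h7, _, _⟩ := hqL _ h4
    constructor
    · intro hm
      have := h6 _ hm (Or.inl rfl)
      have e2 : e.2.1 = (q e.1).2 := congrArg Prod.snd this
      have e1 : e.1 = (q e.1).1 := congrArg Prod.fst this
      have : s e.1 = (q e.1).2 := if_pos e1.symm
      rw [this, e2]
    · intro hm
      have : q e.1 = (e.1, e.2.1) := by
        refine Prod.ext ?_ ?_
        · show (q e.1).1 = e.1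
          omega
        · show (q e.1).2 = e.2.1
          omega
      rw [← this]
      exact h4

/-- the pairs of an exhausted list form a perfect matching -/
theorem final_list {n : ℕ} {R : List Ent} (hR : AdL n R) {s : ℕ → ℕ} (hs : PM n (cL R) s)
    (hu : ∀ e ∈ R, s e.1 = e.2.1) : IsPML n (prs R) := by
  intro v hv
  obtain ⟨a, b, c, d⟩ := hs v hv
  obtain ⟨e, he, hm⟩ := cL_pos.1 d
  refine ⟨(e.1, e.2.1), ⟨List.mem_map.2 ⟨e, he, rfl⟩, ?_⟩, ?_⟩
  · unfold mt at hm
    show e.1 = v ∨ e.2.1 = v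
    tauto
  · rintro q ⟨hq, hqv⟩
    obtain ⟨e', he', rfl⟩ := List.mem_map.1 hq
    have h1 := hu e' he'
    have h2 := hR.lt e' he'
    have hm' : mt e' v (s v) := by
      rcases hqv with h3 | h3
      · left
        exact ⟨h3, by rw [← h1, ← h3]⟩
      · right
        have h3' : e'.2.1 = v := h3
        refine ⟨?_, h3'⟩
        rw [← h3', ← h1]
        exact ((hs e'.1 (by omega)).2.1).symm
    exact mt_eq hm' hm h2.1 (hR.lt e he).1

/-- **specification of the matching routine** -/
theorem mwSpec {g : Orc} (hg : OrcOK g) : MWSpec (mwg g) := by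
  intro m L hgood
  have hL : AdL (2 * m) L := ⟨hgood.lt, hgood.nodup⟩
  obtain ⟨v1, v2⟩ := valL_spec hg hL
  constructor
  · intro hn R hRL hR
    have hv : valL (2 * m) g L = none := by simpa [mwg] using hn
    obtain ⟨s, hs, _⟩ := exists_fun hL hRL hR
    exact v1 hv s hs
  · intro R hR
    unfold mwg at hR
    rw [Option.map_eq_some_iff] at hR
    obtain ⟨x, hx, rfl⟩ := hR
    have hx' : valL (2 * m) g L = some x := hx
    have hI := extract_inv hg hL hx'
    have hGR := hL.sublist hI.sub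
    obtain ⟨⟨s, hs, hw⟩, _⟩ := (valL_spec hg hGR).2 x hI.val
    have hu : ∀ e ∈ extract (2 * m) g L, s e.1 = e.2.1 :=
      fun e he => hI.used e (hI.sub.subset he) he s hs hw
    obtain ⟨hs2, hw2⟩ := PM_sub hL hI.sub hs
    refine ⟨fun q hq => ?_, final_list hGR hs hu, fun R' hRL' hR' => ?_⟩
    · obtain ⟨e, he, rfl⟩ := List.mem_map.1 hq
      exact List.mem_map.2 ⟨e, hI.sub.subset he, rfl⟩
    · obtain ⟨s', hs', hsR'⟩ := exists_fun hL hRL' hR'
      have h1 := tot_wt2 hL hs' hsR'
      have h2 := (v2 x hx').2 s' hs'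
      have h3 : 2 * tot L (prs (extract (2 * m) g L)) + 2 * m = wt2 (2 * m) (cL L) s := by
        refine tot_wt2 hL hs2 fun e he => ?_
        constructor
        · intro hm
          obtain ⟨e', he', heq⟩ := List.mem_map.1 hm
          have e1 : e'.1 = e.1 := (Prod.mk.inj heq).1
          have e2 : e'.2.1 = e.2.1 := (Prod.mk.inj heq).2
          rw [← e1, ← e2]
          exact hu e' he'
        · intro hse
          obtain ⟨e', he', hm'⟩ := cL_pos.1 (hs e.1 (lt_trans (hL.lt e he).1 (hL.lt e he).2)).2.2.2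
          rw [hse] at hm'
          have : (e'.1, e'.2.1) = (e.1, e.2.1) :=
            mt_eq hm' (Or.inl ⟨rfl, rfl⟩) (hGR.lt e' he').1 (hL.lt e he).1
          rw [← this]
          exact List.mem_map.2 ⟨e', he', rfl⟩
      have h3' : 2 * tot L (prs (extract (2 * m) g L)) + 2 * m = x := by rw [h3, ← hw2, hw]
      show tot L R' ≤ tot L (prs (extract (2 * m) g L)) + 6 * m
      omega

end Crest.Agent.R304.Pd292G
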