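import Crest.Agent.R304.Pd292G
import Crest.Agent.R309.PTSolve

/-!
# Row 304, S0467: the primal-dual routine is polynomial time
-/

set_option autoImplicit false
set_option linter.dupNamespace false

namespace Crest.Agent.R304.Pd292H

open Crest.Agent.R304.Pd292A Crest.Agent.R304.Pd292C Crest.Agent.R304.Pd292D
  Crest.Agent.R304.Pd292E Crest.Agent.R304.Pd292F Crest.Agent.R304.Pd292G Crest.Agent.R304.Pd292O
  Crest.Agent.R304.MWTop Crest.Agent.Lib.PT Crest.Agent.R309.PTX Crest.Agent.R309.Tape

variable {γ : Type} [PTCode γ]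

macro_rules
  | `(tactic| pt_solve) => `(tactic| first
    | pt_app PTF.not ?_
    | pt_app PTF.and ?_ ?_
    | pt_app PTF.or ?_ ?_
    | pt_app PTF.fst
    | pt_app PTF.snd
    | pt_app PTF.takeWhile ?_ ?_
    | pt_app PTF.dropWhile ?_ ?_)

/-! ### classes -/

theorem ptf_cls {n : γ → ℕ} (hn : PTU n) {R : γ → ℕ → ℕ → Bool}
    (hR : PTF (fun q : (γ × ℕ) × ℕ => R q.1.1 q.1.2 q.2)) {v : γ → ℕ} (hv : PTF v) :
    PTF (fun c => cls (n c) (R c) (v c)) := by
  unfold cls
  refine PTF.filter (PTF.range hn) ?_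
  exact PTF.comp (g := fun q : (γ × ℕ) × ℕ => R q.1.1 q.1.2 q.2)
    (f := fun p : γ × ℕ => ((p.1, v p.1), p.2)) hR (by pt_solve)

theorem lead_eq (n : ℕ) (S : ℕ → Bool) (R : ℕ → ℕ → Bool) : lead n S R =
    (List.range n).filter (fun v => S v && (List.range (min v n)).all (fun u => !R u v)) := by
  unfold lead
  refine List.filter_congr fun v hv => ?_
  have : v < n := by simpa using hv
  rw [min_eq_left this.le]

theorem ptf_lead {n : γ → ℕ} (hn : PTU n) {S : γ → ℕ → Bool} (hS : PTF (fun q : γ × ℕ => S q.1 q.2))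
    {R : γ → ℕ → ℕ → Bool} (hR : PTF (fun q : (γ × ℕ) × ℕ => R q.1.1 q.1.2 q.2)) :
    PTF (fun c => lead (n c) (S c) (R c)) := by
  have h : PTF (fun c => (List.range (n c)).filter (fun v => S c v &&
      (List.range (min v (n c))).all (fun u => !R c u v))) := by
    refine PTF.filter (PTF.range hn) ?_
    have h1 : PTU (fun p : γ × ℕ => min p.2 (n p.1)) :=
      PTF.natMinUn (by fun_prop) (PTU.comp hn (by fun_prop))
    have h2 : PTF (fun q : (γ × ℕ) × ℕ => R q.1.1 q.2 q.1.2) :=
      PTF.comp (g := fun q : (γ × ℕ) × ℕ => R q.1.1 q.1.2 q.2)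
        (f := fun q : (γ × ℕ) × ℕ => ((q.1.1, q.2), q.1.2)) hR (by pt_solve)
    exact PTF.and hS (PTF.all (PTF.range h1) (PTF.not h2))
  exact h.of_eq fun c => (lead_eq _ _ _).symm

theorem ptf_classes {n : γ → ℕ} (hn : PTU n) {S : γ → ℕ → Bool}
    (hS : PTF (fun q : γ × ℕ => S q.1 q.2))
    {R : γ → ℕ → ℕ → Bool} (hR : PTF (fun q : (γ × ℕ) × ℕ => R q.1.1 q.1.2 q.2)) :
    PTF (fun c => classes (n c) (S c) (R c)) := by
  unfold classes
  refine PTF.map (ptf_lead hn hS hR) ?_
  have hR' : PTF (fun q : ((γ × ℕ) × ℕ) × ℕ => R q.1.1.1 q.1.2 q.2) :=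
    PTF.comp (g := fun q : (γ × ℕ) × ℕ => R q.1.1 q.1.2 q.2)
      (f := fun q : ((γ × ℕ) × ℕ) × ℕ => ((q.1.1.1, q.1.2), q.2)) hR (by pt_solve)
  exact ptf_cls (γ := γ × ℕ) (n := fun p => n p.1) (PTU.comp hn (by fun_prop))
    (R := fun p => R p.1) hR' (v := fun p => p.2) (by fun_prop)

/-! ### weights, slacks -/

/-- parameters -/
abbrev P := Un × List Ent

/-- the weights used by the routine -/
def wP (p : P) (u v : ℕ) : ℕ := (p.1.val + 1) * cL p.2 u v

theorem ptf_cL {L : γ → List Ent} {u v : γ → ℕ} (hL : PTF L) (hu : PTF u) (hv : PTF v) :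
    PTF (fun c => cL (L c) (u c) (v c)) := by
  unfold cL cLf Pd292G.mt
  refine PTF.natSum (PTF.map hL ?_)
  have h1 : PTF (fun p : γ × Ent => p.2.2.2.val + 1) := by
    have : PTU (fun p : γ × Ent => p.2.2.2.val) := PTU.val (by fun_prop)
    exact PTF.natAdd (PTU.toPTF this) (PTF.const 1)
  refine PTF.ite ?_ h1 (PTF.const 0)
  pt_solve

theorem ptf_wP {p : γ → P} {u v : γ → ℕ} (hp : PTF p) (hu : PTF u) (hv : PTF v) :
    PTF (fun c => wP (p c) (u c) (v c)) := by
  unfold wP
  have : PTU (fun c => (p c).1.val) := PTU.val (by fun_prop)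
  exact PTF.natMul (PTF.natAdd (PTU.toPTF this) (PTF.const 1)) (ptf_cL (by fun_prop) hu hv)

theorem ptf_cnt {F : γ → List (List ℕ)} {u v : γ → ℕ} (hF : PTF F) (hu : PTF u) (hv : PTF v) :
    PTF (fun c => cnt (F c) (u c) (v c)) := by
  unfold cnt
  pt_solve

theorem ptf_same {F : γ → List (List ℕ)} {u v : γ → ℕ} (hF : PTF F) (hu : PTF u) (hv : PTF v) :
    PTF (fun c => same (F c) (u c) (v c)) := by
  unfold same
  pt_solve

theorem ptf_elig {p : γ → P} {yl : γ → List ℤ} {F : γ → List (List ℕ)} {u v : γ → ℕ} (hp : PTF p)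
    (hy : PTF yl) (hF : PTF F) (hu : PTF u) (hv : PTF v) :
    PTF (fun c => elig (wP (p c)) (yf (yl c)) (F c) (u c) (v c)) := by
  have h1 := ptf_wP hp hu hv
  have h2 := ptf_cnt hF hu hv
  unfold elig slack yf
  pt_solve

/-! ### block graph -/

theorem ptf_blocks {n : γ → ℕ} (hn : PTU n) {F : γ → List (List ℕ)} (hF : PTF F) :
    PTF (fun c => Pd292F.blocks (n c) (F c)) := by
  unfold Pd292F.blocks
  exact ptf_classes hn (PTF.const true) (ptf_same (by pt_solve) (by pt_solve) (by pt_solve))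

theorem ptu_nod {bl : γ → List (List ℕ)} {v : γ → ℕ} (hb : PTF bl) (hv : PTF v) :
    PTU (fun c => nod (bl c) (v c)) := by
  unfold nod
  refine PTU.length (PTF.takeWhile hb ?_)
  pt_solve

theorem ptf_Qt {p : γ → P} {yl : γ → List ℤ} {F bl : γ → List (List ℕ)} (hp : PTF p)
    (hy : PTF yl) (hF : PTF F) (hb : PTF bl) :
    PTF (fun c => Qt (wP (p c)) (yf (yl c)) (F c) (bl c)) := by
  unfold Qt
  refine PTF.map hb (PTF.map (by pt_solve) (PTF.and (by pt_solve) ?_))
  refine PTF.any (by pt_solve) (PTF.any (by pt_solve) ?_)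
  exact ptf_elig (by pt_solve) (by pt_solve) (by pt_solve) (by pt_solve) (by pt_solve)

theorem ptf_inDf {bl : γ → List (List ℕ)} {Dl : γ → List Bool} {v : γ → ℕ} (hb : PTF bl)
    (hD : PTF Dl) (hv : PTF v) : PTF (fun c => inDf (bl c) (Dl c) (v c)) := by
  unfold inDf
  exact PTF.getD (ptu_nod hb hv) hD (PTF.const false)

theorem ptf_inAf {n : γ → ℕ} (hn : PTU n) {bl : γ → List (List ℕ)} {Q : γ → List (List Bool)}
    {Dl : γ → List Bool} {v : γ → ℕ} (hb : PTF bl) (hQ : PTF Q) (hD : PTF Dl) (hv : PTF v) :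
    PTF (fun c => inAf (n c) (bl c) (Q c) (Dl c) (v c)) := by
  unfold inAf
  refine PTF.and (PTF.not (ptf_inDf hb hD hv)) (PTF.any (PTF.range hn) (PTF.and ?_ ?_))
  · exact ptf_inDf (by pt_solve) (by pt_solve) (by pt_solve)
  · exact PTF.getD (ptu_nod (by pt_solve) (by pt_solve))
      (PTF.getD (ptu_nod (by pt_solve) (by pt_solve)) (by pt_solve) (PTF.const [])) (PTF.const false)

theorem ptf_rel {p : γ → P} {yl : γ → List ℤ} {F bl : γ → List (List ℕ)} {Dl : γ → List Bool}
    {u v : γ → ℕ} (hp : PTF p) (hy : PTF yl) (hF : PTF F) (hb : PTF bl) (hD : PTF Dl)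
    (hu : PTF u) (hv : PTF v) :
    PTF (fun c => rel (wP (p c)) (yf (yl c)) (F c) (bl c) (Dl c) (u c) (v c)) := by
  unfold rel
  exact PTF.and (ptf_inDf hb hD hv) (PTF.or (ptf_same hF hu hv) (ptf_elig hp hy hF hu hv))

/-! ### closure -/

theorem sz_filter_range (n : ℕ) (p : ℕ → Bool) :
    sz ((List.range n).filter p) ≤ n * (2 * n + 1) := by
  have h : ∀ l : List ℕ, sz (l.filter p) ≤ sz l := by
    intro l
    induction l with
    | nil => simp
    | cons a l ih =>
      by_cases h : p a = true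
      · rw [List.filter_cons_of_pos h]; simp only [sz_cons]; omega
      · rw [List.filter_cons_of_neg h]; simp only [sz_cons]; omega
  exact (h _).trans (sz_range_le n)

theorem ptf_clo {n : γ → ℕ} (hn : PTU n) {r : γ → ℕ → ℕ → Bool}
    (hr : PTF (fun q : (γ × ℕ) × ℕ => r q.1.1 q.1.2 q.2)) {u : γ → ℕ} (hu : PTF u) :
    PTF (fun c => clo (n c) (r c) (u c)) := by
  unfold clo
  refine PTF.iterate' (B := fun c => n c * (2 * n c + 1)) hn ?_ ?_ ?_ ?_
  · show PTF (fun p : γ × List ℕ => cloStep (n p.1) (r p.1) p.2)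
    unfold cloStep
    refine PTF.filter (PTF.range (PTU.comp hn (by fun_prop))) ?_
    have h1 : PTF (fun q : ((γ × List ℕ) × ℕ) × ℕ => r q.1.1.1 q.2 q.1.2) :=
      PTF.comp (g := fun q : (γ × ℕ) × ℕ => r q.1.1 q.1.2 q.2)
        (f := fun q : ((γ × List ℕ) × ℕ) × ℕ => ((q.1.1.1, q.2), q.1.2)) hr (by pt_solve)
    refine PTF.or (by pt_solve) (PTF.any (by pt_solve) h1)
  · refine PTF.filter (PTF.range hn) (by pt_solve)
  · have := hn.pb
    fun_prop
  · intro c i _
    cases i with
    | zero => exact sz_filter_range _ _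
    | succ i =>
      rw [Function.iterate_succ_apply']
      exact sz_filter_range _ _

theorem ptf_cpf {p : γ → P} {yl : γ → List ℤ} {F bl : γ → List (List ℕ)} {Dl : γ → List Bool}
    {u v : γ → ℕ} (hp : PTF p) (hy : PTF yl) (hF : PTF F) (hb : PTF bl) (hD : PTF Dl)
    (hu : PTF u) (hv : PTF v) :
    PTF (fun c => cpf (p c).1.val (wP (p c)) (yf (yl c)) (F c) (bl c) (Dl c) (u c) (v c)) := by
  unfold cpf
  have hn : PTU (fun c => (p c).1.val) := PTU.val (by fun_prop)
  have h1 : PTF (fun c => clo (p c).1.val (rel (wP (p c)) (yf (yl c)) (F c) (bl c) (Dl c)) (u c)) := by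
    refine ptf_clo hn ?_ hu
    exact ptf_rel (by pt_solve) (by pt_solve) (by pt_solve) (by pt_solve) (by pt_solve)
      (by pt_solve) (by pt_solve)
  exact PTF.and (ptf_inDf hb hD hu) (PTPred.toPTF (PTPred.mem hv h1))

/-! ### one phase -/

theorem ptf_Abl {n : γ → ℕ} (hn : PTU n) {F bl : γ → List (List ℕ)} {Q : γ → List (List Bool)}
    {Dl : γ → List Bool} (hF : PTF F) (hb : PTF bl) (hQ : PTF Q) (hD : PTF Dl) :
    PTF (fun c => Abl (n c) (F c) (inAf (n c) (bl c) (Q c) (Dl c))) := by
  unfold Abl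
  refine PTF.filter (ptf_classes hn ?_ ?_) (by pt_solve)
  · exact ptf_inAf (PTU.comp hn (by fun_prop)) (by pt_solve) (by pt_solve) (by pt_solve)
      (by pt_solve)
  · unfold sameA
    exact PTF.and (ptf_inAf (PTU.comp hn (by fun_prop)) (by pt_solve) (by pt_solve) (by pt_solve)
      (by pt_solve)) (ptf_same (by pt_solve) (by pt_solve) (by pt_solve))

theorem sz_er_le (l : List (List ℕ)) (a : List ℕ) : sz (er l a) ≤ sz l := by
  induction l with
  | nil => simp [er]
  | cons b l ih =>
    unfold er at ih ⊢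
    by_cases h : b = a
    · subst h
      simp
    · have h1 : (!decide (b = a)) = true := by simp [h]
      rw [List.takeWhile_cons, List.dropWhile_cons, if_pos h1, if_pos h1, List.cons_append]
      simp only [sz_cons]
      omega

theorem ptf_foldl_er {F M : γ → List (List ℕ)} (hF : PTF F) (hM : PTF M) :
    PTF (fun c => (M c).foldl er (F c)) := by
  refine PTF.foldl_add (f := fun _ => er) hM ?_ hF (G := fun _ => 0) (PB.const 0) ?_
  · unfold er
    refine PTF.append (PTF.takeWhile (by pt_solve) (by pt_solve))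
      (PTF.tail (PTF.dropWhile (by pt_solve) (by pt_solve)))
  · intro c b a _
    exact sz_er_le b a

/-- one update of the state, in all arguments -/
theorem ptf_upd {p : γ → P} {st : γ → St} {bl : γ → List (List ℕ)} {Q : γ → List (List Bool)}
    {Dl : γ → List Bool} (hp : PTF p) (hs : PTF st) (hb : PTF bl) (hQ : PTF Q) (hD : PTF Dl) :
    PTF (fun c => upd (p c).1.val (wP (p c)) (st c) (bl c) (Q c) (Dl c)) := by
  have hn : PTU (fun c => (p c).1.val) := PTU.val (by fun_prop)
  unfold upd
  refine PTF.prodMk ?_ (PTF.append ?_ ?_)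
  · refine PTF.map (PTF.range hn) ?_
    have h1 := ptf_inDf (γ := γ × ℕ) (bl := fun q => bl q.1) (Dl := fun q => Dl q.1)
      (v := fun q => q.2) (by pt_solve) (by pt_solve) (by pt_solve)
    have h2 := ptf_inAf (γ := γ × ℕ) (n := fun q => (p q.1).1.val)
      (PTU.comp (n := fun c => (p c).1.val) (f := fun q : γ × ℕ => q.1) hn (by fun_prop))
      (bl := fun q => bl q.1) (Q := fun q => Q q.1) (Dl := fun q => Dl q.1)
      (v := fun q => q.2) (by pt_solve) (by pt_solve) (by pt_solve) (by pt_solve)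
    unfold yf sig
    refine PTF.intAdd (by pt_solve) (PTF.ite (PTF.toPTPred h1) (PTF.const _)
      (PTF.ite (PTF.toPTPred h2) (PTF.const _) (PTF.const _)))
  · refine ptf_classes hn ?_ ?_
    · exact ptf_inDf (by pt_solve) (by pt_solve) (by pt_solve)
    · exact ptf_cpf (p := fun q : (γ × ℕ) × ℕ => p q.1.1) (yl := fun q => (st q.1.1).1)
        (F := fun q => (st q.1.1).2) (bl := fun q => bl q.1.1) (Dl := fun q => Dl q.1.1)
        (u := fun q => q.1.2) (v := fun q => q.2) (by pt_solve) (by pt_solve) (by pt_solve)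
        (by pt_solve) (by pt_solve) (by pt_solve) (by pt_solve)
  · exact ptf_foldl_er (by pt_solve) (ptf_Abl hn (by pt_solve) hb hQ hD)

theorem ptf_orc {g : Un × List (List Bool) → List Bool} (hg : PTF g) {p : γ → P} {st : γ → St} (hp : PTF p) (hs : PTF st) :
    PTF (fun c => orc (p c).1.val (wP (p c)) g (st c)) := by
  have hn : PTU (fun c => (p c).1.val) := PTU.val (by fun_prop)
  have hb := ptf_blocks hn (F := fun c => (st c).2) (by pt_solve)
  unfold orc
  refine PTF.comp (g := g) hg (PTF.prodMk (PTU.length hb) ?_)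
  exact ptf_Qt hp (by pt_solve) (by pt_solve) hb

theorem ptf_stop {g : Un × List (List Bool) → List Bool} (hg : PTF g) {p : γ → P} {st : γ → St} (hp : PTF p) (hs : PTF st) :
    PTF (fun c => stop (p c).1.val (wP (p c)) g (st c)) := by
  have hn : PTU (fun c => (p c).1.val) := PTU.val (by fun_prop)
  have hb := ptf_blocks hn (F := fun c => (st c).2) (by pt_solve)
  have ho := ptf_orc hg hp hs
  unfold stop
  refine PTF.all (PTF.range (PTU.length hb)) (PTF.not ?_)
  exact ptf_getD' (PTF.snd) (PTF.comp (g := fun c => orc (p c).1.val (wP (p c)) g (st c))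
    (f := fun q : γ × ℕ => q.1) ho PTF.fst) (PTF.const false)

theorem ptf_stepSt {g : Un × List (List Bool) → List Bool} (hg : PTF g) {p : γ → P} {st : γ → St} (hp : PTF p) (hs : PTF st) :
    PTF (fun c => stepSt (p c).1.val (wP (p c)) g (st c)) := by
  have hn : PTU (fun c => (p c).1.val) := PTU.val (by fun_prop)
  have hb := ptf_blocks hn (F := fun c => (st c).2) (by pt_solve)
  unfold stepSt
  refine PTF.ite (PTF.toPTPred (ptf_stop hg hp hs)) hs ?_
  exact ptf_upd hp hs hb (ptf_Qt hp (by pt_solve) (by pt_solve) hb) (ptf_orc hg hp hs)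

/-! ### all phases -/

/-- size invariant -/
structure SI (n W j : ℕ) (st : St) : Prop where
  len : st.1.length = n
  abs : ∀ z ∈ st.1, z.natAbs ≤ W + j
  fam : st.2.length ≤ n * j
  mem : ∀ B ∈ st.2, sz B ≤ n * (2 * n + 1)

theorem si_init (n W : ℕ) : SI n W 0 (List.replicate n (W : ℤ), []) where
  len := by simp
  abs z hz := by
    have := List.eq_of_mem_replicate hz
    subst this
    simp
  fam := by simp
  mem := by simp

theorem length_classes_le (n : ℕ) (S : ℕ → Bool) (R : ℕ → ℕ → Bool) :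
    (classes n S R).length ≤ n := by
  unfold classes lead
  rw [List.length_map]
  exact (List.length_filter_le _ _).trans (by simp)

theorem length_foldl_er (M F : List (List ℕ)) : (M.foldl er F).length ≤ F.length := by
  rw [foldl_er]
  exact (List.diff_sublist _ _).length_le

theorem mem_foldl_er {M F : List (List ℕ)} {B : List ℕ} (h : B ∈ M.foldl er F) : B ∈ F := by
  rw [foldl_er] at h
  exact (List.diff_sublist _ _).subset h

theorem sig_abs (a b : ℕ → Bool) (v : ℕ) : (sig a b v).natAbs ≤ 1 := by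
  unfold sig
  split_ifs <;> simp

theorem si_upd {n W j : ℕ} {w : ℕ → ℕ → ℕ} {st : St} (h : SI n W j st) (bl : List (List ℕ))
    (Q : List (List Bool)) (Dl : List Bool) : SI n W (j + 1) (upd n w st bl Q Dl) where
  len := by simp [upd]
  abs z hz := by
    unfold upd at hz
    obtain ⟨v, hv, rfl⟩ := List.mem_map.1 hz
    have hvn : v < n := by simpa using hv
    have h1 : (yf st.1 v).natAbs ≤ W + j := by
      unfold yf
      have hl : v < st.1.length := by rw [h.len]; exact hvn
      rw [List.getD_eq_getElem _ _ hl]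
      exact h.abs _ (List.getElem_mem hl)
    have h2 := sig_abs (inDf bl Dl) (inAf n bl Q Dl) v
    omega
  fam := by
    unfold upd
    rw [List.length_append]
    have h1 := length_classes_le n (inDf bl Dl) (cpf n w (yf st.1) st.2 bl Dl)
    have h2 := length_foldl_er (Abl n st.2 (inAf n bl Q Dl)) st.2
    have h3 := h.fam
    have : n * (j + 1) = n * j + n := by ring
    omega
  mem B hB := by
    unfold upd at hB
    rcases List.mem_append.1 hB with hB | hB
    · unfold classes at hB
      obtain ⟨l, _, rfl⟩ := List.mem_map.1 hB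
      exact sz_filter_range _ _
    · exact h.mem B (mem_foldl_er hB)

theorem si_mono {n W j j' : ℕ} {st : St} (h : SI n W j st) (hj : j ≤ j') : SI n W j' st where
  len := h.len
  abs z hz := (h.abs z hz).trans (by omega)
  fam := h.fam.trans (Nat.mul_le_mul_left _ hj)
  mem := h.mem

theorem si_step {n W j : ℕ} {w : ℕ → ℕ → ℕ} {g : Orc} {st : St} (h : SI n W j st) :
    SI n W (j + 1) (stepSt n w g st) := by
  unfold stepSt
  split_ifs
  · exact si_mono h (by omega)
  · exact si_upd h _ _ _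

theorem si_iter {n W : ℕ} {w : ℕ → ℕ → ℕ} {g : Orc} (j : ℕ) :
    SI n W j ((stepSt n w g)^[j] (List.replicate n (W : ℤ), [])) := by
  induction j with
  | zero => exact si_init n W
  | succ j ih => rw [Function.iterate_succ_apply']; exact si_step ih

theorem sz_int_le {z : ℤ} {b : ℕ} (h : z.natAbs ≤ b) : sz z ≤ 3 + b := by
  rw [sz_int]
  have := sz_nat_le z.natAbs
  rw [sz_nat] at this
  omega

theorem SI.sz_le {n W j : ℕ} {st : St} (h : SI n W j st) :
    sz st ≤ 2 * (n * (2 * (3 + (W + j)) + 1)) + 1 + (n * j) * (2 * (n * (2 * n + 1)) + 1) := by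
  rw [sz_prod]
  have h1 : sz st.1 ≤ n * (2 * (3 + (W + j)) + 1) := by
    have := sz_list_le (l := st.1) (m := 3 + (W + j)) fun z hz => sz_int_le (h.abs z hz)
    rw [h.len] at this
    exact this
  have h2 : sz st.2 ≤ (n * j) * (2 * (n * (2 * n + 1)) + 1) :=
    (sz_list_le (l := st.2) (m := n * (2 * n + 1)) h.mem).trans (Nat.mul_le_mul_right _ h.fam)
  omega

theorem ptu_listSum {l : γ → List Un} (hl : PTF l) :
    PTU (fun c => ((l c).map (fun x => x.val)).sum) := by
  have h : PTU (fun c => ((l c).flatMap (fun x => List.replicate x.val true)).length) := by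
    refine PTU.length (PTF.flatMap hl ?_)
    exact PTF.replicate (PTU.val (by fun_prop)) (PTF.const true)
  refine h.of_eq fun c => ?_
  rw [List.length_flatMap]
  simp

theorem ptu_WL {L : γ → List Ent} (hL : PTF L) : PTU (fun c => WL (L c)) := by
  have h : PTU (fun c => (((L c).map (fun e => Un.mk (e.2.2.val + 1))).map (fun x => x.val)).sum) := by
    refine ptu_listSum (PTF.map hL ?_)
    have : PTU (fun p : γ × Ent => p.2.2.2.val + 1) := PTU.succ (PTU.val (by fun_prop))
    exact this
  refine h.of_eq fun c => ?_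
  unfold WL
  rw [List.map_map]
  rfl

theorem ptf_run {g : Un × List (List Bool) → List Bool} (hg : PTF g) {p : γ → P} (hp : PTF p)
    {W : γ → ℕ} (hW : PTU W) :
    PTF (fun c => run (p c).1.val (wP (p c)) g (W c)) := by
  have hn : PTU (fun c => (p c).1.val) := PTU.val (by fun_prop)
  have hf : PTU (fun c => (p c).1.val * W c + 1) := PTU.succ (PTU.mul hn hW)
  unfold run
  refine PTF.iterate' (B := fun c => 2 * ((p c).1.val * (2 * (3 + (W c +
    ((p c).1.val * W c + 1))) + 1)) + 1 + ((p c).1.val * ((p c).1.val * W c + 1)) *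
    (2 * ((p c).1.val * (2 * (p c).1.val + 1)) + 1)) hf ?_ ?_ ?_ ?_
  · exact ptf_stepSt (γ := γ × St) hg (p := fun q => p q.1) (st := fun q => q.2)
      (PTF.comp (g := p) (f := fun q : γ × St => q.1) hp PTF.fst) PTF.snd
  · exact PTF.prodMk (PTF.replicate hn (PTF.intNatCast (PTU.toPTF hW))) (PTF.const [])
  · have h1 := hn.pb
    have h2 := hW.pb
    fun_prop
  · intro c i hi
    exact (si_mono (si_iter i) hi).sz_le

theorem ptf_dualL {n : γ → ℕ} (hn : PTU n) {st : γ → St} (hs : PTF st) :
    PTF (fun c => dualL (n c) (st c)) := by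
  unfold dualL yf
  refine PTF.intAdd (PTF.intListSum (PTF.map (PTF.range hn) (by pt_solve)))
    (PTF.intListSum (PTF.map (by pt_solve) (PTF.intSub ?_ (PTF.const 1))))
  exact PTF.intNatCast (PTU.toPTF (PTU.length (by pt_solve)))

theorem ptf_opt {g : Un × List (List Bool) → List Bool} (hg : PTF g) {p : γ → P} (hp : PTF p)
    {W : γ → ℕ} (hW : PTU W) :
    PTF (fun c => opt (p c).1.val (wP (p c)) g (W c)) := by
  have hn : PTU (fun c => (p c).1.val) := PTU.val (by fun_prop)
  have hr := ptf_run hg hp hW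
  unfold opt
  refine PTF.ite (PTF.toPTPred (ptf_stop hg hp hr)) ?_ (PTF.const none)
  exact PTF.optSome (ptf_dualL hn hr)

theorem ptf_valL {g : Un × List (List Bool) → List Bool} (hg : PTF g) {p : γ → P} (hp : PTF p) :
    PTF (fun c => valL (p c).1.val g (p c).2) := by
  have hn : PTU (fun c => (p c).1.val) := PTU.val (by fun_prop)
  have hL : PTF (fun c => (p c).2) := by fun_prop
  have hW : PTU (fun c => ((p c).1.val + 1) * WL (p c).2) :=
    PTU.mul (PTU.succ hn) (ptu_WL hL)
  have ho := ptf_opt hg hp hW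
  unfold valL val
  refine ptf_optionMap ho ?_
  show PTF (fun q : γ × ℤ => (2 * q.2 / (((p q.1).1.val + 1 : ℕ) : ℤ)).toNat)
  have h1 : PTF (fun q : γ × ℤ => (((p q.1).1.val + 1 : ℕ) : ℤ)) :=
    PTF.intNatCast (PTU.toPTF (PTU.comp (n := fun c => (p c).1.val + 1)
      (f := fun q : γ × ℤ => q.1) (PTU.succ hn) PTF.fst))
  exact PTF.intToNat (PTF.intEdiv (PTF.intMul (PTF.const 2) PTF.snd) h1)

theorem sz_dl_le (R : List Ent) (e : Ent) : sz (dl R e) ≤ sz R := by
  unfold dl
  induction R with
  | nil => simp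
  | cons a l ih =>
    rw [List.filter_cons]
    split_ifs
    · simp only [sz_cons]; omega
    · simp only [sz_cons]; omega

theorem ptf_mwg {g : Un × List (List Bool) → List Bool} (hg : PTF g) : PTF (mwg g) := by
  have hv := ptf_valL (γ := Un × List Ent) hg (p := fun c => c) PTF.id
  unfold mwg
  refine ptf_optionMap hv ?_
  have he : PTF (fun c : Un × List Ent => extract c.1.val g c.2) := by
    unfold extract
    refine PTF.foldl_add (f := fun c : Un × List Ent => delStep c.1.val g (valL c.1.val g c.2))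
      PTF.snd ?_ PTF.snd (G := fun _ => 0) (PB.const 0) ?_
    · show PTF (fun q : (Un × List Ent) × List Ent × Ent =>
        delStep q.1.1.val g (valL q.1.1.val g q.1.2) q.2.1 q.2.2)
      have hd : PTF (fun q : (Un × List Ent) × List Ent × Ent => dl q.2.1 q.2.2) := by
        unfold dl
        pt_solve
      have h1 := ptf_valL (γ := (Un × List Ent) × List Ent × Ent) hg
        (p := fun q => (q.1.1, dl q.2.1 q.2.2)) (PTF.prodMk (by fun_prop) hd)
      have h2 := ptf_valL (γ := (Un × List Ent) × List Ent × Ent) hg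
        (p := fun q => q.1) (by fun_prop)
      unfold delStep
      exact PTF.ite (PTPred.eq h1 h2) hd (by fun_prop)
    · intro c b a _
      unfold delStep
      split_ifs
      · exact sz_dl_le b a
      · exact le_rfl
  have he' : PTF (fun q : (Un × List Ent) × ℕ => extract q.1.1.val g q.1.2) :=
    PTF.comp (g := fun c : Un × List Ent => extract c.1.val g c.2)
      (f := fun q : (Un × List Ent) × ℕ => q.1) he PTF.fst
  show PTF (fun q : (Un × List Ent) × ℕ => prs (extract q.1.1.val g q.1.2))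
  unfold prs
  have h3 : PTF (fun q : ((Un × List Ent) × ℕ) × (ℕ × ℕ × Un) => (q.2.1, q.2.2.1)) := by fun_prop
  exact PTF.map he' h3

/-- **the matching routine from the oracle** -/
theorem mw_of_oracle (h : Oracle) : MW := by
  obtain ⟨g, hg, hs⟩ := h
  exact ⟨mwg g, ptf_mwg hg, mwSpec hs⟩

end Crest.Agent.R304.Pd292H
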