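/-
R304 / S0466, part A (helper484): cuts, perfect matchings, the polytope Q, parity, small moves.
-/
import Mathlib

set_option autoImplicit false
set_option linter.unusedSectionVars false

open Finset

namespace Crest.Agent.R304.Poly484

variable {V E : Type} [DecidableEq V] [Fintype E] [DecidableEq E]

/-- edges with exactly one end in `S` -/
def cut (a b : E → V) (S : Finset V) : Finset E :=
  univ.filter fun e => ¬ (a e ∈ S ↔ b e ∈ S)

/-- `M` is a perfect matching of the multigraph with vertex set `A` and ends `a, b`. -/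
structure IsPM (A : Finset V) (a b : E → V) (M : Finset E) : Prop where
  nl : ∀ e ∈ M, a e ≠ b e
  one : ∀ v ∈ A, (M ∩ cut a b {v}).card = 1

/-- the polytope described by Edmonds' inequalities -/
structure InQ (A : Finset V) (a b : E → V) (x : E → ℝ) : Prop where
  nonneg : ∀ e, 0 ≤ x e
  loop : ∀ e, a e = b e → x e = 0
  deg : ∀ v ∈ A, ∑ e ∈ cut a b {v}, x e = 1
  odd : ∀ S ⊆ A, Odd S.card → 1 ≤ ∑ e ∈ cut a b S, x e

/-- indicator vector -/
def ind (M : Finset E) : E → ℝ := fun e => if e ∈ M then 1 else 0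

/-- the perfect matching polytope -/
def PP (A : Finset V) (a b : E → V) : Set (E → ℝ) :=
  convexHull ℝ (ind '' {M : Finset E | IsPM A a b M})

omit [DecidableEq E] in
theorem mem_cut {a b : E → V} {S : Finset V} {e : E} :
    e ∈ cut a b S ↔ ¬ (a e ∈ S ↔ b e ∈ S) := by
  simp [cut]

omit [DecidableEq E] in
theorem cut_compl {A : Finset V} {a b : E → V} (ha : ∀ e, a e ∈ A) (hb : ∀ e, b e ∈ A)
    (S : Finset V) : cut a b (A \ S) = cut a b S := by
  ext e
  simp only [mem_cut, mem_sdiff, ha e, hb e, true_and]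
  tauto

/-- parity of a perfect matching on a cut -/
theorem odd_cut {A : Finset V} {a b : E → V} {M : Finset E} (hM : IsPM A a b M)
    {S : Finset V} (hS : S ⊆ A) (hodd : Odd S.card) : Odd (M ∩ cut a b S).card := by
  classical
  have h1 : ∑ v ∈ S, (M ∩ cut a b {v}).card = S.card := by
    rw [Finset.sum_congr rfl (fun v hv => hM.one v (hS hv))]
    simp
  have h2 : ∑ v ∈ S, (M ∩ cut a b {v}).card
      = ∑ e ∈ M, ((if a e ∈ S then 1 else 0) + (if b e ∈ S then 1 else 0)) := by
    have h3 : ∀ v ∈ S, (M ∩ cut a b {v}).card = ∑ e ∈ M, (if e ∈ cut a b {v} then 1 else 0) := by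
      intro v _
      rw [← Finset.filter_mem_eq_inter, Finset.card_filter]
    rw [Finset.sum_congr rfl h3, Finset.sum_comm]
    refine Finset.sum_congr rfl fun e he => ?_
    have hne := hM.nl e he
    have h4 : ∀ v ∈ S, (if e ∈ cut a b {v} then 1 else 0)
        = (if v = a e then 1 else 0) + (if v = b e then 1 else 0) := by
      intro v _
      simp only [mem_cut, mem_singleton]
      by_cases h5 : v = a e
      · have h6 : ¬ v = b e := fun h => hne (h5.symm.trans h)
        have h5' : a e = v := h5.symm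
        have h6' : ¬ b e = v := fun h => h6 h.symm
        simp [h5', h6']
        exact h6
      · by_cases h6 : v = b e
        · have h5' : ¬ a e = v := fun h => h5 h.symm
          have h6' : b e = v := h6.symm
          simp [h5', h6', h5]
        · have h5' : ¬ a e = v := fun h => h5 h.symm
          have h6' : ¬ b e = v := fun h => h6 h.symm
          simp [h5', h6', h5, h6]
    rw [Finset.sum_congr rfl h4, Finset.sum_add_distrib]
    simp
  have h7 : (∑ e ∈ M, ((if a e ∈ S then 1 else 0) + (if b e ∈ S then 1 else 0)) : ℕ)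
      = (M ∩ cut a b S).card + 2 * (M.filter fun e => a e ∈ S ∧ b e ∈ S).card := by
    rw [← Finset.filter_mem_eq_inter, Finset.card_filter, Finset.card_filter, Finset.mul_sum,
      ← Finset.sum_add_distrib]
    refine Finset.sum_congr rfl fun e _ => ?_
    by_cases h5 : a e ∈ S <;> by_cases h6 : b e ∈ S <;> simp [mem_cut, h5, h6]
  have h8 : (M ∩ cut a b S).card + 2 * (M.filter fun e => a e ∈ S ∧ b e ∈ S).card = S.card := by
    rw [← h7, ← h2, h1]
  rw [← h8] at hodd
  rcases Nat.even_or_odd (M ∩ cut a b S).card with h | h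
  · exact absurd hodd (by
      rw [Nat.not_odd_iff_even]
      exact h.add (even_two_mul _))
  · exact h

omit [DecidableEq V] in
theorem sum_ind (M T : Finset E) : ∑ e ∈ T, ind M e = ((M ∩ T).card : ℝ) := by
  unfold ind
  rw [Finset.sum_ite_mem, Finset.inter_comm]
  simp

theorem ind_mem_Q {A : Finset V} {a b : E → V} {M : Finset E} (hM : IsPM A a b M) :
    InQ A a b (ind M) where
  nonneg e := by unfold ind; split_ifs <;> norm_num
  loop e he := by
    unfold ind
    rw [if_neg]
    intro h
    exact hM.nl e h he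
  deg v hv := by
    rw [sum_ind, hM.one v hv]; simp
  odd S hS ho := by
    rw [sum_ind]
    have := (odd_cut hM hS ho).pos
    exact_mod_cast this

omit [DecidableEq E] in
theorem convex_Q (A : Finset V) (a b : E → V) : Convex ℝ {x : E → ℝ | InQ A a b x} := by
  intro x hx y hy s t hs ht hst
  simp only [Set.mem_ofPred_eq] at hx hy ⊢
  have hsum : ∀ T : Finset E, ∑ e ∈ T, (s • x + t • y) e = s * ∑ e ∈ T, x e + t * ∑ e ∈ T, y e := by
    intro T
    simp [Finset.sum_add_distrib, Finset.mul_sum]
  refine ⟨fun e => ?_, fun e he => ?_, fun v hv => ?_, fun S hS ho => ?_⟩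
  · have := hx.nonneg e
    have := hy.nonneg e
    simp only [Pi.add_apply, Pi.smul_apply, smul_eq_mul]
    positivity
  · simp [hx.loop e he, hy.loop e he]
  · rw [hsum, hx.deg v hv, hy.deg v hv]; linarith
  · rw [hsum]
    have h1 := hx.odd S hS ho
    have h2 := hy.odd S hS ho
    nlinarith

theorem PP_sub_Q {A : Finset V} {a b : E → V} {x : E → ℝ} (hx : x ∈ PP A a b) : InQ A a b x := by
  have h : PP A a b ⊆ {x : E → ℝ | InQ A a b x} := by
    refine convexHull_min ?_ (convex_Q A a b)
    rintro _ ⟨M, hM, rfl⟩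
    exact ind_mem_Q hM
  exact h hx

theorem closed_Q (A : Finset V) (a b : E → V) : IsClosed {x : E → ℝ | InQ A a b x} := by
  have h : {x : E → ℝ | InQ A a b x}
      = (⋂ e, {x : E → ℝ | 0 ≤ x e}) ∩ (⋂ e, ⋂ (_ : a e = b e), {x : E → ℝ | x e = 0})
        ∩ (⋂ v, ⋂ (_ : v ∈ A), {x : E → ℝ | ∑ e ∈ cut a b {v}, x e = 1})
        ∩ (⋂ S, ⋂ (_ : S ⊆ A), ⋂ (_ : Odd S.card), {x : E → ℝ | 1 ≤ ∑ e ∈ cut a b S, x e}) := by
    ext x
    simp only [Set.mem_ofPred_eq, Set.mem_inter_iff, Set.mem_iInter]
    constructor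
    · intro h
      exact ⟨⟨⟨h.nonneg, h.loop⟩, h.deg⟩, h.odd⟩
    · rintro ⟨⟨⟨h1, h2⟩, h3⟩, h4⟩
      exact ⟨h1, h2, h3, h4⟩
  rw [h]
  refine (((isClosed_iInter fun e => ?_).inter (isClosed_iInter fun e => isClosed_iInter fun _ => ?_)).inter
    (isClosed_iInter fun v => isClosed_iInter fun _ => ?_)).inter
    (isClosed_iInter fun S => isClosed_iInter fun _ => isClosed_iInter fun _ => ?_)
  · exact isClosed_le continuous_const (continuous_apply e)
  · exact isClosed_eq (continuous_apply e) continuous_const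
  · exact isClosed_eq (by fun_prop) continuous_const
  · exact isClosed_le continuous_const (by fun_prop)

theorem InQ.le_one {A : Finset V} {a b : E → V} (ha : ∀ e, a e ∈ A) {x : E → ℝ}
    (hx : InQ A a b x) (e : E) : x e ≤ 1 := by
  by_cases hab : a e = b e
  · rw [hx.loop e hab]; norm_num
  · rw [← hx.deg (a e) (ha e)]
    refine Finset.single_le_sum (f := x) (fun i _ => hx.nonneg i) ?_
    rw [mem_cut]
    simp only [mem_singleton, true_iff]
    exact fun h => hab h.symm

theorem compact_Q (A : Finset V) (a b : E → V) (ha : ∀ e, a e ∈ A) :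
    IsCompact {x : E → ℝ | InQ A a b x} := by
  refine IsCompact.of_isClosed_subset (isCompact_univ_pi (s := fun _ : E => Set.Icc (0:ℝ) 1)
    fun _ => isCompact_Icc) (closed_Q A a b) ?_
  intro x hx
  simp only [Set.mem_pi, Set.mem_univ, forall_true_left, Set.mem_Icc]
  exact fun e => ⟨hx.nonneg e, hx.le_one ha e⟩

/-- a nontrivial tight odd set -/
def Tight (A : Finset V) (a b : E → V) (x : E → ℝ) (U : Finset V) : Prop :=
  U ⊆ A ∧ Odd U.card ∧ 1 < U.card ∧ 1 < (A \ U).card ∧ ∑ e ∈ cut a b U, x e = 1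

/-- small moves stay in `Q` when there is no nontrivial tight odd set -/
theorem small_move {A : Finset V} {a b : E → V} (ha : ∀ e, a e ∈ A) (hb : ∀ e, b e ∈ A)
    (hev : Even A.card) {x : E → ℝ} (hx : InQ A a b x)
    (hno : ∀ U, ¬ Tight A a b x U) {h : E → ℝ} (hsupp : ∀ e, x e = 0 → h e = 0)
    (hdeg : ∀ v ∈ A, ∑ e ∈ cut a b {v}, h e = 0) :
    ∃ ε : ℝ, 0 < ε ∧ ∀ t : ℝ, |t| < ε → InQ A a b (x + t • h) := by
  have hsum : ∀ (T : Finset E) (t : ℝ),
      ∑ e ∈ T, (x + t • h) e = ∑ e ∈ T, x e + t * ∑ e ∈ T, h e := by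
    intro T t
    simp [Finset.sum_add_distrib, Finset.mul_sum]
  have h1 : ∀ e : E, ∀ᶠ t : ℝ in nhds 0, 0 ≤ x e + t * h e := by
    intro e
    rcases eq_or_lt_of_le (hx.nonneg e) with h0 | h0
    · refine Filter.Eventually.of_forall fun t => ?_
      rw [hsupp e h0.symm, ← h0]; simp
    · have hc : Filter.Tendsto (fun t : ℝ => x e + t * h e) (nhds 0) (nhds (x e + 0 * h e)) := by
        apply Continuous.tendsto (f := fun t : ℝ => x e + t * h e)
        fun_prop
      have := hc.eventually (lt_mem_nhds (a := 0) (by simpa using h0))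
      exact this.mono fun t ht => ht.le
  have h2 : ∀ S ∈ A.powerset, ∀ᶠ t : ℝ in nhds 0,
      (Odd S.card → 1 ≤ ∑ e ∈ cut a b S, x e + t * ∑ e ∈ cut a b S, h e) := by
    intro S hS
    rw [Finset.mem_powerset] at hS
    by_cases ho : Odd S.card
    swap
    · exact Filter.Eventually.of_forall fun t h => absurd h ho
    by_cases hS1 : S.card = 1
    · obtain ⟨v, rfl⟩ := Finset.card_eq_one.mp hS1
      have hv : v ∈ A := hS (mem_singleton_self v)
      refine Filter.Eventually.of_forall fun t _ => ?_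
      rw [hx.deg v hv, hdeg v hv]; simp
    by_cases hS2 : (A \ S).card ≤ 1
    · have hcard : (A \ S).card + S.card = A.card := Finset.card_sdiff_add_card_eq_card hS
      have hS3 : (A \ S).card = 1 := by
        have : Odd (A \ S).card := by
          rcases Nat.even_or_odd (A \ S).card with h | h
          · exfalso
            rw [← hcard] at hev
            have := h.add_odd ho
            exact (Nat.not_odd_iff_even.mpr hev) this
          · exact h
        have := this.pos
        omega
      obtain ⟨v, hv⟩ := Finset.card_eq_one.mp hS3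
      have hvA : v ∈ A := by
        have : v ∈ A \ S := by rw [hv]; exact mem_singleton_self v
        exact (mem_sdiff.mp this).1
      refine Filter.Eventually.of_forall fun t _ => ?_
      rw [← cut_compl ha hb S, hv, hx.deg v hvA, hdeg v hvA]; simp
    · have hpos := ho.pos
      have hlt : 1 < ∑ e ∈ cut a b S, x e := by
        refine lt_of_le_of_ne (hx.odd S hS ho) fun hh => ?_
        exact hno S ⟨hS, ho, by omega, by omega, hh.symm⟩
      have hc : Filter.Tendsto (fun t : ℝ => ∑ e ∈ cut a b S, x e + t * ∑ e ∈ cut a b S, h e)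
          (nhds 0) (nhds (∑ e ∈ cut a b S, x e + 0 * ∑ e ∈ cut a b S, h e)) := by
        apply Continuous.tendsto (f := fun t : ℝ => ∑ e ∈ cut a b S, x e + t * ∑ e ∈ cut a b S, h e)
        fun_prop
      have := hc.eventually (lt_mem_nhds (a := 1) (by simpa using hlt))
      exact this.mono fun t ht _ => ht.le
  have h3 : ∀ᶠ t : ℝ in nhds 0, (∀ e, 0 ≤ x e + t * h e) ∧
      ∀ S ∈ A.powerset, (Odd S.card → 1 ≤ ∑ e ∈ cut a b S, x e + t * ∑ e ∈ cut a b S, h e) :=
    (Filter.eventually_all.mpr h1).and ((Filter.eventually_all_finset _).mpr h2)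
  rw [Metric.eventually_nhds_iff] at h3
  obtain ⟨ε, hε, h4⟩ := h3
  refine ⟨ε, hε, fun t ht => ?_⟩
  obtain ⟨h5, h6⟩ := h4 (by simpa [Real.dist_eq] using ht)
  refine ⟨fun e => ?_, fun e he => ?_, fun v hv => ?_, fun S hS ho => ?_⟩
  · simpa using h5 e
  · simp [hx.loop e he, hsupp e (hx.loop e he)]
  · rw [hsum, hx.deg v hv, hdeg v hv]; simp
  · rw [hsum]
    exact h6 S (Finset.mem_powerset.mpr hS) ho

end Crest.Agent.R304.Poly484
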