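/-
R304 / S0466, part B (helper484): a perfect matching in the support of a point of `Q` (via Tutte).
-/
import Crest.Agent.R304.Poly484A

set_option autoImplicit false
set_option linter.unusedSectionVars false

open Finset

namespace Crest.Agent.R304.Poly484

variable {V E : Type} [DecidableEq V] [Fintype E] [DecidableEq E]

/-- support graph -/
def supG (A : Finset V) (a b : E → V) (x : E → ℝ) : SimpleGraph {v // v ∈ A} where
  Adj u v := u ≠ v ∧ ∃ e, 0 < x e ∧ ((a e = u.1 ∧ b e = v.1) ∨ (a e = v.1 ∧ b e = u.1))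
  symm := ⟨fun _ _ h => ⟨h.1.symm, h.2.imp fun _ he => ⟨he.1, he.2.symm⟩⟩⟩
  loopless := ⟨fun _ h => h.1 rfl⟩

theorem no_violator {A : Finset V} {a b : E → V} (ha : ∀ e, a e ∈ A) (hb : ∀ e, b e ∈ A)
    {x : E → ℝ} (hx : InQ A a b x) (u : Set {v // v ∈ A}) :
    ¬ (supG A a b x).IsTutteViolator u := by
  classical
  intro hviol
  unfold SimpleGraph.IsTutteViolator at hviol
  set D := ((⊤ : (supG A a b x).Subgraph).deleteVerts u) with hD
  set K := D.coe with hK
  have hverts : ∀ w : {v // v ∈ A}, w ∈ D.verts ↔ w ∉ u := by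
    intro w; simp [hD]
  have hDadj : ∀ p q : {v // v ∈ A}, p ∉ u → q ∉ u → (supG A a b x).Adj p q → D.Adj p q := by
    intro p q hp hq hadj
    rw [hD, SimpleGraph.Subgraph.deleteVerts_adj]
    exact ⟨by simp, hp, by simp, hq, by rw [SimpleGraph.Subgraph.top_adj]; exact hadj⟩
  -- vertex sets of components
  let S : K.ConnectedComponent → Finset V := fun c =>
    (univ.filter (fun w : D.verts => K.connectedComponentMk w = c)).image (fun w => (w.1.1 : V))
  have hSmem : ∀ c v, v ∈ S c ↔ ∃ w : D.verts, K.connectedComponentMk w = c ∧ (w.1.1 : V) = v := by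
    intro c v
    simp [S]
  have hSA : ∀ c, S c ⊆ A := by
    intro c v hv
    obtain ⟨w, _, rfl⟩ := (hSmem c v).mp hv
    exact w.1.2
  have hScard : ∀ c, (S c).card = c.supp.ncard := by
    intro c
    have hinj : Function.Injective (fun w : D.verts => (w.1.1 : V)) := by
      intro w w' h
      exact Subtype.ext (Subtype.ext h)
    rw [Finset.card_image_of_injective _ hinj, Set.ncard_eq_toFinset_card']
    congr 1
    ext w
    simp [SimpleGraph.ConnectedComponent.mem_supp_iff]
  -- disjointness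
  have hSdisj : ∀ c c' v, v ∈ S c → v ∈ S c' → c = c' := by
    intro c c' v h h'
    obtain ⟨w, hw, hwv⟩ := (hSmem c v).mp h
    obtain ⟨w', hw', hwv'⟩ := (hSmem c' v).mp h'
    have : w = w' := Subtype.ext (Subtype.ext (hwv.trans hwv'.symm))
    rw [← hw, ← hw', this]
  have hSu : ∀ c v (hv : v ∈ A), v ∈ S c → (⟨v, hv⟩ : {v // v ∈ A}) ∉ u := by
    intro c v hv h
    obtain ⟨w, hw, hwv⟩ := (hSmem c v).mp h
    have h1 := (hverts w.1).mp w.2
    have h2 : w.1 = ⟨v, hv⟩ := Subtype.ext hwv
    rwa [h2] at h1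
  -- neighbours
  have hnbr : ∀ c e, 0 < x e → (a e ∈ S c → b e ∉ S c → (⟨b e, hb e⟩ : {v // v ∈ A}) ∈ u) ∧
      (b e ∈ S c → a e ∉ S c → (⟨a e, ha e⟩ : {v // v ∈ A}) ∈ u) := by
    intro c e he
    have key : ∀ p q : {v // v ∈ A}, (supG A a b x).Adj p q → p.1 ∈ S c → q ∉ u → q.1 ∈ S c := by
      intro p q hadj hp hq
      obtain ⟨w, hw, hwp⟩ := (hSmem c p.1).mp hp
      have hwp' : w.1 = p := Subtype.ext hwp
      have hqD : q ∈ D.verts := (hverts q).mpr hq
      refine (hSmem c q.1).mpr ⟨⟨q, hqD⟩, ?_, rfl⟩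
      rw [← hw]
      apply SimpleGraph.ConnectedComponent.sound
      apply SimpleGraph.Adj.reachable
      rw [hK, SimpleGraph.Subgraph.coe_adj]
      have h1 : w.1 ∈ D.verts := w.2
      refine hDadj _ _ hq ((hverts w.1).mp h1) ?_
      rw [hwp']
      exact hadj.symm
    constructor
    · intro h1 h2
      by_contra h3
      refine h2 (key ⟨a e, ha e⟩ ⟨b e, hb e⟩ ⟨?_, e, he, Or.inl ⟨rfl, rfl⟩⟩ h1 h3)
      intro h4
      have : a e = b e := congrArg Subtype.val h4
      exact h2 (this ▸ h1)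
    · intro h1 h2
      by_contra h3
      refine h2 (key ⟨b e, hb e⟩ ⟨a e, ha e⟩ ⟨?_, e, he, Or.inr ⟨rfl, rfl⟩⟩ h1 h3)
      intro h4
      have : b e = a e := congrArg Subtype.val h4
      exact h2 (this ▸ h1)
  -- the double count
  let O : Finset K.ConnectedComponent := univ.filter fun c => Odd c.supp.ncard
  have hO : (K.oddComponents).ncard = O.card := by
    rw [Set.ncard_eq_toFinset_card']
    congr 1
    ext c
    simp [O, SimpleGraph.oddComponents]
  let U : Finset {v // v ∈ A} := univ.filter fun w => w ∈ u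
  have hU : u.ncard = U.card := by
    rw [Set.ncard_eq_toFinset_card']
    congr 1
    ext c
    simp [U]
  have h1 : (O.card : ℝ) ≤ ∑ c ∈ O, ∑ e ∈ cut a b (S c), x e := by
    have : (O.card : ℝ) = ∑ c ∈ O, (1 : ℝ) := by simp
    rw [this]
    refine Finset.sum_le_sum fun c hc => ?_
    refine hx.odd (S c) (hSA c) ?_
    rw [hScard]
    exact (Finset.mem_filter.mp hc).2
  have h2 : ∑ w ∈ U, ∑ e ∈ cut a b {w.1}, x e = (U.card : ℝ) := by
    rw [Finset.sum_congr rfl (fun w _ => hx.deg w.1 w.2)]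
    simp
  have h3 : ∑ c ∈ O, ∑ e ∈ cut a b (S c), x e ≤ ∑ w ∈ U, ∑ e ∈ cut a b {w.1}, x e := by
    have e1 : ∀ T : Finset E, ∑ e ∈ T, x e = ∑ e, if e ∈ T then x e else 0 := by
      intro T; simp
    rw [Finset.sum_congr rfl (fun c _ => e1 (cut a b (S c))),
      Finset.sum_congr rfl (fun (w : {v // v ∈ A}) _ => e1 (cut a b {w.1})),
      Finset.sum_comm, Finset.sum_comm (s := U)]
    refine Finset.sum_le_sum fun e _ => ?_
    rcases eq_or_lt_of_le (hx.nonneg e) with h0 | h0
    · simp [← h0]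
    rw [← Finset.sum_filter, ← Finset.sum_filter, Finset.sum_const, Finset.sum_const,
      nsmul_eq_mul, nsmul_eq_mul]
    refine mul_le_mul_of_nonneg_right ?_ h0.le
    norm_cast
    have hle1 : (O.filter fun c => e ∈ cut a b (S c)).card ≤ 1 := by
      rw [Finset.card_le_one]
      intro c hc c' hc'
      rw [Finset.mem_filter, mem_cut] at hc hc'
      obtain ⟨hn1, hn2⟩ := hnbr c e h0
      obtain ⟨hn1', hn2'⟩ := hnbr c' e h0
      by_cases hac : a e ∈ S c
      · have hbc : b e ∉ S c := fun h => hc.2 ⟨fun _ => h, fun _ => hac⟩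
        have hbu := hn1 hac hbc
        have hbc' : b e ∉ S c' := fun h => hSu c' _ (hb e) h hbu
        have hac' : a e ∈ S c' := by
          by_contra h
          exact hc'.2 ⟨fun h' => absurd h' h, fun h' => absurd h' hbc'⟩
        exact hSdisj c c' _ hac hac'
      · have hbc : b e ∈ S c := by
          by_contra h
          exact hc.2 ⟨fun h' => absurd h' hac, fun h' => absurd h' h⟩
        have hau := hn2 hbc hac
        have hac' : a e ∉ S c' := fun h => hSu c' _ (ha e) h hau
        have hbc' : b e ∈ S c' := by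
          by_contra h
          exact hc'.2 ⟨fun h' => absurd h' hac', fun h' => absurd h' h⟩
        exact hSdisj c c' _ hbc hbc'
    rcases Nat.eq_zero_or_pos (O.filter fun c => e ∈ cut a b (S c)).card with h4 | h4
    · rw [h4]; exact Nat.zero_le _
    · refine hle1.trans ?_
      obtain ⟨c, hc⟩ := Finset.card_pos.mp h4
      rw [Finset.mem_filter, mem_cut] at hc
      obtain ⟨hn1, hn2⟩ := hnbr c e h0
      rw [Nat.one_le_iff_ne_zero, ← Nat.pos_iff_ne_zero, Finset.card_pos]
      by_cases hac : a e ∈ S c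
      · have hbc : b e ∉ S c := fun h => hc.2 ⟨fun _ => h, fun _ => hac⟩
        have hbu := hn1 hac hbc
        refine ⟨⟨b e, hb e⟩, ?_⟩
        rw [Finset.mem_filter, mem_cut]
        refine ⟨by simp [U, hbu], ?_⟩
        simp only [mem_singleton, iff_true]
        intro h
        exact hbc (h ▸ hac)
      · have hbc : b e ∈ S c := by
          by_contra h
          exact hc.2 ⟨fun h' => absurd h' hac, fun h' => absurd h' h⟩
        have hau := hn2 hbc hac
        refine ⟨⟨a e, ha e⟩, ?_⟩
        rw [Finset.mem_filter, mem_cut]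
        refine ⟨by simp [U, hau], ?_⟩
        simp only [mem_singleton, true_iff]
        intro h
        exact hac (h ▸ hbc)
  rw [hO, hU] at hviol
  have : (O.card : ℝ) ≤ U.card := h1.trans (h3.trans h2.le)
  have : O.card ≤ U.card := by exact_mod_cast this
  omega

/-- the support of a point of `Q` contains a perfect matching -/
theorem exists_pm {A : Finset V} {a b : E → V} (ha : ∀ e, a e ∈ A) (hb : ∀ e, b e ∈ A)
    {x : E → ℝ} (hx : InQ A a b x) : ∃ M, IsPM A a b M ∧ ∀ e ∈ M, 0 < x e := by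
  classical
  obtain ⟨M', hM'⟩ := SimpleGraph.tutte.mpr (no_violator ha hb hx)
  obtain ⟨hmatch, hspan⟩ := hM'
  by_cases hA : A.Nonempty
  swap
  · rw [Finset.not_nonempty_iff_eq_empty] at hA
    subst hA
    refine ⟨∅, ⟨by simp, by simp⟩, by simp⟩
  -- E nonempty
  let sym : E → Sym2 {v // v ∈ A} := fun e => s(⟨a e, ha e⟩, ⟨b e, hb e⟩)
  have hex : ∀ s : Sym2 {v // v ∈ A}, s ∈ (supG A a b x).edgeSet → ∃ e, sym e = s ∧ 0 < x e := by
    intro s
    induction s with
    | _ p q =>
      intro h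
      rw [SimpleGraph.mem_edgeSet] at h
      obtain ⟨hne, e, he, h1 | h1⟩ := h
      · refine ⟨e, ?_, he⟩
        have : (⟨a e, ha e⟩ : {v // v ∈ A}) = p := Subtype.ext h1.1
        have h' : (⟨b e, hb e⟩ : {v // v ∈ A}) = q := Subtype.ext h1.2
        simp only [sym, this, h']
      · refine ⟨e, ?_, he⟩
        have : (⟨a e, ha e⟩ : {v // v ∈ A}) = q := Subtype.ext h1.1
        have h' : (⟨b e, hb e⟩ : {v // v ∈ A}) = p := Subtype.ext h1.2
        simp only [sym, this, h']
        exact Sym2.eq_swap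
  let M : Finset E := univ.filter fun e => ∃ h : sym e ∈ (supG A a b x).edgeSet,
    sym e ∈ M'.edgeSet ∧ (hex (sym e) h).choose = e
  have hchoose : ∀ (s : Sym2 {v // v ∈ A}) (h : s ∈ (supG A a b x).edgeSet),
      sym (hex s h).choose = s ∧ 0 < x (hex s h).choose := fun s h => (hex s h).choose_spec
  have hMmem : ∀ e, e ∈ M ↔ ∃ h : sym e ∈ (supG A a b x).edgeSet,
    sym e ∈ M'.edgeSet ∧ (hex (sym e) h).choose = e := by
    intro e; simp [M]
  refine ⟨M, ⟨?_, ?_⟩, ?_⟩
  · intro e he heq
    obtain ⟨h, h1, h2⟩ := (hMmem e).mp he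
    have h3 : (supG A a b x).Adj ⟨a e, ha e⟩ ⟨b e, hb e⟩ := (SimpleGraph.mem_edgeSet _).mp h
    exact h3.1 (Subtype.ext heq)
  · intro v hv
    obtain ⟨w, hw, hwu⟩ := hmatch (hspan ⟨v, hv⟩)
    simp only at hw hwu
    have hGadj : (supG A a b x).Adj ⟨v, hv⟩ w := M'.adj_sub hw
    have hedge : s(⟨v, hv⟩, w) ∈ (supG A a b x).edgeSet := (SimpleGraph.mem_edgeSet _).mpr hGadj
    obtain ⟨hs1, hs2⟩ := hchoose _ hedge
    rw [Finset.card_eq_one]
    refine ⟨(hex _ hedge).choose, ?_⟩
    ext e
    rw [mem_inter, mem_singleton, mem_cut]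
    constructor
    · rintro ⟨he, hcut⟩
      obtain ⟨h, h1, h2⟩ := (hMmem e).mp he
      simp only [mem_singleton] at hcut
      -- v is an end of e
      have h3 : (M').Adj ⟨a e, ha e⟩ ⟨b e, hb e⟩ := h1
      have h4 : sym e = s(⟨v, hv⟩, w) := by
        by_cases hav : a e = v
        · have e1 : (⟨a e, ha e⟩ : {v // v ∈ A}) = ⟨v, hv⟩ := Subtype.ext hav
          have e2 : (⟨b e, hb e⟩ : {v // v ∈ A}) = w := hwu _ (by rw [← e1]; exact h3)
          simp only [sym, e1, e2]
        · have hbv : b e = v := by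
            by_contra hbv
            exact hcut ⟨fun h => absurd h hav, fun h => absurd h hbv⟩
          have e1 : (⟨b e, hb e⟩ : {v // v ∈ A}) = ⟨v, hv⟩ := Subtype.ext hbv
          have e2 : (⟨a e, ha e⟩ : {v // v ∈ A}) = w := hwu _ (by rw [← e1]; exact h3.symm)
          simp only [sym, e1, e2]
          exact Sym2.eq_swap
      rw [← h2]
      congr 1
      simp only [h4]
    · rintro rfl
      constructor
      · rw [hMmem]
        refine ⟨by rw [hs1]; exact hedge, by rw [hs1]; exact hw, ?_⟩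
        congr 1
        simp only [hs1]
      · simp only [mem_singleton]
        set e := (hex _ hedge).choose
        have h5 : s((⟨a e, ha e⟩ : {v // v ∈ A}), ⟨b e, hb e⟩) = s(⟨v, hv⟩, w) := hs1
        rw [Sym2.eq_iff] at h5
        have hvw : v ≠ w.1 := fun h => hGadj.1 (Subtype.ext h)
        rcases h5 with ⟨h6, h7⟩ | ⟨h6, h7⟩
        · have h6' : a e = v := congrArg Subtype.val h6
          have h7' : b e = w.1 := congrArg Subtype.val h7
          rw [h6', h7']
          simp [hvw.symm]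
        · have h6' : a e = w.1 := congrArg Subtype.val h6
          have h7' : b e = v := congrArg Subtype.val h7
          rw [h6', h7']
          simp [hvw.symm]
  · intro e he
    obtain ⟨h, h1, h2⟩ := (hMmem e).mp he
    have := (hchoose _ h).2
    rwa [h2] at this

end Crest.Agent.R304.Poly484
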