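/-
R304 / S0466, part C (helper484): contraction, gluing, Edmonds' perfect matching polytope theorem.
-/
import Crest.Agent.R304.Poly484B

set_option autoImplicit false
set_option linter.unusedSectionVars false

open Finset

namespace Crest.Agent.R304.Poly484

variable {V E : Type} [DecidableEq V] [Fintype E] [DecidableEq E]

/-- contraction of `U` to the vertex `u0` -/
def con (U : Finset V) (u0 : V) (v : V) : V := if v ∈ U then u0 else v

theorem con_eq {U : Finset V} {u0 : V} (hu0 : u0 ∈ U) {p q : V} :
    con U u0 p = con U u0 q ↔ (p ∈ U ∧ q ∈ U) ∨ p = q := by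
  unfold con
  by_cases hp : p ∈ U <;> by_cases hq : q ∈ U
  · simp [hp, hq]
  · simp only [hp, hq, if_true, if_false, and_false, false_or]
    constructor
    · rintro rfl; exact absurd hu0 hq
    · rintro rfl; exact absurd hp hq
  · simp only [hp, hq, if_true, if_false, false_and, false_or]
    constructor
    · rintro rfl; exact absurd hu0 hp
    · rintro rfl; exact absurd hq hp
  · simp [hp, hq]

theorem con_mem_singleton_out {U : Finset V} {u0 : V} (hu0 : u0 ∈ U) {v : V} (hv : v ∉ U) (p : V) :
    con U u0 p ∈ ({v} : Finset V) ↔ p ∈ ({v} : Finset V) := by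
  simp only [mem_singleton]
  unfold con
  by_cases hp : p ∈ U
  · simp only [hp, if_true]
    constructor
    · rintro rfl; exact absurd hu0 hv
    · rintro rfl; exact absurd hp hv
  · simp [hp]

theorem con_mem_singleton_u0 {U : Finset V} {u0 : V} (hu0 : u0 ∈ U) (p : V) :
    con U u0 p ∈ ({u0} : Finset V) ↔ p ∈ U := by
  simp only [mem_singleton]
  unfold con
  by_cases hp : p ∈ U
  · simp [hp]
  · simp only [hp, if_false, iff_false]
    rintro rfl
    exact hp hu0

theorem cut1_out {U : Finset V} {u0 : V} (hu0 : u0 ∈ U) {v : V} (hv : v ∉ U) (a b : E → V) :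
    cut (fun e => con U u0 (a e)) (fun e => con U u0 (b e)) {v} = cut a b {v} := by
  ext e
  rw [mem_cut, mem_cut, con_mem_singleton_out hu0 hv, con_mem_singleton_out hu0 hv]

theorem cut1_u0 {U : Finset V} {u0 : V} (hu0 : u0 ∈ U) (a b : E → V) :
    cut (fun e => con U u0 (a e)) (fun e => con U u0 (b e)) {u0} = cut a b U := by
  ext e
  rw [mem_cut, mem_cut, con_mem_singleton_u0 hu0, con_mem_singleton_u0 hu0]

theorem cut1_gen {A U : Finset V} {u0 : V} {a b : E → V} (ha : ∀ e, a e ∈ A)
    (hb : ∀ e, b e ∈ A) (S : Finset V) :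
    cut (fun e => con U u0 (a e)) (fun e => con U u0 (b e)) S
      = cut a b (A.filter fun v => con U u0 v ∈ S) := by
  ext e
  rw [mem_cut, mem_cut, mem_filter, mem_filter]
  simp [ha e, hb e]

theorem con_mem {A U : Finset V} {u0 : V} {v : V} (hv : v ∈ A) :
    con U u0 v ∈ insert u0 (A \ U) := by
  unfold con
  split_ifs with h
  · exact mem_insert_self _ _
  · exact mem_insert_of_mem (mem_sdiff.mpr ⟨hv, h⟩)

/-- the law of a point of the polytope -/
theorem exists_law {A : Finset V} {a b : E → V} {x : E → ℝ} (hx : x ∈ PP A a b) :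
    ∃ p : Finset E → ℝ, (∀ M, 0 ≤ p M) ∧ ∑ M, p M = 1 ∧ (∀ M, p M ≠ 0 → IsPM A a b M) ∧
      ∀ e, x e = ∑ M, p M * ind M e := by
  have hsub : PP A a b ⊆ {x | ∃ p : Finset E → ℝ, (∀ M, 0 ≤ p M) ∧ ∑ M, p M = 1 ∧
      (∀ M, p M ≠ 0 → IsPM A a b M) ∧ ∀ e, x e = ∑ M, p M * ind M e} := by
    refine convexHull_min ?_ ?_
    · rintro _ ⟨M, hM, rfl⟩
      refine ⟨fun N => if N = M then 1 else 0, fun N => ?_, ?_, fun N hN => ?_, fun e => ?_⟩
      · show (0:ℝ) ≤ if N = M then 1 else 0
        split_ifs <;> norm_num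
      · simp
      · have : N = M := by
          by_contra h
          simp [h] at hN
        rw [this]; exact hM
      · simp
    · rintro x ⟨p, hp0, hp1, hpM, hpx⟩ y ⟨q, hq0, hq1, hqM, hqy⟩ s t hs ht hst
      refine ⟨fun M => s * p M + t * q M, fun M => ?_, ?_, fun M hM => ?_, fun e => ?_⟩
      · have := hp0 M
        have := hq0 M
        positivity
      · rw [Finset.sum_add_distrib, ← Finset.mul_sum, ← Finset.mul_sum, hp1, hq1]; linarith
      · by_contra h
        have h1 : p M = 0 := by
          by_contra h'; exact h (hpM M h')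
        have h2 : q M = 0 := by
          by_contra h'; exact h (hqM M h')
        simp [h1, h2] at hM
      · simp only [Pi.add_apply, Pi.smul_apply, smul_eq_mul]
        rw [hpx e, hqy e, Finset.mul_sum, Finset.mul_sum, ← Finset.sum_add_distrib]
        refine Finset.sum_congr rfl fun M _ => ?_
        ring
  exact hsub hx

/-- the union of two matchings sharing an edge of the cut -/
theorem union_pm {A U : Finset V} (hU : U ⊆ A) {u0 w0 : V} (hu0 : u0 ∈ U) (hw0 : w0 ∈ A \ U)
    {a b : E → V} (ha : ∀ e, a e ∈ A) (hb : ∀ e, b e ∈ A) {M1 M2 : Finset E}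
    (h1 : IsPM (insert u0 (A \ U)) (fun e => con U u0 (a e)) (fun e => con U u0 (b e)) M1)
    (h2 : IsPM (insert w0 U) (fun e => con (A \ U) w0 (a e)) (fun e => con (A \ U) w0 (b e)) M2)
    {e0 : E} (he0 : e0 ∈ cut a b U) (he1 : e0 ∈ M1) (he2 : e0 ∈ M2) :
    (∀ e ∈ M2, ¬ (a e ∈ U ∧ b e ∈ U) → e ∈ M1) ∧ (∀ e ∈ M1, (a e ∈ U ∨ b e ∈ U) → e ∈ M2) ∧
      IsPM A a b (M1 ∪ M2) := by
  have hc1 : (M1 ∩ cut a b U).card = 1 := by
    have := h1.one u0 (mem_insert_self _ _)
    rwa [cut1_u0 hu0] at this
  have hc2 : (M2 ∩ cut a b U).card = 1 := by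
    have := h2.one w0 (mem_insert_self _ _)
    rwa [cut1_u0 hw0, cut_compl ha hb] at this
  have cl1 : ∀ e ∈ M2, ¬ (a e ∈ U ∧ b e ∈ U) → e ∈ M1 := by
    intro e he hne
    by_cases hcut : e ∈ cut a b U
    · have : e = e0 := Finset.card_le_one.mp hc2.le e (mem_inter.mpr ⟨he, hcut⟩) e0
        (mem_inter.mpr ⟨he2, he0⟩)
      rw [this]; exact he1
    · exfalso
      have hnl := h2.nl e he
      apply hnl
      rw [mem_cut] at hcut
      rw [con_eq hw0]
      left
      have haU : a e ∉ U := fun h => hcut (by simp only [h, true_iff]; exact fun h' => hne ⟨h, h'⟩)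
      have hbU : b e ∉ U := fun h => hcut (by simp only [h, iff_true]; exact haU)
      exact ⟨mem_sdiff.mpr ⟨ha e, haU⟩, mem_sdiff.mpr ⟨hb e, hbU⟩⟩
  have cl2 : ∀ e ∈ M1, (a e ∈ U ∨ b e ∈ U) → e ∈ M2 := by
    intro e he hne
    by_cases hcut : e ∈ cut a b U
    · have : e = e0 := Finset.card_le_one.mp hc1.le e (mem_inter.mpr ⟨he, hcut⟩) e0
        (mem_inter.mpr ⟨he1, he0⟩)
      rw [this]; exact he2
    · exfalso
      have hnl := h1.nl e he
      apply hnl
      rw [mem_cut, not_not] at hcut
      rw [con_eq hu0]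
      left
      rcases hne with h | h
      · exact ⟨h, hcut.mp h⟩
      · exact ⟨hcut.mpr h, h⟩
  refine ⟨cl1, cl2, ?_, ?_⟩
  · intro e he heq
    rcases mem_union.mp he with h | h
    · exact h1.nl e h (by simp only [heq])
    · exact h2.nl e h (by simp only [heq])
  · intro v hv
    by_cases hvU : v ∈ U
    · have hcard := h2.one v (mem_insert_of_mem hvU)
      rw [cut1_out hw0 (by simp [hvU])] at hcard
      rw [← hcard]
      congr 1
      ext e
      simp only [mem_inter, mem_union]
      constructor
      · rintro ⟨h | h, hc⟩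
        · refine ⟨cl2 e h ?_, hc⟩
          rw [mem_cut] at hc
          simp only [mem_singleton] at hc
          by_contra hcon
          apply hc
          rw [not_or] at hcon
          constructor
          · rintro h'; exact absurd (h' ▸ hvU) hcon.1
          · rintro h'; exact absurd (h' ▸ hvU) hcon.2
        · exact ⟨h, hc⟩
      · rintro ⟨h, hc⟩
        exact ⟨Or.inr h, hc⟩
    · have hcard := h1.one v (mem_insert_of_mem (mem_sdiff.mpr ⟨hv, hvU⟩))
      rw [cut1_out hu0 hvU] at hcard
      rw [← hcard]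
      congr 1
      ext e
      simp only [mem_inter, mem_union]
      constructor
      · rintro ⟨h | h, hc⟩
        · exact ⟨h, hc⟩
        · refine ⟨cl1 e h ?_, hc⟩
          rw [mem_cut] at hc
          simp only [mem_singleton] at hc
          rintro ⟨hcon1, hcon2⟩
          apply hc
          constructor
          · rintro h'; exact absurd (h' ▸ hcon1) hvU
          · rintro h'; exact absurd (h' ▸ hcon2) hvU
      · rintro ⟨h, hc⟩
        exact ⟨Or.inl h, hc⟩

/-- gluing -/
theorem glue {A U : Finset V} (hU : U ⊆ A) {u0 w0 : V} (hu0 : u0 ∈ U) (hw0 : w0 ∈ A \ U)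
    {a b : E → V} (ha : ∀ e, a e ∈ A) (hb : ∀ e, b e ∈ A) {x x1 x2 : E → ℝ}
    (h1 : x1 ∈ PP (insert u0 (A \ U)) (fun e => con U u0 (a e)) (fun e => con U u0 (b e)))
    (h2 : x2 ∈ PP (insert w0 U) (fun e => con (A \ U) w0 (a e)) (fun e => con (A \ U) w0 (b e)))
    (e1 : ∀ e, ¬ (a e ∈ U ∧ b e ∈ U) → x e = x1 e)
    (e2 : ∀ e, (a e ∈ U ∨ b e ∈ U) → x e = x2 e) : x ∈ PP A a b := by
  classical
  obtain ⟨p1, p10, p11, p1M, hp1⟩ := exists_law h1
  obtain ⟨p2, p20, p21, p2M, hp2⟩ := exists_law h2
  set D := cut a b U with hD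
  have hDx1 : ∀ e ∈ D, x e = x1 e := by
    intro e he
    refine e1 e fun h => ?_
    rw [hD, mem_cut] at he
    exact he ⟨fun _ => h.2, fun _ => h.1⟩
  have hDx2 : ∀ e ∈ D, x e = x2 e := by
    intro e he
    refine e2 e ?_
    rw [hD, mem_cut] at he
    by_contra h
    rw [not_or] at h
    exact he ⟨fun h' => absurd h' h.1, fun h' => absurd h' h.2⟩
  have hx10 : ∀ e, 0 ≤ x1 e := (PP_sub_Q h1).nonneg
  let w : Finset E → Finset E → ℝ := fun M1 M2 =>
    ∑ e ∈ D, if e ∈ M1 ∧ e ∈ M2 then p1 M1 * p2 M2 / x e else 0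
  have hw0' : ∀ M1 M2, 0 ≤ w M1 M2 := by
    intro M1 M2
    refine Finset.sum_nonneg fun e he => ?_
    split_ifs
    · rw [hDx1 e he]
      exact div_nonneg (mul_nonneg (p10 _) (p20 _)) (hx10 e)
    · exact le_rfl
  have hone1 : ∀ M1, p1 M1 ≠ 0 → (M1 ∩ D).card = 1 := by
    intro M1 h
    have := (p1M M1 h).one u0 (mem_insert_self _ _)
    rwa [cut1_u0 hu0] at this
  have hone2 : ∀ M2, p2 M2 ≠ 0 → (M2 ∩ D).card = 1 := by
    intro M2 h
    have := (p2M M2 h).one w0 (mem_insert_self _ _)
    rwa [cut1_u0 hw0, cut_compl ha hb] at this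
  have key1 : ∀ M1, ∑ M2, w M1 M2 = p1 M1 := by
    intro M1
    have s1 : ∑ M2, w M1 M2 = ∑ e ∈ D, if e ∈ M1 then p1 M1 * (x e / x e) else 0 := by
      simp only [w]
      rw [Finset.sum_comm]
      refine Finset.sum_congr rfl fun e he => ?_
      split_ifs with hM
      · simp only [hM, true_and]
        have : ∀ M2 : Finset E, (if e ∈ M2 then p1 M1 * p2 M2 / x e else 0)
            = p1 M1 / x e * (p2 M2 * ind M2 e) := by
          intro M2
          unfold ind
          split_ifs <;> ring
        rw [Finset.sum_congr rfl (fun M2 _ => this M2), ← Finset.mul_sum, ← hp2 e, ← hDx2 e he]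
        ring
      · simp [hM]
    rw [s1]
    by_cases hz : p1 M1 = 0
    · simp [hz]
    · have hc := hone1 M1 hz
      have s2 : ∀ e ∈ D, (if e ∈ M1 then p1 M1 * (x e / x e) else 0)
          = if e ∈ M1 then p1 M1 else 0 := by
        intro e he
        split_ifs with hM
        · have : 0 < x e := by
            rw [hDx1 e he, hp1 e]
            refine lt_of_lt_of_le (lt_of_le_of_ne (p10 M1) (Ne.symm hz)) ?_
            have h3 : p1 M1 = p1 M1 * ind M1 e := by unfold ind; simp [hM]
            rw [h3]
            refine Finset.single_le_sum (f := fun M => p1 M * ind M e) (fun M _ => ?_) (mem_univ M1)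
            refine mul_nonneg (p10 M) ?_
            unfold ind; split_ifs <;> norm_num
          rw [div_self this.ne', mul_one]
        · rfl
      rw [Finset.sum_congr rfl s2, Finset.sum_ite_mem, Finset.inter_comm, Finset.sum_const, hc]
      simp
  have key2 : ∀ M2, ∑ M1, w M1 M2 = p2 M2 := by
    intro M2
    have s1 : ∑ M1, w M1 M2 = ∑ e ∈ D, if e ∈ M2 then p2 M2 * (x e / x e) else 0 := by
      simp only [w]
      rw [Finset.sum_comm]
      refine Finset.sum_congr rfl fun e he => ?_
      split_ifs with hM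
      · simp only [hM, and_true]
        have : ∀ M1 : Finset E, (if e ∈ M1 then p1 M1 * p2 M2 / x e else 0)
            = p2 M2 / x e * (p1 M1 * ind M1 e) := by
          intro M1
          unfold ind
          split_ifs <;> ring
        rw [Finset.sum_congr rfl (fun M1 _ => this M1), ← Finset.mul_sum, ← hp1 e, ← hDx1 e he]
        ring
      · simp [hM]
    rw [s1]
    by_cases hz : p2 M2 = 0
    · simp [hz]
    · have hc := hone2 M2 hz
      have s2 : ∀ e ∈ D, (if e ∈ M2 then p2 M2 * (x e / x e) else 0)
          = if e ∈ M2 then p2 M2 else 0 := by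
        intro e he
        split_ifs with hM
        · have : 0 < x e := by
            rw [hDx2 e he, hp2 e]
            refine lt_of_lt_of_le (lt_of_le_of_ne (p20 M2) (Ne.symm hz)) ?_
            have h3 : p2 M2 = p2 M2 * ind M2 e := by unfold ind; simp [hM]
            rw [h3]
            refine Finset.single_le_sum (f := fun M => p2 M * ind M e) (fun M _ => ?_) (mem_univ M2)
            refine mul_nonneg (p20 M) ?_
            unfold ind; split_ifs <;> norm_num
          rw [div_self this.ne', mul_one]
        · rfl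
      rw [Finset.sum_congr rfl s2, Finset.sum_ite_mem, Finset.inter_comm, Finset.sum_const, hc]
      simp
  have key3 : ∀ M1 M2, w M1 M2 ≠ 0 →
      (∀ e ∈ M2, ¬ (a e ∈ U ∧ b e ∈ U) → e ∈ M1) ∧ (∀ e ∈ M1, (a e ∈ U ∨ b e ∈ U) → e ∈ M2) ∧
      IsPM A a b (M1 ∪ M2) := by
    intro M1 M2 hw
    obtain ⟨e, heD, he⟩ := Finset.exists_ne_zero_of_sum_ne_zero hw
    have hmem : e ∈ M1 ∧ e ∈ M2 := by
      by_contra h
      simp [h] at he
    rw [if_pos hmem] at he
    have hq1 : p1 M1 ≠ 0 := by
      intro h; simp [h] at he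
    have hq2 : p2 M2 ≠ 0 := by
      intro h; simp [h] at he
    exact union_pm hU hu0 hw0 ha hb (p1M M1 hq1) (p2M M2 hq2) heD hmem.1 hmem.2
  have hind1 : ∀ e, ∑ M1, ∑ M2, w M1 M2 * ind M1 e = x1 e := by
    intro e
    rw [hp1 e]
    refine Finset.sum_congr rfl fun M1 _ => ?_
    rw [← Finset.sum_mul, key1]
  have hind2 : ∀ e, ∑ M1, ∑ M2, w M1 M2 * ind M2 e = x2 e := by
    intro e
    rw [hp2 e, Finset.sum_comm]
    refine Finset.sum_congr rfl fun M2 _ => ?_
    rw [← Finset.sum_mul, key2]
  have hx : x = ∑ M1, ∑ M2, w M1 M2 • ind (M1 ∪ M2) := by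
    funext e
    rw [Finset.sum_apply]
    simp only [Finset.sum_apply, Pi.smul_apply, smul_eq_mul]
    by_cases hUU : a e ∈ U ∧ b e ∈ U
    · rw [e2 e (Or.inl hUU.1), ← hind2 e]
      refine Finset.sum_congr rfl fun M1 _ => Finset.sum_congr rfl fun M2 _ => ?_
      by_cases hw : w M1 M2 = 0
      · simp [hw]
      · obtain ⟨c1, c2, c3⟩ := key3 M1 M2 hw
        congr 1
        unfold ind
        congr 1
        simp only [mem_union, eq_iff_iff]
        exact ⟨fun h => Or.inr h, fun h => h.elim (fun h' => c2 e h' (Or.inl hUU.1)) id⟩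
    · rw [e1 e hUU, ← hind1 e]
      refine Finset.sum_congr rfl fun M1 _ => Finset.sum_congr rfl fun M2 _ => ?_
      by_cases hw : w M1 M2 = 0
      · simp [hw]
      · obtain ⟨c1, c2, c3⟩ := key3 M1 M2 hw
        congr 1
        unfold ind
        congr 1
        simp only [mem_union, eq_iff_iff]
        exact ⟨fun h => Or.inl h, fun h => h.elim id (fun h' => c1 e h' hUU)⟩
  -- convex combination
  have hx' : x = ∑ P ∈ (univ : Finset (Finset E × Finset E)).filter (fun P => w P.1 P.2 ≠ 0),
      w P.1 P.2 • ind (P.1 ∪ P.2) := by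
    rw [hx, Finset.sum_filter_of_ne, ← Finset.univ_product_univ, Finset.sum_product]
    intro P _ hP h
    apply hP
    rw [h, zero_smul]
  have hsum1 : ∑ P ∈ (univ : Finset (Finset E × Finset E)).filter (fun P => w P.1 P.2 ≠ 0),
      w P.1 P.2 = 1 := by
    rw [Finset.sum_filter_of_ne (fun P _ hP => hP), ← Finset.univ_product_univ,
      Finset.sum_product, ← p11]
    exact Finset.sum_congr rfl fun M1 _ => key1 M1
  rw [hx']
  refine (convex_convexHull ℝ _).sum_mem (fun P _ => hw0' _ _) hsum1 fun P hP => ?_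
  refine subset_convexHull ℝ _ ⟨P.1 ∪ P.2, ?_, rfl⟩
  exact (key3 _ _ (Finset.mem_filter.mp hP).2).2.2

/-- restriction to the contracted graph -/
noncomputable def res (U : Finset V) (a b : E → V) (x : E → ℝ) : E → ℝ :=
  fun e => if a e ∈ U ∧ b e ∈ U then 0 else x e

/-- contraction preserves `Q` -/
theorem con_Q {A U : Finset V} (hU : U ⊆ A) {u0 : V} (hu0 : u0 ∈ U)
    {a b : E → V} (ha : ∀ e, a e ∈ A) (hb : ∀ e, b e ∈ A) {x : E → ℝ} (hx : InQ A a b x)
    (hodd : Odd U.card) (ht : ∑ e ∈ cut a b U, x e = 1) :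
    InQ (insert u0 (A \ U)) (fun e => con U u0 (a e)) (fun e => con U u0 (b e)) (res U a b x) := by
  refine ⟨fun e => ?_, fun e he => ?_, fun v hv => ?_, fun S hS ho => ?_⟩
  · unfold res; split_ifs
    · exact le_rfl
    · exact hx.nonneg e
  · unfold res
    rcases (con_eq hu0).mp he with h | h
    · rw [if_pos h]
    · split_ifs
      · rfl
      · exact hx.loop e h
  · rcases mem_insert.mp hv with rfl | hv'
    · rw [cut1_u0 hu0, ← ht]
      refine Finset.sum_congr rfl fun e he => ?_
      rw [mem_cut] at he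
      unfold res
      rw [if_neg]
      exact fun h => he ⟨fun _ => h.2, fun _ => h.1⟩
    · obtain ⟨hvA, hvU⟩ := mem_sdiff.mp hv'
      rw [cut1_out hu0 hvU, ← hx.deg v hvA]
      refine Finset.sum_congr rfl fun e he => ?_
      rw [mem_cut] at he
      simp only [mem_singleton] at he
      unfold res
      rw [if_neg]
      rintro ⟨h1, h2⟩
      apply he
      constructor
      · rintro h'; exact absurd (h' ▸ h1) hvU
      · rintro h'; exact absurd (h' ▸ h2) hvU
  · have hsum : ∑ e ∈ cut (fun e => con U u0 (a e)) (fun e => con U u0 (b e)) S, res U a b x e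
        = ∑ e ∈ cut (fun e => con U u0 (a e)) (fun e => con U u0 (b e)) S, x e := by
      refine Finset.sum_congr rfl fun e he => ?_
      rw [mem_cut] at he
      unfold res
      rw [if_neg]
      intro h
      apply he
      rw [show con U u0 (a e) = con U u0 (b e) from (con_eq hu0).mpr (Or.inl h)]
    rw [hsum, cut1_gen ha hb]
    refine hx.odd _ (filter_subset _ _) ?_
    by_cases hu : u0 ∈ S
    · have hlift : (A.filter fun v => con U u0 v ∈ S) = (S.erase u0) ∪ U := by
        ext v
        simp only [mem_filter, mem_union, mem_erase]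
        constructor
        · rintro ⟨hvA, hv⟩
          by_cases hvU : v ∈ U
          · exact Or.inr hvU
          · left
            unfold con at hv
            rw [if_neg hvU] at hv
            exact ⟨fun h => hvU (h ▸ hu0), hv⟩
        · rintro (⟨hne, hv⟩ | hv)
          · have hvA : v ∈ A \ U := by
              rcases mem_insert.mp (hS hv) with h | h
              · exact absurd h hne
              · exact h
            refine ⟨(mem_sdiff.mp hvA).1, ?_⟩
            unfold con
            rw [if_neg (mem_sdiff.mp hvA).2]; exact hv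
          · refine ⟨hU hv, ?_⟩
            unfold con
            rw [if_pos hv]; exact hu
      have hdisj : Disjoint (S.erase u0) U := by
        rw [Finset.disjoint_left]
        intro v hv hvU
        rcases mem_insert.mp (hS (mem_of_mem_erase hv)) with h | h
        · exact (ne_of_mem_erase hv) h
        · exact (mem_sdiff.mp h).2 hvU
      rw [hlift, Finset.card_union_of_disjoint hdisj, Finset.card_erase_of_mem hu]
      obtain ⟨k, hk⟩ := ho
      obtain ⟨l, hl⟩ := hodd
      exact ⟨k + l, by omega⟩
    · have hlift : (A.filter fun v => con U u0 v ∈ S) = S := by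
        ext v
        simp only [mem_filter]
        constructor
        · rintro ⟨hvA, hv⟩
          unfold con at hv
          split_ifs at hv with hvU
          · exact absurd hv hu
          · exact hv
        · intro hv
          have hvA : v ∈ A \ U := by
            rcases mem_insert.mp (hS hv) with h | h
            · exact absurd (h ▸ hv) hu
            · exact h
          refine ⟨(mem_sdiff.mp hvA).1, ?_⟩
          unfold con
          rw [if_neg (mem_sdiff.mp hvA).2]; exact hv
      rw [hlift]; exact ho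

theorem even_card_of_Q {A : Finset V} {a b : E → V} (ha : ∀ e, a e ∈ A) (hb : ∀ e, b e ∈ A)
    {x : E → ℝ} (hx : InQ A a b x) : Even A.card := by
  rcases Nat.even_or_odd A.card with h | h
  · exact h
  · exfalso
    have h1 := hx.odd A (Finset.Subset.refl _) h
    have h2 : cut a b A = ∅ := by
      ext e
      rw [mem_cut]
      simp [ha e, hb e]
    rw [h2] at h1
    simp at h1
    linarith

theorem closed_PP (A : Finset V) (a b : E → V) : IsClosed (PP A a b) :=
  (Set.Finite.image _ (Set.toFinite _)).isClosed_convexHull ℝ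

/-- **Edmonds' perfect matching polytope theorem** -/
theorem edmonds : ∀ (n : ℕ) (A : Finset V) (a b : E → V), A.card = n → (∀ e, a e ∈ A) →
    (∀ e, b e ∈ A) → ∀ x : E → ℝ, InQ A a b x → x ∈ PP A a b := by
  intro n
  induction n using Nat.strong_induction_on with
  | _ n IH =>
  intro A a b hn ha hb x hx
  have hev := even_card_of_Q ha hb hx
  suffices h : {x : E → ℝ | InQ A a b x}.extremePoints ℝ ⊆ PP A a b by
    have h1 := closure_convexHull_extremePoints (compact_Q A a b ha) (convex_Q A a b)
    have h2 : x ∈ closure (convexHull ℝ ({x : E → ℝ | InQ A a b x}.extremePoints ℝ)) := by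
      rw [h1]; exact hx
    have h3 : closure (convexHull ℝ ({x : E → ℝ | InQ A a b x}.extremePoints ℝ)) ⊆ PP A a b :=
      closure_minimal (convexHull_min h (convex_convexHull ℝ _)) (closed_PP A a b)
    exact h3 h2
  clear hx x
  intro x hxe
  obtain ⟨hx, hext⟩ := mem_extremePoints_iff_left.mp hxe
  replace hx : InQ A a b x := hx
  by_cases hT : ∃ U, Tight A a b x U
  · obtain ⟨U, hUA, hodd, hU1, hU2, ht⟩ := hT
    obtain ⟨u0, hu0⟩ := Finset.card_pos.mp (lt_trans Nat.zero_lt_one hU1)
    obtain ⟨w0, hw0⟩ := Finset.card_pos.mp (lt_trans Nat.zero_lt_one hU2)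
    have hcard : (A \ U).card + U.card = A.card := Finset.card_sdiff_add_card_eq_card hUA
    have hq1 := con_Q hUA hu0 ha hb hx hodd ht
    have hodd2 : Odd (A \ U).card := by
      rcases Nat.even_or_odd (A \ U).card with h | h
      · exfalso
        rw [← hcard] at hev
        exact (Nat.not_odd_iff_even.mpr hev) (h.add_odd hodd)
      · exact h
    have hq2 := con_Q (sdiff_subset : A \ U ⊆ A) hw0 ha hb hx hodd2
      (by rw [cut_compl ha hb]; exact ht)
    rw [Finset.sdiff_sdiff_eq_self hUA] at hq2
    have hc1 : (insert u0 (A \ U)).card = (A \ U).card + 1 :=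
      Finset.card_insert_of_notMem (fun h => (mem_sdiff.mp h).2 hu0)
    have hc2 : (insert w0 U).card = U.card + 1 :=
      Finset.card_insert_of_notMem (fun h => (mem_sdiff.mp hw0).2 h)
    have hp1 := IH _ (by omega) (insert u0 (A \ U)) _ _ hc1 (fun e => con_mem (ha e))
      (fun e => con_mem (hb e)) _ hq1
    have hp2 := IH _ (by omega) (insert w0 U) _ _ hc2
      (fun e => by
        have := con_mem (U := A \ U) (u0 := w0) (ha e)
        rwa [Finset.sdiff_sdiff_eq_self hUA] at this)
      (fun e => by
        have := con_mem (U := A \ U) (u0 := w0) (hb e)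
        rwa [Finset.sdiff_sdiff_eq_self hUA] at this) _ hq2
    refine glue hUA hu0 hw0 ha hb hp1 hp2 (fun e he => ?_) (fun e he => ?_)
    · unfold res; rw [if_neg he]
    · unfold res; rw [if_neg]
      rintro ⟨h1, h2⟩
      rcases he with h | h
      · exact (mem_sdiff.mp h1).2 h
      · exact (mem_sdiff.mp h2).2 h
  · obtain ⟨M, hM, hMx⟩ := exists_pm ha hb hx
    have hMQ := ind_mem_Q hM
    obtain ⟨ε, hε, hmove⟩ := small_move (h := x - ind M) ha hb hev hx (fun U hU => hT ⟨U, hU⟩)
      (fun e he => by
        have : e ∉ M := fun h => by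
          have := hMx e h
          linarith
        simp [ind, this, he])
      (fun v hv => by
        simp only [Pi.sub_apply, Finset.sum_sub_distrib]
        rw [hx.deg v hv, hMQ.deg v hv]; ring)
    have hp := hmove (ε / 2) (by rw [abs_of_pos (by linarith)]; linarith)
    have hm := hmove (-(ε / 2)) (by rw [abs_neg, abs_of_pos (by linarith)]; linarith)
    have hseg : x ∈ openSegment ℝ (x + (ε / 2) • (x - ind M)) (x + (-(ε / 2)) • (x - ind M)) := by
      refine ⟨1 / 2, 1 / 2, by norm_num, by norm_num, by norm_num, ?_⟩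
      funext e
      simp only [Pi.add_apply, Pi.smul_apply, Pi.sub_apply, smul_eq_mul]
      ring
    have heq := hext _ hp _ hm hseg
    have hxM : x = ind M := by
      funext e
      have := congrFun heq e
      simp only [Pi.add_apply, Pi.smul_apply, Pi.sub_apply, smul_eq_mul] at this
      have h2 : (ε / 2) * (x e - ind M e) = 0 := by linarith
      rcases mul_eq_zero.mp h2 with h3 | h3
      · linarith
      · linarith
    rw [hxM]
    exact subset_convexHull ℝ _ ⟨M, hM, rfl⟩

end Crest.Agent.R304.Poly484
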