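/-
R304 / S0466, part D (helper484): the face dimension bound `|supp x| - dim ≤ 3m - 2`.
-/
import Crest.Agent.R304.Poly484C

set_option autoImplicit false
set_option linter.unusedSectionVars false

open Finset

namespace Crest.Agent.R304.Poly484

variable {V E : Type} [DecidableEq V] [Fintype E] [DecidableEq E]

/-- the space of two-sided feasible directions -/
def dirSub (A : Finset V) (a b : E → V) (x : E → ℝ) (hx : x ∈ PP A a b) :
    Submodule ℝ (E → ℝ) where
  carrier := {h | ∃ ε : ℝ, 0 < ε ∧ ∀ t : ℝ, |t| < ε → x + t • h ∈ PP A a b}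
  zero_mem' := ⟨1, one_pos, fun t _ => by simpa using hx⟩
  add_mem' := by
    rintro h1 h2 ⟨ε1, hε1, H1⟩ ⟨ε2, hε2, H2⟩
    refine ⟨min ε1 ε2 / 2, by positivity, fun t ht => ?_⟩
    have e1 : |2 * t| < ε1 := by
      rw [abs_mul, abs_two]
      have := min_le_left ε1 ε2
      linarith
    have e2 : |2 * t| < ε2 := by
      rw [abs_mul, abs_two]
      have := min_le_right ε1 ε2
      linarith
    have h3 := (convex_convexHull ℝ _) (H1 _ e1) (H2 _ e2) (a := 1 / 2) (b := 1 / 2)
      (by norm_num) (by norm_num) (by norm_num)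
    have h4 : x + t • (h1 + h2)
        = (1 / 2 : ℝ) • (x + (2 * t) • h1) + (1 / 2 : ℝ) • (x + (2 * t) • h2) := by
      funext e
      simp only [Pi.add_apply, Pi.smul_apply, smul_eq_mul]
      ring
    rw [h4]
    exact h3
  smul_mem' := by
    rintro c h ⟨ε, hε, H⟩
    refine ⟨ε / (|c| + 1), by positivity, fun t ht => ?_⟩
    rw [smul_smul]
    refine H _ ?_
    rw [abs_mul]
    have hc : 0 < |c| + 1 := by positivity
    rw [lt_div_iff₀ hc] at ht
    nlinarith [abs_nonneg t, abs_nonneg c]

theorem mem_dirSub {A : Finset V} {a b : E → V} {x : E → ℝ} {hx : x ∈ PP A a b} {h : E → ℝ} :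
    h ∈ dirSub A a b x hx ↔ ∃ ε : ℝ, 0 < ε ∧ ∀ t : ℝ, |t| < ε → x + t • h ∈ PP A a b := Iff.rfl

theorem dir_supp {A : Finset V} {a b : E → V} {x : E → ℝ} {hx : x ∈ PP A a b} {h : E → ℝ}
    (hh : h ∈ dirSub A a b x hx) {e : E} (he : x e = 0) : h e = 0 := by
  obtain ⟨ε, hε, H⟩ := hh
  have h1 := (PP_sub_Q (H (ε / 2) (by rw [abs_of_pos (by linarith)]; linarith))).nonneg e
  have h2 := (PP_sub_Q (H (-(ε / 2)) (by rw [abs_neg, abs_of_pos (by linarith)]; linarith))).nonneg e
  simp only [Pi.add_apply, Pi.smul_apply, smul_eq_mul, he] at h1 h2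
  have h3 : ε / 2 * h e = 0 := by linarith
  rcases mul_eq_zero.mp h3 with h4 | h4
  · linarith
  · exact h4

theorem dir_deg {A : Finset V} {a b : E → V} {x : E → ℝ} {hx : x ∈ PP A a b} {h : E → ℝ}
    (hh : h ∈ dirSub A a b x hx) {v : V} (hv : v ∈ A) : ∑ e ∈ cut a b {v}, h e = 0 := by
  obtain ⟨ε, hε, H⟩ := hh
  have h1 := (PP_sub_Q (H (ε / 2) (by rw [abs_of_pos (by linarith)]; linarith))).deg v hv
  have h0 := (PP_sub_Q hx).deg v hv
  simp only [Pi.add_apply, Pi.smul_apply, smul_eq_mul, Finset.sum_add_distrib,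
    ← Finset.mul_sum] at h1
  rw [h0] at h1
  have h3 : ε / 2 * ∑ e ∈ cut a b {v}, h e = 0 := by linarith
  rcases mul_eq_zero.mp h3 with h4 | h4
  · linarith
  · exact h4

/-- support -/
noncomputable def supp (x : E → ℝ) : Finset E := by
  classical exact univ.filter fun e => x e ≠ 0

omit [DecidableEq E] in
theorem mem_supp {x : E → ℝ} {e : E} : e ∈ supp x ↔ x e ≠ 0 := by
  classical
  simp [supp]

theorem ker_bound {X Y : Type} [AddCommGroup X] [Module ℝ X] [FiniteDimensional ℝ X]
    [AddCommGroup Y] [Module ℝ Y] [FiniteDimensional ℝ Y] (L : X →ₗ[ℝ] Y) :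
    Module.finrank ℝ X ≤ Module.finrank ℝ (LinearMap.ker L) + Module.finrank ℝ Y := by
  have h1 := LinearMap.finrank_range_add_finrank_ker L
  have h2 := Submodule.finrank_le (LinearMap.range L)
  omega

/-- if a subspace maps injectively into `W` its dimension is at most that of `W` -/
theorem finrank_le_of_map {X Z : Type} [AddCommGroup X] [Module ℝ X]
    [AddCommGroup Z] [Module ℝ Z] [FiniteDimensional ℝ Z] (K : Submodule ℝ X) (W : Submodule ℝ Z)
    (f : X →ₗ[ℝ] Z) (hmap : ∀ k ∈ K, f k ∈ W) (hinj : ∀ k ∈ K, f k = 0 → k = 0) :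
    Module.finrank ℝ K ≤ Module.finrank ℝ W := by
  refine LinearMap.finrank_le_finrank_of_injective
    (f := (f.domRestrict K).codRestrict W (fun k => hmap k.1 k.2)) ?_
  rw [← LinearMap.ker_eq_bot, LinearMap.ker_eq_bot']
  intro k hk
  have : f k.1 = 0 := congrArg Subtype.val hk
  exact Subtype.ext (hinj k.1 k.2 this)

/-- extension by zero -/
noncomputable def ext0 (T : Finset E) : ({e // e ∈ T} → ℝ) →ₗ[ℝ] (E → ℝ) where
  toFun h := fun e => if he : e ∈ T then h ⟨e, he⟩ else 0
  map_add' h k := by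
    funext e
    by_cases he : e ∈ T <;> simp [he]
  map_smul' c h := by
    funext e
    by_cases he : e ∈ T <;> simp [he]

theorem ext0_apply (T : Finset E) (h : {e // e ∈ T} → ℝ) (e : E) :
    ext0 T h e = if he : e ∈ T then h ⟨e, he⟩ else 0 := rfl

theorem ext0_inj (T : Finset E) (h : {e // e ∈ T} → ℝ) (hh : ext0 T h = 0) : h = 0 := by
  funext e
  have := congrFun hh e.1
  rw [ext0_apply, dif_pos e.2] at this
  exact this

/-- base case of the dimension bound -/
theorem dim_base {A : Finset V} {a b : E → V} (ha : ∀ e, a e ∈ A) (hb : ∀ e, b e ∈ A)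
    {x : E → ℝ} (hx : x ∈ PP A a b) (hno : ∀ U, ¬ Tight A a b x U) {m : ℕ} (hm : 1 ≤ m)
    (hA : A.card = 2 * m) :
    (supp x).card + 2 ≤ Module.finrank ℝ (dirSub A a b x hx) + 3 * m := by
  have hQ := PP_sub_Q hx
  have hev := even_card_of_Q ha hb hQ
  have hmem : ∀ h : E → ℝ, (∀ e, x e = 0 → h e = 0) → (∀ v ∈ A, ∑ e ∈ cut a b {v}, h e = 0) →
      h ∈ dirSub A a b x hx := by
    intro h h1 h2
    obtain ⟨ε, hε, H⟩ := small_move ha hb hev hQ hno h1 h2
    exact ⟨ε, hε, fun t ht => edmonds _ A a b rfl ha hb _ (H t ht)⟩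
  have hext : ∀ (h : {e // e ∈ supp x} → ℝ) (e : E), x e = 0 → ext0 (supp x) h e = 0 := by
    intro h e he
    rw [ext0_apply, dif_neg]
    rw [mem_supp]; exact fun h => h he
  by_cases hm1 : m = 1
  · subst hm1
    -- one star constraint suffices
    obtain ⟨v, w, hvw, hAvw⟩ := Finset.card_eq_two.mp hA
    let L : ({e // e ∈ supp x} → ℝ) →ₗ[ℝ] ℝ :=
      { toFun := fun h => ∑ e ∈ cut a b {v}, ext0 (supp x) h e
        map_add' := fun h k => by
          simp only [map_add, Pi.add_apply, Finset.sum_add_distrib]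
        map_smul' := fun c h => by
          simp only [map_smul, Pi.smul_apply, smul_eq_mul, Finset.mul_sum, RingHom.id_apply] }
    have h1 := ker_bound L
    rw [Module.finrank_fintype_fun_eq_card, Module.finrank_self, Fintype.card_coe] at h1
    have h2 : Module.finrank ℝ (LinearMap.ker L) ≤ Module.finrank ℝ (dirSub A a b x hx) := by
      refine finrank_le_of_map _ _ (ext0 (supp x)) (fun h hh => ?_) (fun h _ h0 => ext0_inj _ h h0)
      refine hmem _ (hext h) fun u hu => ?_
      have hv0 : ∑ e ∈ cut a b {v}, ext0 (supp x) h e = 0 := hh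
      have hcut : cut a b {w} = cut a b {v} := by
        have : ({w} : Finset V) = A \ {v} := by
          rw [hAvw]
          ext z
          simp only [mem_singleton, mem_sdiff, mem_insert]
          constructor
          · rintro rfl; exact ⟨Or.inr rfl, fun h => hvw h.symm⟩
          · rintro ⟨h | h, h'⟩
            · exact absurd h h'
            · exact h
        rw [this, cut_compl ha hb]
      rw [hAvw] at hu
      rcases mem_insert.mp hu with rfl | hu
      · exact hv0
      · rw [mem_singleton] at hu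
        rw [hu, hcut]; exact hv0
    omega
  · let L : ({e // e ∈ supp x} → ℝ) →ₗ[ℝ] ({v // v ∈ A} → ℝ) :=
      { toFun := fun h v => ∑ e ∈ cut a b {v.1}, ext0 (supp x) h e
        map_add' := fun h k => by
          funext v
          simp only [map_add, Pi.add_apply, Finset.sum_add_distrib]
        map_smul' := fun c h => by
          funext v
          simp only [map_smul, Pi.smul_apply, smul_eq_mul, Finset.mul_sum, RingHom.id_apply] }
    have h1 := ker_bound L
    rw [Module.finrank_fintype_fun_eq_card, Module.finrank_fintype_fun_eq_card,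
      Fintype.card_coe, Fintype.card_coe, hA] at h1
    have h2 : Module.finrank ℝ (LinearMap.ker L) ≤ Module.finrank ℝ (dirSub A a b x hx) := by
      refine finrank_le_of_map _ _ (ext0 (supp x)) (fun h hh => ?_) (fun h _ h0 => ext0_inj _ h h0)
      refine hmem _ (hext h) fun u hu => ?_
      exact congrFun hh ⟨u, hu⟩
    omega

theorem res_supp (U : Finset V) (a b : E → V) (x : E → ℝ) :
    (supp (res U a b x)) = (supp x).filter fun e => ¬ (a e ∈ U ∧ b e ∈ U) := by
  ext e
  rw [mem_filter, mem_supp, mem_supp]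
  unfold res
  by_cases h : a e ∈ U ∧ b e ∈ U <;> simp [h]

/-- **the dimension bound** -/
theorem dim_bound : ∀ (m : ℕ) (A : Finset V) (a b : E → V), 1 ≤ m → A.card = 2 * m →
    (∀ e, a e ∈ A) → (∀ e, b e ∈ A) → ∀ (x : E → ℝ) (hx : x ∈ PP A a b),
    (supp x).card + 2 ≤ Module.finrank ℝ (dirSub A a b x hx) + 3 * m := by
  intro m
  induction m using Nat.strong_induction_on with
  | _ m IH =>
  intro A a b hm hA ha hb x hx
  by_cases hT : ∃ U, Tight A a b x U
  swap
  · exact dim_base ha hb hx (fun U hU => hT ⟨U, hU⟩) hm hA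
  have hQ := PP_sub_Q hx
  have hev := even_card_of_Q ha hb hQ
  obtain ⟨U, hUA, hodd, hU1, hU2, ht⟩ := hT
  obtain ⟨u0, hu0⟩ := Finset.card_pos.mp (lt_trans Nat.zero_lt_one hU1)
  obtain ⟨w0, hw0⟩ := Finset.card_pos.mp (lt_trans Nat.zero_lt_one hU2)
  have hcard : (A \ U).card + U.card = A.card := Finset.card_sdiff_add_card_eq_card hUA
  have hq1 := con_Q hUA hu0 ha hb hQ hodd ht
  have hodd2 : Odd (A \ U).card := by
    rcases Nat.even_or_odd (A \ U).card with h | h
    · exfalso
      rw [← hcard] at hev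
      exact (Nat.not_odd_iff_even.mpr hev) (h.add_odd hodd)
    · exact h
  have hq2 := con_Q (sdiff_subset : A \ U ⊆ A) hw0 ha hb hQ hodd2
    (by rw [cut_compl ha hb]; exact ht)
  rw [Finset.sdiff_sdiff_eq_self hUA] at hq2
  have hc1 : (insert u0 (A \ U)).card = (A \ U).card + 1 :=
    Finset.card_insert_of_notMem (fun h => (mem_sdiff.mp h).2 hu0)
  have hc2 : (insert w0 U).card = U.card + 1 :=
    Finset.card_insert_of_notMem (fun h => (mem_sdiff.mp hw0).2 h)
  have ha1 : ∀ e, con U u0 (a e) ∈ insert u0 (A \ U) := fun e => con_mem (ha e)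
  have hb1 : ∀ e, con U u0 (b e) ∈ insert u0 (A \ U) := fun e => con_mem (hb e)
  have ha2 : ∀ e, con (A \ U) w0 (a e) ∈ insert w0 U := fun e => by
    have := con_mem (U := A \ U) (u0 := w0) (ha e)
    rwa [Finset.sdiff_sdiff_eq_self hUA] at this
  have hb2 : ∀ e, con (A \ U) w0 (b e) ∈ insert w0 U := fun e => by
    have := con_mem (U := A \ U) (u0 := w0) (hb e)
    rwa [Finset.sdiff_sdiff_eq_self hUA] at this
  have hx1 := edmonds _ _ _ _ rfl ha1 hb1 _ hq1
  have hx2 := edmonds _ _ _ _ rfl ha2 hb2 _ hq2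
  obtain ⟨k1, hk1⟩ := hodd
  obtain ⟨k2, hk2⟩ := hodd2
  have hd1 := IH (k2 + 1) (by omega) _ _ _ (by omega) (by rw [hc1]; omega) ha1 hb1 _ hx1
  have hd2 := IH (k1 + 1) (by omega) _ _ _ (by omega) (by rw [hc2]; omega) ha2 hb2 _ hx2
  set x1 := res U a b x with hx1def
  set x2 := res (A \ U) a b x with hx2def
  set W1 := dirSub (insert u0 (A \ U)) (fun e => con U u0 (a e)) (fun e => con U u0 (b e)) x1 hx1
    with hW1
  set W2 := dirSub (insert w0 U) (fun e => con (A \ U) w0 (a e)) (fun e => con (A \ U) w0 (b e)) x2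
    hx2 with hW2
  -- the common support on the cut
  let TD : Finset E := (cut a b U).filter fun e => x e ≠ 0
  have hTDne : TD.Nonempty := by
    by_contra h
    rw [Finset.not_nonempty_iff_eq_empty, Finset.filter_eq_empty_iff] at h
    have : ∑ e ∈ cut a b U, x e = 0 := Finset.sum_eq_zero fun e he => by
      have := h he
      simpa using this
    rw [this] at ht
    norm_num at ht
  obtain ⟨es, hes⟩ := hTDne
  -- counting
  have hcount : (supp x1).card + (supp x2).card = (supp x).card + TD.card := by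
    rw [hx1def, hx2def, res_supp, res_supp]
    have e1 : TD = (supp x).filter (fun e => ¬ (a e ∈ U ∧ b e ∈ U) ∧
        ¬ (a e ∈ A \ U ∧ b e ∈ A \ U)) := by
      ext e
      simp only [TD, mem_filter, mem_cut, mem_supp, mem_sdiff, ha e, hb e, true_and]
      tauto
    have e2 : supp x = (supp x).filter (fun e => ¬ (a e ∈ U ∧ b e ∈ U)) ∪
        (supp x).filter (fun e => ¬ (a e ∈ A \ U ∧ b e ∈ A \ U)) := by
      ext e
      simp only [mem_union, mem_filter, mem_sdiff, ha e, hb e, true_and]
      tauto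
    have e3 : (supp x).card = ((supp x).filter (fun e => ¬ (a e ∈ U ∧ b e ∈ U)) ∪
        (supp x).filter (fun e => ¬ (a e ∈ A \ U ∧ b e ∈ A \ U))).card := congrArg Finset.card e2
    rw [e1, Finset.filter_and, e3, Finset.card_union_add_card_inter]
  -- linear algebra
  have hcutU1 : ∀ h ∈ W1, ∑ e ∈ cut a b U, h e = 0 := by
    intro h hh
    have := dir_deg hh (mem_insert_self u0 (A \ U))
    rwa [cut1_u0 hu0] at this
  have hcutU2 : ∀ h ∈ W2, ∑ e ∈ cut a b U, h e = 0 := by
    intro h hh
    have := dir_deg hh (mem_insert_self w0 U)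
    rwa [cut1_u0 hw0, cut_compl ha hb] at this
  have hx1D : ∀ e ∈ cut a b U, x1 e = x e := by
    intro e he
    rw [mem_cut] at he
    rw [hx1def]; unfold res
    rw [if_neg]
    exact fun h => he ⟨fun _ => h.2, fun _ => h.1⟩
  have hx2D : ∀ e ∈ cut a b U, x2 e = x e := by
    intro e he
    rw [mem_cut] at he
    rw [hx2def]; unfold res
    rw [if_neg]
    rintro ⟨h1, h2⟩
    exact he ⟨fun h => absurd h (mem_sdiff.mp h1).2, fun h => absurd h (mem_sdiff.mp h2).2⟩
  let L : (W1 × W2) →ₗ[ℝ] ({e // e ∈ TD.erase es} → ℝ) :=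
    { toFun := fun h e => h.1.1 e.1 - h.2.1 e.1
      map_add' := fun h k => by
        funext e
        simp only [Prod.fst_add, Prod.snd_add, Submodule.coe_add, Pi.add_apply]
        ring
      map_smul' := fun c h => by
        funext e
        simp only [Prod.smul_fst, Prod.smul_snd, Submodule.coe_smul, Pi.smul_apply, smul_eq_mul,
          RingHom.id_apply]
        ring }
  have hL := ker_bound L
  rw [Module.finrank_fintype_fun_eq_card, Fintype.card_coe, Finset.card_erase_of_mem hes,
    Module.finrank_prod] at hL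
  have hagree : ∀ h ∈ LinearMap.ker L, ∀ e ∈ cut a b U, h.1.1 e = h.2.1 e := by
    intro h hh
    have h1 : ∀ e ∈ cut a b U, e ≠ es → h.1.1 e = h.2.1 e := by
      intro e he hne
      by_cases hxe : x e = 0
      · rw [dir_supp h.1.2 (by rw [hx1D e he]; exact hxe),
          dir_supp h.2.2 (by rw [hx2D e he]; exact hxe)]
      · have hmemT : e ∈ TD.erase es := mem_erase.mpr ⟨hne, mem_filter.mpr ⟨he, hxe⟩⟩
        have := congrFun (hh : L h = 0) ⟨e, hmemT⟩
        have h' : h.1.1 e - h.2.1 e = 0 := this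
        linarith
    intro e he
    by_cases hne : e = es
    · subst hne
      have s1 := hcutU1 h.1.1 h.1.2
      have s2 := hcutU2 h.2.1 h.2.2
      rw [← Finset.add_sum_erase _ _ he] at s1 s2
      have s3 : ∑ e' ∈ (cut a b U).erase e, h.1.1 e' = ∑ e' ∈ (cut a b U).erase e, h.2.1 e' :=
        Finset.sum_congr rfl fun e' he' => h1 e' (mem_of_mem_erase he') (ne_of_mem_erase he')
      linarith
    · exact h1 e he hne
  let Φ : (W1 × W2) →ₗ[ℝ] (E → ℝ) :=
    { toFun := fun h e => if (a e ∈ U ∨ b e ∈ U) then h.2.1 e else h.1.1 e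
      map_add' := fun h k => by
        funext e
        simp only [Prod.fst_add, Prod.snd_add, Submodule.coe_add, Pi.add_apply]
        split_ifs <;> rfl
      map_smul' := fun c h => by
        funext e
        simp only [Prod.smul_fst, Prod.smul_snd, Submodule.coe_smul, Pi.smul_apply, smul_eq_mul,
          RingHom.id_apply]
        split_ifs <;> rfl }
  have hΦ : ∀ h e, Φ h e = if (a e ∈ U ∨ b e ∈ U) then h.2.1 e else h.1.1 e := fun _ _ => rfl
  have hfin : Module.finrank ℝ (LinearMap.ker L) ≤ Module.finrank ℝ (dirSub A a b x hx) := by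
    refine finrank_le_of_map _ _ Φ (fun h hh => ?_) (fun h hh h0 => ?_)
    · obtain ⟨ε1, hε1, H1⟩ := h.1.2
      obtain ⟨ε2, hε2, H2⟩ := h.2.2
      refine ⟨min ε1 ε2, by positivity, fun t ht' => ?_⟩
      refine glue hUA hu0 hw0 ha hb (H1 t (lt_of_lt_of_le ht' (min_le_left _ _)))
        (H2 t (lt_of_lt_of_le ht' (min_le_right _ _))) (fun e he => ?_) (fun e he => ?_)
      · simp only [Pi.add_apply, Pi.smul_apply, smul_eq_mul, hΦ]
        have e1 : x1 e = x e := by
          rw [hx1def]; unfold res; rw [if_neg he]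
        rw [e1]
        split_ifs with h1
        · rw [hagree h hh e]
          rw [mem_cut]
          intro h2
          apply he
          rcases h1 with h3 | h3
          · exact ⟨h3, h2.mp h3⟩
          · exact ⟨h2.mpr h3, h3⟩
        · rfl
      · simp only [Pi.add_apply, Pi.smul_apply, smul_eq_mul, hΦ]
        have e1 : x2 e = x e := by
          rw [hx2def]; unfold res; rw [if_neg]
          rintro ⟨h1, h2⟩
          rcases he with h3 | h3
          · exact (mem_sdiff.mp h1).2 h3
          · exact (mem_sdiff.mp h2).2 h3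
        rw [e1, if_pos he]
    · have h2 : h.2.1 = 0 := by
        funext e
        by_cases he : a e ∈ U ∨ b e ∈ U
        · have := congrFun h0 e
          rw [hΦ, if_pos he] at this
          exact this
        · refine dir_supp h.2.2 ?_
          rw [hx2def]; unfold res
          rw [if_pos]
          rw [not_or] at he
          exact ⟨mem_sdiff.mpr ⟨ha e, he.1⟩, mem_sdiff.mpr ⟨hb e, he.2⟩⟩
      have h1 : h.1.1 = 0 := by
        funext e
        by_cases he : a e ∈ U ∨ b e ∈ U
        · by_cases he' : a e ∈ U ∧ b e ∈ U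
          · refine dir_supp h.1.2 ?_
            rw [hx1def]; unfold res
            rw [if_pos he']
          · have hc : e ∈ cut a b U := by
              rw [mem_cut]
              intro h3
              apply he'
              rcases he with h4 | h4
              · exact ⟨h4, h3.mp h4⟩
              · exact ⟨h3.mpr h4, h4⟩
            rw [hagree h hh e hc, h2]
        · have := congrFun h0 e
          rw [hΦ, if_neg he] at this
          exact this
      exact Prod.ext (Subtype.ext h1) (Subtype.ext h2)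
  have hTDpos : 0 < TD.card := Finset.card_pos.mpr ⟨es, hes⟩
  have hd1' : (supp x1).card + 2 ≤ Module.finrank ℝ W1 + 3 * (k2 + 1) := hd1
  have hd2' : (supp x2).card + 2 ≤ Module.finrank ℝ W2 + 3 * (k1 + 1) := hd2
  omega

end Crest.Agent.R304.Poly484
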