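import Crest.Agent.R304.PopEnergy

/-!
# R304 / S0464, block L4: Hoeffding decomposition of `P (S1 f)` and `P (S2 h)`
-/

set_option autoImplicit false
set_option linter.unusedSectionVars false

noncomputable section

namespace Crest.Agent.R304.Pop

open Finset Function

variable {Ω : Type*} [Fintype Ω] [DecidableEq Ω] {k : ℕ}
variable {π : Ω → ℝ} {K : Ω × Ω → Ω × Ω → ℝ} {γ : ℝ}

/-- First marginal. -/
def m1 (π : Ω → ℝ) (g : Ω × Ω → ℝ) (a : Ω) : ℝ := ∑ b, π b * g (a, b)
/-- Second marginal. -/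
def m2 (π : Ω → ℝ) (g : Ω × Ω → ℝ) (b : Ω) : ℝ := ∑ a, π a * g (a, b)
/-- Canonical part. -/
def g0 (π : Ω → ℝ) (g : Ω × Ω → ℝ) (z : Ω × Ω) : ℝ := g z - m1 π g z.1 - m2 π g z.2
/-- Symmetrisation. -/
def sy (g : Ω × Ω → ℝ) (z : Ω × Ω) : ℝ := (g z + g (z.2, z.1)) / 2

/-- Mean zero for `π × π`. -/
def Mz2 (π : Ω → ℝ) (g : Ω × Ω → ℝ) : Prop := ∑ z, pw π z * g z = 0

theorem mz_m1 {g : Ω × Ω → ℝ} (hg : Mz2 π g) : Mz π (m1 π g) := by
  unfold Mz m1
  unfold Mz2 pw at hg
  rw [Fintype.sum_prod_type] at hg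
  rw [← hg]
  refine sum_congr rfl fun a _ => ?_
  rw [mul_sum]; exact sum_congr rfl fun b _ => by ring

theorem mz_m2 {g : Ω × Ω → ℝ} (hg : Mz2 π g) : Mz π (m2 π g) := by
  unfold Mz m2
  unfold Mz2 pw at hg
  rw [Fintype.sum_prod_type, sum_comm] at hg
  rw [← hg]
  refine sum_congr rfl fun a _ => ?_
  rw [mul_sum]; exact sum_congr rfl fun b _ => by ring

theorem g0_mz1 (h1 : ∑ a, π a = 1) {g : Ω × Ω → ℝ} (hg : Mz2 π g) (b : Ω) :
    ∑ a, π a * g0 π g (a, b) = 0 := by
  unfold g0
  have : ∀ a, π a * (g (a, b) - m1 π g a - m2 π g b) =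
      π a * g (a, b) - π a * m1 π g a - π a * m2 π g b := by intro a; ring
  simp only [this]
  rw [sum_sub_distrib, sum_sub_distrib, ← sum_mul, h1, mz_m1 hg]
  simp [m2]

theorem g0_mz2 (h1 : ∑ a, π a = 1) {g : Ω × Ω → ℝ} (hg : Mz2 π g) (a : Ω) :
    ∑ b, π b * g0 π g (a, b) = 0 := by
  unfold g0
  have : ∀ b, π b * (g (a, b) - m1 π g a - m2 π g b) =
      π b * g (a, b) - π b * m1 π g a - π b * m2 π g b := by intro a; ring
  simp only [this]
  rw [sum_sub_distrib, sum_sub_distrib, ← sum_mul, h1, mz_m2 hg]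
  simp [m1]

theorem ip_decomp (h1 : ∑ a, π a = 1) {g : Ω × Ω → ℝ} (hg : Mz2 π g) :
    ip (pw π) g g = ip π (m1 π g) (m1 π g) + ip π (m2 π g) (m2 π g)
      + ip (pw π) (g0 π g) (g0 π g) := by
  have c1 : ∑ a, ∑ b, π a * π b * (m1 π g a * m1 π g a) = ip π (m1 π g) (m1 π g) := by
    unfold ip
    refine sum_congr rfl fun a _ => ?_
    have : ∀ b, π a * π b * (m1 π g a * m1 π g a) = π b * (π a * m1 π g a * m1 π g a) := by
      intro b; ring
    simp only [this]
    rw [← sum_mul, h1, one_mul]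
  have c2 : ∑ a, ∑ b, π a * π b * (m2 π g b * m2 π g b) = ip π (m2 π g) (m2 π g) := by
    unfold ip
    rw [sum_comm]
    refine sum_congr rfl fun b _ => ?_
    have : ∀ a, π a * π b * (m2 π g b * m2 π g b) = π a * (π b * m2 π g b * m2 π g b) := by
      intro a; ring
    simp only [this]
    rw [← sum_mul, h1, one_mul]
  have c3 : ∑ a, ∑ b, π a * π b * (m1 π g a * g0 π g (a, b)) = 0 := by
    refine sum_eq_zero fun a _ => ?_
    have : ∀ b, π a * π b * (m1 π g a * g0 π g (a, b)) =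
        π a * m1 π g a * (π b * g0 π g (a, b)) := by intro b; ring
    simp only [this]
    rw [← mul_sum, g0_mz2 h1 hg, mul_zero]
  have c4 : ∑ a, ∑ b, π a * π b * (m2 π g b * g0 π g (a, b)) = 0 := by
    rw [sum_comm]
    refine sum_eq_zero fun b _ => ?_
    have : ∀ a, π a * π b * (m2 π g b * g0 π g (a, b)) =
        π b * m2 π g b * (π a * g0 π g (a, b)) := by intro a; ring
    simp only [this]
    rw [← mul_sum, g0_mz1 h1 hg, mul_zero]
  have c5 : ∑ a, ∑ b, π a * π b * (m1 π g a * m2 π g b) = 0 := by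
    refine sum_eq_zero fun a _ => ?_
    have : ∀ b, π a * π b * (m1 π g a * m2 π g b) =
        π a * m1 π g a * (π b * m2 π g b) := by intro b; ring
    simp only [this]
    rw [← mul_sum, mz_m2 hg, mul_zero]
  have key : ip (pw π) g g = ∑ a, ∑ b, π a * π b * (m1 π g a * m1 π g a) +
      ∑ a, ∑ b, π a * π b * (m2 π g b * m2 π g b) + ip (pw π) (g0 π g) (g0 π g) +
      2 * ∑ a, ∑ b, π a * π b * (m1 π g a * g0 π g (a, b)) +
      2 * ∑ a, ∑ b, π a * π b * (m2 π g b * g0 π g (a, b)) +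
      2 * ∑ a, ∑ b, π a * π b * (m1 π g a * m2 π g b) := by
    unfold ip pw
    rw [Fintype.sum_prod_type, Fintype.sum_prod_type]
    simp only [mul_sum, ← sum_add_distrib]
    refine sum_congr rfl fun a _ => sum_congr rfl fun b _ => ?_
    unfold g0
    ring
  rw [key, c1, c2, c3, c4, c5]; ring

theorem ip_m1_le (h1 : ∑ a, π a = 1) (hπ : ∀ a, 0 ≤ π a) {g : Ω × Ω → ℝ} (hg : Mz2 π g) :
    ip π (m1 π g) (m1 π g) + ip π (m2 π g) (m2 π g) ≤ ip (pw π) g g := by
  rw [ip_decomp h1 hg]
  have := ip_self_nonneg (w := pw π) (fun z => mul_nonneg (hπ _) (hπ _)) (g0 π g)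
  linarith

theorem ip_g0_le (h1 : ∑ a, π a = 1) (hπ : ∀ a, 0 ≤ π a) {g : Ω × Ω → ℝ} (hg : Mz2 π g) :
    ip (pw π) (g0 π g) (g0 π g) ≤ ip (pw π) g g := by
  rw [ip_decomp h1 hg]
  have := ip_self_nonneg hπ (m1 π g)
  have := ip_self_nonneg hπ (m2 π g)
  linarith

theorem ip_swap (g : Ω × Ω → ℝ) :
    ip (pw π) (fun z => g (z.2, z.1)) (fun z => g (z.2, z.1)) = ip (pw π) g g := by
  unfold ip pw
  rw [← Equiv.sum_comp (Equiv.prodComm Ω Ω) (fun z : Ω × Ω => π z.1 * π z.2 * g z * g z)]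
  refine sum_congr rfl fun z _ => ?_
  obtain ⟨a, b⟩ := z
  simp only [Equiv.prodComm_apply, Prod.swap_prod_mk]
  ring

theorem ip_sy_le (hπ : ∀ a, 0 ≤ π a) (g : Ω × Ω → ℝ) :
    ip (pw π) (sy g) (sy g) ≤ ip (pw π) g g := by
  have e : ip (pw π) (sy g) (sy g) ≤
      (1/2) * ip (pw π) g g + (1/2) * ip (pw π) (fun z => g (z.2, z.1)) (fun z => g (z.2, z.1)) := by
    unfold ip sy
    rw [mul_sum, mul_sum, ← sum_add_distrib]
    refine sum_le_sum fun z _ => ?_
    have : 0 ≤ pw π z := mul_nonneg (hπ _) (hπ _)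
    nlinarith [mul_nonneg this (sq_nonneg (g z - g (z.2, z.1)))]
  rw [ip_swap] at e; linarith

theorem can_sy {g : Ω × Ω → ℝ} (ha : ∀ b, ∑ a, π a * g (a, b) = 0)
    (hb : ∀ a, ∑ b, π b * g (a, b) = 0) : Can π (sy g) where
  symm := fun a b => by unfold sy; ring
  mz := fun b => by
    unfold sy
    have : ∀ a, π a * ((g (a, b) + g (b, a)) / 2) = (π a * g (a, b) + π a * g (b, a)) / 2 := by
      intro a; ring
    simp only [this]
    rw [← sum_div, sum_add_distrib, ha, hb]; simp

theorem Can.smul {h : Ω × Ω → ℝ} (H : Can π h) (c : ℝ) : Can π (c • h) where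
  symm := fun a b => by simp [H.symm a b]
  mz := fun b => by
    have : ∀ a, π a * (c • h) (a, b) = c * (π a * h (a, b)) := by
      intro a; simp only [Pi.smul_apply, smul_eq_mul]; ring
    simp only [this]
    rw [← mul_sum, H.mz, mul_zero]

theorem Can.add {h h' : Ω × Ω → ℝ} (H : Can π h) (H' : Can π h') : Can π (h + h') where
  symm := fun a b => by simp [H.symm a b, H'.symm a b]
  mz := fun b => by
    have : ∀ a, π a * (h + h') (a, b) = π a * h (a, b) + π a * h' (a, b) := by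
      intro a; simp only [Pi.add_apply]; ring
    simp only [this]
    rw [sum_add_distrib, H.mz, H'.mz, add_zero]

theorem Mz.smul {f : Ω → ℝ} (H : Mz π f) (c : ℝ) : Mz π (c • f) := by
  unfold Mz at *
  have : ∀ a, π a * (c • f) a = c * (π a * f a) := by
    intro a; simp only [Pi.smul_apply, smul_eq_mul]; ring
  simp only [this]
  rw [← mul_sum, H, mul_zero]

theorem Mz.add {f g : Ω → ℝ} (H : Mz π f) (H' : Mz π g) : Mz π (f + g) := by
  unfold Mz at *
  have : ∀ a, π a * (f + g) a = π a * f a + π a * g a := by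
    intro a; simp only [Pi.add_apply]; ring
  simp only [this]
  rw [sum_add_distrib, H, H', add_zero]

/-! ### linearity of the symmetric sums -/

theorem S1_add (f g : Ω → ℝ) : S1 (k := k) (f + g) = S1 f + S1 g := by
  funext x; simp only [S1, Pi.add_apply, sum_add_distrib]

theorem S1_smul (c : ℝ) (f : Ω → ℝ) : S1 (k := k) (c • f) = c • S1 f := by
  funext x; simp only [S1, Pi.smul_apply, smul_eq_mul, mul_sum]

theorem S2_add (f g : Ω × Ω → ℝ) : S2 (k := k) (f + g) = S2 f + S2 g := by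
  funext x; simp only [S2, Pi.add_apply]
  rw [← sum_add_distrib]; refine sum_congr rfl fun i _ => ?_
  rw [← sum_add_distrib]; refine sum_congr rfl fun j _ => ?_
  split_ifs <;> simp

theorem S2_smul (c : ℝ) (f : Ω × Ω → ℝ) : S2 (k := k) (c • f) = c • S2 f := by
  funext x; simp only [S2, Pi.smul_apply, smul_eq_mul, mul_sum]
  refine sum_congr rfl fun i _ => sum_congr rfl fun j _ => ?_
  split_ifs <;> simp

theorem S2_sy (g : Ω × Ω → ℝ) : S2 (k := k) (sy g) = S2 g := by
  funext x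
  have e1 : S2 (sy g) x = (1/2) * S2 g x + (1/2) * ∑ i, ∑ j, if i = j then 0 else g (x j, x i) := by
    unfold S2
    rw [mul_sum, mul_sum, ← sum_add_distrib]
    refine sum_congr rfl fun i _ => ?_
    rw [mul_sum, mul_sum, ← sum_add_distrib]
    refine sum_congr rfl fun j _ => ?_
    split_ifs
    · simp
    · unfold sy; ring
  have e2 : (∑ i, ∑ j, if i = j then 0 else g (x j, x i)) = S2 g x := by
    unfold S2
    rw [sum_comm]
    refine sum_congr rfl fun i _ => sum_congr rfl fun j _ => ?_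
    by_cases h : i = j
    · subst h; simp
    · rw [if_neg h, if_neg (Ne.symm h)]
  rw [e1, e2]; ring

theorem sum_ite_ne (i : Fin k) (c : ℝ) : (∑ j, if i = j then 0 else c) = ((k:ℝ) - 1) * c := by
  have : ∀ j, (if i = j then 0 else c) = c - (if i = j then c else 0) := by
    intro j; split_ifs <;> simp
  simp only [this]
  rw [sum_sub_distrib, sum_const, card_univ, Fintype.card_fin, nsmul_eq_mul]
  simp; ring

theorem S2_decomp (g : Ω × Ω → ℝ) :
    S2 (k := k) g = ((k:ℝ) - 1) • S1 (m1 π g + m2 π g) + S2 (g0 π g) := by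
  funext x
  have e1 : S2 g x = (∑ i, ∑ j, if i = j then 0 else m1 π g (x i)) +
      (∑ i, ∑ j, if i = j then 0 else m2 π g (x j)) + S2 (g0 π g) x := by
    unfold S2
    rw [← sum_add_distrib, ← sum_add_distrib]
    refine sum_congr rfl fun i _ => ?_
    rw [← sum_add_distrib, ← sum_add_distrib]
    refine sum_congr rfl fun j _ => ?_
    split_ifs
    · simp
    · unfold g0; ring
  have e2 : (∑ i, ∑ j, if i = j then 0 else m2 π g (x j)) =
      ∑ i, ∑ j, if i = j then 0 else m2 π g (x i) := by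
    rw [sum_comm]
    refine sum_congr rfl fun i _ => sum_congr rfl fun j _ => ?_
    by_cases h : i = j
    · subst h; simp
    · rw [if_neg h, if_neg (Ne.symm h)]
  rw [e1, e2]
  simp only [sum_ite_ne, Pi.add_apply, Pi.smul_apply, smul_eq_mul, S1, mul_sum, mul_add,
    sum_add_distrib]

theorem S3_split (t : Ω → Ω → Ω → ℝ) (u v : Ω × Ω → ℝ) (w : Ω → Ω → Ω → ℝ)
    (ht : ∀ a b c, t a b c = u (a, c) + v (b, c) + w a b c) :
    S3 (k := k) t = ((k:ℝ) - 2) • S2 (u + v) + S3 w := by
  funext x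
  have e1 : S3 t x = (∑ i, ∑ j, ∑ l, if i = j ∨ i = l ∨ j = l then 0 else u (x i, x l)) +
      (∑ i, ∑ j, ∑ l, if i = j ∨ i = l ∨ j = l then 0 else v (x j, x l)) + S3 w x := by
    unfold S3
    rw [← sum_add_distrib, ← sum_add_distrib]
    refine sum_congr rfl fun i _ => ?_
    rw [← sum_add_distrib, ← sum_add_distrib]
    refine sum_congr rfl fun j _ => ?_
    rw [← sum_add_distrib, ← sum_add_distrib]
    refine sum_congr rfl fun l _ => ?_
    split_ifs
    · simp
    · rw [ht]
  have e2 : (∑ i, ∑ j, ∑ l, if i = j ∨ i = l ∨ j = l then 0 else u (x i, x l)) =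
      ((k:ℝ) - 2) * S2 u x := by
    unfold S2
    rw [mul_sum]
    refine sum_congr rfl fun i _ => ?_
    rw [sum_comm, mul_sum]
    refine sum_congr rfl fun l _ => ?_
    by_cases hil : i = l
    · simp [hil]
    · rw [if_neg hil]
      have : ∀ j, (if i = j ∨ i = l ∨ j = l then 0 else u (x i, x l)) =
          if j ∈ rest i l then u (x i, x l) else 0 := by
        intro j
        simp only [mem_rest]
        by_cases c1 : i = j
        · subst c1; simp
        · by_cases c2 : j = l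
          · subst c2; simp
          · simp [c1, hil, c2, Ne.symm c1]
      simp only [this]
      rw [← sum_filter, filter_mem_eq_inter, univ_inter, sum_const, nsmul_eq_mul, card_rest hil]
  have e3 : (∑ i, ∑ j, ∑ l, if i = j ∨ i = l ∨ j = l then 0 else v (x j, x l)) =
      ((k:ℝ) - 2) * S2 v x := by
    unfold S2
    rw [sum_comm, mul_sum]
    refine sum_congr rfl fun j _ => ?_
    rw [sum_comm, mul_sum]
    refine sum_congr rfl fun l _ => ?_
    by_cases hil : j = l
    · simp [hil]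
    · rw [if_neg hil]
      have : ∀ i, (if i = j ∨ i = l ∨ j = l then 0 else v (x j, x l)) =
          if i ∈ rest j l then v (x j, x l) else 0 := by
        intro i
        simp only [mem_rest]
        by_cases c1 : i = j
        · subst c1; simp
        · by_cases c2 : i = l
          · subst c2; simp
          · simp [c1, hil, c2]
      simp only [this]
      rw [← sum_filter, filter_mem_eq_inter, univ_inter, sum_const, nsmul_eq_mul, card_rest hil]
  rw [e1, e2, e3, S2_add]
  simp only [Pi.add_apply, Pi.smul_apply, smul_eq_mul]; ring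

/-! ### the kernel -/

theorem sub_popK (hk : 2 ≤ k) (F : (Fin k → Ω) → ℝ) (x : Fin k → Ω) :
    F x - op (popK K) F x =
      (∑ p, ∑ q, if p = q then 0 else (sl p q F x - op K (sl p q F x)) (x p, x q))
        / ((k : ℝ) * ((k : ℝ) - 1)) := by
  have hk' := (k_pos_aux hk).ne'
  rw [op_popK, eq_div_iff hk', sub_mul, div_mul_cancel₀ _ hk', mul_comm,
    ← sum_ordered_pairs, ← sum_sub_distrib]
  refine sum_congr rfl fun p _ => ?_
  rw [← sum_sub_distrib]
  refine sum_congr rfl fun q _ => ?_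
  by_cases hpq : p = q
  · simp [hpq]
  · rw [if_neg hpq, if_pos hpq, if_pos hpq, op_pairK K hpq]
    simp only [Pi.sub_apply]
    congr 1
    simp only [sl, upd2_self]

theorem mz2_sub_op (hR : RevPsd (pw π) K) (φ : Ω × Ω → ℝ) : Mz2 π (φ - op K φ) := by
  have h := hR.adj (fun _ => (1:ℝ)) φ
  rw [hR.op_const] at h
  unfold Mz2
  unfold ip at h
  simp only [mul_one] at h
  have : ∀ z, pw π z * (φ - op K φ) z = pw π z * φ z - pw π z * op K φ z := by
    intro z; simp only [Pi.sub_apply]; ring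
  simp only [this]
  rw [sum_sub_distrib, h, sub_self]

theorem ip_dbl (h1 : ∑ a, π a = 1) {f : Ω → ℝ} (hf : Mz π f) :
    ip (pw π) (dbl f) (dbl f) = 2 * ip π f f := by
  have c1 : ∑ a, ∑ b, π a * π b * (f a * f a) = ip π f f := by
    unfold ip
    refine sum_congr rfl fun a _ => ?_
    have : ∀ b, π a * π b * (f a * f a) = π b * (π a * f a * f a) := by intro b; ring
    simp only [this]
    rw [← sum_mul, h1, one_mul]
  have c2 : ∑ a, ∑ b, π a * π b * (f b * f b) = ip π f f := by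
    unfold ip
    rw [sum_comm]
    refine sum_congr rfl fun b _ => ?_
    have : ∀ a, π a * π b * (f b * f b) = π a * (π b * f b * f b) := by intro a; ring
    simp only [this]
    rw [← sum_mul, h1, one_mul]
  have c5 : ∑ a, ∑ b, π a * π b * (f a * f b) = 0 := by
    refine sum_eq_zero fun a _ => ?_
    have : ∀ b, π a * π b * (f a * f b) = π a * f a * (π b * f b) := by intro b; ring
    simp only [this]
    rw [← mul_sum, hf, mul_zero]
  have key : ip (pw π) (dbl f) (dbl f) = ∑ a, ∑ b, π a * π b * (f a * f a) +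
      ∑ a, ∑ b, π a * π b * (f b * f b) + 2 * ∑ a, ∑ b, π a * π b * (f a * f b) := by
    unfold ip pw dbl
    rw [Fintype.sum_prod_type]
    simp only [mul_sum, ← sum_add_distrib]
    refine sum_congr rfl fun a _ => sum_congr rfl fun b _ => ?_
    ring
  rw [key, c1, c2, c5]; ring

theorem pw_nonneg (hπ : ∀ a, 0 ≤ π a) (z : Ω × Ω) : 0 ≤ pw π z := mul_nonneg (hπ _) (hπ _)

theorem cube_aux1 (hk : 2 ≤ k) {A : ℝ} (hA : 0 ≤ A) :
    4 / ((k:ℝ) * k * (k - 1)) * A ≤ 25 / (k:ℝ) ^ 3 * A := by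
  have hkr : (2:ℝ) ≤ k := by exact_mod_cast hk
  refine mul_le_mul_of_nonneg_right ?_ hA
  rw [div_le_div_iff₀ (mul_pos (by positivity) (by linarith)) (by positivity)]
  nlinarith [mul_pos (show (0:ℝ) < k by linarith) (show (0:ℝ) < k by linarith)]

end Crest.Agent.R304.Pop
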