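import Crest.Agent.R304.PopSums

/-!
# R304 / S0464, block L4: coercivity of the population kernel on `S1 f` and `S2 h`
-/

set_option autoImplicit false
set_option linter.unusedSectionVars false

noncomputable section

namespace Crest.Agent.R304.Pop

open Finset Function

variable {Ω : Type*} [Fintype Ω] [DecidableEq Ω] {k : ℕ}
variable {π : Ω → ℝ} {K : Ω × Ω → Ω × Ω → ℝ} {γ : ℝ}

theorem k_pos_aux (hk : 2 ≤ k) : (0:ℝ) < (k:ℝ) * ((k:ℝ) - 1) := by
  have hkr : (2:ℝ) ≤ k := by exact_mod_cast hk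
  exact mul_pos (by linarith) (by linarith)

theorem energy_popK (hk : 2 ≤ k) (h1 : ∑ a, π a = 1) (F : (Fin k → Ω) → ℝ) :
    ip (prodW π) F (F - op (popK K) F) =
      (∑ p, ∑ q, if p ≠ q then
        ∑ x, prodW π x * ip (pw π) (sl p q F x) (sl p q F x - op K (sl p q F x)) else 0)
        / ((k : ℝ) * ((k : ℝ) - 1)) := by
  have hk' := (k_pos_aux hk).ne'
  rw [ip_sub_right, ip_popK h1, eq_div_iff hk', sub_mul, div_mul_cancel₀ _ hk', mul_comm,
    ← sum_ordered_pairs, ← sum_sub_distrib]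
  refine sum_congr rfl fun p _ => ?_
  rw [← sum_sub_distrib]
  refine sum_congr rfl fun q _ => ?_
  split_ifs
  · rw [ip_slice h1 p q, ← sum_sub_distrib]
    exact sum_congr rfl fun x _ => by rw [ip_sub_right]; ring
  · ring

theorem RevPsd.energy_congr {X : Type*} [Fintype X] {w : X → ℝ} {K : X → X → ℝ}
    (h : RevPsd w K) {F G : X → ℝ} (c : ℝ) (hFG : ∀ x, F x = G x + c) :
    ip w F (F - op K F) = ip w G (G - op K G) := by
  rw [h.dirichlet, h.dirichlet]
  congr 1
  exact sum_congr rfl fun x _ => sum_congr rfl fun y _ => by rw [hFG, hFG]; ring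

/-- The indices different from `p`, `q`. -/
def rest (p q : Fin k) : Finset (Fin k) := (univ.erase p).erase q

theorem mem_rest {p q i : Fin k} : i ∈ rest p q ↔ i ≠ q ∧ i ≠ p := by
  simp [rest]

theorem card_rest {p q : Fin k} (hpq : p ≠ q) : ((rest p q).card : ℝ) = (k:ℝ) - 2 := by
  have hk : 2 ≤ k := by
    have h1 := p.2; have h2 := q.2
    by_contra hlt
    apply hpq; apply Fin.ext; omega
  rw [rest, card_erase_of_mem (mem_erase.2 ⟨Ne.symm hpq, mem_univ _⟩),
    card_erase_of_mem (mem_univ _), card_univ, Fintype.card_fin,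
    show k - 1 - 1 = k - 2 by omega, Nat.cast_sub hk]
  simp

theorem sum_split {p q : Fin k} (hpq : p ≠ q) (G : Fin k → ℝ) :
    ∑ i, G i = G p + G q + ∑ i ∈ rest p q, G i := by
  rw [rest, ← add_sum_erase univ G (mem_univ p),
    ← add_sum_erase (univ.erase p) G (mem_erase.2 ⟨Ne.symm hpq, mem_univ q⟩)]
  ring

/-- Two-variable additive function. -/
def dbl (f : Ω → ℝ) (z : Ω × Ω) : ℝ := f z.1 + f z.2

theorem sl_S1 {p q : Fin k} (hpq : p ≠ q) (f : Ω → ℝ) (x : Fin k → Ω) (z : Ω × Ω) :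
    sl p q (S1 f) x z = dbl f z + ∑ i ∈ rest p q, f (x i) := by
  unfold sl S1 dbl
  rw [sum_split hpq, upd2_fst hpq, upd2_snd]
  congr 1
  refine sum_congr rfl fun i hi => ?_
  rw [mem_rest] at hi
  rw [upd2_ne hi.2 hi.1]

/-- The mean field felt by `p`, `q`. -/
def psi (h : Ω × Ω → ℝ) (p q : Fin k) (x : Fin k → Ω) (a : Ω) : ℝ :=
  2 * ∑ l ∈ rest p q, h (a, x l)

theorem sl_S2 {p q : Fin k} (hpq : p ≠ q) {h : Ω × Ω → ℝ} (hs : ∀ a b, h (a, b) = h (b, a))
    (x : Fin k → Ω) (z : Ω × Ω) :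
    sl p q (S2 h) x z = 2 * h z + dbl (psi h p q x) z +
      ∑ i ∈ rest p q, ∑ j ∈ rest p q, if i = j then 0 else h (x i, x j) := by
  obtain ⟨a, b⟩ := z
  unfold sl S2
  set y := upd2 p q x (a, b) with hy
  have yp : y p = a := upd2_fst hpq x (a, b)
  have yq : y q = b := upd2_snd x (a, b)
  have yr : ∀ i ∈ rest p q, y i = x i := by
    intro i hi; rw [mem_rest] at hi; exact upd2_ne hi.2 hi.1 x (a, b)
  rw [sum_split hpq]
  have rp : (∑ j, if p = j then 0 else h (y p, y j)) = h (a, b) + ∑ l ∈ rest p q, h (a, x l) := by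
    rw [sum_split hpq]
    simp only [if_true, if_neg hpq, yp, yq, zero_add]
    congr 1
    refine sum_congr rfl fun l hl => ?_
    have hl' := mem_rest.1 hl
    rw [if_neg (Ne.symm hl'.2), yr l hl]
  have rq : (∑ j, if q = j then 0 else h (y q, y j)) = h (a, b) + ∑ l ∈ rest p q, h (b, x l) := by
    rw [sum_split hpq]
    simp only [if_true, if_neg (Ne.symm hpq), yp, yq, add_zero]
    rw [hs b a]
    congr 1
    refine sum_congr rfl fun l hl => ?_
    have hl' := mem_rest.1 hl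
    rw [if_neg (Ne.symm hl'.1), yr l hl]
  have rr : ∀ i ∈ rest p q, (∑ j, if i = j then 0 else h (y i, y j)) =
      h (a, x i) + h (b, x i) + ∑ j ∈ rest p q, if i = j then 0 else h (x i, x j) := by
    intro i hi
    have hi' := mem_rest.1 hi
    rw [sum_split hpq, if_neg hi'.2, if_neg hi'.1, yp, yq, yr i hi, hs (x i) a, hs (x i) b]
    congr 1
    refine sum_congr rfl fun j hj => ?_
    rw [yr j hj]
  rw [rp, rq, sum_congr rfl rr, sum_add_distrib, sum_add_distrib]
  unfold dbl psi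
  ring

theorem psi_mz {h : Ω × Ω → ℝ} (H : Can π h) (p q : Fin k) (x : Fin k → Ω) :
    ∑ a, π a * psi h p q x a = 0 := by
  unfold psi
  have : ∀ a, π a * (2 * ∑ l ∈ rest p q, h (a, x l)) =
      2 * ∑ l ∈ rest p q, π a * h (a, x l) := by
    intro a; rw [mul_left_comm, mul_sum]
  simp only [this]
  rw [← mul_sum, sum_comm]
  simp only [H.mz, sum_const_zero, mul_zero]

theorem psi_norm (h1 : ∑ a, π a = 1) {h : Ω × Ω → ℝ} (H : Can π h) {p q : Fin k} (hpq : p ≠ q) :
    ∑ x : Fin k → Ω, prodW π x * ∑ a, π a * psi h p q x a ^ 2 =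
      4 * ((k:ℝ) - 2) * ip (pw π) h h := by
  have e1 : ∀ a, ∑ x : Fin k → Ω, prodW π x * psi h p q x a ^ 2 =
      4 * ((k:ℝ) - 2) * ∑ b, π b * h (a, b) ^ 2 := by
    intro a
    have e2 : ∀ x : Fin k → Ω, prodW π x * psi h p q x a ^ 2 =
        4 * ∑ l ∈ rest p q, ∑ l' ∈ rest p q, prodW π x * (h (a, x l) * h (a, x l')) := by
      intro x
      unfold psi
      rw [mul_pow, sq (∑ l ∈ rest p q, h (a, x l)), sum_mul_sum]
      rw [show (2:ℝ) ^ 2 = 4 by norm_num, mul_left_comm, mul_sum]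
      congr 1
      refine sum_congr rfl fun l _ => ?_
      rw [mul_sum]
    simp only [e2]
    rw [← mul_sum, sum_comm]
    have e3 : ∀ l ∈ rest p q, ∑ x : Fin k → Ω, ∑ l' ∈ rest p q,
        prodW π x * (h (a, x l) * h (a, x l')) = ∑ b, π b * h (a, b) ^ 2 := by
      intro l hl
      rw [sum_comm]
      rw [sum_eq_single_of_mem l hl]
      · rw [marg1 h1 l (fun b => h (a, b) * h (a, b))]
        exact sum_congr rfl fun b _ => by ring
      · intro l' _ hne
        refine mean_zero_of h1 l' _ fun x => ?_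
        simp only [update_self, update_of_ne (Ne.symm hne)]
        have : ∑ b, π b * (h (a, x l) * h (a, b)) = h (a, x l) * ∑ b, π b * h (a, b) := by
          rw [mul_sum]; exact sum_congr rfl fun b _ => by ring
        rw [this, H.mz', mul_zero]
    rw [sum_congr rfl e3, sum_const, nsmul_eq_mul, card_rest hpq]; ring
  calc ∑ x : Fin k → Ω, prodW π x * ∑ a, π a * psi h p q x a ^ 2
      = ∑ a, π a * ∑ x : Fin k → Ω, prodW π x * psi h p q x a ^ 2 := by
        simp only [mul_sum]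
        rw [sum_comm]
        exact sum_congr rfl fun a _ => sum_congr rfl fun x _ => by ring
    _ = ∑ a, π a * (4 * ((k:ℝ) - 2) * ∑ b, π b * h (a, b) ^ 2) := by simp only [e1]
    _ = 4 * ((k:ℝ) - 2) * ip (pw π) h h := by
        unfold ip pw
        rw [Fintype.sum_prod_type, mul_sum]
        refine sum_congr rfl fun a _ => ?_
        rw [mul_sum, mul_sum, mul_sum]
        exact sum_congr rfl fun b _ => by simp only; ring

/-- The gap in terms of `dbl`. -/
theorem GoodKernel.gap_dbl (h : GoodKernel π K γ) (hπ : ∀ a, 0 ≤ π a) {f : Ω → ℝ}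
    (hf : Mz π f) :
    2 * γ * ∑ a, π a * f a ^ 2 ≤ ip (pw π) (dbl f) (dbl f - op K (dbl f)) := by
  rw [(h.revPsd hπ).dirichlet]
  exact h.gap f hf

/-- Coercivity on `S1`. -/
theorem coer1 (hk : 2 ≤ k) (h1 : ∑ a, π a = 1) (hπ : ∀ a, 0 ≤ π a) (h : GoodKernel π K γ)
    {f : Ω → ℝ} (hf : Mz π f) :
    2 * γ * ip π f f ≤ ip (prodW π) (S1 (k := k) f) (S1 f - op (popK K) (S1 f)) := by
  rw [energy_popK hk h1, le_div_iff₀ (k_pos_aux hk), mul_comm, ← sum_ordered_pairs]
  refine sum_le_sum fun p _ => sum_le_sum fun q _ => ?_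
  split_ifs with hpq
  · have e : ∀ x : Fin k → Ω, 2 * γ * ip π f f ≤
        ip (pw π) (sl p q (S1 f) x) (sl p q (S1 f) x - op K (sl p q (S1 f) x)) := by
      intro x
      rw [(h.revPsd hπ).energy_congr _ (sl_S1 hpq f x)]
      refine le_trans (le_of_eq ?_) (h.gap_dbl hπ hf)
      unfold ip; congr 1; exact sum_congr rfl fun a _ => by ring
    calc 2 * γ * ip π f f = ∑ x : Fin k → Ω, prodW π x * (2 * γ * ip π f f) := by
          rw [← sum_mul, sum_prodW h1, one_mul]
      _ ≤ _ := sum_le_sum fun x _ => mul_le_mul_of_nonneg_left (e x) (prodW_nonneg hπ x)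
  · exact le_rfl

/-- Coercivity on `S2`. -/
theorem coer2 (hk : 2 ≤ k) (h1 : ∑ a, π a = 1) (hπ : ∀ a, 0 ≤ π a) (hK : GoodKernel π K γ)
    {h : Ω × Ω → ℝ} (H : Can π h) :
    4 * (γ * ((k:ℝ) - 2) - 1) * ip (pw π) h h ≤
      ip (prodW π) (S2 (k := k) h) (S2 h - op (popK K) (S2 h)) := by
  have hR := hK.revPsd hπ
  rw [energy_popK hk h1, le_div_iff₀ (k_pos_aux hk), mul_comm, ← sum_ordered_pairs]
  refine sum_le_sum fun p _ => sum_le_sum fun q _ => ?_
  split_ifs with hpq
  · have e : ∀ x : Fin k → Ω, γ * (∑ a, π a * psi h p q x a ^ 2) - 4 * ip (pw π) h h ≤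
        ip (pw π) (sl p q (S2 h) x) (sl p q (S2 h) x - op K (sl p q (S2 h) x)) := by
      intro x
      rw [hR.energy_congr (G := (2:ℝ) • h + dbl (psi h p q x))
        (∑ i ∈ rest p q, ∑ j ∈ rest p q, if i = j then 0 else h (x i, x j)) (fun z => by
        rw [sl_S2 hpq H.symm]; simp)]
      have a1 := hR.dirichlet_le_two ((2:ℝ) • h) (dbl (psi h p q x))
      have a2 := hK.gap_dbl hπ (psi_mz H p q x)
      have a3 := hR.dirichlet_le ((2:ℝ) • h)
      rw [ip_smul_left ((pw π)) h ((2:ℝ) • h), ip_smul_right] at a3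
      linarith
    calc 4 * (γ * ((k:ℝ) - 2) - 1) * ip (pw π) h h
        = ∑ x : Fin k → Ω, prodW π x *
          (γ * (∑ a, π a * psi h p q x a ^ 2) - 4 * ip (pw π) h h) := by
          have : ∀ x : Fin k → Ω, prodW π x *
              (γ * (∑ a, π a * psi h p q x a ^ 2) - 4 * ip (pw π) h h) =
              γ * (prodW π x * ∑ a, π a * psi h p q x a ^ 2) -
              prodW π x * (4 * ip (pw π) h h) := by intro x; ring
          simp only [this]
          rw [sum_sub_distrib, ← mul_sum, ← sum_mul, psi_norm h1 H hpq, sum_prodW h1]; ring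
      _ ≤ _ := sum_le_sum fun x _ => mul_le_mul_of_nonneg_left (e x) (prodW_nonneg hπ x)
  · exact le_rfl

end Crest.Agent.R304.Pop
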