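import Crest.Agent.R304.PopStep

/-!
# R304 / S0464, block L4: contraction on the levels and the iteration
-/

set_option autoImplicit false
set_option linter.unusedSectionVars false

noncomputable section

namespace Crest.Agent.R304.Pop

open Finset Function

variable {Ω : Type*} [Fintype Ω] [DecidableEq Ω] {k : ℕ}
variable {π : Ω → ℝ} {K : Ω × Ω → Ω × Ω → ℝ} {γ : ℝ}

/-- An energy bound gives contraction. -/
theorem contr_of_energy {X : Type*} [Fintype X] {w : X → ℝ} {P : X → X → ℝ} (hP : RevPsd w P)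
    (F : X → ℝ) {c : ℝ} (hc1 : c ≤ 1)
    (hE : 2 * c * ip w F F ≤ ip w F (F - op P F)) :
    nm w (op P F) ≤ (1 - c) * nm w F := by
  apply nm_le_of_sq _ (mul_nonneg (by linarith) (nm_nonneg _ _))
  rw [mul_pow, nm_sq hP.w_nonneg]
  have h1 := hP.sq_le F
  rw [ip_sub_right] at hE
  have h0 := ip_self_nonneg hP.w_nonneg F
  nlinarith [mul_nonneg (sq_nonneg c) h0]

theorem contr1 (hk : 2 ≤ k) (h1 : ∑ a, π a = 1) (hπ : ∀ a, 0 ≤ π a) (h : GoodKernel π K γ)
    (hγ1 : γ ≤ 1) {f : Ω → ℝ} (hf : Mz π f) :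
    nm (prodW π) (op (popK K) (S1 (k := k) f)) ≤ (1 - γ / k) * nm (prodW π) (S1 (k := k) f) := by
  have hkr : (2:ℝ) ≤ k := by exact_mod_cast hk
  apply contr_of_energy (revPsd_popK hk hπ h1 (h.revPsd hπ))
  · rw [div_le_one (by linarith)]; linarith
  · refine le_trans (le_of_eq ?_) (coer1 hk h1 hπ h hf)
    rw [ip_S1 h1 hf]
    have : (k:ℝ) ≠ 0 := by linarith
    field_simp

theorem contr2 (hk : 2 ≤ k) (h1 : ∑ a, π a = 1) (hπ : ∀ a, 0 ≤ π a) (hK : GoodKernel π K γ)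
    (hγ1 : γ ≤ 1) (hkγ : 2 ≤ γ * ((k:ℝ) - 3)) {h : Ω × Ω → ℝ} (H : Can π h) :
    nm (prodW π) (op (popK K) (S2 (k := k) h)) ≤
      (1 - γ / (2 * k)) * nm (prodW π) (S2 (k := k) h) := by
  have hkr : (2:ℝ) ≤ k := by exact_mod_cast hk
  have hk1 : 0 < (k:ℝ) - 1 := by linarith
  have hk0 : 0 < (k:ℝ) := by linarith
  apply contr_of_energy (revPsd_popK hk hπ h1 (hK.revPsd hπ))
  · rw [div_le_one (by linarith)]; linarith
  · refine le_trans ?_ (coer2 hk h1 hπ hK H)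
    rw [ip_S2 h1 H]
    have h0 : 0 ≤ ip (pw π) h h := ip_self_nonneg (pw_nonneg hπ) h
    have : 2 * (γ / (2 * k)) * (2 * (k * (k - 1)) * ip (pw π) h h) =
        2 * (γ * (k - 1)) * ip (pw π) h h := by
      field_simp
    rw [this]
    refine mul_le_mul_of_nonneg_right ?_ h0
    nlinarith

/-- `ℓ = 5 / (k √k)`. -/
def ell (k : ℕ) : ℝ := 5 / (k * √k)

theorem ell_nonneg : 0 ≤ ell k := by unfold ell; positivity

theorem nm_le_ell {X : Type*} [Fintype X] {w : X → ℝ} (hw : ∀ x, 0 ≤ w x) {F G : X → ℝ}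
    (h : ip w F F ≤ 25 / (k:ℝ) ^ 3 * ip w G G) : nm w F ≤ ell k * nm w G := by
  apply nm_le_of_sq _ (mul_nonneg ell_nonneg (nm_nonneg _ _))
  rw [mul_pow, nm_sq hw]
  refine h.trans (le_of_eq ?_)
  congr 1
  unfold ell
  rw [div_pow, mul_pow, Real.sq_sqrt (Nat.cast_nonneg _)]
  norm_num
  ring

/-- State of the iteration. -/
structure St (k : ℕ) (π : Ω → ℝ) where
  f : Ω → ℝ
  h : Ω × Ω → ℝ
  R : (Fin k → Ω) → ℝ
  mz : Mz π f
  can : Can π h

/-- The function described by a state. -/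
def St.fn (s : St k π) : (Fin k → Ω) → ℝ := S1 s.f + S2 s.h + s.R

def St.A (s : St k π) : ℝ := nm (prodW π) (S1 (k := k) s.f)
def St.B (s : St k π) : ℝ := nm (prodW π) (S2 (k := k) s.h)
def St.C (s : St k π) : ℝ := nm (prodW π) s.R

theorem St.step (hk : 2 ≤ k) (h1 : ∑ a, π a = 1) (hπ : ∀ a, 0 ≤ π a) (hK : GoodKernel π K γ)
    (hγ1 : γ ≤ 1) (hkγ : 2 ≤ γ * ((k:ℝ) - 3)) (s : St k π) :
    ∃ s' : St k π, s'.fn = op (popK K) s.fn ∧
      s'.A ≤ (1 - γ / k + ell k) * s.A + ell k * s.B ∧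
      s'.B ≤ (1 - γ / (2 * k) + 2 * ell k) * s.B + ell k * s.A ∧
      s'.C ≤ s.C + ell k * s.B := by
  have hR := hK.revPsd hπ
  have hW : ∀ x : Fin k → Ω, 0 ≤ prodW π x := prodW_nonneg hπ
  have hP := revPsd_popK hk hπ h1 hR
  obtain ⟨f1, h2, mf1, ch2, e1, n1⟩ := decomp1 (k := k) hk h1 hπ hR s.mz
  obtain ⟨f3, h4, R5, mf3, ch4, e2, n3, n5⟩ := decomp2 (k := k) hk h1 hπ hR s.can
  have n1' := nm_le_ell hW n1
  have n3' := nm_le_ell hW n3
  have n5' := nm_le_ell hW n5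
  have c1 := contr1 (k := k) hk h1 hπ hK hγ1 s.mz
  have c2 := contr2 (k := k) hk h1 hπ hK hγ1 hkγ s.can
  refine ⟨⟨f1 + f3, h2 + h4, R5 + op (popK K) s.R, mf1.add mf3, ch2.add ch4⟩, ?_, ?_, ?_, ?_⟩
  · unfold St.fn
    simp only
    rw [op_add, op_add, e1, e2, S1_add, S2_add]
    abel
  · unfold St.A St.B
    simp only
    rw [S1_add]
    have a1 : nm (prodW π) (S1 (k := k) f1) ≤
        (1 - γ / k) * nm (prodW π) (S1 (k := k) s.f) + ell k * nm (prodW π) (S1 (k := k) s.f) := by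
      have : S1 (k := k) f1 = op (popK K) (S1 s.f) - S2 h2 := by rw [e1]; abel
      rw [this]
      exact (nm_sub hW _ _).trans (add_le_add c1 n1')
    have := nm_add hW (S1 (k := k) f1) (S1 f3)
    linarith
  · unfold St.A St.B
    simp only
    rw [S2_add]
    have a1 : nm (prodW π) (S2 (k := k) h4) ≤
        (1 - γ / (2 * k)) * nm (prodW π) (S2 (k := k) s.h)
          + ell k * nm (prodW π) (S2 (k := k) s.h) + ell k * nm (prodW π) (S2 (k := k) s.h) := by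
      have : S2 (k := k) h4 = op (popK K) (S2 s.h) - S1 f3 - R5 := by rw [e2]; abel
      rw [this]
      exact (nm_sub hW _ _).trans (add_le_add ((nm_sub hW _ _).trans (add_le_add c2 n3')) n5')
    have := nm_add hW (S2 (k := k) h2) (S2 h4)
    linarith
  · unfold St.C St.B
    simp only
    have := nm_add hW R5 (op (popK K) s.R)
    have := hP.nm_op_le s.R
    linarith

/-- The start. -/
def St.init {f : Ω → ℝ} (hf : Mz π f) : St k π where
  f := f
  h := 0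
  R := 0
  mz := hf
  can := ⟨fun _ _ => rfl, fun _ => by simp⟩

theorem S2_zero : S2 (Ω := Ω) (k := k) 0 = 0 := by funext x; simp [S2]

theorem nm_zero {X : Type*} [Fintype X] (w : X → ℝ) : nm w 0 = 0 := by simp [nm, ip]

theorem nm_fn_le (hπ : ∀ a, 0 ≤ π a) (s : St k π) : nm (prodW π) s.fn ≤ s.A + s.B + s.C := by
  have hW : ∀ x : Fin k → Ω, 0 ≤ prodW π x := prodW_nonneg hπ
  exact (nm_add hW _ _).trans (add_le_add (nm_add hW _ _) le_rfl)

/-- The trajectory. -/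
theorem exists_traj (hk : 2 ≤ k) (h1 : ∑ a, π a = 1) (hπ : ∀ a, 0 ≤ π a) (hK : GoodKernel π K γ)
    (hγ1 : γ ≤ 1) (hkγ : 2 ≤ γ * ((k:ℝ) - 3)) {f : Ω → ℝ} (hf : Mz π f) :
    ∃ A B C : ℕ → ℝ, A 0 = nm (prodW π) (S1 (k := k) f) ∧ B 0 = 0 ∧ C 0 = 0 ∧
      (∀ t, 0 ≤ A t) ∧ (∀ t, 0 ≤ B t) ∧ (∀ t, 0 ≤ C t) ∧
      (∀ t, A (t + 1) ≤ (1 - γ / k + ell k) * A t + ell k * B t) ∧
      (∀ t, B (t + 1) ≤ (1 - γ / (2 * k) + 2 * ell k) * B t + ell k * A t) ∧
      (∀ t, C (t + 1) ≤ C t + ell k * B t) ∧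
      (∀ t, nm (prodW π) ((op (popK K))^[t] (S1 (k := k) f)) ≤ A t + B t + C t) := by
  choose nx hnx using fun s : St k π => St.step hk h1 hπ hK hγ1 hkγ s
  set tr : ℕ → St k π := fun t => nx^[t] (St.init hf) with htr
  have hs : ∀ t, tr (t + 1) = nx (tr t) := fun t => Function.iterate_succ_apply' nx t _
  have hfn : ∀ t, (tr t).fn = (op (popK K))^[t] (S1 f) := by
    intro t
    induction t with
    | zero =>
      simp only [htr, iterate_zero, id, St.fn, St.init]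
      rw [S2_zero]; simp
    | succ t ih => rw [hs, (hnx (tr t)).1, ih, Function.iterate_succ_apply']
  refine ⟨fun t => (tr t).A, fun t => (tr t).B, fun t => (tr t).C, rfl, ?_, ?_,
    fun t => nm_nonneg _ _, fun t => nm_nonneg _ _, fun t => nm_nonneg _ _, ?_, ?_, ?_, ?_⟩
  · change nm (prodW π) (S2 (k := k) 0) = 0
    rw [S2_zero, nm_zero]
  · exact nm_zero _
  · intro t; simp only [hs]; exact (hnx (tr t)).2.1
  · intro t; simp only [hs]; exact (hnx (tr t)).2.2.1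
  · intro t; simp only [hs]; exact (hnx (tr t)).2.2.2
  · intro t; rw [← hfn]; exact nm_fn_le hπ _

end Crest.Agent.R304.Pop
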