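import Crest.Agent.R304.PopDefs
import Crest.Agent.R304.PopIp

/-!
# R304 / S0464, block L4: resampling identities, slices, the population kernel is reversible psd
-/

set_option autoImplicit false
set_option linter.unusedSectionVars false

noncomputable section

namespace Crest.Agent.R304.Pop

open Finset Function

variable {Ω : Type*} [Fintype Ω] [DecidableEq Ω] {k : ℕ}

/-- The weight `π × π`. -/
def pw (π : Ω → ℝ) (z : Ω × Ω) : ℝ := π z.1 * π z.2

/-- Change two coordinates. -/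
def upd2 (p q : Fin k) (x : Fin k → Ω) (z : Ω × Ω) : Fin k → Ω := update (update x p z.1) q z.2

/-- Slice of `F` in the coordinates `p`, `q`. -/
def sl (p q : Fin k) (F : (Fin k → Ω) → ℝ) (x : Fin k → Ω) (z : Ω × Ω) : ℝ := F (upd2 p q x z)

theorem prodW_nonneg {π : Ω → ℝ} (hπ : ∀ a, 0 ≤ π a) (x : Fin k → Ω) : 0 ≤ prodW π x :=
  prod_nonneg fun _ _ => hπ _

theorem prodW_pos {π : Ω → ℝ} (hπ : ∀ a, 0 < π a) (x : Fin k → Ω) : 0 < prodW π x :=
  prod_pos fun _ _ => hπ _

theorem sum_prodW {π : Ω → ℝ} (h1 : ∑ a, π a = 1) : ∑ x : Fin k → Ω, prodW π x = 1 := by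
  unfold prodW
  have := (Finset.prod_univ_sum (fun _ : Fin k => (Finset.univ : Finset Ω)) (fun _ a => π a)).symm
  simp only [Fintype.piFinset_univ] at this
  rw [this]; simp [h1]

theorem prodW_update (π : Ω → ℝ) (x : Fin k → Ω) (i : Fin k) (a : Ω) :
    prodW π (update x i a) * π (x i) = prodW π x * π a := by
  unfold prodW
  rw [← mul_prod_erase univ (fun j => π (update x i a j)) (mem_univ i),
    ← mul_prod_erase univ (fun j => π (x j)) (mem_univ i)]
  have : ∏ j ∈ univ.erase i, π (update x i a j) = ∏ j ∈ univ.erase i, π (x j) :=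
    prod_congr rfl fun j hj => by rw [update_of_ne (ne_of_mem_erase hj)]
  rw [this]; simp; ring

theorem resample {π : Ω → ℝ} (h1 : ∑ a, π a = 1) (i : Fin k) (Φ : (Fin k → Ω) → ℝ) :
    ∑ x, prodW π x * ∑ a, π a * Φ (update x i a) = ∑ x, prodW π x * Φ x := by
  have hinv : Function.Involutive
      (fun p : (Fin k → Ω) × Ω => (update p.1 i p.2, p.1 i)) := by
    rintro ⟨x, a⟩; simp
  have e1 : ∑ x, prodW π x * ∑ a, π a * Φ (update x i a) =
      ∑ p : (Fin k → Ω) × Ω, prodW π p.1 * π p.2 * Φ (update p.1 i p.2) := by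
    rw [Fintype.sum_prod_type]
    refine sum_congr rfl fun x _ => ?_
    rw [mul_sum]; exact sum_congr rfl fun a _ => by ring
  have e2 : ∑ x, prodW π x * Φ x =
      ∑ p : (Fin k → Ω) × Ω, prodW π p.1 * π p.2 * Φ p.1 := by
    rw [Fintype.sum_prod_type]
    refine sum_congr rfl fun x _ => ?_
    have : ∑ a, prodW π x * π a * Φ x = prodW π x * Φ x * ∑ a, π a := by
      rw [mul_sum]; exact sum_congr rfl fun a _ => by ring
    simp only [this, h1, mul_one]
  rw [e1, e2, ← Equiv.sum_comp hinv.toPerm (fun p : (Fin k → Ω) × Ω =>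
    prodW π p.1 * π p.2 * Φ p.1)]
  refine sum_congr rfl fun p _ => ?_
  simp only [Function.Involutive.coe_toPerm]
  rw [← prodW_update]

theorem resample2 {π : Ω → ℝ} (h1 : ∑ a, π a = 1) (p q : Fin k) (Φ : (Fin k → Ω) → ℝ) :
    ∑ x, prodW π x * ∑ z : Ω × Ω, pw π z * Φ (upd2 p q x z) = ∑ x, prodW π x * Φ x := by
  rw [← resample h1 q Φ, ← resample h1 p (fun x => ∑ b, π b * Φ (update x q b))]
  refine sum_congr rfl fun x _ => ?_
  congr 1
  rw [Fintype.sum_prod_type]
  refine sum_congr rfl fun a _ => ?_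
  rw [mul_sum]
  exact sum_congr rfl fun b _ => by simp only [pw, upd2]; ring

theorem upd2_fst {p q : Fin k} (hpq : p ≠ q) (x : Fin k → Ω) (z : Ω × Ω) :
    upd2 p q x z p = z.1 := by simp [upd2, hpq]

theorem upd2_snd {p q : Fin k} (x : Fin k → Ω) (z : Ω × Ω) :
    upd2 p q x z q = z.2 := by simp [upd2]

theorem upd2_ne {p q i : Fin k} (hp : i ≠ p) (hq : i ≠ q) (x : Fin k → Ω) (z : Ω × Ω) :
    upd2 p q x z i = x i := by simp [upd2, hp, hq]

theorem upd2_upd2 (p q : Fin k) (x : Fin k → Ω) (z z' : Ω × Ω) :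
    upd2 p q (upd2 p q x z) z' = upd2 p q x z' := by
  unfold upd2
  by_cases hpq : p = q
  · subst hpq; simp
  · funext i
    by_cases hi : i = q
    · subst hi; simp
    · by_cases hi' : i = p
      · subst hi'; simp [hi]
      · simp [hi, hi']

theorem upd2_self {p q : Fin k} (x : Fin k → Ω) :
    upd2 p q x (x p, x q) = x := by
  unfold upd2
  funext i
  by_cases hi : i = q
  · subst hi; simp
  · by_cases hi' : i = p
    · subst hi'; simp
    · simp [hi]

theorem sl_upd2 (p q : Fin k) (F : (Fin k → Ω) → ℝ) (x : Fin k → Ω) (z : Ω × Ω) :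
    sl p q F (upd2 p q x z) = sl p q F x := by
  funext z'; simp only [sl, upd2_upd2]

/-- Marginal of two coordinates. -/
theorem marg2 {π : Ω → ℝ} (h1 : ∑ a, π a = 1) {p q : Fin k} (hpq : p ≠ q) (φ : Ω → Ω → ℝ) :
    ∑ x : Fin k → Ω, prodW π x * φ (x p) (x q) = ∑ z : Ω × Ω, pw π z * φ z.1 z.2 := by
  have h := resample2 h1 p q (fun x : Fin k → Ω => φ (x p) (x q))
  simp only [upd2_fst hpq, upd2_snd] at h
  rw [← h, ← sum_mul, sum_prodW h1, one_mul]

theorem marg1 {π : Ω → ℝ} (h1 : ∑ a, π a = 1) (p : Fin k) (φ : Ω → ℝ) :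
    ∑ x : Fin k → Ω, prodW π x * φ (x p) = ∑ a, π a * φ a := by
  have h := resample h1 p (fun x : Fin k → Ω => φ (x p))
  simp only [update_self] at h
  rw [← h, ← sum_mul, sum_prodW h1, one_mul]

/-- If averaging in one coordinate kills `Φ`, its mean is zero. -/
theorem mean_zero_of {π : Ω → ℝ} (h1 : ∑ a, π a = 1) (i : Fin k) (Φ : (Fin k → Ω) → ℝ)
    (h : ∀ x, ∑ a, π a * Φ (update x i a) = 0) : ∑ x, prodW π x * Φ x = 0 := by
  rw [← resample h1 i Φ]
  exact sum_eq_zero fun x _ => by rw [h x, mul_zero]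

/-! ### The pair kernel on two coordinates -/

theorem op_pairK (K : Ω × Ω → Ω × Ω → ℝ) {p q : Fin k} (hpq : p ≠ q)
    (G : (Fin k → Ω) → ℝ) (x : Fin k → Ω) :
    op (pairK K p q) G x = op K (sl p q G x) (x p, x q) := by
  classical
  have e1 : ∀ y, pairK K p q x y * G y
      = if ∀ i, i ≠ p → i ≠ q → y i = x i then K (x p, x q) (y p, y q) * G y else 0 := by
    intro y
    unfold pairK
    by_cases hy : ∀ i, i ≠ p → i ≠ q → y i = x i
    · rw [if_pos hy, if_pos hy]
    · rw [if_neg hy, if_neg hy, zero_mul]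
  unfold op
  simp only [e1]
  rw [← sum_filter]
  symm
  refine Finset.sum_bij' (fun z _ => upd2 p q x z) (fun y _ => (y p, y q)) ?_ ?_ ?_ ?_ ?_
  · intro z _
    simp only [mem_filter, mem_univ, true_and]
    intro i hp hq; exact upd2_ne hp hq x z
  · intro y _; exact mem_univ _
  · intro z _
    simp only [upd2_fst hpq, upd2_snd]
  · intro y hy
    simp only [mem_filter, mem_univ, true_and] at hy
    funext i
    by_cases hi : i = p
    · subst hi; rw [upd2_fst hpq]
    · by_cases hi' : i = q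
      · subst hi'; rw [upd2_snd]
      · rw [upd2_ne hi hi', hy i hi hi']
  · intro z _
    simp only [upd2_fst hpq, upd2_snd, sl]

theorem sl_op_pairK (K : Ω × Ω → Ω × Ω → ℝ) {p q : Fin k} (hpq : p ≠ q)
    (G : (Fin k → Ω) → ℝ) (x : Fin k → Ω) :
    sl p q (op (pairK K p q) G) x = op K (sl p q G x) := by
  funext z
  simp only [sl]
  rw [op_pairK K hpq, sl_upd2, upd2_fst hpq, upd2_snd]

theorem ip_slice {π : Ω → ℝ} (h1 : ∑ a, π a = 1) (p q : Fin k) (F G : (Fin k → Ω) → ℝ) :
    ip (prodW π) F G = ∑ x, prodW π x * ip (pw π) (sl p q F x) (sl p q G x) := by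
  unfold ip
  rw [← show ∑ x, prodW π x * (F x * G x) = ∑ x, prodW π x * F x * G x from
    sum_congr rfl fun x _ => by ring]
  rw [← resample2 h1 p q (fun x => F x * G x)]
  refine sum_congr rfl fun x _ => ?_
  congr 1
  exact sum_congr rfl fun z _ => by simp only [sl]; ring

/-- `RevPsd` from `GoodKernel`. -/
theorem GoodKernel.revPsd {π : Ω → ℝ} {K : Ω × Ω → Ω × Ω → ℝ} {γ : ℝ}
    (h : GoodKernel π K γ) (hπ : ∀ a, 0 ≤ π a) : RevPsd (pw π) K where
  w_nonneg := fun z => mul_nonneg (hπ _) (hπ _)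
  nonneg := h.nonneg
  sum_one := h.sum_one
  rev := h.rev
  psd := by
    intro F
    have := h.psd F
    unfold ip op pw
    refine this.trans (le_of_eq (sum_congr rfl fun z _ => ?_))
    rw [mul_sum]; exact sum_congr rfl fun z' _ => by ring

theorem op_popK (K : Ω × Ω → Ω × Ω → ℝ) (G : (Fin k → Ω) → ℝ) (x : Fin k → Ω) :
    op (popK K) G x =
      (∑ p, ∑ q, if p ≠ q then op (pairK K p q) G x else 0) / ((k : ℝ) * ((k : ℝ) - 1)) := by
  unfold op popK
  have : ∀ y, (∑ p, ∑ q, if p ≠ q then pairK K p q x y else 0) / ((k : ℝ) * ((k : ℝ) - 1)) * G y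
      = (∑ p, ∑ q, if p ≠ q then pairK K p q x y * G y else 0) / ((k : ℝ) * ((k : ℝ) - 1)) := by
    intro y
    rw [div_mul_eq_mul_div, sum_mul]
    congr 1
    refine sum_congr rfl fun p _ => ?_
    rw [sum_mul]
    refine sum_congr rfl fun q _ => ?_
    split_ifs <;> simp
  simp only [this]
  rw [← sum_div]
  congr 1
  rw [sum_comm]
  refine sum_congr rfl fun p _ => ?_
  rw [sum_comm]
  refine sum_congr rfl fun q _ => ?_
  split_ifs <;> simp

theorem sum_ordered_pairs (c : ℝ) :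
    (∑ p : Fin k, ∑ q : Fin k, if p ≠ q then c else 0) = (k : ℝ) * ((k : ℝ) - 1) * c := by
  have : ∀ p : Fin k, (∑ q : Fin k, if p ≠ q then c else 0) = ((k : ℝ) - 1) * c := by
    intro p
    rw [← sum_filter, sum_const, filter_ne, card_erase_of_mem (mem_univ p), card_univ,
      Fintype.card_fin, nsmul_eq_mul]
    have hk : 1 ≤ k := by have := p.2; omega
    rw [Nat.cast_sub hk]; simp
  simp only [this]
  rw [sum_const, card_univ, Fintype.card_fin, nsmul_eq_mul]; ring

theorem ip_popK {π : Ω → ℝ} (h1 : ∑ a, π a = 1) (K : Ω × Ω → Ω × Ω → ℝ)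
    (F G : (Fin k → Ω) → ℝ) :
    ip (prodW π) F (op (popK K) G) =
      (∑ p, ∑ q, if p ≠ q then
        ∑ x, prodW π x * ip (pw π) (sl p q F x) (op K (sl p q G x)) else 0)
        / ((k : ℝ) * ((k : ℝ) - 1)) := by
  have e1 : ip (prodW π) F (op (popK K) G) =
      (∑ p, ∑ q, if p ≠ q then ip (prodW π) F (op (pairK K p q) G) else 0)
        / ((k : ℝ) * ((k : ℝ) - 1)) := by
    unfold ip
    simp only [op_popK]
    have : ∀ x, prodW π x * F x *
        ((∑ p, ∑ q, if p ≠ q then op (pairK K p q) G x else 0) / ((k : ℝ) * ((k : ℝ) - 1)))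
        = (∑ p, ∑ q, if p ≠ q then prodW π x * F x * op (pairK K p q) G x else 0)
          / ((k : ℝ) * ((k : ℝ) - 1)) := by
      intro x
      rw [mul_div_assoc', mul_sum]
      congr 1
      refine sum_congr rfl fun p _ => ?_
      rw [mul_sum]
      refine sum_congr rfl fun q _ => ?_
      split_ifs <;> simp
    simp only [this]
    rw [← sum_div]
    congr 1
    rw [sum_comm]
    refine sum_congr rfl fun p _ => ?_
    rw [sum_comm]
    refine sum_congr rfl fun q _ => ?_
    split_ifs <;> simp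
  rw [e1]
  congr 1
  refine sum_congr rfl fun p _ => sum_congr rfl fun q _ => ?_
  split_ifs with hpq
  · rw [ip_slice h1 p q]
    exact sum_congr rfl fun x _ => by rw [sl_op_pairK K hpq]
  · rfl

theorem popK_one (hk : 2 ≤ k) {w : Ω × Ω → ℝ} {K : Ω × Ω → Ω × Ω → ℝ} (h : RevPsd w K)
    (x : Fin k → Ω) : ∑ y, popK K x y = 1 := by
  have h0 : op (popK K) (fun _ => (1:ℝ)) x = ∑ y, popK K x y := by unfold op; simp
  rw [← h0, op_popK]
  have hkr : (2:ℝ) ≤ k := by exact_mod_cast hk
  have e : (∑ p : Fin k, ∑ q : Fin k, if p ≠ q then op (pairK K p q) (fun _ => (1:ℝ)) x else 0)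
      = ∑ p : Fin k, ∑ q : Fin k, if p ≠ q then (1:ℝ) else 0 := by
    refine sum_congr rfl fun p _ => sum_congr rfl fun q _ => ?_
    split_ifs with hpq
    · rw [op_pairK K hpq]
      have : sl p q (fun _ => (1:ℝ)) x = fun _ => (1:ℝ) := rfl
      rw [this, h.op_const]
    · rfl
  rw [e, sum_ordered_pairs, mul_one]
  have : (k:ℝ) * ((k:ℝ) - 1) ≠ 0 := by
    have : (0:ℝ) < (k:ℝ) * ((k:ℝ) - 1) := mul_pos (by linarith) (by linarith)
    exact this.ne'
  exact div_self this

theorem popK_nonneg (hk : 2 ≤ k) {K : Ω × Ω → Ω × Ω → ℝ} (h : ∀ z z', 0 ≤ K z z')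
    (x y : Fin k → Ω) : 0 ≤ popK K x y := by
  have hkr : (2:ℝ) ≤ k := by exact_mod_cast hk
  unfold popK
  refine div_nonneg (sum_nonneg fun p _ => sum_nonneg fun q _ => ?_)
    (mul_nonneg (by linarith) (by linarith))
  split_ifs
  · unfold pairK; split_ifs
    · exact h _ _
    · exact le_rfl
  · exact le_rfl

theorem popK_adj {π : Ω → ℝ} (h1 : ∑ a, π a = 1) {K : Ω × Ω → Ω × Ω → ℝ}
    (h : RevPsd (pw π) K) (F G : (Fin k → Ω) → ℝ) :
    ip (prodW π) F (op (popK K) G) = ip (prodW π) (op (popK K) F) G := by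
  rw [ip_comm _ (op (popK K) F) G, ip_popK h1, ip_popK h1]
  congr 1
  refine sum_congr rfl fun p _ => sum_congr rfl fun q _ => ?_
  split_ifs
  · exact sum_congr rfl fun x _ => by rw [h.adj, ip_comm]
  · rfl

theorem revPsd_popK (hk : 2 ≤ k) {π : Ω → ℝ} (hπ : ∀ a, 0 ≤ π a) (h1 : ∑ a, π a = 1)
    {K : Ω × Ω → Ω × Ω → ℝ} (h : RevPsd (pw π) K) :
    RevPsd (prodW π (k := k)) (popK K) where
  w_nonneg := prodW_nonneg hπ
  nonneg := popK_nonneg hk h.nonneg
  sum_one := popK_one hk h
  rev := by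
    intro x y
    have e := popK_adj h1 h (Pi.single x (1:ℝ)) (Pi.single y (1:ℝ))
    have l1 : ip (prodW π) (Pi.single x (1:ℝ)) (op (popK K) (Pi.single y (1:ℝ)))
        = prodW π x * popK K x y := by
      unfold ip op
      rw [sum_eq_single x]
      · simp [Pi.single_apply]
      · intro b _ hb; simp [Pi.single_apply, hb]
      · intro hx; exact absurd (mem_univ x) hx
    have l2 : ip (prodW π) (op (popK K) (Pi.single x (1:ℝ))) (Pi.single y (1:ℝ))
        = prodW π y * popK K y x := by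
      unfold ip op
      rw [sum_eq_single y]
      · simp [Pi.single_apply]
      · intro b _ hb; simp [Pi.single_apply, hb]
      · intro hx; exact absurd (mem_univ y) hx
    rw [l1, l2] at e; exact e
  psd := by
    intro F
    rw [ip_popK h1]
    have hkr : (2:ℝ) ≤ k := by exact_mod_cast hk
    refine div_nonneg (sum_nonneg fun p _ => sum_nonneg fun q _ => ?_)
      (mul_nonneg (by linarith) (by linarith))
    split_ifs
    · exact sum_nonneg fun x _ => mul_nonneg (prodW_nonneg hπ x) (h.psd _)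
    · exact le_rfl

end Crest.Agent.R304.Pop
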