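import Crest.Agent.R304.PopDecomp

/-!
# R304 / S0464, block L4: one step of the population kernel on the levels 1 and 2
-/

set_option autoImplicit false
set_option linter.unusedSectionVars false

noncomputable section

namespace Crest.Agent.R304.Pop

open Finset Function

variable {Ω : Type*} [Fintype Ω] [DecidableEq Ω] {k : ℕ}
variable {π : Ω → ℝ} {K : Ω × Ω → Ω × Ω → ℝ} {γ : ℝ}

theorem op_add_const {X : Type*} [Fintype X] {w : X → ℝ} {K : X → X → ℝ} (h : RevPsd w K)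
    (F : X → ℝ) (c : ℝ) : op K (F + fun _ => c) = op K F + fun _ => c := by
  rw [op_add, h.op_const]

/-- `P (S1 f)`. -/
theorem sub_S1 (hk : 2 ≤ k) (hR : RevPsd (pw π) K) (f : Ω → ℝ) :
    S1 (k := k) f - op (popK K) (S1 f) =
      (1 / ((k:ℝ) * ((k:ℝ) - 1))) • S2 (dbl f - op K (dbl f)) := by
  funext x
  simp only [Pi.sub_apply, Pi.smul_apply, smul_eq_mul]
  rw [sub_popK hk, div_eq_inv_mul, one_div]
  congr 1
  unfold S2
  refine sum_congr rfl fun p _ => sum_congr rfl fun q _ => ?_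
  by_cases hpq : p = q
  · simp [hpq]
  · rw [if_neg hpq, if_neg hpq]
    have e : sl p q (S1 f) x = dbl f + fun _ => ∑ i ∈ rest p q, f (x i) := by
      funext z; rw [sl_S1 hpq]; rfl
    rw [e, op_add_const hR]
    simp only [Pi.sub_apply, Pi.add_apply]
    ring

/-- Kernel function `h_c a = h (a, c)`. -/
def hc (h : Ω × Ω → ℝ) (c a : Ω) : ℝ := h (a, c)

/-- `g_c = (1 - K) (dbl h_c)`. -/
def gc (K : Ω × Ω → Ω × Ω → ℝ) (h : Ω × Ω → ℝ) (c : Ω) : Ω × Ω → ℝ :=
  dbl (hc h c) - op K (dbl (hc h c))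

theorem op_sum {X ι : Type*} [Fintype X] (K : X → X → ℝ) (s : Finset ι) (F : ι → X → ℝ) :
    op K (∑ i ∈ s, F i) = ∑ i ∈ s, op K (F i) := by
  classical
  induction s using Finset.induction_on with
  | empty => funext x; simp [op]
  | insert a s ha ih => rw [sum_insert ha, sum_insert ha, op_add, ih]

/-- `P (S2 h)`. -/
theorem sub_S2 (hk : 2 ≤ k) (hR : RevPsd (pw π) K) {h : Ω × Ω → ℝ}
    (hs : ∀ a b, h (a, b) = h (b, a)) :
    S2 (k := k) h - op (popK K) (S2 h) =
      (2 / ((k:ℝ) * ((k:ℝ) - 1))) •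
        (S2 (h - op K h) + S3 fun a b c => gc K h c (a, b)) := by
  funext x
  simp only [Pi.sub_apply, Pi.smul_apply, smul_eq_mul]
  rw [sub_popK hk, div_eq_inv_mul, div_eq_inv_mul, mul_assoc]
  congr 1
  simp only [Pi.add_apply]
  rw [show S2 (h - op K h) x = ∑ i, ∑ j, if i = j then 0 else (h - op K h) (x i, x j) from rfl,
    show S3 (fun a b c => gc K h c (a, b)) x =
      ∑ i, ∑ j, ∑ l, if i = j ∨ i = l ∨ j = l then 0 else gc K h (x l) (x i, x j) from rfl]
  rw [← sum_add_distrib, mul_sum]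
  refine sum_congr rfl fun p _ => ?_
  rw [← sum_add_distrib, mul_sum]
  refine sum_congr rfl fun q _ => ?_
  by_cases hpq : p = q
  · simp [hpq]
  · rw [if_neg hpq, if_neg hpq]
    set c0 := ∑ i ∈ rest p q, ∑ j ∈ rest p q, if i = j then 0 else h (x i, x j) with hc0
    have e : sl p q (S2 h) x = (2:ℝ) • h + (2:ℝ) • (∑ l ∈ rest p q, dbl (hc h (x l)))
        + fun _ => c0 := by
      funext z
      rw [sl_S2 hpq hs, ← hc0]
      simp only [Pi.add_apply, Pi.smul_apply, smul_eq_mul, Finset.sum_apply]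
      congr 1
      congr 1
      unfold dbl psi hc
      rw [sum_add_distrib]; ring
    have e3 : (∑ l, if p = q ∨ p = l ∨ q = l then 0 else gc K h (x l) (x p, x q)) =
        ∑ l ∈ rest p q, gc K h (x l) (x p, x q) := by
      have : ∀ l, (if p = q ∨ p = l ∨ q = l then 0 else gc K h (x l) (x p, x q)) =
          if l ∈ rest p q then gc K h (x l) (x p, x q) else 0 := by
        intro l
        simp only [mem_rest]
        by_cases c1 : p = l
        · subst c1; simp
        · by_cases c2 : q = l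
          · subst c2; simp
          · simp [c1, c2, hpq, Ne.symm c1, Ne.symm c2]
      simp only [this]
      rw [← sum_filter, filter_mem_eq_inter, univ_inter]
    rw [e3, e, op_add_const hR, op_add, op_smul, op_smul, op_sum]
    simp only [Pi.sub_apply, Pi.add_apply, Pi.smul_apply, smul_eq_mul, Finset.sum_apply, gc]
    rw [sum_sub_distrib]
    ring

/-! ### level 1 -/

theorem decomp1 (hk : 2 ≤ k) (h1 : ∑ a, π a = 1) (hπ : ∀ a, 0 ≤ π a) (hR : RevPsd (pw π) K)
    {f : Ω → ℝ} (hf : Mz π f) :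
    ∃ f' h', Mz π f' ∧ Can π h' ∧ op (popK K) (S1 (k := k) f) = S1 f' + S2 h' ∧
      ip (prodW π) (S2 (k := k) h') (S2 h') ≤
        25 / (k:ℝ) ^ 3 * ip (prodW π) (S1 (k := k) f) (S1 f) := by
  have hkr : (2:ℝ) ≤ k := by exact_mod_cast hk
  set g := dbl f - op K (dbl f) with hg
  have hg0 : Mz2 π g := mz2_sub_op hR _
  have hC : Can π (sy (g0 π g)) := can_sy (g0_mz1 h1 hg0) (g0_mz2 h1 hg0)
  refine ⟨f + (-(1/(k:ℝ))) • (m1 π g + m2 π g), (-(1 / ((k:ℝ) * ((k:ℝ) - 1)))) • sy (g0 π g),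
    hf.add (((mz_m1 hg0).add (mz_m2 hg0)).smul _), hC.smul _, ?_, ?_⟩
  · have e := sub_S1 (k := k) hk hR f
    rw [← hg, S2_decomp (π := π) g] at e
    have e' : op (popK K) (S1 (k := k) f) = S1 f -
        (1 / ((k:ℝ) * ((k:ℝ) - 1))) • (((k:ℝ) - 1) • S1 (m1 π g + m2 π g) + S2 (g0 π g)) := by
      rw [← e]; abel
    rw [e']
    simp only [S1_add, S1_smul, S2_smul, S2_sy]
    funext x
    simp only [Pi.sub_apply, Pi.add_apply, Pi.smul_apply, smul_eq_mul]
    have : ((k:ℝ) - 1) ≠ 0 := by linarith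
    have : (k:ℝ) ≠ 0 := by linarith
    field_simp
    ring
  · rw [ip_S2 h1 (hC.smul _), ip_S1 h1 hf, ip_smul_left, ip_smul_right]
    have b1 : ip (pw π) (sy (g0 π g)) (sy (g0 π g)) ≤ 2 * ip π f f := by
      calc _ ≤ ip (pw π) (g0 π g) (g0 π g) := ip_sy_le hπ _
        _ ≤ ip (pw π) g g := ip_g0_le h1 hπ hg0
        _ ≤ ip (pw π) (dbl f) (dbl f) := hR.sub_contr _
        _ = 2 * ip π f f := ip_dbl h1 hf
    have hff : 0 ≤ ip π f f := ip_self_nonneg hπ f
    have hpos := k_pos_aux hk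
    have e1 : 2 * ((k:ℝ) * (k - 1)) * (-(1 / ((k:ℝ) * ((k:ℝ) - 1))) *
        (-(1 / ((k:ℝ) * ((k:ℝ) - 1))) * ip (pw π) (sy (g0 π g)) (sy (g0 π g)))) =
        2 / ((k:ℝ) * (k - 1)) * ip (pw π) (sy (g0 π g)) (sy (g0 π g)) := by
      have : ((k:ℝ) - 1) ≠ 0 := by linarith
      have : (k:ℝ) ≠ 0 := by linarith
      field_simp
    rw [e1]
    calc _ ≤ 2 / ((k:ℝ) * (k - 1)) * (2 * ip π f f) :=
          mul_le_mul_of_nonneg_left b1 (by positivity)
      _ = 4 / ((k:ℝ) * k * (k - 1)) * (k * ip π f f) := by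
          have : ((k:ℝ) - 1) ≠ 0 := by linarith
          have : (k:ℝ) ≠ 0 := by linarith
          field_simp
          ring
      _ ≤ _ := cube_aux1 hk (by positivity)

/-! ### level 2 -/

theorem gc_lin {h : Ω × Ω → ℝ} (H : Can π h) : ∑ c, π c • gc K h c = 0 := by
  have e1 : ∑ c, π c • dbl (hc h c) = (0 : Ω × Ω → ℝ) := by
    funext z
    simp only [Finset.sum_apply, Pi.smul_apply, smul_eq_mul, Pi.zero_apply, dbl, hc, mul_add]
    rw [sum_add_distrib, H.mz', H.mz', add_zero]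
  have e2 : ∑ c, π c • gc K h c = ∑ c, π c • dbl (hc h c) - op K (∑ c, π c • dbl (hc h c)) := by
    rw [op_sum, ← sum_sub_distrib]
    refine sum_congr rfl fun c _ => ?_
    rw [op_smul, gc, smul_sub]
  rw [e2, e1]
  funext z
  simp [op]

theorem gc_lin' {h : Ω × Ω → ℝ} (H : Can π h) (z : Ω × Ω) : ∑ c, π c * gc K h c z = 0 := by
  have := congrFun (gc_lin (K := K) H) z
  simpa [Finset.sum_apply] using this

theorem m1_gc {h : Ω × Ω → ℝ} (H : Can π h) (a : Ω) : ∑ c, π c * m1 π (gc K h c) a = 0 := by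
  unfold m1
  have : ∀ c, π c * ∑ b, π b * gc K h c (a, b) = ∑ b, π b * (π c * gc K h c (a, b)) := by
    intro c; rw [mul_sum]; exact sum_congr rfl fun b _ => by ring
  simp only [this]
  rw [sum_comm]
  refine sum_eq_zero fun b _ => ?_
  rw [← mul_sum, gc_lin' H, mul_zero]

theorem m2_gc {h : Ω × Ω → ℝ} (H : Can π h) (b : Ω) : ∑ c, π c * m2 π (gc K h c) b = 0 := by
  unfold m2
  have : ∀ c, π c * ∑ a, π a * gc K h c (a, b) = ∑ a, π a * (π c * gc K h c (a, b)) := by
    intro c; rw [mul_sum]; exact sum_congr rfl fun b _ => by ring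
  simp only [this]
  rw [sum_comm]
  refine sum_eq_zero fun b _ => ?_
  rw [← mul_sum, gc_lin' H, mul_zero]

theorem g0_gc {h : Ω × Ω → ℝ} (H : Can π h) (z : Ω × Ω) :
    ∑ c, π c * g0 π (gc K h c) z = 0 := by
  unfold g0
  simp only [mul_sub]
  rw [sum_sub_distrib, sum_sub_distrib, gc_lin' H, m1_gc H, m2_gc H]
  simp

theorem decomp2 (hk : 2 ≤ k) (h1 : ∑ a, π a = 1) (hπ : ∀ a, 0 ≤ π a) (hR : RevPsd (pw π) K)
    {h : Ω × Ω → ℝ} (H : Can π h) :
    ∃ f' h' R, Mz π f' ∧ Can π h' ∧ op (popK K) (S2 (k := k) h) = S1 f' + S2 h' + R ∧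
      ip (prodW π) (S1 (k := k) f') (S1 f') ≤
        25 / (k:ℝ) ^ 3 * ip (prodW π) (S2 (k := k) h) (S2 h) ∧
      ip (prodW π) R R ≤ 25 / (k:ℝ) ^ 3 * ip (prodW π) (S2 (k := k) h) (S2 h) := by
  have hkr : (2:ℝ) ≤ k := by exact_mod_cast hk
  have hk1 : ((k:ℝ) - 1) ≠ 0 := by linarith
  have hk0 : (k:ℝ) ≠ 0 := by linarith
  have hpos := k_pos_aux hk
  set g := h - op K h with hg
  have hg0 : Mz2 π g := mz2_sub_op hR _
  have hgc : ∀ c, Mz2 π (gc K h c) := fun c => mz2_sub_op hR _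
  have hC : Can π (sy (g0 π g)) := can_sy (g0_mz1 h1 hg0) (g0_mz2 h1 hg0)
  set u : Ω × Ω → ℝ := fun z => m1 π (gc K h z.2) z.1 with hu
  set v : Ω × Ω → ℝ := fun z => m2 π (gc K h z.2) z.1 with hv
  set w : Ω → Ω → Ω → ℝ := fun a b c => g0 π (gc K h c) (a, b) with hw
  have hCuv : Can π (sy (u + v)) := by
    apply can_sy
    · intro c
      simp only [Pi.add_apply, hu, hv, mul_add]
      rw [sum_add_distrib]
      have a1 := mz_m1 (hgc c)
      have a2 := mz_m2 (hgc c)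
      unfold Mz at a1 a2
      rw [a1, a2, add_zero]
    · intro a
      simp only [Pi.add_apply, hu, hv, mul_add]
      rw [sum_add_distrib, m1_gc H, m2_gc H, add_zero]
  have hS3 : S3 (k := k) (fun a b c => gc K h c (a, b)) = ((k:ℝ) - 2) • S2 (u + v) + S3 w := by
    apply S3_split
    intro a b c
    simp only [hu, hv, hw, g0]; ring
  have hhh : 0 ≤ ip (pw π) h h := ip_self_nonneg (pw_nonneg hπ) h
  have hgg : ip (pw π) g g ≤ ip (pw π) h h := hR.sub_contr _
  refine ⟨(-(2/(k:ℝ))) • (m1 π g + m2 π g),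
    h + (-(2 / ((k:ℝ) * ((k:ℝ) - 1)))) • sy (g0 π g) +
      (-(2 * ((k:ℝ) - 2) / ((k:ℝ) * ((k:ℝ) - 1)))) • sy (u + v),
    (-(2 / ((k:ℝ) * ((k:ℝ) - 1)))) • S3 w,
    ((mz_m1 hg0).add (mz_m2 hg0)).smul _, (H.add (hC.smul _)).add (hCuv.smul _), ?_, ?_, ?_⟩
  · have e := sub_S2 (k := k) hk hR H.symm
    rw [← hg, S2_decomp (π := π) g, hS3] at e
    have e' : op (popK K) (S2 (k := k) h) = S2 h -
        (2 / ((k:ℝ) * ((k:ℝ) - 1))) • (((k:ℝ) - 1) • S1 (m1 π g + m2 π g) + S2 (g0 π g) +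
          (((k:ℝ) - 2) • S2 (u + v) + S3 w)) := by
      rw [← e]; abel
    rw [e']
    simp only [S1_add, S2_add, S1_smul, S2_smul, S2_sy]
    funext x
    simp only [Pi.sub_apply, Pi.add_apply, Pi.smul_apply, smul_eq_mul]
    field_simp
    ring
  · have hmz : Mz π ((-(2/(k:ℝ))) • (m1 π g + m2 π g)) :=
      ((mz_m1 hg0).add (mz_m2 hg0)).smul _
    rw [ip_S1 h1 hmz, ip_smul_left, ip_smul_right, ip_S2 h1 H]
    have b1 : ip π (m1 π g + m2 π g) (m1 π g + m2 π g) ≤ 2 * ip (pw π) h h := by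
      have c1 : ip π (m1 π g + m2 π g) (m1 π g + m2 π g) ≤
          2 * ip π (m1 π g) (m1 π g) + 2 * ip π (m2 π g) (m2 π g) := by
        unfold ip
        rw [mul_sum, mul_sum, ← sum_add_distrib]
        refine sum_le_sum fun a _ => ?_
        simp only [Pi.add_apply]
        nlinarith [mul_nonneg (hπ a) (sq_nonneg (m1 π g a - m2 π g a))]
      have c2 := ip_m1_le h1 hπ hg0
      linarith
    calc _ = 4 / (k:ℝ) * ip π (m1 π g + m2 π g) (m1 π g + m2 π g) := by
          field_simp; ring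
      _ ≤ 4 / (k:ℝ) * (2 * ip (pw π) h h) := mul_le_mul_of_nonneg_left b1 (by positivity)
      _ = 4 / ((k:ℝ) * k * (k - 1)) * (2 * (k * (k - 1)) * ip (pw π) h h) := by
          field_simp
      _ ≤ _ := cube_aux1 hk (by positivity)
  · rw [ip_smul_left, ip_smul_right, ip_S2 h1 H]
    have b1 : n3 π w ≤ 2 * ip (pw π) h h := by
      have c1 : n3 π w = ∑ c, π c * ip (pw π) (g0 π (gc K h c)) (g0 π (gc K h c)) := by
        unfold n3 ip
        have : ∀ c, π c * ∑ z : Ω × Ω, pw π z * g0 π (gc K h c) z * g0 π (gc K h c) z =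
            ∑ a, ∑ b, π a * π b * π c * w a b c ^ 2 := by
          intro c
          rw [Fintype.sum_prod_type, mul_sum]
          refine sum_congr rfl fun a _ => ?_
          rw [mul_sum]
          refine sum_congr rfl fun b _ => ?_
          simp only [pw, hw]; ring
        simp only [this]
        calc ∑ a, ∑ b, ∑ c, π a * π b * π c * w a b c ^ 2 =
            ∑ a, ∑ c, ∑ b, π a * π b * π c * w a b c ^ 2 := sum_congr rfl fun a _ => sum_comm
          _ = ∑ c, ∑ a, ∑ b, π a * π b * π c * w a b c ^ 2 := sum_comm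
      have c2 : ∀ c, ip (pw π) (g0 π (gc K h c)) (g0 π (gc K h c)) ≤ 2 * ip π (hc h c) (hc h c) := by
        intro c
        calc _ ≤ ip (pw π) (gc K h c) (gc K h c) := ip_g0_le h1 hπ (hgc c)
          _ ≤ ip (pw π) (dbl (hc h c)) (dbl (hc h c)) := hR.sub_contr _
          _ = 2 * ip π (hc h c) (hc h c) := ip_dbl h1 (H.mz c)
      have c3 : ∑ c, π c * (2 * ip π (hc h c) (hc h c)) = 2 * ip (pw π) h h := by
        unfold ip
        rw [Fintype.sum_prod_type, sum_comm, mul_sum]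
        refine sum_congr rfl fun c _ => ?_
        rw [mul_sum, mul_sum, mul_sum]
        refine sum_congr rfl fun a _ => ?_
        simp only [pw, hc]; ring
      rw [c1, ← c3]
      exact sum_le_sum fun c _ => mul_le_mul_of_nonneg_left (c2 c) (hπ c)
    have b2 := ip_S3_le (k := k) hπ h1 w (fun b c => g0_mz1 h1 (hgc c) b)
      (fun a c => g0_mz2 h1 (hgc c) a) (fun a b => g0_gc H (a, b))
    have hk2 : 0 ≤ (k:ℝ) - 2 := by linarith
    have b3 : ip (prodW π) (S3 (k := k) w) (S3 w) ≤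
        6 * ((k:ℝ) * (k - 1) * (k - 2)) * (2 * ip (pw π) h h) :=
      b2.trans (mul_le_mul_of_nonneg_left b1 (by positivity))
    calc _ = 4 / (((k:ℝ) * (k - 1)) * (k * (k - 1))) * ip (prodW π) (S3 (k := k) w) (S3 w) := by
          field_simp; ring
      _ ≤ 4 / (((k:ℝ) * (k - 1)) * (k * (k - 1))) *
          (6 * ((k:ℝ) * (k - 1) * (k - 2)) * (2 * ip (pw π) h h)) :=
          mul_le_mul_of_nonneg_left b3 (by positivity)
      _ = 24 * (k - 2) / ((k:ℝ) ^ 2 * (k - 1) ^ 2) * (2 * (k * (k - 1)) * ip (pw π) h h) := by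
          field_simp; ring
      _ ≤ _ := by
          refine mul_le_mul_of_nonneg_right ?_ (by positivity)
          rw [div_le_div_iff₀ (by positivity) (by positivity)]
          nlinarith [mul_pos (show (0:ℝ) < k by linarith) (show (0:ℝ) < k by linarith)]

end Crest.Agent.R304.Pop
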