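import Crest.Agent.R304.PopSlice

/-!
# R304 / S0464, block L4: symmetric sums `S1`, `S2`, `S3` and their norms
-/

set_option autoImplicit false
set_option linter.unusedSectionVars false

noncomputable section

namespace Crest.Agent.R304.Pop

open Finset Function

variable {Ω : Type*} [Fintype Ω] [DecidableEq Ω] {k : ℕ}

/-- `∑ i, f (x i)`. -/
def S1 (f : Ω → ℝ) (x : Fin k → Ω) : ℝ := ∑ i, f (x i)

/-- `∑ i ≠ j, h (x i, x j)`. -/
def S2 (h : Ω × Ω → ℝ) (x : Fin k → Ω) : ℝ := ∑ i, ∑ j, if i = j then 0 else h (x i, x j)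

/-- `∑ i, j, l` distinct, `t (x i) (x j) (x l)`. -/
def S3 (t : Ω → Ω → Ω → ℝ) (x : Fin k → Ω) : ℝ :=
  ∑ i, ∑ j, ∑ l, if i = j ∨ i = l ∨ j = l then 0 else t (x i) (x j) (x l)

/-- Mean zero. -/
def Mz (π : Ω → ℝ) (f : Ω → ℝ) : Prop := ∑ a, π a * f a = 0

/-- Symmetric canonical kernel functions. -/
structure Can (π : Ω → ℝ) (h : Ω × Ω → ℝ) : Prop where
  symm : ∀ a b, h (a, b) = h (b, a)
  mz : ∀ b, ∑ a, π a * h (a, b) = 0

theorem Can.mz' {π : Ω → ℝ} {h : Ω × Ω → ℝ} (H : Can π h) (a : Ω) : ∑ b, π b * h (a, b) = 0 := by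
  rw [← H.mz a]; exact sum_congr rfl fun b _ => by rw [H.symm]

variable {π : Ω → ℝ}

theorem ip_S1 (h1 : ∑ a, π a = 1) {f g : Ω → ℝ} (hg : Mz π g) :
    ip (prodW π) (S1 (k := k) f) (S1 g) = k * ip π f g := by
  have e1 : ip (prodW π) (S1 (k := k) f) (S1 g) =
      ∑ i : Fin k, ∑ j : Fin k, ∑ x : Fin k → Ω, prodW π x * (f (x i) * g (x j)) := by
    unfold ip S1
    have : ∀ x : Fin k → Ω, prodW π x * (∑ i, f (x i)) * ∑ j, g (x j) =
        ∑ i, ∑ j, prodW π x * (f (x i) * g (x j)) := by
      intro x
      rw [mul_assoc, sum_mul_sum, mul_sum]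
      exact sum_congr rfl fun i _ => mul_sum _ _ _
    simp only [this]
    rw [sum_comm]
    exact sum_congr rfl fun i _ => sum_comm
  have e2 : ∀ i j : Fin k, ∑ x, prodW π x * (f (x i) * g (x j)) =
      if i = j then ip π f g else 0 := by
    intro i j
    split_ifs with hij
    · subst hij
      rw [marg1 h1 i (fun a => f a * g a)]
      unfold ip; exact sum_congr rfl fun a _ => by ring
    · refine mean_zero_of h1 j _ fun x => ?_
      simp only [update_self, update_of_ne hij]
      have : ∑ a, π a * (f (x i) * g a) = f (x i) * ∑ a, π a * g a := by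
        rw [mul_sum]; exact sum_congr rfl fun a _ => by ring
      rw [this, hg, mul_zero]
  rw [e1]
  simp only [e2, sum_ite_eq, mem_univ, if_true, sum_const, card_univ, Fintype.card_fin,
    nsmul_eq_mul]

theorem ip_S2 (h1 : ∑ a, π a = 1) {h : Ω × Ω → ℝ} (H : Can π h) :
    ip (prodW π) (S2 (k := k) h) (S2 h) = 2 * (k * (k - 1)) * ip (pw π) h h := by
  set N := ip (pw π) h h with hN
  have e1 : ip (prodW π) (S2 (k := k) h) (S2 h) =
      ∑ i : Fin k, ∑ j : Fin k, ∑ i' : Fin k, ∑ j' : Fin k, ∑ x : Fin k → Ω, prodW π x *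
        ((if i = j then 0 else h (x i, x j)) * (if i' = j' then 0 else h (x i', x j'))) := by
    unfold ip S2
    have : ∀ x : Fin k → Ω, prodW π x * (∑ i, ∑ j, if i = j then 0 else h (x i, x j)) *
        (∑ i, ∑ j, if i = j then 0 else h (x i, x j)) =
        ∑ i, ∑ j, ∑ i', ∑ j', prodW π x *
        ((if i = j then 0 else h (x i, x j)) * (if i' = j' then 0 else h (x i', x j'))) := by
      intro x
      rw [mul_assoc, sum_mul, mul_sum]
      refine sum_congr rfl fun i _ => ?_
      rw [sum_mul, mul_sum]
      refine sum_congr rfl fun j _ => ?_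
      rw [mul_sum, mul_sum]
      refine sum_congr rfl fun i' _ => ?_
      rw [mul_sum, mul_sum]
    simp only [this]
    rw [sum_comm]
    refine sum_congr rfl fun i _ => ?_
    rw [sum_comm]
    refine sum_congr rfl fun j _ => ?_
    rw [sum_comm]
    refine sum_congr rfl fun i' _ => ?_
    rw [sum_comm]
  have e2 : ∀ i j : Fin k, ∑ i', ∑ j', ∑ x, prodW π x *
        ((if i = j then 0 else h (x i, x j)) * (if i' = j' then 0 else h (x i', x j'))) =
        if i ≠ j then 2 * N else 0 := by
    intro i j
    by_cases hij : i = j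
    · simp [hij]
    · rw [if_pos hij]
      simp only [if_neg hij]
      have e3 : ∀ i' j' : Fin k, ∑ x, prodW π x *
          (h (x i, x j) * (if i' = j' then 0 else h (x i', x j'))) =
          (if i' = i then (if j' = j then N else 0) else 0) +
          (if i' = j then (if j' = i then N else 0) else 0) := by
        intro i' j'
        by_cases hi'j' : i' = j'
        · subst hi'j'
          simp only [if_true, mul_zero, sum_const_zero]
          by_cases c1 : i' = i
          · subst c1; simp [hij]
          · simp [c1]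
        · simp only [if_neg hi'j']
          by_cases c1 : i' = i
          · subst c1
            by_cases c2 : j' = j
            · subst c2
              have hne : ¬ (i' = j') := hij
              simp only [if_true, if_neg hne, if_neg (Ne.symm hij), add_zero]
              rw [marg2 h1 hij (fun a b => h (a, b) * h (a, b)), hN]
              unfold ip; exact sum_congr rfl fun z _ => by ring
            · simp only [if_true, if_neg c2, if_neg hij, add_zero]
              refine mean_zero_of h1 j' _ fun x => ?_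
              simp only [update_self, update_of_ne hi'j', update_of_ne (Ne.symm c2)]
              have : ∑ a, π a * (h (x i', x j) * h (x i', a)) =
                  h (x i', x j) * ∑ a, π a * h (x i', a) := by
                rw [mul_sum]; exact sum_congr rfl fun a _ => by ring
              rw [this, H.mz', mul_zero]
          · by_cases c3 : i' = j
            · subst c3
              by_cases c4 : j' = i
              · subst c4
                simp only [if_true, if_neg c1, zero_add]
                rw [marg2 h1 hij (fun a b => h (a, b) * h (b, a)), hN]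
                unfold ip; exact sum_congr rfl fun z _ => by rw [← H.symm z.1 z.2]; ring
              · simp only [if_true, if_neg c1, if_neg c4, zero_add]
                refine mean_zero_of h1 j' _ fun x => ?_
                simp only [update_self, update_of_ne hi'j', update_of_ne (Ne.symm c4)]
                have : ∑ a, π a * (h (x i, x i') * h (x i', a)) =
                    h (x i, x i') * ∑ a, π a * h (x i', a) := by
                  rw [mul_sum]; exact sum_congr rfl fun a _ => by ring
                rw [this, H.mz', mul_zero]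
            · simp only [if_neg c1, if_neg c3, add_zero]
              refine mean_zero_of h1 i' _ fun x => ?_
              simp only [update_self, update_of_ne (Ne.symm hi'j'), update_of_ne (Ne.symm c1),
                update_of_ne (Ne.symm c3)]
              have : ∑ a, π a * (h (x i, x j) * h (a, x j')) =
                  h (x i, x j) * ∑ a, π a * h (a, x j') := by
                rw [mul_sum]; exact sum_congr rfl fun a _ => by ring
              rw [this, H.mz, mul_zero]
      simp only [e3, sum_add_distrib, sum_ite_eq', mem_univ, if_true]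
      have : ∀ i₀ j₀ : Fin k, ∑ i', ∑ j', (if i' = i₀ then (if j' = j₀ then N else 0) else 0)
          = N := by
        intro i₀ j₀
        rw [sum_eq_single i₀]
        · simp
        · intro b _ hb; simp [hb]
        · intro hx; exact absurd (mem_univ _) hx
      rw [this, this]; ring
  rw [e1]
  simp only [e2]
  rw [sum_ordered_pairs]; ring

/-- Weighted sum over triples. -/
def n3 (π : Ω → ℝ) (t : Ω → Ω → Ω → ℝ) : ℝ := ∑ a, ∑ b, ∑ c, π a * π b * π c * t a b c ^ 2

theorem marg3 (h1 : ∑ a, π a = 1) {i j l : Fin k} (hij : i ≠ j) (hil : i ≠ l) (hjl : j ≠ l)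
    (φ : Ω → Ω → Ω → ℝ) :
    ∑ x : Fin k → Ω, prodW π x * φ (x i) (x j) (x l) =
      ∑ a, ∑ b, ∑ c, π a * π b * π c * φ a b c := by
  have ha := resample h1 l (fun x : Fin k → Ω => φ (x i) (x j) (x l))
  simp only [update_self, update_of_ne hil, update_of_ne hjl] at ha
  rw [← ha, marg2 h1 hij (fun a b => ∑ c, π c * φ a b c), Fintype.sum_prod_type]
  refine sum_congr rfl fun a _ => sum_congr rfl fun b _ => ?_
  rw [mul_sum]; exact sum_congr rfl fun c _ => by simp only [pw]; ring

theorem cross3 (hπ : ∀ a, 0 ≤ π a) (h1 : ∑ a, π a = 1) (t : Ω → Ω → Ω → ℝ)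
    (ha : ∀ b c, ∑ a, π a * t a b c = 0) (hb : ∀ a c, ∑ b, π b * t a b c = 0)
    (hc : ∀ a b, ∑ c, π c * t a b c = 0) {i j l i' j' l' : Fin k}
    (hij : i ≠ j) (hil : i ≠ l) (hjl : j ≠ l) (hij' : i' ≠ j') (hil' : i' ≠ l') (hjl' : j' ≠ l') :
    ∑ x : Fin k → Ω, prodW π x * (t (x i) (x j) (x l) * t (x i') (x j') (x l')) ≤
      if i' ∈ ({i, j, l} : Finset (Fin k)) ∧ j' ∈ ({i, j, l} : Finset (Fin k)) ∧
        l' ∈ ({i, j, l} : Finset (Fin k)) then n3 π t else 0 := by
  split_ifs with hs
  · have e : ∀ x : Fin k → Ω, prodW π x * (t (x i) (x j) (x l) * t (x i') (x j') (x l')) ≤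
        (1/2) * (prodW π x * t (x i) (x j) (x l) ^ 2) +
        (1/2) * (prodW π x * t (x i') (x j') (x l') ^ 2) := by
      intro x
      have h2 := prodW_nonneg hπ x
      nlinarith [mul_nonneg h2 (sq_nonneg (t (x i) (x j) (x l) - t (x i') (x j') (x l')))]
    refine (sum_le_sum fun x _ => e x).trans ?_
    rw [sum_add_distrib, ← mul_sum, ← mul_sum,
      marg3 h1 hij hil hjl (fun a b c => t a b c ^ 2),
      marg3 h1 hij' hil' hjl' (fun a b c => t a b c ^ 2)]
    unfold n3
    linarith
  · simp only [mem_insert, mem_singleton, not_and_or, not_or] at hs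
    refine le_of_eq ?_
    rcases hs with ⟨c1, c2, c3⟩ | ⟨c1, c2, c3⟩ | ⟨c1, c2, c3⟩
    · refine mean_zero_of h1 i' _ fun x => ?_
      simp only [update_self, update_of_ne (Ne.symm c1), update_of_ne (Ne.symm c2),
        update_of_ne (Ne.symm c3), update_of_ne (Ne.symm hij'), update_of_ne (Ne.symm hil')]
      have : ∑ a, π a * (t (x i) (x j) (x l) * t a (x j') (x l')) =
          t (x i) (x j) (x l) * ∑ a, π a * t a (x j') (x l') := by
        rw [mul_sum]; exact sum_congr rfl fun a _ => by ring
      rw [this, ha, mul_zero]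
    · refine mean_zero_of h1 j' _ fun x => ?_
      simp only [update_self, update_of_ne (Ne.symm c1), update_of_ne (Ne.symm c2),
        update_of_ne (Ne.symm c3), update_of_ne hij', update_of_ne (Ne.symm hjl')]
      have : ∑ a, π a * (t (x i) (x j) (x l) * t (x i') a (x l')) =
          t (x i) (x j) (x l) * ∑ a, π a * t (x i') a (x l') := by
        rw [mul_sum]; exact sum_congr rfl fun a _ => by ring
      rw [this, hb, mul_zero]
    · refine mean_zero_of h1 l' _ fun x => ?_
      simp only [update_self, update_of_ne (Ne.symm c1), update_of_ne (Ne.symm c2),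
        update_of_ne (Ne.symm c3), update_of_ne hil', update_of_ne hjl']
      have : ∑ a, π a * (t (x i) (x j) (x l) * t (x i') (x j') a) =
          t (x i) (x j) (x l) * ∑ a, π a * t (x i') (x j') a := by
        rw [mul_sum]; exact sum_congr rfl fun a _ => by ring
      rw [this, hc, mul_zero]

theorem count3 {s : Finset (Fin k)} (hs : s.card = 3) (c : ℝ) :
    (∑ i', ∑ j', ∑ l', if i' = j' ∨ i' = l' ∨ j' = l' then (0:ℝ) else
      if i' ∈ s ∧ j' ∈ s ∧ l' ∈ s then c else 0) = 6 * c := by
  have e1 : ∀ i' j' : Fin k, (∑ l', if i' = j' ∨ i' = l' ∨ j' = l' then (0:ℝ) else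
      if i' ∈ s ∧ j' ∈ s ∧ l' ∈ s then c else 0) =
      if i' ∈ s ∧ j' ∈ s ∧ i' ≠ j' then c else 0 := by
    intro i' j'
    split_ifs with hh
    · obtain ⟨hi, hj, hne⟩ := hh
      have : ∀ l', (if i' = j' ∨ i' = l' ∨ j' = l' then (0:ℝ) else
          if i' ∈ s ∧ j' ∈ s ∧ l' ∈ s then c else 0) =
          if l' ∈ (s.erase i').erase j' then c else 0 := by
        intro l'
        simp only [mem_erase, hi, hj, true_and, hne, false_or]
        by_cases a1 : i' = l'
        · subst a1; simp
        · by_cases a2 : j' = l'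
          · subst a2; simp
          · simp [a1, a2, Ne.symm a1, Ne.symm a2]
      simp only [this]
      rw [← sum_filter, filter_mem_eq_inter, univ_inter, sum_const,
        card_erase_of_mem (mem_erase.2 ⟨Ne.symm hne, hj⟩), card_erase_of_mem hi, hs]
      simp
    · refine sum_eq_zero fun l' _ => ?_
      split_ifs with h2 h3
      · rfl
      · exact absurd ⟨h3.1, h3.2.1, fun e => h2 (Or.inl e)⟩ hh
      · rfl
  simp only [e1]
  have e2 : ∀ i' : Fin k, (∑ j', if i' ∈ s ∧ j' ∈ s ∧ i' ≠ j' then c else 0) =
      if i' ∈ s then 2 * c else 0 := by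
    intro i'
    split_ifs with hi
    · have : ∀ j', (if i' ∈ s ∧ j' ∈ s ∧ i' ≠ j' then c else 0) =
          if j' ∈ s.erase i' then c else 0 := by
        intro j'
        by_cases a1 : i' = j'
        · subst a1; simp
        · simp [hi, a1, Ne.symm a1]
      simp only [this]
      rw [← sum_filter, filter_mem_eq_inter, univ_inter, sum_const, card_erase_of_mem hi, hs]
      simp
    · exact sum_eq_zero fun j' _ => if_neg fun hh => hi hh.1
  simp only [e2]
  rw [← sum_filter, filter_mem_eq_inter, univ_inter, sum_const, hs]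
  simp; ring

theorem sum_ordered_triples (c : ℝ) :
    (∑ i : Fin k, ∑ j : Fin k, ∑ l : Fin k, if i = j ∨ i = l ∨ j = l then (0:ℝ) else c) =
      (k : ℝ) * ((k : ℝ) - 1) * ((k : ℝ) - 2) * c := by
  have e1 : ∀ i j : Fin k, (∑ l : Fin k, if i = j ∨ i = l ∨ j = l then (0:ℝ) else c) =
      if i ≠ j then ((k : ℝ) - 2) * c else 0 := by
    intro i j
    by_cases hij : i = j
    · simp [hij]
    · rw [if_pos hij]
      have : ∀ l, (if i = j ∨ i = l ∨ j = l then (0:ℝ) else c) =
          if l ∈ (univ.erase i).erase j then c else 0 := by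
        intro l
        by_cases a1 : i = l
        · subst a1; simp
        · by_cases a2 : j = l
          · subst a2; simp
          · simp [hij, a1, a2, Ne.symm a1, Ne.symm a2]
      simp only [this]
      rw [← sum_filter, filter_mem_eq_inter, univ_inter, sum_const,
        card_erase_of_mem (mem_erase.2 ⟨Ne.symm hij, mem_univ _⟩),
        card_erase_of_mem (mem_univ _), card_univ, Fintype.card_fin, nsmul_eq_mul]
      have hk : 2 ≤ k := by
        have h1 := i.2; have h2 := j.2
        by_contra hlt
        apply hij; apply Fin.ext; omega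
      rw [show k - 1 - 1 = k - 2 by omega, Nat.cast_sub hk]; simp
  simp only [e1]
  rw [sum_ordered_pairs]; ring

theorem ip_S3_le (hπ : ∀ a, 0 ≤ π a) (h1 : ∑ a, π a = 1) (t : Ω → Ω → Ω → ℝ)
    (ha : ∀ b c, ∑ a, π a * t a b c = 0) (hb : ∀ a c, ∑ b, π b * t a b c = 0)
    (hc : ∀ a b, ∑ c, π c * t a b c = 0) :
    ip (prodW π) (S3 (k := k) t) (S3 t) ≤
      6 * ((k : ℝ) * ((k : ℝ) - 1) * ((k : ℝ) - 2)) * n3 π t := by
  have e1 : ip (prodW π) (S3 (k := k) t) (S3 t) =
      ∑ i : Fin k, ∑ j : Fin k, ∑ l : Fin k, ∑ i' : Fin k, ∑ j' : Fin k, ∑ l' : Fin k,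
        ∑ x : Fin k → Ω, prodW π x *
        ((if i = j ∨ i = l ∨ j = l then 0 else t (x i) (x j) (x l)) *
         (if i' = j' ∨ i' = l' ∨ j' = l' then 0 else t (x i') (x j') (x l'))) := by
    unfold ip S3
    have : ∀ x : Fin k → Ω,
        prodW π x * (∑ i, ∑ j, ∑ l, if i = j ∨ i = l ∨ j = l then 0 else t (x i) (x j) (x l)) *
        (∑ i, ∑ j, ∑ l, if i = j ∨ i = l ∨ j = l then 0 else t (x i) (x j) (x l)) =
        ∑ i, ∑ j, ∑ l, ∑ i', ∑ j', ∑ l', prodW π x *
        ((if i = j ∨ i = l ∨ j = l then 0 else t (x i) (x j) (x l)) *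
         (if i' = j' ∨ i' = l' ∨ j' = l' then 0 else t (x i') (x j') (x l'))) := by
      intro x
      rw [mul_assoc, sum_mul, mul_sum]
      refine sum_congr rfl fun i _ => ?_
      rw [sum_mul, mul_sum]
      refine sum_congr rfl fun j _ => ?_
      rw [sum_mul, mul_sum]
      refine sum_congr rfl fun l _ => ?_
      rw [mul_sum, mul_sum]
      refine sum_congr rfl fun i' _ => ?_
      rw [mul_sum, mul_sum]
      refine sum_congr rfl fun j' _ => ?_
      rw [mul_sum, mul_sum]
    simp only [this]
    rw [sum_comm]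
    refine sum_congr rfl fun i _ => ?_
    rw [sum_comm]
    refine sum_congr rfl fun j _ => ?_
    rw [sum_comm]
    refine sum_congr rfl fun l _ => ?_
    rw [sum_comm]
    refine sum_congr rfl fun i' _ => ?_
    rw [sum_comm]
    refine sum_congr rfl fun j' _ => ?_
    rw [sum_comm]
  rw [e1]
  have e2 : ∀ i j l : Fin k, (∑ i', ∑ j', ∑ l', ∑ x, prodW π x *
        ((if i = j ∨ i = l ∨ j = l then 0 else t (x i) (x j) (x l)) *
         (if i' = j' ∨ i' = l' ∨ j' = l' then 0 else t (x i') (x j') (x l')))) ≤
      if i = j ∨ i = l ∨ j = l then 0 else 6 * n3 π t := by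
    intro i j l
    by_cases hd : i = j ∨ i = l ∨ j = l
    · simp [hd]
    · rw [if_neg hd]
      simp only [if_neg hd]
      have hd' := hd
      push Not at hd'
      obtain ⟨hij, hil, hjl⟩ := hd'
      have hcard : ({i, j, l} : Finset (Fin k)).card = 3 := by
        rw [card_insert_of_notMem (by simp [hij, hil]), card_insert_of_notMem (by simp [hjl]),
          card_singleton]
      rw [← count3 hcard (n3 π t)]
      refine sum_le_sum fun i' _ => sum_le_sum fun j' _ => sum_le_sum fun l' _ => ?_
      by_cases hd2 : i' = j' ∨ i' = l' ∨ j' = l'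
      · simp [hd2]
      · simp only [if_neg hd2]
        push Not at hd2
        exact cross3 hπ h1 t ha hb hc hij hil hjl hd2.1 hd2.2.1 hd2.2.2
  calc _ ≤ ∑ i : Fin k, ∑ j : Fin k, ∑ l : Fin k,
        (if i = j ∨ i = l ∨ j = l then (0:ℝ) else 6 * n3 π t) :=
        sum_le_sum fun i _ => sum_le_sum fun j _ => sum_le_sum fun l _ => e2 i j l
    _ = _ := by rw [sum_ordered_triples]; ring

end Crest.Agent.R304.Pop
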