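import Crest.Agent.R304.ConfDefs

/-!
# R304 / S0464, block (iv): the relations (Rear) and (Rpair) from Lemma Q and repair

Let `p = (s, t)` be a pair of perfect matchings, cut in at most three edges (labels
`c = (r, u, v)`: the edge `uv` of replica `r`), giving `N = cutAll cs p`.  If `A` is a union of
components of `N`, then `hyb A s t` is obtained from `swp A N.1 N.2` by adding back some of the
cut edges.  Every addition costs a `repair` term, so Lemma Q for `N` gives the relation
`f s + f (M (U ∪ W)) ≈ f (M U) + f (M W)` for the canonical states `M A = jn (hyb A s t)`.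
-/

set_option autoImplicit false
set_option linter.unusedSectionVars false

namespace Crest.Agent.R304.Rel

open Finset

variable {V : Type*} [Fintype V] [DecidableEq V]

/-- labels of edges: `(r, u, v)` is the edge `uv` of replica `r` -/
abbrev Lb (V : Type*) := Bool × V × V

/-- the edge with label `c` is present in the pair -/
def has (c : Lb V) (p : (V → V) × (V → V)) : Prop :=
  (if c.1 then p.2 else p.1) c.2.1 = c.2.2 ∧ c.2.1 ≠ c.2.2

/-- remove the edge with label `c` -/
def cutp (c : Lb V) (p : (V → V) × (V → V)) : (V → V) × (V → V) :=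
  if c.1 then (p.1, del p.2 c.2.1) else (del p.1 c.2.1, p.2)

/-- add the edge with label `c` -/
def addp (c : Lb V) (p : (V → V) × (V → V)) : (V → V) × (V → V) :=
  if c.1 then (p.1, add p.2 c.2.1 c.2.2) else (add p.1 c.2.1 c.2.2, p.2)

/-- all edges are present, each one after the previous ones have been removed -/
def hasAll : List (Lb V) → (V → V) × (V → V) → Prop
  | [], _ => True
  | c :: cs, p => has c p ∧ hasAll cs (cutp c p)

/-- remove all edges of the list -/
def cutAll : List (Lb V) → (V → V) × (V → V) → (V → V) × (V → V)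
  | [], p => p
  | c :: cs, p => cutAll cs (cutp c p)

@[simp] theorem hasAll_nil (p : (V → V) × (V → V)) : hasAll [] p ↔ True := Iff.rfl
@[simp] theorem hasAll_cons (c : Lb V) (cs : List (Lb V)) (p : (V → V) × (V → V)) :
    hasAll (c :: cs) p ↔ has c p ∧ hasAll cs (cutp c p) := Iff.rfl
@[simp] theorem cutAll_nil (p : (V → V) × (V → V)) : cutAll [] p = p := rfl
@[simp] theorem cutAll_cons (c : Lb V) (cs : List (Lb V)) (p : (V → V) × (V → V)) :
    cutAll (c :: cs) p = cutAll cs (cutp c p) := rfl

/-- both members are involutions -/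
def Inv2 (p : (V → V) × (V → V)) : Prop := Inv p.1 ∧ Inv p.2

theorem Inv2.cutp {p : (V → V) × (V → V)} (h : Inv2 p) (c : Lb V) : Inv2 (cutp c p) := by
  unfold Rel.cutp
  split_ifs
  · exact ⟨h.1, h.2.del⟩
  · exact ⟨h.1.del, h.2⟩

theorem Inv2.cutAll {p : (V → V) × (V → V)} (h : Inv2 p) (cs : List (Lb V)) :
    Inv2 (cutAll cs p) := by
  induction cs generalizing p with
  | nil => exact h
  | cons c cs ih => exact ih (h.cutp c)

theorem addp_cutp {p : (V → V) × (V → V)} (h : Inv2 p) {c : Lb V} (hc : has c p) :
    addp c (cutp c p) = p := by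
  obtain ⟨r, u, v⟩ := c
  obtain ⟨s, t⟩ := p
  cases r
  · simp only [has, cutp, addp] at *
    simp only [Bool.false_eq_true, if_false] at *
    have : v = s u := hc.1.symm
    subst this
    rw [add_del h.1]
  · simp only [has, cutp, addp] at *
    simp only [if_true] at *
    have : v = t u := hc.1.symm
    subst this
    rw [add_del h.2]

theorem cutAll_inj {cs : List (Lb V)} {p q : (V → V) × (V → V)} (hp : Inv2 p) (hq : Inv2 q)
    (h1 : hasAll cs p) (h2 : hasAll cs q) (h : cutAll cs p = cutAll cs q) : p = q := by
  induction cs generalizing p q with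
  | nil => exact h
  | cons c cs ih =>
    have := ih (hp.cutp c) (hq.cutp c) h1.2 h2.2 h
    rw [← addp_cutp hp h1.1, ← addp_cutp hq h2.1, this]

/-! ### weights -/

section Weight
variable (a : V → V → ℝ) (b : V → ℝ)

/-- weight of a partial matching with hole activities `b` -/
def om (s : V → V) : ℝ := W a s * ∏ v ∈ holes s, b v

/-- weight of a pair -/
def om2 (p : (V → V) × (V → V)) : ℝ := om a b p.1 * om a b p.2

variable {a b}

theorem om_pos (ha : ∀ u v, 0 < a u v) (hb : ∀ v, 0 < b v) (s : V → V) : 0 < om a b s :=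
  mul_pos (W_pos ha s) (Finset.prod_pos fun _ _ => hb _)

theorem om2_pos (ha : ∀ u v, 0 < a u v) (hb : ∀ v, 0 < b v) (p : (V → V) × (V → V)) :
    0 < om2 a b p := mul_pos (om_pos ha hb _) (om_pos ha hb _)

theorem om_of_pm {s : V → V} (h : holes s = ∅) : om a b s = W a s := by
  simp [om, h]

/-- adding an edge multiplies the weight by `lam / (b b)` -/
theorem om_add (h1 : ∀ v, a v v = 1) {s : V → V} {u v : V} (huv : u ≠ v)
    (hu : s u = u) (hv : s v = v) : om a b (add s u v) * (b u * b v) = om a b s * lam a u v := by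
  unfold om
  rw [W_add h1 huv hu hv, holes_add huv]
  have hsub : ({u, v} : Finset V) ⊆ holes s := by
    intro x hx
    rcases Finset.mem_insert.1 hx with h | h
    · rw [h]; exact mem_holes.2 hu
    · rw [Finset.mem_singleton.1 h]; exact mem_holes.2 hv
  rw [← Finset.prod_sdiff hsub, Finset.prod_pair huv]
  ring

theorem om_del (h1 : ∀ v, a v v = 1) {s : V → V} (hs : Inv s) {u : V} (hu : s u ≠ u) :
    om a b s * (b u * b (s u)) = om a b (del s u) * lam a u (s u) := by
  have := om_add (b := b) h1 (s := del s u) hu.symm del_self del_mate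
  rwa [add_del hs] at this

theorem om2_cutp (h1 : ∀ v, a v v = 1) {p : (V → V) × (V → V)} (hp : Inv2 p) {c : Lb V}
    (hc : has c p) :
    om2 a b p * (b c.2.1 * b c.2.2) = om2 a b (cutp c p) * lam a c.2.1 c.2.2 := by
  obtain ⟨r, u, v⟩ := c
  obtain ⟨s, t⟩ := p
  cases r
  · simp only [has, cutp] at *
    simp only [Bool.false_eq_true, if_false] at *
    have e : v = s u := hc.1.symm
    subst e
    have := om_del (b := b) h1 hp.1 (u := u) hc.2.symm
    simp only [om2]
    linear_combination (om a b t) * this
  · simp only [has, cutp] at *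
    simp only [if_true] at *
    have e : v = t u := hc.1.symm
    subst e
    have := om_del (b := b) h1 hp.2 (u := u) hc.2.symm
    simp only [om2]
    linear_combination (om a b s) * this

/-- cutting an edge of the node does not decrease the weight -/
theorem om2_le_cutp (ha : ∀ u v, 0 < a u v) (hb : ∀ v, 0 < b v) (h1 : ∀ v, a v v = 1)
    {p : (V → V) × (V → V)} (hp : Inv2 p) {c : Lb V}
    (hc : has c p) (hle : lam a c.2.1 c.2.2 ≤ b c.2.1 * b c.2.2) :
    om2 a b p ≤ om2 a b (cutp c p) := by
  have h := om2_cutp (b := b) h1 hp hc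
  have hbb : 0 < b c.2.1 * b c.2.2 := mul_pos (hb _) (hb _)
  have hpos := om2_pos ha hb (cutp c p)
  by_contra hlt
  push Not at hlt
  have h3 : om2 a b (cutp c p) * lam a c.2.1 c.2.2 ≤ om2 a b (cutp c p) * (b c.2.1 * b c.2.2) :=
    mul_le_mul_of_nonneg_left hle hpos.le
  have h4 : om2 a b (cutp c p) * (b c.2.1 * b c.2.2) < om2 a b p * (b c.2.1 * b c.2.2) :=
    mul_lt_mul_of_pos_right hlt hbb
  linarith

theorem om2_swp (A : Finset V) (p : (V → V) × (V → V)) :
    om2 a b (swp A p.1 p.2, swp A p.2 p.1) = om2 a b p := by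
  unfold om2 om
  have hW := W_swp_mul (A := A) (s := p.1) (t := p.2) a
  have hB : (∏ v ∈ holes (swp A p.1 p.2), b v) * (∏ v ∈ holes (swp A p.2 p.1), b v)
      = (∏ v ∈ holes p.1, b v) * (∏ v ∈ holes p.2, b v) := by
    rw [holes_swp, holes_swp, Finset.prod_union, Finset.prod_union,
      ← Finset.prod_inter_mul_prod_sdiff (holes p.1) A, ← Finset.prod_inter_mul_prod_sdiff (holes p.2) A]
    · ring
    · exact Finset.disjoint_left.2 fun x hx hy =>
        (Finset.mem_sdiff.1 hy).2 (Finset.mem_inter.1 hx).2
    · exact Finset.disjoint_left.2 fun x hx hy =>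
        (Finset.mem_sdiff.1 hy).2 (Finset.mem_inter.1 hx).2
  calc _ = (W a (swp A p.1 p.2) * W a (swp A p.2 p.1)) *
        ((∏ v ∈ holes (swp A p.1 p.2), b v) * (∏ v ∈ holes (swp A p.2 p.1), b v)) := by ring
    _ = _ := by rw [hW, hB]; ring

end Weight

/-! ### number of holes -/

/-- total number of holes -/
def nh (p : (V → V) × (V → V)) : ℕ := (holes p.1).card + (holes p.2).card

theorem card_holes_add {s : V → V} {u v : V} (huv : u ≠ v) (hu : s u = u) (hv : s v = v) :
    (holes (add s u v)).card + 2 = (holes s).card := by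
  rw [holes_add huv]
  have hsub : ({u, v} : Finset V) ⊆ holes s := by
    intro x hx
    rcases Finset.mem_insert.1 hx with h | h
    · rw [h]; exact mem_holes.2 hu
    · rw [Finset.mem_singleton.1 h]; exact mem_holes.2 hv
  have h2 := Finset.card_sdiff_add_card_eq_card hsub
  rw [Finset.card_pair huv] at h2
  exact h2

theorem card_holes_del {s : V → V} (hs : Inv s) {u : V} (hu : s u ≠ u) :
    (holes (del s u)).card = (holes s).card + 2 := by
  have := card_holes_add (s := del s u) hu.symm del_self del_mate
  rw [add_del hs] at this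
  exact this.symm

theorem nh_cutp {p : (V → V) × (V → V)} (hp : Inv2 p) {c : Lb V} (hc : has c p) :
    nh (cutp c p) = nh p + 2 := by
  obtain ⟨r, u, v⟩ := c
  obtain ⟨s, t⟩ := p
  cases r
  · simp only [has, cutp] at *
    simp only [Bool.false_eq_true, if_false] at *
    have e : v = s u := hc.1.symm
    subst e
    have := card_holes_del hp.1 (u := u) hc.2.symm
    simp only [nh] at *
    omega
  · simp only [has, cutp] at *
    simp only [if_true] at *
    have e : v = t u := hc.1.symm
    subst e
    have := card_holes_del hp.2 (u := u) hc.2.symm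
    simp only [nh] at *
    omega

theorem nh_swp (A : Finset V) (p : (V → V) × (V → V)) :
    nh (swp A p.1 p.2, swp A p.2 p.1) = nh p := by
  simp only [nh]
  rw [holes_swp, holes_swp, Finset.card_union_of_disjoint, Finset.card_union_of_disjoint]
  · have h1 := Finset.card_inter_add_card_sdiff (holes p.1) A
    have h2 := Finset.card_inter_add_card_sdiff (holes p.2) A
    omega
  · exact Finset.disjoint_left.2 fun x hx hy =>
      (Finset.mem_sdiff.1 hy).2 (Finset.mem_inter.1 hx).2
  · exact Finset.disjoint_left.2 fun x hx hy =>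
      (Finset.mem_sdiff.1 hy).2 (Finset.mem_inter.1 hx).2

/-! ### hybrids and cuts -/

/-- the cut edge `c` reappears in the hybrid along `A` -/
def keep (A : Finset V) (c : Lb V) : Bool :=
  if c.1 then decide (c.2.1 ∈ A ∧ c.2.2 ∈ A) else decide (c.2.1 ∉ A ∧ c.2.2 ∉ A)

theorem hyb_cutp {p : (V → V) × (V → V)} (hp : Inv2 p) {c : Lb V} (hc : has c p) (A : Finset V) :
    hyb A p.1 p.2 = if keep A c then add (hyb A (cutp c p).1 (cutp c p).2) c.2.1 c.2.2
      else hyb A (cutp c p).1 (cutp c p).2 := by
  obtain ⟨r, u, v⟩ := c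
  obtain ⟨s, t⟩ := p
  have hs := hp.1
  have ht := hp.2
  simp only at hs ht
  cases r
  · simp only [has, cutp, keep] at *
    simp only [Bool.false_eq_true, if_false] at *
    obtain ⟨h1, h2⟩ := hc
    have h3 : s v = u := by rw [← h1, hs]
    funext x
    by_cases hu : u ∈ A <;> by_cases hv : v ∈ A
    · simp only [hu, hv, not_true, and_self, decide_false, Bool.false_eq_true, if_false]
      unfold hyb
      by_cases hx : x ∈ A
      · simp only [hx, if_true]
      · simp only [hx, if_false]
        have hxu : x ≠ u := fun h => hx (h ▸ hu)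
        have hxv : x ≠ v := fun h => hx (h ▸ hv)
        rw [del_of_ne hxu (by rw [h1]; exact hxv)]
    · simp only [hu, hv, not_true, not_false_iff, and_true, decide_false, Bool.false_eq_true, if_false]
      unfold hyb
      by_cases hx : x ∈ A
      · simp only [hx, if_true]
      · simp only [hx, if_false]
        have hxu : x ≠ u := fun h => hx (h ▸ hu)
        by_cases hxv : x = v
        · subst hxv
          have : del s u x = x := by unfold del; rw [if_pos (Or.inr h1.symm)]
          rw [this, h3]
          simp [hu, hv]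
        · rw [del_of_ne hxu (by rw [h1]; exact hxv)]
    · simp only [hu, hv, not_true, not_false_iff, and_false, decide_false, Bool.false_eq_true, if_false]
      unfold hyb
      by_cases hx : x ∈ A
      · simp only [hx, if_true]
      · simp only [hx, if_false]
        have hxv : x ≠ v := fun h => hx (h ▸ hv)
        by_cases hxu : x = u
        · subst hxu
          have : del s x x = x := del_self
          rw [this, h1]
          simp [hu, hv]
        · rw [del_of_ne hxu (by rw [h1]; exact hxv)]
    · simp only [hu, hv, not_false_iff, and_self, decide_true, if_true]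
      by_cases hxu : x = u
      · subst hxu
        rw [add_left]
        unfold hyb
        simp [hu, h1, hv]
      · by_cases hxv : x = v
        · subst hxv
          rw [add_right]
          unfold hyb
          simp [hv, h3, hu]
        · rw [add_of_ne hxu hxv]
          unfold hyb
          rw [del_of_ne hxu (by rw [h1]; exact hxv)]
  · simp only [has, cutp, keep] at *
    simp only [if_true] at *
    obtain ⟨h1, h2⟩ := hc
    have h3 : t v = u := by rw [← h1, ht]
    funext x
    by_cases hu : u ∈ A <;> by_cases hv : v ∈ A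
    · simp only [hu, hv, and_self, decide_true, if_true]
      by_cases hxu : x = u
      · subst hxu
        rw [add_left]
        unfold hyb
        simp [hu, h1, hv]
      · by_cases hxv : x = v
        · subst hxv
          rw [add_right]
          unfold hyb
          simp [hv, h3, hu]
        · rw [add_of_ne hxu hxv]
          unfold hyb
          rw [del_of_ne hxu (by rw [h1]; exact hxv)]
    · simp only [hu, hv, and_false, decide_false, Bool.false_eq_true, if_false]
      unfold hyb
      by_cases hx : x ∈ A
      · simp only [hx, if_true]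
        have hxv : x ≠ v := fun h => hv (h ▸ hx)
        by_cases hxu : x = u
        · subst hxu
          have : del t x x = x := del_self
          rw [this, h1]
          simp [hu, hv]
        · rw [del_of_ne hxu (by rw [h1]; exact hxv)]
      · simp only [hx, if_false]
    · simp only [hu, hv, and_true, decide_false, Bool.false_eq_true, if_false]
      unfold hyb
      by_cases hx : x ∈ A
      · simp only [hx, if_true]
        have hxu : x ≠ u := fun h => hu (h ▸ hx)
        by_cases hxv : x = v
        · subst hxv
          have : del t u x = x := by unfold del; rw [if_pos (Or.inr h1.symm)]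
          rw [this, h3]
          simp [hu, hv]
        · rw [del_of_ne hxu (by rw [h1]; exact hxv)]
      · simp only [hx, if_false]
    · simp only [hu, hv, and_self, decide_false, Bool.false_eq_true, if_false]
      unfold hyb
      by_cases hx : x ∈ A
      · simp only [hx, if_true]
        have hxu : x ≠ u := fun h => hu (h ▸ hx)
        have hxv : x ≠ v := fun h => hv (h ▸ hx)
        rw [del_of_ne hxu (by rw [h1]; exact hxv)]
      · simp only [hx, if_false]

/-- if the cut edge reappears, its ends are holes of the hybrid of the cut pair -/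
theorem hyb_cutp_hole {p : (V → V) × (V → V)} (hp : Inv2 p) {c : Lb V} (hc : has c p)
    {A : Finset V} (hk : keep A c = true) :
    hyb A (cutp c p).1 (cutp c p).2 c.2.1 = c.2.1 ∧ hyb A (cutp c p).1 (cutp c p).2 c.2.2 = c.2.2 := by
  obtain ⟨r, u, v⟩ := c
  obtain ⟨s, t⟩ := p
  cases r
  · simp only [has, cutp, keep] at *
    simp only [Bool.false_eq_true, if_false, decide_eq_true_eq] at *
    obtain ⟨h1, h2⟩ := hc
    have h4 : del s u v = v := by unfold del; rw [if_pos (Or.inr h1.symm)]
    constructor
    · unfold hyb; simp [hk.1, del_self]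
    · unfold hyb; simp [hk.2, h4]
  · simp only [has, cutp, keep] at *
    simp only [if_true, decide_eq_true_eq] at *
    obtain ⟨h1, h2⟩ := hc
    have h4 : del t u v = v := by unfold del; rw [if_pos (Or.inr h1.symm)]
    constructor
    · unfold hyb; simp [hk.1, del_self]
    · unfold hyb; simp [hk.2, h4]

/-! ### the chain from `swp A N.1 N.2` to `hyb A p.1 p.2` -/

theorem Inv2.hyb {p : (V → V) × (V → V)} (hp : Inv2 p) (A : Finset V) :
    Inv (Crest.Agent.R304.hyb A p.1 p.2) := Inv.hyb hp.1 hp.2

theorem om_hyb_le {a : V → V → ℝ} {b : V → ℝ} (ha : ∀ u v, 0 < a u v) (hb : ∀ v, 0 < b v)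
    (h1 : ∀ v, a v v = 1) {cs : List (Lb V)} {p : (V → V) × (V → V)} (hp : Inv2 p)
    (hc : hasAll cs p) (hle : ∀ c ∈ cs, lam a c.2.1 c.2.2 ≤ b c.2.1 * b c.2.2) {A : Finset V}
    (hA1 : Cl A (cutAll cs p).1) (hA2 : Cl A (cutAll cs p).2) :
    om2 a b p ≤ om a b (hyb A p.1 p.2) * om a b (swp A (cutAll cs p).2 (cutAll cs p).1) := by
  induction cs generalizing p with
  | nil =>
    simp only [cutAll_nil] at *
    rw [hyb_eq_swp hp.1 hA1 hA2, ← om2_swp A p, om2]
  | cons c cs ih =>
    simp only [cutAll_cons, hasAll_cons] at *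
    have hih := ih (hp.cutp c) hc.2 (fun c' hc' => hle c' (List.mem_cons_of_mem _ hc')) hA1 hA2
    have hle0 := hle c List.mem_cons_self
    rw [hyb_cutp hp hc.1 A]
    by_cases hk : keep A c = true
    · rw [if_pos hk]
      have hh := hyb_cutp_hole hp hc.1 hk
      have e1 := om_add (b := b) h1 hc.1.2 hh.1 hh.2
      have e2 := om2_cutp (b := b) h1 hp hc.1
      have hbb : 0 < b c.2.1 * b c.2.2 := mul_pos (hb _) (hb _)
      have hl := lam_pos ha c.2.1 c.2.2
      refine le_of_mul_le_mul_right ?_ hbb
      rw [e2]
      calc _ ≤ (om a b (hyb A (cutp c p).1 (cutp c p).2) *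
              om a b (swp A (cutAll cs (cutp c p)).2 (cutAll cs (cutp c p)).1)) *
              lam a c.2.1 c.2.2 := mul_le_mul_of_nonneg_right hih hl.le
        _ = _ := by
          linear_combination
            (-om a b (swp A (cutAll cs (cutp c p)).2 (cutAll cs (cutp c p)).1)) * e1
    · rw [if_neg hk]
      exact (om2_le_cutp ha hb h1 hp hc.1 hle0).trans hih

theorem holes_hyb_le {cs : List (Lb V)} {p : (V → V) × (V → V)} (hp : Inv2 p)
    (hc : hasAll cs p) {A : Finset V}
    (hA1 : Cl A (cutAll cs p).1) (hA2 : Cl A (cutAll cs p).2) :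
    (holes (hyb A p.1 p.2)).card + (holes (swp A (cutAll cs p).2 (cutAll cs p).1)).card
      ≤ nh p + 2 * cs.length := by
  induction cs generalizing p with
  | nil =>
    simp only [cutAll_nil] at *
    rw [hyb_eq_swp hp.1 hA1 hA2, ← nh_swp A p]
    simp [nh]
  | cons c cs ih =>
    simp only [cutAll_cons, hasAll_cons] at *
    have hih := ih (hp.cutp c) hc.2 hA1 hA2
    have hn := nh_cutp hp hc.1
    rw [List.length_cons]
    rw [hyb_cutp hp hc.1 A]
    by_cases hk : keep A c = true
    · rw [if_pos hk]
      have hh := hyb_cutp_hole hp hc.1 hk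
      have := card_holes_add hc.1.2 hh.1 hh.2
      omega
    · rw [if_neg hk]
      omega

/-- remove the re-added edges again -/
def unst : List (Lb V) → List Bool → (V → V) → V → V
  | c :: cs, k :: ks, r => unst cs ks (if k then del r c.2.1 else r)
  | _, _, r => r

theorem unst_hyb {cs : List (Lb V)} {p : (V → V) × (V → V)} (hp : Inv2 p)
    (hc : hasAll cs p) {A : Finset V}
    (hA1 : Cl A (cutAll cs p).1) (hA2 : Cl A (cutAll cs p).2) :
    unst cs (cs.map (keep A)) (hyb A p.1 p.2) = swp A (cutAll cs p).1 (cutAll cs p).2 := by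
  induction cs generalizing p with
  | nil =>
    simp only [cutAll_nil, unst] at *
    rw [hyb_eq_swp hp.1 hA1 hA2]
  | cons c cs ih =>
    simp only [cutAll_cons, hasAll_cons, List.map_cons, unst] at *
    rw [← ih (hp.cutp c) hc.2 hA1 hA2, hyb_cutp hp hc.1 A]
    congr 1
    by_cases hk : keep A c = true
    · rw [if_pos hk, if_pos hk]
      have hh := hyb_cutp_hole hp hc.1 hk
      exact del_add hh.1 hh.2
    · rw [if_neg hk, if_neg hk]

/-- a rule choosing a union of components -/
structure SetRule (As : (V → V) × (V → V) → Finset V) : Prop where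
  cl1 : ∀ N, Inv2 N → Cl (As N) N.1
  cl2 : ∀ N, Inv2 N → Cl (As N) N.2
  inv : ∀ N, As (swp (As N) N.1 N.2, swp (As N) N.2 N.1) = As N

theorem setRule_empty : SetRule (fun _ : (V → V) × (V → V) => (∅ : Finset V)) :=
  ⟨fun _ _ => by intro v hv; simp at hv, fun _ _ => by intro v hv; simp at hv, fun _ => rfl⟩

theorem setRule_comp (x : V) : SetRule (fun N : (V → V) × (V → V) => comp N.1 N.2 x) :=
  ⟨fun _ _ => comp_cl_left, fun _ _ => comp_cl_right, fun _ => comp_swp⟩

theorem setRule_union (x y : V) :
    SetRule (fun N : (V → V) × (V → V) => comp N.1 N.2 x ∪ comp N.1 N.2 y) :=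
  ⟨fun _ _ => comp_cl_left.union comp_cl_left, fun _ _ => comp_cl_right.union comp_cl_right,
    fun N => by simp only; rw [comp_swp, comp_swp]⟩

/-- the pair reached in one repair step determines the original pair -/
theorem chain_inj {As : (V → V) × (V → V) → Finset V} (hAs : SetRule As) {cs : List (Lb V)}
    {p q : (V → V) × (V → V)} (hp : Inv2 p) (hq : Inv2 q) (h1 : hasAll cs p) (h2 : hasAll cs q)
    (hk : cs.map (keep (As (cutAll cs p))) = cs.map (keep (As (cutAll cs q))))
    (hS : hyb (As (cutAll cs p)) p.1 p.2 = hyb (As (cutAll cs q)) q.1 q.2)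
    (hT : swp (As (cutAll cs p)) (cutAll cs p).2 (cutAll cs p).1
      = swp (As (cutAll cs q)) (cutAll cs q).2 (cutAll cs q).1) : p = q := by
  refine cutAll_inj hp hq h1 h2 ?_
  have hNp := hp.cutAll cs
  have hNq := hq.cutAll cs
  have e1 : swp (As (cutAll cs p)) (cutAll cs p).1 (cutAll cs p).2
      = swp (As (cutAll cs q)) (cutAll cs q).1 (cutAll cs q).2 := by
    rw [← unst_hyb hp h1 (hAs.cl1 _ hNp) (hAs.cl2 _ hNp),
      ← unst_hyb hq h2 (hAs.cl1 _ hNq) (hAs.cl2 _ hNq), hk, hS]
  have e2 : As (cutAll cs p) = As (cutAll cs q) := by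
    rw [← hAs.inv (cutAll cs p), ← hAs.inv (cutAll cs q), e1, hT]
  rw [e2] at e1 hT
  refine Prod.ext ?_ ?_
  · rw [← swp_swp (A := As (cutAll cs q)) (s := (cutAll cs p).1) (t := (cutAll cs p).2), e1, hT,
      swp_swp]
  · rw [← swp_swp (A := As (cutAll cs q)) (s := (cutAll cs p).2) (t := (cutAll cs p).1), e1, hT,
      swp_swp]


end Crest.Agent.R304.Rel
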