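import Crest.Agent.R304.RelA147

/-!
# R304 / S0464, block (iv), second part: the chain of repairs, sums

`rel_core`: the relation for pairs of partial matchings, given the bounds of Lemma Q and repair.
-/

set_option autoImplicit false
set_option linter.unusedSectionVars false

namespace Crest.Agent.R304.Rel

open Finset

variable {V : Type*} [Fintype V] [DecidableEq V]

/-! ### sums -/

theorem five_sq (s0 s1 s2 s3 t0 t1 t2 t3 : ℝ) :
    (s0 + s1 - s2 - s3) ^ 2 ≤ 5 * ((t0 + t1 - t2 - t3) ^ 2 + ((s0 - t0) ^ 2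
          + (s1 - t1) ^ 2 + (s2 - t2) ^ 2 + (s3 - t3) ^ 2)) := by
  obtain ⟨z, hz⟩ : ∃ z, z = t0 + t1 - t2 - t3 := ⟨_, rfl⟩
  obtain ⟨x0, h0⟩ : ∃ x, x = s0 - t0 := ⟨_, rfl⟩
  obtain ⟨x1, h1⟩ : ∃ x, x = s1 - t1 := ⟨_, rfl⟩
  obtain ⟨x2, h2⟩ : ∃ x, x = s2 - t2 := ⟨_, rfl⟩
  obtain ⟨x3, h3⟩ : ∃ x, x = s3 - t3 := ⟨_, rfl⟩
  have e : s0 + s1 - s2 - s3 = z + x0 + x1 - x2 - x3 := by rw [hz, h0, h1, h2, h3]; ring
  rw [e, ← hz, ← h0, ← h1, ← h2, ← h3]
  have : 5 * (z ^ 2 + (x0 ^ 2 + x1 ^ 2 + x2 ^ 2 + x3 ^ 2)) - (z + x0 + x1 - x2 - x3) ^ 2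
      = (z - x0) ^ 2 + (z - x1) ^ 2 + (z + x2) ^ 2 + (z + x3) ^ 2 + (x0 - x1) ^ 2 + (x0 + x2) ^ 2
        + (x0 + x3) ^ 2 + (x1 + x2) ^ 2 + (x1 + x3) ^ 2 + (x2 - x3) ^ 2 := by ring
  have h : 0 ≤ (z - x0) ^ 2 + (z - x1) ^ 2 + (z + x2) ^ 2 + (z + x3) ^ 2 + (x0 - x1) ^ 2
        + (x0 + x2) ^ 2
        + (x0 + x3) ^ 2 + (x1 + x2) ^ 2 + (x1 + x3) ^ 2 + (x2 - x3) ^ 2 := by positivity
  linarith

/-- comparison of sums along a map which is injective on every class of a pattern -/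
theorem sum_le_fib {ι κ : Type*} [DecidableEq κ] {D : Finset ι} {T : Finset κ} {g : ι → κ}
    {pat : ι → List Bool} {m : ℕ} (hlen : ∀ i ∈ D, (pat i).length = m) {F : ι → ℝ} {h : κ → ℝ}
    (hh : ∀ k ∈ T, 0 ≤ h k) (hg : ∀ i ∈ D, g i ∈ T) (hF : ∀ i ∈ D, F i ≤ h (g i))
    (hinj : ∀ i ∈ D, ∀ j ∈ D, pat i = pat j → g i = g j → i = j) :
    ∑ i ∈ D, F i ≤ 2 ^ m * ∑ k ∈ T, h k := by
  classical
  have hT : 0 ≤ ∑ k ∈ T, h k := Finset.sum_nonneg hh
  set P : Finset (List Bool) := (Finset.univ : Finset (Fin m → Bool)).image List.ofFn with hP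
  have hPc : P.card ≤ 2 ^ m := by
    refine Finset.card_image_le.trans ?_
    simp
  have hmem : ∀ l : List Bool, l.length = m → l ∈ P := by
    intro l hl
    subst hl
    exact Finset.mem_image.2 ⟨l.get, Finset.mem_univ _, List.ofFn_get l⟩
  calc ∑ i ∈ D, F i ≤ ∑ i ∈ D, h (g i) := Finset.sum_le_sum hF
    _ = ∑ x ∈ D.image (fun i => (pat i, g i)), h x.2 := by
        rw [Finset.sum_image]
        intro i hi j hj hij
        exact hinj i hi j hj (congrArg Prod.fst hij) (congrArg Prod.snd hij)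
    _ ≤ ∑ x ∈ P ×ˢ T, h x.2 := by
        refine Finset.sum_le_sum_of_subset_of_nonneg ?_ ?_
        · intro x hx
          obtain ⟨i, hi, rfl⟩ := Finset.mem_image.1 hx
          exact Finset.mem_product.2 ⟨hmem _ (hlen i hi), hg i hi⟩
        · intro x hx _
          exact hh _ (Finset.mem_product.1 hx).2
    _ = P.card * ∑ k ∈ T, h k := by
        rw [Finset.sum_product]
        simp
    _ ≤ 2 ^ m * ∑ k ∈ T, h k := by
        refine mul_le_mul_of_nonneg_right ?_ hT
        exact_mod_cast hPc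

theorem sum_le_inj {ι κ : Type*} {D : Finset ι} {T : Finset κ} {g : ι → κ}
    {F : ι → ℝ} {h : κ → ℝ}
    (hh : ∀ k ∈ T, 0 ≤ h k) (hg : ∀ i ∈ D, g i ∈ T) (hF : ∀ i ∈ D, F i ≤ h (g i))
    (hinj : ∀ i ∈ D, ∀ j ∈ D, g i = g j → i = j) :
    ∑ i ∈ D, F i ≤ ∑ k ∈ T, h k := by
  classical
  have := sum_le_fib (pat := fun _ => []) (m := 0) (fun _ _ => rfl) hh hg hF
    (fun i hi j hj _ => hinj i hi j hj)
  simpa using this

open Classical in
/-- the pairs from which all edges of `cs` can be cut, with at most six holes afterwards -/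
noncomputable def dom (cs : List (Lb V)) : Finset ((V → V) × (V → V)) :=
  Finset.univ.filter fun p => Inv2 p ∧ Even (holes p.1).card ∧ Even (holes p.2).card ∧
    nh p + 2 * cs.length ≤ 6 ∧ hasAll cs p

theorem mem_dom {cs : List (Lb V)} {p : (V → V) × (V → V)} :
    p ∈ dom cs ↔ Inv2 p ∧ Even (holes p.1).card ∧ Even (holes p.2).card ∧
      nh p + 2 * cs.length ≤ 6 ∧ hasAll cs p := by
  simp [dom]

theorem even_holes_iff {s t : V → V} (hs : Inv s) (ht : Inv t) :
    Even (holes s).card ↔ Even (holes t).card := by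
  rw [Nat.even_iff, Nat.even_iff, card_holes_mod hs, card_holes_mod ht]

theorem cutp_mem_dom {c : Lb V} {cs : List (Lb V)} {p : (V → V) × (V → V)}
    (h : p ∈ dom (c :: cs)) : cutp c p ∈ dom cs := by
  rw [mem_dom] at *
  obtain ⟨hi, he1, he2, hn, hc⟩ := h
  refine ⟨hi.cutp c, (even_holes_iff hi.1 (hi.cutp c).1).1 he1,
    (even_holes_iff hi.2 (hi.cutp c).2).1 he2, ?_, hc.2⟩
  rw [nh_cutp hi hc.1]
  rw [List.length_cons] at hn
  omega

theorem cutAll_mem_dom {cs : List (Lb V)} {p : (V → V) × (V → V)}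
    (h : p ∈ dom cs) : cutAll cs p ∈ dom [] := by
  induction cs generalizing p with
  | nil => exact h
  | cons c cs ih => exact ih (cutp_mem_dom h)

section Bounds
variable {a : V → V → ℝ} {b : V → ℝ} (ha : ∀ u v, 0 < a u v) (hb : ∀ v, 0 < b v)
  (h1 : ∀ v, a v v = 1) (fb : (V → V) → ℝ)

include ha hb h1

open Classical in
theorem step_bound {CR : ℝ}
    (hR : ∑ p ∈ dom (V := V) [], ∑ u, ∑ v, (if u ≠ v ∧ p.1 u = u ∧ p.1 v = v then
      om2 a b p * (fb (add p.1 u v) - fb p.1) ^ 2 else 0) ≤ CR)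
    {As : (V → V) × (V → V) → Finset V} (hAs : SetRule As) (c : Lb V) (cs : List (Lb V))
    (hle : ∀ c' ∈ c :: cs, lam a c'.2.1 c'.2.2 ≤ b c'.2.1 * b c'.2.2) :
    ∑ p ∈ dom (c :: cs), om2 a b p *
      (fb (hyb (As (cutAll (c :: cs) p)) p.1 p.2)
        - fb (hyb (As (cutAll (c :: cs) p)) (cutp c p).1 (cutp c p).2)) ^ 2
      ≤ 2 ^ cs.length * CR := by
  set D := (dom (c :: cs)).filter fun p => keep (As (cutAll (c :: cs) p)) c = true with hD
  set h : (V → V) × (V → V) → ℝ := fun q => if c.2.1 ≠ c.2.2 ∧ q.1 c.2.1 = c.2.1 ∧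
    q.1 c.2.2 = c.2.2 then om2 a b q * (fb (add q.1 c.2.1 c.2.2) - fb q.1) ^ 2 else 0 with hh
  have hh0 : ∀ q, 0 ≤ h q := by
    intro q
    simp only [hh]
    split_ifs
    · exact mul_nonneg (om2_pos ha hb q).le (sq_nonneg _)
    · exact le_refl _
  have e1 : ∑ p ∈ dom (c :: cs), om2 a b p *
      (fb (hyb (As (cutAll (c :: cs) p)) p.1 p.2)
        - fb (hyb (As (cutAll (c :: cs) p)) (cutp c p).1 (cutp c p).2)) ^ 2
      = ∑ p ∈ D, om2 a b p *
      (fb (hyb (As (cutAll (c :: cs) p)) p.1 p.2)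
        - fb (hyb (As (cutAll (c :: cs) p)) (cutp c p).1 (cutp c p).2)) ^ 2 := by
    rw [hD, Finset.sum_filter]
    refine Finset.sum_congr rfl fun p hp => ?_
    rw [mem_dom] at hp
    split_ifs with hk
    · rfl
    · rw [hyb_cutp hp.1 hp.2.2.2.2.1, if_neg hk]
      simp
  rw [e1]
  have e2 : ∑ q ∈ dom (V := V) [], h q ≤ CR := by
    refine le_trans ?_ hR
    refine Finset.sum_le_sum fun q _ => ?_
    have hnn : ∀ u v : V, 0 ≤ (if u ≠ v ∧ q.1 u = u ∧ q.1 v = v then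
      om2 a b q * (fb (add q.1 u v) - fb q.1) ^ 2 else 0) := by
      intro u v
      split_ifs
      · exact mul_nonneg (om2_pos ha hb q).le (sq_nonneg _)
      · exact le_refl _
    calc h q ≤ ∑ v, (if c.2.1 ≠ v ∧ q.1 c.2.1 = c.2.1 ∧ q.1 v = v then
          om2 a b q * (fb (add q.1 c.2.1 v) - fb q.1) ^ 2 else 0) :=
          Finset.single_le_sum (f := fun v => if c.2.1 ≠ v ∧ q.1 c.2.1 = c.2.1 ∧ q.1 v = v then
            om2 a b q * (fb (add q.1 c.2.1 v) - fb q.1) ^ 2 else 0)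
            (fun v _ => hnn c.2.1 v) (Finset.mem_univ c.2.2)
      _ ≤ _ := Finset.single_le_sum (f := fun u => ∑ v, if u ≠ v ∧ q.1 u = u ∧ q.1 v = v then
            om2 a b q * (fb (add q.1 u v) - fb q.1) ^ 2 else 0)
            (fun u _ => Finset.sum_nonneg fun v _ => hnn u v) (Finset.mem_univ c.2.1)
  have e3 := sum_le_fib (D := D) (T := dom (V := V) [])
    (g := fun p => (hyb (As (cutAll (c :: cs) p)) (cutp c p).1 (cutp c p).2,
      swp (As (cutAll (c :: cs) p)) (cutAll (c :: cs) p).2 (cutAll (c :: cs) p).1))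
    (pat := fun p => cs.map (keep (As (cutAll (c :: cs) p)))) (m := cs.length)
    (fun _ _ => List.length_map _)
    (F := fun p => om2 a b p *
      (fb (hyb (As (cutAll (c :: cs) p)) p.1 p.2)
        - fb (hyb (As (cutAll (c :: cs) p)) (cutp c p).1 (cutp c p).2)) ^ 2)
    (h := h) (fun k _ => hh0 k) ?_ ?_ ?_
  · refine e3.trans (mul_le_mul_of_nonneg_left e2 (by positivity))
  · -- the target is a configuration
    intro p hp
    rw [hD, Finset.mem_filter] at hp
    obtain ⟨hp, hk⟩ := hp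
    have hp' := cutp_mem_dom hp
    rw [mem_dom] at hp hp' ⊢
    have hN := hp.1.cutAll (c :: cs)
    have i1 : Inv (hyb (As (cutAll (c :: cs) p)) (cutp c p).1 (cutp c p).2) :=
      Inv.hyb hp'.1.1 hp'.1.2
    have i2 : Inv (swp (As (cutAll (c :: cs) p)) (cutAll (c :: cs) p).2 (cutAll (c :: cs) p).1) :=
      Inv.swp hN.2 hN.1 (hAs.cl2 _ hN) (hAs.cl1 _ hN)
    refine ⟨⟨i1, i2⟩, (even_holes_iff hp.1.1 i1).1 hp.2.1, (even_holes_iff hp.1.1 i2).1 hp.2.1,
      ?_, trivial⟩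
    have hle' := holes_hyb_le hp'.1 hp'.2.2.2.2 (A := As (cutAll (c :: cs) p))
      (hAs.cl1 _ hN) (hAs.cl2 _ hN)
    simp only [nh, List.length_nil, cutAll_cons] at *
    have := hp'.2.2.2.1
    omega
  · -- the weight
    intro p hp
    rw [hD, Finset.mem_filter] at hp
    obtain ⟨hp, hk⟩ := hp
    have hp' := cutp_mem_dom hp
    rw [mem_dom] at hp hp'
    have hN := hp.1.cutAll (c :: cs)
    have hc := hp.2.2.2.2.1
    have hh2 := hyb_cutp_hole hp.1 hc hk
    simp only [hh]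
    rw [if_pos ⟨hc.2, hh2.1, hh2.2⟩]
    rw [hyb_cutp hp.1 hc, if_pos hk]
    refine mul_le_mul_of_nonneg_right ?_ (sq_nonneg _)
    refine (om2_le_cutp ha hb h1 hp.1 hc (hle c List.mem_cons_self)).trans ?_
    exact om_hyb_le ha hb h1 hp'.1 hp'.2.2.2.2
      (fun c' hc' => hle c' (List.mem_cons_of_mem _ hc')) (hAs.cl1 _ hN) (hAs.cl2 _ hN)
  · -- injectivity
    intro p hp q hq hpat hg
    rw [hD, Finset.mem_filter] at hp hq
    obtain ⟨hp, hk⟩ := hp
    obtain ⟨hq, hk'⟩ := hq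
    have hp' := cutp_mem_dom hp
    have hq' := cutp_mem_dom hq
    rw [mem_dom] at hp hp' hq hq'
    have := chain_inj hAs hp'.1 hq'.1 hp'.2.2.2.2 hq'.2.2.2.2 hpat (congrArg Prod.fst hg)
      (congrArg Prod.snd hg)
    rw [← addp_cutp hp.1 hp.2.2.2.2.1, ← addp_cutp hq.1 hq.2.2.2.2.1, this]

/-- constants of the chain -/
def Bc : ℕ → ℝ
  | 0 => 0
  | m + 1 => 2 * 2 ^ m + 2 * Bc m

open Classical in
theorem chain_bound {CR : ℝ}
    (hR : ∑ p ∈ dom (V := V) [], ∑ u, ∑ v, (if u ≠ v ∧ p.1 u = u ∧ p.1 v = v then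
      om2 a b p * (fb (add p.1 u v) - fb p.1) ^ 2 else 0) ≤ CR)
    {As : (V → V) × (V → V) → Finset V} (hAs : SetRule As) (cs : List (Lb V))
    (hle : ∀ c ∈ cs, lam a c.2.1 c.2.2 ≤ b c.2.1 * b c.2.2) :
    ∑ p ∈ dom cs, om2 a b p *
      (fb (hyb (As (cutAll cs p)) p.1 p.2)
        - fb (swp (As (cutAll cs p)) (cutAll cs p).1 (cutAll cs p).2)) ^ 2
      ≤ Bc cs.length * CR := by
  induction cs with
  | nil =>
    refine le_of_eq ?_
    rw [List.length_nil, Bc, zero_mul]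
    refine Finset.sum_eq_zero fun p hp => ?_
    rw [mem_dom] at hp
    rw [cutAll_nil, hyb_eq_swp hp.1.1 (hAs.cl1 _ hp.1) (hAs.cl2 _ hp.1)]
    simp
  | cons c cs ih =>
    have ih' := ih (fun c' hc' => hle c' (List.mem_cons_of_mem _ hc'))
    have hs := step_bound ha hb h1 fb hR hAs c cs hle
    have h2 : ∑ p ∈ dom (c :: cs), om2 a b p *
        (fb (hyb (As (cutAll (c :: cs) p)) (cutp c p).1 (cutp c p).2)
          - fb (swp (As (cutAll (c :: cs) p)) (cutAll (c :: cs) p).1 (cutAll (c :: cs) p).2)) ^ 2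
        ≤ Bc cs.length * CR := by
      refine le_trans ?_ ih'
      refine sum_le_inj (g := cutp c) (fun q _ => mul_nonneg (om2_pos ha hb q).le (sq_nonneg _))
        (fun p hp => cutp_mem_dom hp) ?_ ?_
      · intro p hp
        rw [mem_dom] at hp
        simp only [cutAll_cons]
        refine mul_le_mul_of_nonneg_right ?_ (sq_nonneg _)
        exact om2_le_cutp ha hb h1 hp.1 hp.2.2.2.2.1 (hle c List.mem_cons_self)
      · intro p hp q hq h
        rw [mem_dom] at hp hq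
        rw [← addp_cutp hp.1 hp.2.2.2.2.1, ← addp_cutp hq.1 hq.2.2.2.2.1, h]
    have h3 : ∀ p ∈ dom (c :: cs), om2 a b p *
        (fb (hyb (As (cutAll (c :: cs) p)) p.1 p.2)
          - fb (swp (As (cutAll (c :: cs) p)) (cutAll (c :: cs) p).1 (cutAll (c :: cs) p).2)) ^ 2
        ≤ 2 * (om2 a b p *
          (fb (hyb (As (cutAll (c :: cs) p)) p.1 p.2)
            - fb (hyb (As (cutAll (c :: cs) p)) (cutp c p).1 (cutp c p).2)) ^ 2)
          + 2 * (om2 a b p *
          (fb (hyb (As (cutAll (c :: cs) p)) (cutp c p).1 (cutp c p).2)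
          - fb (swp (As (cutAll (c :: cs) p)) (cutAll (c :: cs) p).1 (cutAll (c :: cs) p).2)) ^ 2) := by
      intro p _
      have hpos := (om2_pos ha hb p).le
      set x := fb (hyb (As (cutAll (c :: cs) p)) p.1 p.2)
      set y := fb (hyb (As (cutAll (c :: cs) p)) (cutp c p).1 (cutp c p).2)
      set z := fb (swp (As (cutAll (c :: cs) p)) (cutAll (c :: cs) p).1 (cutAll (c :: cs) p).2)
      have : (x - z) ^ 2 ≤ 2 * (x - y) ^ 2 + 2 * (y - z) ^ 2 := by nlinarith [sq_nonneg (x - 2 * y + z)]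
      calc om2 a b p * (x - z) ^ 2 ≤ om2 a b p * (2 * (x - y) ^ 2 + 2 * (y - z) ^ 2) :=
            mul_le_mul_of_nonneg_left this hpos
        _ = _ := by ring
    calc _ ≤ _ := Finset.sum_le_sum h3
      _ = _ := Finset.sum_add_distrib
      _ ≤ 2 * (2 ^ cs.length * CR) + 2 * (Bc cs.length * CR) := by
          rw [← Finset.mul_sum, ← Finset.mul_sum]
          linarith
      _ = Bc (c :: cs).length * CR := by
          rw [List.length_cons, Bc]; ring

open Classical in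
/-- the conclusion of Lemma Q, restated for pairs -/
theorem rel_core {CR CQ : ℝ}
    (hR : ∑ p ∈ dom (V := V) [], ∑ u, ∑ v, (if u ≠ v ∧ p.1 u = u ∧ p.1 v = v then
      om2 a b p * (fb (add p.1 u v) - fb p.1) ^ 2 else 0) ≤ CR)
    (hQ : ∑ N ∈ dom (V := V) [], ∑ x, ∑ y, (if (N.1 x = x ∨ N.2 x = x) ∧ (N.1 y = y ∨ N.2 y = y) ∧
        y ∉ comp N.1 N.2 x then om2 a b N *
        (fb N.1 + fb (swp (comp N.1 N.2 x ∪ comp N.1 N.2 y) N.1 N.2)
          - fb (swp (comp N.1 N.2 x) N.1 N.2) - fb (swp (comp N.1 N.2 y) N.1 N.2)) ^ 2 else 0) ≤ CQ)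
    (cs : List (Lb V)) (hlen : cs.length ≤ 3)
    (hle : ∀ c ∈ cs, lam a c.2.1 c.2.2 ≤ b c.2.1 * b c.2.2) :
    ∑ p ∈ dom cs, ∑ x, ∑ y, (if ((cutAll cs p).1 x = x ∨ (cutAll cs p).2 x = x) ∧
        ((cutAll cs p).1 y = y ∨ (cutAll cs p).2 y = y) ∧
        y ∉ comp (cutAll cs p).1 (cutAll cs p).2 x then om2 a b p *
        (fb p.1 + fb (hyb (comp (cutAll cs p).1 (cutAll cs p).2 x ∪
              comp (cutAll cs p).1 (cutAll cs p).2 y) p.1 p.2)
          - fb (hyb (comp (cutAll cs p).1 (cutAll cs p).2 x) p.1 p.2)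
          - fb (hyb (comp (cutAll cs p).1 (cutAll cs p).2 y) p.1 p.2)) ^ 2 else 0)
      ≤ 5 * (CQ + 96 * (Fintype.card V : ℝ) ^ 2 * CR) := by
  have hCR : 0 ≤ CR := by
    refine le_trans (Finset.sum_nonneg fun p _ => Finset.sum_nonneg fun u _ =>
      Finset.sum_nonneg fun v _ => ?_) hR
    split_ifs
    · exact mul_nonneg (om2_pos ha hb p).le (sq_nonneg _)
    · exact le_refl _
  have hBc : Bc cs.length ≤ 24 := by
    interval_cases h : cs.length <;> simp [Bc] <;> norm_num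
  -- the four chain errors
  set E : ((V → V) × (V → V) → Finset V) → (V → V) × (V → V) → ℝ := fun As p =>
    om2 a b p * (fb (hyb (As (cutAll cs p)) p.1 p.2)
        - fb (swp (As (cutAll cs p)) (cutAll cs p).1 (cutAll cs p).2)) ^ 2 with hE
  have hE0 : ∀ As p, 0 ≤ E As p := fun As p => mul_nonneg (om2_pos ha hb p).le (sq_nonneg _)
  have hEb : ∀ As, SetRule As → ∑ p ∈ dom cs, E As p ≤ 24 * CR := by
    intro As hAs
    refine (chain_bound ha hb h1 fb hR hAs cs hle).trans ?_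
    exact mul_le_mul_of_nonneg_right hBc hCR
  set q : (V → V) × (V → V) → V → V → ℝ := fun N x y =>
    if (N.1 x = x ∨ N.2 x = x) ∧ (N.1 y = y ∨ N.2 y = y) ∧
        y ∉ comp N.1 N.2 x then om2 a b N *
        (fb N.1 + fb (swp (comp N.1 N.2 x ∪ comp N.1 N.2 y) N.1 N.2)
          - fb (swp (comp N.1 N.2 x) N.1 N.2) - fb (swp (comp N.1 N.2 y) N.1 N.2)) ^ 2 else 0 with hq
  have hq0 : ∀ N x y, 0 ≤ q N x y := by
    intro N x y
    simp only [hq]
    split_ifs
    · exact mul_nonneg (om2_pos ha hb N).le (sq_nonneg _)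
    · exact le_refl _
  have hle_cut : ∀ p ∈ dom cs, om2 a b p ≤ om2 a b (cutAll cs p) := by
    have : ∀ (l : List (Lb V)), (∀ c ∈ l, lam a c.2.1 c.2.2 ≤ b c.2.1 * b c.2.2) →
        ∀ p, Inv2 p → hasAll l p → om2 a b p ≤ om2 a b (cutAll l p) := by
      intro l
      induction l with
      | nil => intro _ p _ _; exact le_refl _
      | cons c l ih =>
        intro hl p hp hc
        refine (om2_le_cutp ha hb h1 hp hc.1 (hl c List.mem_cons_self)).trans ?_
        exact ih (fun c' hc' => hl c' (List.mem_cons_of_mem _ hc')) _ (hp.cutp c) hc.2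
    intro p hp
    rw [mem_dom] at hp
    exact this cs hle p hp.1 hp.2.2.2.2
  have hQ' : ∑ p ∈ dom cs, ∑ x, ∑ y, q (cutAll cs p) x y ≤ CQ := by
    refine le_trans ?_ hQ
    refine sum_le_inj (g := cutAll cs) (h := fun N => ∑ x, ∑ y, q N x y)
      (fun N _ => Finset.sum_nonneg fun x _ => Finset.sum_nonneg fun y _ => hq0 N x y)
      (fun p hp => cutAll_mem_dom hp) (fun p _ => le_refl _) ?_
    intro p hp p' hp' h
    rw [mem_dom] at hp hp'
    exact cutAll_inj hp.1 hp'.1 hp.2.2.2.2 hp'.2.2.2.2 h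
  -- pointwise bound
  have hpt : ∀ p ∈ dom cs, ∀ x y, (if ((cutAll cs p).1 x = x ∨ (cutAll cs p).2 x = x) ∧
        ((cutAll cs p).1 y = y ∨ (cutAll cs p).2 y = y) ∧
        y ∉ comp (cutAll cs p).1 (cutAll cs p).2 x then om2 a b p *
        (fb p.1 + fb (hyb (comp (cutAll cs p).1 (cutAll cs p).2 x ∪
              comp (cutAll cs p).1 (cutAll cs p).2 y) p.1 p.2)
          - fb (hyb (comp (cutAll cs p).1 (cutAll cs p).2 x) p.1 p.2)
          - fb (hyb (comp (cutAll cs p).1 (cutAll cs p).2 y) p.1 p.2)) ^ 2 else 0)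
      ≤ 5 * (q (cutAll cs p) x y + (E (fun _ => ∅) p + E (fun N => comp N.1 N.2 x ∪ comp N.1 N.2 y) p
          + E (fun N => comp N.1 N.2 x) p + E (fun N => comp N.1 N.2 y) p)) := by
    intro p hp x y
    have hsum : 0 ≤ E (fun _ => ∅) p + E (fun N => comp N.1 N.2 x ∪ comp N.1 N.2 y) p
          + E (fun N => comp N.1 N.2 x) p + E (fun N => comp N.1 N.2 y) p := by
      have h1 := hE0 (fun _ => ∅) p
      have h2 := hE0 (fun N => comp N.1 N.2 x ∪ comp N.1 N.2 y) p
      have h3 := hE0 (fun N => comp N.1 N.2 x) p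
      have h4 := hE0 (fun N => comp N.1 N.2 y) p
      linarith
    split_ifs with hcond
    · have hqe : q (cutAll cs p) x y = om2 a b (cutAll cs p) *
          (fb (cutAll cs p).1 + fb (swp (comp (cutAll cs p).1 (cutAll cs p).2 x ∪
            comp (cutAll cs p).1 (cutAll cs p).2 y) (cutAll cs p).1 (cutAll cs p).2)
          - fb (swp (comp (cutAll cs p).1 (cutAll cs p).2 x) (cutAll cs p).1 (cutAll cs p).2)
          - fb (swp (comp (cutAll cs p).1 (cutAll cs p).2 y) (cutAll cs p).1 (cutAll cs p).2)) ^ 2 := by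
        simp only [hq]
        rw [if_pos hcond]
      have hqle : om2 a b p *
          (fb (cutAll cs p).1 + fb (swp (comp (cutAll cs p).1 (cutAll cs p).2 x ∪
            comp (cutAll cs p).1 (cutAll cs p).2 y) (cutAll cs p).1 (cutAll cs p).2)
          - fb (swp (comp (cutAll cs p).1 (cutAll cs p).2 x) (cutAll cs p).1 (cutAll cs p).2)
          - fb (swp (comp (cutAll cs p).1 (cutAll cs p).2 y) (cutAll cs p).1 (cutAll cs p).2)) ^ 2
          ≤ q (cutAll cs p) x y := by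
        rw [hqe]
        exact mul_le_mul_of_nonneg_right (hle_cut p hp) (sq_nonneg _)
      simp only [hE]
      rw [hyb_empty, swp_empty]
      have hpos := (om2_pos ha hb p).le
      set w := om2 a b p
      set X := comp (cutAll cs p).1 (cutAll cs p).2 x
      set Y := comp (cutAll cs p).1 (cutAll cs p).2 y
      set s0 := fb p.1
      set s1 := fb (hyb (X ∪ Y) p.1 p.2)
      set s2 := fb (hyb X p.1 p.2)
      set s3 := fb (hyb Y p.1 p.2)
      set t0 := fb (cutAll cs p).1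
      set t1 := fb (swp (X ∪ Y) (cutAll cs p).1 (cutAll cs p).2)
      set t2 := fb (swp X (cutAll cs p).1 (cutAll cs p).2)
      set t3 := fb (swp Y (cutAll cs p).1 (cutAll cs p).2)
      have key : (s0 + s1 - s2 - s3) ^ 2 ≤ 5 * ((t0 + t1 - t2 - t3) ^ 2 + ((s0 - t0) ^ 2
          + (s1 - t1) ^ 2 + (s2 - t2) ^ 2 + (s3 - t3) ^ 2)) := five_sq _ _ _ _ _ _ _ _
      calc w * (s0 + s1 - s2 - s3) ^ 2
          ≤ w * (5 * ((t0 + t1 - t2 - t3) ^ 2 + ((s0 - t0) ^ 2
          + (s1 - t1) ^ 2 + (s2 - t2) ^ 2 + (s3 - t3) ^ 2))) :=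
            mul_le_mul_of_nonneg_left key hpos
        _ = 5 * (w * (t0 + t1 - t2 - t3) ^ 2 + (w * (s0 - t0) ^ 2
          + w * (s1 - t1) ^ 2 + w * (s2 - t2) ^ 2 + w * (s3 - t3) ^ 2)) := by ring
        _ ≤ _ := by linarith
    · have := hq0 (cutAll cs p) x y
      linarith
  calc _ ≤ ∑ p ∈ dom cs, ∑ x, ∑ y, 5 * (q (cutAll cs p) x y +
          (E (fun _ => ∅) p + E (fun N => comp N.1 N.2 x ∪ comp N.1 N.2 y) p
          + E (fun N => comp N.1 N.2 x) p + E (fun N => comp N.1 N.2 y) p)) :=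
        Finset.sum_le_sum fun p hp => Finset.sum_le_sum fun x _ => Finset.sum_le_sum fun y _ =>
          hpt p hp x y
    _ = 5 * (∑ p ∈ dom cs, ∑ x, ∑ y, q (cutAll cs p) x y +
          ∑ x : V, ∑ y : V, (∑ p ∈ dom cs, E (fun _ => ∅) p
            + ∑ p ∈ dom cs, E (fun N => comp N.1 N.2 x ∪ comp N.1 N.2 y) p
          + ∑ p ∈ dom cs, E (fun N => comp N.1 N.2 x) p
          + ∑ p ∈ dom cs, E (fun N => comp N.1 N.2 y) p)) := by
        simp only [← Finset.mul_sum, Finset.sum_add_distrib]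
        congr 2
        congr 1
        · congr 1
          · congr 1
            · rw [Finset.sum_comm]
              refine Finset.sum_congr rfl fun x _ => ?_
              rw [Finset.sum_comm]
            · rw [Finset.sum_comm]
              refine Finset.sum_congr rfl fun x _ => ?_
              rw [Finset.sum_comm]
          · rw [Finset.sum_comm]
            refine Finset.sum_congr rfl fun x _ => ?_
            rw [Finset.sum_comm]
        · rw [Finset.sum_comm]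
          refine Finset.sum_congr rfl fun x _ => ?_
          rw [Finset.sum_comm]
    _ ≤ 5 * (CQ + ∑ x : V, ∑ y : V, 96 * CR) := by
        refine mul_le_mul_of_nonneg_left (add_le_add hQ' ?_) (by norm_num)
        refine Finset.sum_le_sum fun x _ => Finset.sum_le_sum fun y _ => ?_
        have b1 := hEb _ setRule_empty
        have b2 := hEb _ (setRule_union x y)
        have b3 := hEb _ (setRule_comp x)
        have b4 := hEb _ (setRule_comp y)
        linarith
    _ = _ := by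
        simp only [Finset.sum_const, Finset.card_univ, nsmul_eq_mul]
        ring

end Bounds

end Crest.Agent.R304.Rel
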