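import Crest.Agent.R304.LMoves
import Crest.Agent.R304.Moves
import Crest.Agent.R304.L6Step

/-!
# R304 / S0464: the population sampler as a program on the tape

* the pair move is `L6.hbStep (nIdx n k) B0 B (mvL n k) (aL n k lam) (bL n k lam)` on lists of
  tables (`B0` index bits, `B` acceptance bits);
* `pmInit`, `initL`: `k` sequentially sampled uniform perfect matchings of `K_n`;
* `sampL`: initial population, then the pair moves of a list `ts` of stages, the weights of stage
  `t` being `lam t : ℕ → ℕ → ℕ`;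
* `ptf_sampL`: the sampler is polynomial-time.
-/

set_option autoImplicit false
set_option linter.dupNamespace false

namespace Crest.Agent.R304.Samp

open Crest.Agent.Lib.PT Crest.Agent.R309.Tape Crest.Agent.R309.PTX Crest.Agent.R304.LM
open Crest.Agent.Lib.PT.Arith (msb)
open Crest.Agent.R304.L6

variable {γ : Type} [PTCode γ]

/-- one pair move -/
def stepL (n k B0 B : ℕ) (lam : ℕ → ℕ → ℕ) (pop : List (List ℕ)) (l : List Bool) :
    List (List ℕ) :=
  hbStep (nIdx n k) B0 B (mvL n k) (aL n k lam) (bL n k lam) pop l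

/-- one step of the sequential construction of a uniform perfect matching: state is
(free vertices, table), the number `l` chooses the partner of the first free vertex -/
def matchStep (n : ℕ) (s : List ℕ × List ℕ) (l : List Bool) : List ℕ × List ℕ :=
  (s.1.tail.eraseIdx (msb l % s.1.tail.length),
    joinL n s.2 (s.1.headD 0) (s.1.tail.getD (msb l % s.1.tail.length) 0))

/-- a sequentially sampled perfect matching; uses `(n / 2) * B` bits -/
def pmInit (n B : ℕ) (t : List Bool) : List ℕ :=
  (runSteps (matchStep n) B (n / 2) (List.range n, List.range n) t).2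

/-- initial population; uses `k * (n / 2 * B)` bits -/
def initL (n k B : ℕ) (t : List Bool) : List (List ℕ) :=
  (blocks (n / 2 * B) k t).map (pmInit n B)

/-- number of tape bits of the sampler with `T` pair moves -/
def sampLen (n k B0 B T : ℕ) : ℕ := k * (n / 2 * B) + T * (B0 + B)

/-- the sampler: `ts` is the list of the stage numbers of the pair moves -/
def sampL (n k B0 B : ℕ) (lam : ℕ → ℕ → ℕ → ℕ) (ts : List ℕ) (t : List Bool) : List (List ℕ) :=
  runL (fun s => stepL n k B0 B (lam s)) (B0 + B) ts (initL n k B (t.take (k * (n / 2 * B))))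
    (t.drop (k * (n / 2 * B)))

/-- `reps T τ`: stages `0, …, T-1`, each repeated `τ` times -/
def reps (T τ : ℕ) : List ℕ := (List.range T).flatMap (fun s => List.replicate τ s)

@[simp] theorem length_reps (T τ : ℕ) : (reps T τ).length = T * τ := by
  simp [reps, List.length_flatMap]

/-! ### polynomial time -/

theorem ptf_reps {T τ : γ → ℕ} (hT : PTU T) (hτ : PTU τ) : PTF (fun c => reps (T c) (τ c)) := by
  unfold reps
  refine PTF.flatMap (PTF.range hT) ?_
  exact PTF.replicate (PTU.comp hτ PTF.fst) (by fun_prop)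

theorem ptf_nIdx {n k : γ → ℕ} (hn : PTF n) (hk : PTF k) : PTF (fun c => nIdx (n c) (k c)) := by
  unfold nIdx
  exact PTF.natMul (PTF.natMul hk (PTF.natSub hk (PTF.const 1)))
    (PTF.natMul (PTF.const 4) (PTF.natPowConst hn 4))

theorem ptf_stepL {n k B0 B : γ → ℕ} {lam : γ → ℕ → ℕ → ℕ} {pop : γ → List (List ℕ)}
    {l : γ → List Bool} (hn : PTU n) (hk : PTF k) (hB0 : PTF B0) (hB : PTU B)
    (hlam : PTF (fun q : γ × ℕ × ℕ => lam q.1 q.2.1 q.2.2)) (hpop : PTF pop) (hl : PTF l) :
    PTF (fun c => stepL (n c) (k c) (B0 c) (B c) (lam c) (pop c) (l c)) := by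
  unfold stepL hbStep
  have h1 : PTF (fun c => msb ((l c).drop (B0 c))) :=
    PTF.comp (g := fun l : List Bool => msb l) Arith.ptf_msb (ptf_drop' hB0 hl)
  have h2 : PTF (fun c => msb ((l c).take (B0 c))) :=
    PTF.comp (g := fun l : List Bool => msb l) Arith.ptf_msb (ptf_take' hB0 hl)
  have h3 : PTF (fun c => msb ((l c).take (B0 c)) % nIdx (n c) (k c)) :=
    PTF.natMod h2 (ptf_nIdx (PTU.toPTF hn) hk)
  have h4 := ptf_aL hn hk hlam h3 hpop
  have h5 := ptf_bL hn hk hlam h3 hpop
  have h6 := ptf_mvL hn hk h3 hpop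
  exact PTF.ite (PTPred.natLt (PTF.natMul h1 (PTF.natAdd h4 h5))
    (PTF.natMul h5 (PTF.natTwoPow hB))) h6 hpop

/-- `runL` over a list of stages is poly-time if the sizes of all intermediate states are
bounded -/
theorem ptf_runL {σ T : Type} [PTCode σ] [PTCode T] {f : γ → T → σ → List Bool → σ}
    {r : γ → ℕ} {ts : γ → List T} {s : γ → σ} {t : γ → List Bool}
    (hf : PTF (fun p : γ × T × σ × List Bool => f p.1 p.2.1 p.2.2.1 p.2.2.2)) (hr : PTF r)
    (hts : PTF ts) (hs : PTF s) (ht : PTF t) {B : γ → ℕ} (hB : PB B)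
    (hb : ∀ c, ∀ i ≤ (ts c).length, sz (runL (f c) (r c) ((ts c).take i) (s c) (t c)) ≤ B c) :
    PTF (fun c => runL (f c) (r c) (ts c) (s c) (t c)) := by
  have key : ∀ (c : γ) (l : List T) (x : σ) (w : List Bool),
      l.foldl (fun (p : σ × List Bool) a => (f c a p.1 (p.2.take (r c)), p.2.drop (r c))) (x, w) =
        (runL (f c) (r c) l x w, w.drop (l.length * r c)) := by
    intro c l
    induction l with
    | nil => intro x w; simp [runL]
    | cons a l ih =>
      intro x w
      rw [List.foldl_cons, ih]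
      simp only [runL, List.length_cons, List.drop_drop]
      congr 2
      ring
  have h := PTF.foldl (l := ts)
    (f := fun (c : γ) (p : σ × List Bool) (a : T) => (f c a p.1 (p.2.take (r c)), p.2.drop (r c)))
    (b := fun c => (s c, t c)) hts (by
      refine PTF.prodMk ?_ ?_
      · exact PTF.comp (g := fun p : γ × T × σ × List Bool => f p.1 p.2.1 p.2.2.1 p.2.2.2)
          (f := fun q : γ × (σ × List Bool) × T => (q.1, q.2.2, q.2.1.1, q.2.1.2.take (r q.1))) hf
          (PTF.prodMk (by fun_prop) (PTF.prodMk (by fun_prop) (PTF.prodMk (by fun_prop)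
            (ptf_take' (PTF.comp hr PTF.fst) (by fun_prop)))))
      · exact ptf_drop' (PTF.comp hr PTF.fst) (by fun_prop)) (PTF.prodMk hs ht)
    (B := fun c => 2 * B c + 1 + sz (t c)) (by fun_prop) (fun c i hi => by
      rw [key]
      simp only [sz_prod]
      have h1 := hb c i hi
      have h2 := sz_drop_le (t c) (((ts c).take i).length * r c)
      omega)
  refine PTF.of_eq (PTF.comp (g := fun p : σ × List Bool => p.1) (by fun_prop) h) (fun c => ?_)
  rw [key]

/-! sizes -/

theorem sz_of_pmL {n : ℕ} {s : List ℕ} (h : pmL n s = true) (hl : s.length = n) :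
    sz s ≤ n * (2 * n + 1) := by
  have h1 : ∀ a ∈ s, sz a ≤ n := by
    intro a ha
    obtain ⟨v, hv, rfl⟩ := List.mem_iff_getElem.1 ha
    have h2 : ap s v < n := by
      unfold pmL at h
      rw [List.all_eq_true] at h
      have := h v (List.mem_range.2 (by omega))
      simp only [Bool.and_eq_true, decide_eq_true_eq] at this
      exact this.1.1
    have h3 : ap s v = s[v] := by simp [ap, List.getD_eq_getElem?_getD, hv]
    rw [← h3]
    exact (sz_nat_le _).trans h2.le
  have := sz_list_le h1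
  rw [hl] at this
  exact this

/-- size invariant of a population: all tables have codes of length at most `M` -/
def SzInv (K M : ℕ) (pop : List (List ℕ)) : Prop := pop.length ≤ K ∧ ∀ s ∈ pop, sz s ≤ M

theorem SzInv.sz_le {K M : ℕ} {pop : List (List ℕ)} (h : SzInv K M pop) :
    sz pop ≤ K * (2 * M + 1) :=
  (sz_list_le h.2).trans (Nat.mul_le_mul_right _ h.1)

theorem SzInv.set {K M : ℕ} {pop : List (List ℕ)} (h : SzInv K M pop) {i : ℕ} {a : List ℕ}
    (ha : sz a ≤ M) : SzInv K M (pop.set i a) := by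
  refine ⟨by simpa using h.1, fun s hs => ?_⟩
  rcases List.mem_or_eq_of_mem_set hs with h1 | h1
  · exact h.2 s h1
  · rw [h1]; exact ha

theorem SzInv.getD {K M : ℕ} {pop : List (List ℕ)} (h : SzInv K M pop) (i : ℕ) :
    sz (pop.getD i []) ≤ M := by
  rw [List.getD_eq_getElem?_getD]
  rcases h1 : pop[i]? with _ | a
  · simp
  · simp only [Option.getD_some]
    exact h.2 _ (List.mem_of_getElem? h1)

theorem length_joinL (n : ℕ) (s : List ℕ) (u v : ℕ) : (joinL n s u v).length = n := by
  simp [joinL]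

theorem length_mixL (n : ℕ) (C s t : List ℕ) : (mixL n C s t).length = n := by
  simp [mixL]

/-- the candidate is either the old table or a table of length `n` -/
theorem candL_length (n : ℕ) (l : LabL) (p : List ℕ × List ℕ) :
    ((candL n l p).1 = p.1 ∨ (candL n l p).1.length = n) ∧
      ((candL n l p).2 = p.2 ∨ (candL n l p).2.length = n) := by
  have hsw : ∀ (u v x y : ℕ) (s : List ℕ), swL n u v x y s = s ∨ (swL n u v x y s).length = n := by
    intro u v x y s
    unfold swL
    split_ifs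
    · exact Or.inr (length_joinL _ _ _ _)
    · exact Or.inr (length_joinL _ _ _ _)
    · exact Or.inl rfl
  unfold candL
  split_ifs
  · exact ⟨Or.inr (length_mixL _ _ _ _), Or.inr (length_mixL _ _ _ _)⟩
  · exact ⟨hsw _ _ _ _ _, Or.inl rfl⟩
  · exact ⟨Or.inl rfl, hsw _ _ _ _ _⟩
  · unfold twoL twoHalf
    split_ifs
    · exact ⟨Or.inr (length_joinL _ _ _ _), Or.inr (length_joinL _ _ _ _)⟩
    · exact ⟨Or.inr (length_joinL _ _ _ _), Or.inr (length_joinL _ _ _ _)⟩
    · exact ⟨Or.inl rfl, Or.inl rfl⟩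

theorem sz_tauL (n : ℕ) (l : LabL) (p : List ℕ × List ℕ) (M : ℕ)
    (hM : n * (2 * n + 1) ≤ M) (h1 : sz p.1 ≤ M) (h2 : sz p.2 ≤ M) :
    sz (tauL n l p).1 ≤ M ∧ sz (tauL n l p).2 ≤ M := by
  unfold tauL
  split_ifs with hok
  · unfold okL at hok
    simp only [Bool.and_eq_true] at hok
    obtain ⟨c1, c2⟩ := candL_length n l p
    constructor
    · rcases c1 with c1 | c1
      · rw [c1]; exact h1
      · exact (sz_of_pmL hok.1.1 c1).trans hM
    · rcases c2 with c2 | c2
      · rw [c2]; exact h2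
      · exact (sz_of_pmL hok.1.2 c2).trans hM
  · exact ⟨h1, h2⟩

theorem SzInv.mvL {K M n k : ℕ} (i : ℕ) {pop : List (List ℕ)} (hM : n * (2 * n + 1) ≤ M)
    (h : SzInv K M pop) : SzInv K M (mvL n k i pop) := by
  unfold LM.mvL newL
  have h1 := sz_tauL n (lIdx n k i) (pop.getD (pIdx k i) [], pop.getD (qIdx k i) []) M hM
    (h.getD _) (h.getD _)
  exact (h.set h1.1).set h1.2

theorem SzInv.stepL {K M n k B0 B : ℕ} (lam : ℕ → ℕ → ℕ) (l : List Bool)
    {pop : List (List ℕ)} (hM : n * (2 * n + 1) ≤ M) (h : SzInv K M pop) :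
    SzInv K M (stepL n k B0 B lam pop l) := by
  unfold Samp.stepL hbStep
  split_ifs
  · exact h.mvL _ hM
  · exact h

theorem sz_eraseIdx_le {α : Type} [PTCode α] (l : List α) (i : ℕ) : sz (l.eraseIdx i) ≤ sz l := by
  induction l generalizing i with
  | nil => simp
  | cons a l ih =>
    cases i with
    | zero => simp
    | succ i => simp only [List.eraseIdx_cons_succ, sz_cons]; have := ih i; omega

theorem ptf_eraseIdx {α : Type} [PTCode α] {l : γ → List α} {i : γ → ℕ} (hl : PTF l)
    (hi : PTF i) : PTF (fun c => (l c).eraseIdx (i c)) := by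
  have h : PTF (fun c => (l c).take (i c) ++ (l c).drop (i c + 1)) :=
    PTF.append (ptf_take' hi hl) (ptf_drop' (PTF.natAdd hi (PTF.const 1)) hl)
  refine PTF.of_eq h (fun c => ?_)
  rw [List.eraseIdx_eq_take_drop_succ]

theorem ptf_matchStep {n : γ → ℕ} (hn : PTU n) :
    PTF (fun p : γ × (List ℕ × List ℕ) × List Bool => matchStep (n p.1) p.2.1 p.2.2) := by
  unfold matchStep
  have h1 : PTF (fun p : γ × (List ℕ × List ℕ) × List Bool => p.2.1.1.tail) := by fun_prop
  have h2 : PTF (fun p : γ × (List ℕ × List ℕ) × List Bool => msb p.2.2) :=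
    PTF.comp (g := fun l : List Bool => msb l) Arith.ptf_msb (by fun_prop)
  have h3 : PTF (fun p : γ × (List ℕ × List ℕ) × List Bool =>
      msb p.2.2 % p.2.1.1.tail.length) := PTF.natMod h2 (PTU.toPTF (PTU.length h1))
  have h4 : PTF (fun p : γ × (List ℕ × List ℕ) × List Bool => p.2.1.1.headD 0) := by
    refine PTF.of_eq (ptf_head?D (l := fun p : γ × (List ℕ × List ℕ) × List Bool => p.2.1.1)
      (d := fun _ => 0) (by fun_prop) (PTF.const 0)) (fun c => ?_)
    rw [List.headD_eq_head?_getD]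
  refine PTF.prodMk (ptf_eraseIdx h1 h3) ?_
  exact ptf_joinL (PTU.comp hn PTF.fst) (by fun_prop) h4 (ptf_getD' h3 h1 (PTF.const 0))

theorem mem_joinL_le {n : ℕ} {s : List ℕ} {u v M : ℕ} (hs : ∀ a ∈ s, a ≤ M) (hu : u ≤ M)
    (hv : v ≤ M) : ∀ a ∈ joinL n s u v, a ≤ M := by
  intro a ha
  unfold joinL tab at ha
  obtain ⟨w, _, rfl⟩ := List.mem_map.1 ha
  split_ifs
  · exact hv
  · exact hu
  · unfold ap
    rw [List.getD_eq_getElem?_getD]
    rcases h : s[w]? with _ | b
    · simp
    · simp only [Option.getD_some]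
      exact hs _ (List.mem_of_getElem? h)

/-- invariant of the sequential construction -/
def MInv (n : ℕ) (s : List ℕ × List ℕ) : Prop :=
  s.1.length ≤ n ∧ (∀ a ∈ s.1, a ≤ n) ∧ s.2.length = n ∧ ∀ a ∈ s.2, a ≤ n

theorem MInv.step {n : ℕ} {s : List ℕ × List ℕ} (h : MInv n s) (l : List Bool) :
    MInv n (matchStep n s l) := by
  obtain ⟨h1, h2, h3, h4⟩ := h
  have hd : ∀ i, s.1.tail.getD i 0 ≤ n := by
    intro i
    rw [List.getD_eq_getElem?_getD]
    rcases h : s.1.tail[i]? with _ | b
    · simp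
    · simp only [Option.getD_some]
      exact h2 _ (List.mem_of_mem_tail (List.mem_of_getElem? h))
  refine ⟨?_, ?_, length_joinL _ _ _ _, ?_⟩
  · refine (List.length_eraseIdx_le _ _).trans ?_
    simp only [List.length_tail]; omega
  · intro a ha
    exact h2 a (List.mem_of_mem_tail (List.mem_of_mem_eraseIdx ha))
  · refine mem_joinL_le h4 ?_ (hd _)
    cases hs : s.1 with
    | nil => simp
    | cons a t => simp only [List.headD_cons]; exact h2 a (by rw [hs]; simp)

theorem MInv.init (n : ℕ) : MInv n (List.range n, List.range n) := by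
  refine ⟨by simp, fun a ha => (List.mem_range.1 ha).le, by simp,
    fun a ha => (List.mem_range.1 ha).le⟩

theorem MInv.sz {n : ℕ} {s : List ℕ × List ℕ} (h : MInv n s) :
    sz s ≤ 3 * (n * (2 * n + 1)) + 1 := by
  have h1 : Crest.Agent.Lib.PT.sz s.1 ≤ s.1.length * (2 * n + 1) :=
    sz_list_le (fun a ha => (sz_nat_le a).trans (h.2.1 a ha))
  have h2 : Crest.Agent.Lib.PT.sz s.2 ≤ s.2.length * (2 * n + 1) :=
    sz_list_le (fun a ha => (sz_nat_le a).trans (h.2.2.2 a ha))
  have h3 := Nat.mul_le_mul_right (2 * n + 1) h.1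
  rw [h.2.2.1] at h2
  rw [sz_prod]
  omega

theorem MInv.run {n : ℕ} (B k : ℕ) (t : List Bool) :
    MInv n (runSteps (matchStep n) B k (List.range n, List.range n) t) := by
  induction k with
  | zero => exact MInv.init n
  | succ k ih => rw [runSteps_succ']; exact ih.step _

theorem ptf_pmInit {n B : γ → ℕ} {t : γ → List Bool} (hn : PTU n) (hB : PTF B) (ht : PTF t) :
    PTF (fun c => pmInit (n c) (B c) (t c)) := by
  unfold pmInit
  have hn2 : PTU (fun c => n c / 2) := by
    refine PTF.toPTU (PTF.natDiv (PTU.toPTF hn) (PTF.const 2)) ?_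
    exact PB.mono hn.pb (fun c => Nat.div_le_self _ _)
  have hr : PTF (fun c => List.range (n c)) := PTF.range hn
  have h := ptf_runSteps_inv (f := fun c => matchStep (n c)) (r := B) (k := fun c => n c / 2)
    (s := fun c => (List.range (n c), List.range (n c))) (t := t) (ptf_matchStep hn) hB hn2
    (PTF.prodMk hr hr) ht (B := fun c => 3 * (n c * (2 * n c + 1)) + 1)
    (by have := hn.pb; fun_prop) (fun c => MInv (n c)) (fun c => MInv.init _)
    (fun c x l hx => hx.step l) (fun c x hx => hx.sz)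
  exact PTF.comp (g := fun p : List ℕ × List ℕ => p.2) (by fun_prop) h

theorem ptf_initL {n k B : γ → ℕ} {t : γ → List Bool} (hn : PTU n)
    (hk : PTU k) (hB : PTF B) (ht : PTF t) :
    PTF (fun c => initL (n c) (k c) (B c) (t c)) := by
  unfold initL
  refine PTF.map (ptf_blocks (PTF.natMul (PTF.natDiv (PTU.toPTF hn) (PTF.const 2)) hB) hk ht) ?_
  exact ptf_pmInit (PTU.comp hn PTF.fst) (PTF.comp hB PTF.fst) (by fun_prop)

theorem SzInv.initL (n k B : ℕ) (t : List Bool) :
    SzInv k (3 * (n * (2 * n + 1)) + 1) (initL n k B t) := by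
  unfold Samp.initL
  refine ⟨by simp, fun s hs => ?_⟩
  obtain ⟨b, _, rfl⟩ := List.mem_map.1 hs
  have h := (MInv.run (n := n) B (n / 2) b).sz
  rw [sz_prod] at h
  unfold pmInit
  omega

/-- **The sampler is polynomial-time.** -/
theorem ptf_sampL {n k B0 B : γ → ℕ} {lam : γ → ℕ → ℕ → ℕ → ℕ} {ts : γ → List ℕ}
    {t : γ → List Bool} (hn : PTU n) (hk : PTU k) (hB0 : PTF B0) (hB : PTU B)
    (hlam : PTF (fun q : γ × ℕ × ℕ × ℕ => lam q.1 q.2.1 q.2.2.1 q.2.2.2)) (hts : PTF ts)
    (ht : PTF t) :
    PTF (fun c => sampL (n c) (k c) (B0 c) (B c) (lam c) (ts c) (t c)) := by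
  unfold sampL
  have hn' : PTF n := PTU.toPTF hn
  have hB' : PTF B := PTU.toPTF hB
  have hL : PTF (fun c => k c * (n c / 2 * B c)) :=
    PTF.natMul (PTU.toPTF hk) (PTF.natMul (PTF.natDiv hn' (PTF.const 2)) hB')
  have hinit : PTF (fun c => initL (n c) (k c) (B c) ((t c).take (k c * (n c / 2 * B c)))) :=
    ptf_initL hn hk hB' (ptf_take' hL ht)
  have hstep : PTF (fun p : γ × ℕ × List (List ℕ) × List Bool =>
      stepL (n p.1) (k p.1) (B0 p.1) (B p.1) (lam p.1 p.2.1) p.2.2.1 p.2.2.2) := by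
    refine ptf_stepL (n := fun p : γ × ℕ × List (List ℕ) × List Bool => n p.1)
      (k := fun p => k p.1) (B0 := fun p => B0 p.1) (B := fun p => B p.1)
      (lam := fun p => lam p.1 p.2.1) (pop := fun p => p.2.2.1) (l := fun p => p.2.2.2)
      (PTU.comp hn PTF.fst) (PTF.comp (PTU.toPTF hk) PTF.fst) (PTF.comp hB0 PTF.fst)
      (PTU.comp hB PTF.fst) ?_ (by fun_prop) (by fun_prop)
    exact PTF.comp (g := fun q : γ × ℕ × ℕ × ℕ => lam q.1 q.2.1 q.2.2.1 q.2.2.2)
      (f := fun q : (γ × ℕ × List (List ℕ) × List Bool) × ℕ × ℕ =>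
        (q.1.1, q.1.2.1, q.2.1, q.2.2)) hlam (by fun_prop)
  refine ptf_runL (f := fun c s => stepL (n c) (k c) (B0 c) (B c) (lam c s))
    (r := fun c => B0 c + B c) (ts := ts)
    (s := fun c => initL (n c) (k c) (B c) ((t c).take (k c * (n c / 2 * B c))))
    (t := fun c => (t c).drop (k c * (n c / 2 * B c))) hstep (PTF.natAdd hB0 hB') hts hinit
    (ptf_drop' hL ht) (B := fun c => k c * (2 * (3 * (n c * (2 * n c + 1)) + 1) + 1))
    (by
      have h1 := hn.pb
      have h2 := hk.pb
      fun_prop) (fun c i _ => ?_)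
  have key : ∀ (l : List ℕ) (x : List (List ℕ)) (w : List Bool),
      SzInv (k c) (3 * (n c * (2 * n c + 1)) + 1) x →
      SzInv (k c) (3 * (n c * (2 * n c + 1)) + 1)
        (runL (fun s => stepL (n c) (k c) (B0 c) (B c) (lam c s)) (B0 c + B c) l x w) := by
    intro l
    induction l with
    | nil => intro x w hx; exact hx
    | cons a l ih =>
      intro x w hx
      exact ih _ _ (SzInv.stepL _ _ (by omega) hx)
  exact (key _ _ _ (SzInv.initL _ _ _ _)).sz_le

end Crest.Agent.R304.Samp
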