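import Crest.Agent.R304.MWTop
import Crest.Agent.R309.PTSolve

/-!
# R304 / S0467: from the optimal value to an optimal perfect matching

`mw_of_val`: a poly-time routine for the maximum weight of a perfect matching of a list of entries
gives, by removing pairs one by one as long as the value stays the same, an explicit optimal
perfect matching: the interface `MWTop.MW`.
-/

set_option autoImplicit false
set_option linter.dupNamespace false

namespace Crest.Agent.R304.SelfRed76

open Crest.Agent.Lib.PT Crest.Agent.R309.PTX Crest.Agent.R304.MWTop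

/-- specification of a value routine -/
def VSpec (val : Un × List Ent → Option ℕ) : Prop :=
  ∀ (m : ℕ) (L : List Ent), Good m L →
    (val (⟨2 * m⟩, L) = none → ∀ R : List (ℕ × ℕ), (∀ q ∈ R, q ∈ prs L) → ¬ IsPML (2 * m) R) ∧
    (∀ x, val (⟨2 * m⟩, L) = some x →
      (∃ R : List (ℕ × ℕ), (∀ q ∈ R, q ∈ prs L) ∧ IsPML (2 * m) R ∧ tot L R = x) ∧
      ∀ R' : List (ℕ × ℕ), (∀ q ∈ R', q ∈ prs L) → IsPML (2 * m) R' → tot L R' ≤ x)

/-- the interface for values -/
def MV : Prop := ∃ val : Un × List Ent → Option ℕ, PTF val ∧ VSpec val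

/-- the entries of `L` whose pair is not in `S` -/
def cur (L : List Ent) (S : List (ℕ × ℕ)) : List Ent :=
  L.filter fun e => decide (¬ (e.1, e.2.1) ∈ S)

/-- one step: remove the pair of `e` if this does not change the value -/
def step (val : Un × List Ent → Option ℕ) (n : Un) (L : List Ent) (S : List (ℕ × ℕ)) (e : Ent) :
    List (ℕ × ℕ) :=
  if val (n, cur L ((e.1, e.2.1) :: S)) = val (n, cur L S) then (e.1, e.2.1) :: S else S

/-- the removed pairs -/
def red (val : Un × List Ent → Option ℕ) (n : Un) (L : List Ent) : List (ℕ × ℕ) :=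
  L.foldl (step val n L) []

/-- the matching routine -/
def mw (val : Un × List Ent → Option ℕ) (p : Un × List Ent) : Option (List (ℕ × ℕ)) :=
  (val p).map fun _ => prs (cur p.2 (red val p.1 p.2))

theorem mem_cur {L : List Ent} {S : List (ℕ × ℕ)} {e : Ent} :
    e ∈ cur L S ↔ e ∈ L ∧ (e.1, e.2.1) ∉ S := by
  simp [cur]

theorem mem_prs {L : List Ent} {q : ℕ × ℕ} : q ∈ prs L ↔ ∃ e ∈ L, (e.1, e.2.1) = q := by
  simp [prs]

theorem mem_prs_cur {L : List Ent} {S : List (ℕ × ℕ)} {q : ℕ × ℕ} :
    q ∈ prs (cur L S) ↔ q ∈ prs L ∧ q ∉ S := by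
  rw [mem_prs, mem_prs]
  constructor
  · rintro ⟨e, he, rfl⟩
    rw [mem_cur] at he
    exact ⟨⟨e, he.1, rfl⟩, he.2⟩
  · rintro ⟨⟨e, he, rfl⟩, hS⟩
    exact ⟨e, mem_cur.2 ⟨he, hS⟩, rfl⟩

theorem cur_nil (L : List Ent) : cur L [] = L := by
  simp [cur]

theorem good_cur {m : ℕ} {L : List Ent} (h : Good m L) (S : List (ℕ × ℕ)) : Good m (cur L S) where
  pos := h.pos
  lt := fun e he => h.lt e (mem_cur.1 he).1
  nodup := h.nodup.sublist (List.filter_sublist.map _)

theorem tot_cur {L : List Ent} {S R : List (ℕ × ℕ)} (h : ∀ q ∈ R, q ∉ S) :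
    tot (cur L S) R = tot L R := by
  unfold tot cur
  rw [List.filter_filter]
  congr 2
  apply List.filter_congr
  intro e _
  by_cases h1 : (e.1, e.2.1) ∈ R
  · simp [h1, h _ h1]
  · simp [h1]

theorem tot_congr {L : List Ent} {R R' : List (ℕ × ℕ)}
    (h : ∀ q ∈ prs L, (q ∈ R ↔ q ∈ R')) : tot L R = tot L R' := by
  unfold tot
  congr 2
  apply List.filter_congr
  intro e he
  have := h (e.1, e.2.1) (mem_prs.2 ⟨e, he, rfl⟩)
  simp [this]

theorem isPML_congr {n : ℕ} {R R' : List (ℕ × ℕ)} (h : ∀ q, q ∈ R ↔ q ∈ R')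
    (hR : IsPML n R) : IsPML n R' := by
  intro v hv
  obtain ⟨q, ⟨h1, h2⟩, h3⟩ := hR v hv
  exact ⟨q, ⟨(h q).1 h1, h2⟩, fun q' hq' => h3 q' ⟨(h q').2 hq'.1, hq'.2⟩⟩

/-- the loop invariant -/
structure Inv (val : Un × List Ent → Option ℕ) (m : ℕ) (L : List Ent) (x : ℕ) (P : List Ent)
    (S : List (ℕ × ℕ)) : Prop where
  v : val (⟨2 * m⟩, cur L S) = some x
  p : ∀ e ∈ P, (e.1, e.2.1) ∈ S ∨ ∀ R : List (ℕ × ℕ), (∀ q ∈ R, q ∈ prs (cur L S)) →
    IsPML (2 * m) R → tot L R = x → (e.1, e.2.1) ∈ R

theorem inv_step {val : Un × List Ent → Option ℕ} (hv : VSpec val) {m : ℕ} {L : List Ent}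
    (hL : Good m L) {x : ℕ} {P : List Ent} {S : List (ℕ × ℕ)} (h : Inv val m L x P S) (e : Ent)
    (he : e ∈ L) : Inv val m L x (P ++ [e]) (step val ⟨2 * m⟩ L S e) := by
  unfold step
  split_ifs with hs
  · refine ⟨by rw [hs]; exact h.v, fun e' he' => ?_⟩
    rw [List.mem_append, List.mem_singleton] at he'
    rcases he' with he' | rfl
    · rcases h.p e' he' with h1 | h1
      · exact Or.inl (List.mem_cons_of_mem _ h1)
      · refine Or.inr (fun R hR => h1 R (fun q hq => ?_))
        have := hR q hq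
        rw [mem_prs_cur] at this ⊢
        exact ⟨this.1, fun hc => this.2 (List.mem_cons_of_mem _ hc)⟩
    · exact Or.inl (List.mem_cons_self)
  · refine ⟨h.v, fun e' he' => ?_⟩
    rw [List.mem_append, List.mem_singleton] at he'
    rcases he' with he' | rfl
    · exact h.p e' he'
    · refine Or.inr (fun R hR hPM htot => ?_)
      by_contra hne
      apply hs
      have hR' : ∀ q ∈ R, q ∈ prs (cur L ((e'.1, e'.2.1) :: S)) := by
        intro q hq
        have := hR q hq
        rw [mem_prs_cur] at this ⊢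
        refine ⟨this.1, fun hc => ?_⟩
        rcases List.mem_cons.1 hc with rfl | hc
        · exact hne hq
        · exact this.2 hc
      have hg' := good_cur hL ((e'.1, e'.2.1) :: S)
      have hg := good_cur hL S
      rw [h.v]
      rcases hy : val (⟨2 * m⟩, cur L ((e'.1, e'.2.1) :: S)) with _ | y
      · exact absurd hPM ((hv m _ hg').1 hy R hR')
      · obtain ⟨⟨R2, hR2, hPM2, htot2⟩, hmax⟩ := (hv m _ hg').2 y hy
        have h1 : tot L R ≤ y := by
          rw [← tot_cur (S := (e'.1, e'.2.1) :: S) (fun q hq => (mem_prs_cur.1 (hR' q hq)).2)]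
          exact hmax R hR' hPM
        have hR3 : ∀ q ∈ R2, q ∈ prs (cur L S) := by
          intro q hq
          have := hR2 q hq
          rw [mem_prs_cur] at this ⊢
          exact ⟨this.1, fun hc => this.2 (List.mem_cons_of_mem _ hc)⟩
        have h2 : y ≤ x := by
          rw [← htot2, tot_cur (S := (e'.1, e'.2.1) :: S)
            (fun q hq => (mem_prs_cur.1 (hR2 q hq)).2),
            ← tot_cur (S := S) (fun q hq => (mem_prs_cur.1 (hR3 q hq)).2)]
          exact ((hv m _ hg).2 x h.v).2 R2 hR3 hPM2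
        have : y = x := by omega
        rw [this]

theorem inv_foldl {val : Un × List Ent → Option ℕ} (hv : VSpec val) {m : ℕ} {L : List Ent}
    (hL : Good m L) {x : ℕ} (l : List Ent) (hl : ∀ e ∈ l, e ∈ L) :
    ∀ (P : List Ent) (S : List (ℕ × ℕ)), Inv val m L x P S →
      Inv val m L x (P ++ l) (l.foldl (step val ⟨2 * m⟩ L) S) := by
  induction l with
  | nil => intro P S h; simpa using h
  | cons e l ih =>
    intro P S h
    rw [List.foldl_cons]
    have := ih (fun e' he' => hl e' (List.mem_cons_of_mem _ he')) (P ++ [e]) _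
      (inv_step hv hL h e (hl e List.mem_cons_self))
    rwa [List.append_assoc, List.singleton_append] at this

theorem mw_spec {val : Un × List Ent → Option ℕ} (hv : VSpec val) : MWSpec (mw val) := by
  intro m L hL
  constructor
  · intro hnone
    apply (hv m L hL).1
    unfold mw at hnone
    rcases h : val (⟨2 * m⟩, L) with _ | x
    · rfl
    · rw [h] at hnone; simp at hnone
  · intro R hR
    unfold mw at hR
    rcases h : val (⟨2 * m⟩, L) with _ | x
    · rw [h] at hR; simp at hR
    · rw [h] at hR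
      simp only [Option.map_some, Option.some.injEq] at hR
      have hinv : Inv val m L x ([] ++ L) (red val ⟨2 * m⟩ L) := by
        refine inv_foldl hv hL L (fun _ h => h) [] [] ⟨by rw [cur_nil]; exact h, ?_⟩
        intro e he
        simp at he
      rw [List.nil_append] at hinv
      set S := red val ⟨2 * m⟩ L with hS
      obtain ⟨⟨R0, hR0, hPM0, htot0⟩, -⟩ := (hv m _ (good_cur hL S)).2 x hinv.v
      rw [tot_cur (fun q hq => (mem_prs_cur.1 (hR0 q hq)).2)] at htot0
      have hmem : ∀ q, q ∈ R0 ↔ q ∈ R := by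
        intro q
        rw [← hR]
        refine ⟨hR0 q, fun hq => ?_⟩
        obtain ⟨e, he, rfl⟩ := mem_prs.1 hq
        rw [mem_cur] at he
        rcases hinv.p e he.1 with h1 | h1
        · exact absurd h1 he.2
        · exact h1 R0 hR0 hPM0 htot0
      refine ⟨?_, isPML_congr hmem hPM0, ?_⟩
      · intro q hq
        rw [← hR, mem_prs_cur] at hq
        exact hq.1
      · intro R' hR' hPM'
        have h1 := ((hv m L hL).2 x h).2 R' hR' hPM'
        have h2 : tot L R = x := by
          rw [← htot0]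
          exact tot_congr (fun q _ => (hmem q).symm)
        omega

/-! ### polynomial time -/

variable {γ : Type} [PTCode γ]

theorem ptf_prs {l : γ → List Ent} (hl : PTF l) : PTF (fun c => prs (l c)) := by
  unfold prs
  refine PTF.map hl ?_
  show PTF (fun x : γ × Ent => (x.2.1, x.2.2.1))
  fun_prop

theorem ptf_cur {l : γ → List Ent} {s : γ → List (ℕ × ℕ)} (hl : PTF l) (hs : PTF s) :
    PTF (fun c => cur (l c) (s c)) := by
  unfold cur
  refine PTF.filter hl ?_
  refine PTPred.toPTF (α := γ × Ent) (p := fun x => ¬ (x.2.1, x.2.2.1) ∈ s x.1) ?_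
  refine PTPred.not (PTPred.mem ?_ (PTF.comp hs PTF.fst))
  fun_prop

theorem ptf_red {val : Un × List Ent → Option ℕ} (hv : PTF val) :
    PTF (fun p : Un × List Ent => red val p.1 p.2) := by
  unfold red
  refine PTF.foldl_add (γ := Un × List Ent) (l := fun p => p.2)
    (f := fun p S e => step val p.1 p.2 S e) (b := fun _ => []) PTF.snd ?_ (PTF.const _)
    (G := fun p => 4 * sz p.2 + 3) (by fun_prop) ?_
  · have hL : PTF (fun q : (Un × List Ent) × List (ℕ × ℕ) × Ent => q.1.2) := by fun_prop
    have hn : PTF (fun q : (Un × List Ent) × List (ℕ × ℕ) × Ent => q.1.1) := by fun_prop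
    have hS : PTF (fun q : (Un × List Ent) × List (ℕ × ℕ) × Ent => q.2.1) := by fun_prop
    have he : PTF (fun q : (Un × List Ent) × List (ℕ × ℕ) × Ent =>
        ((q.2.2.1, q.2.2.2.1) :: q.2.1)) := by fun_prop
    unfold step
    refine PTF.ite (PTPred.eq ?_ ?_) he hS
    · exact PTF.comp hv (PTF.prodMk hn (ptf_cur hL he))
    · exact PTF.comp hv (PTF.prodMk hn (ptf_cur hL hS))
  · intro p S e he
    unfold step
    split_ifs
    · rw [sz_cons, sz_prod]
      have h1 := sz_mem_le he
      rw [sz_prod, sz_prod] at h1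
      dsimp only
      omega
    · omega

theorem ptf_mw {val : Un × List Ent → Option ℕ} (hv : PTF val) : PTF (mw val) := by
  have h : PTF₂ (fun (p : Un × List Ent) (_ : ℕ) => prs (cur p.2 (red val p.1 p.2))) := by
    show PTF (fun q : (Un × List Ent) × ℕ => prs (cur q.1.2 (red val q.1.1 q.1.2)))
    have h1 : PTF (fun q : (Un × List Ent) × ℕ => q.1.2) := by fun_prop
    have h2 : PTF (fun q : (Un × List Ent) × ℕ => red val q.1.1 q.1.2) :=
      PTF.comp (g := fun p : Un × List Ent => red val p.1 p.2)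
        (f := fun q : (Un × List Ent) × ℕ => q.1) (ptf_red hv) PTF.fst
    exact ptf_prs (ptf_cur h1 h2)
  exact PTF.of_eq (ptf_optionMap hv h) (fun p => rfl)

theorem mw_of_val (h : MV) : MW := by
  obtain ⟨val, hv, hs⟩ := h
  exact ⟨mw val, ptf_mw hv, mw_spec hs⟩

end Crest.Agent.R304.SelfRed76
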