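import Crest.Agent.R304.L6Core
import Crest.Agent.R304.Br555
import Crest.Agent.R304.Glue180B

/-!
# R304 / S0464 (helper542): the initial partition function
-/

set_option autoImplicit false
set_option linter.unusedSectionVars false

namespace Crest.Agent.R304.Z0542

open Finset Crest.Agent.R304.Loop Crest.Agent.R304.Ctl Crest.Agent.R304.L6
  Crest.Agent.R304.Glue

theorem df_eq (k : ℕ) : (2 * k + 2 - 1).doubleFactorial = ∏ i ∈ range (k + 1), (2 * i + 1) := by
  induction k with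
  | zero => simp [Nat.doubleFactorial]
  | succ k ih =>
    rw [prod_range_succ, ← ih]
    have h1 : 2 * (k + 1) + 2 - 1 = (2 * k + 1) + 2 := by omega
    have h2 : 2 * k + 2 - 1 = 2 * k + 1 := by omega
    rw [h1, h2, Nat.doubleFactorial_add_two, mul_comm]
    ring

/-- **`Z0` is the initial partition function.** -/
theorem Z0_real (P : Prm) (hev : Even P.n) (hn : 2 ≤ P.n) (hq : P.n - 1 < P.q) :
    ((Z0 P : ℚ) : ℝ) = Z prs (lamH (GP P) (P.n - 1) P.q P.m (stf P) []) := by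
  have e1 : lamH (GP P) (P.n - 1) P.q P.m (stf P) [] =
      fun _ => 1 + w0 P.q (P.n - 1) := by
    have h := lamw_st0 (E := Pr P.n) (GP P) (w0 P.q (P.n - 1)) P.m
    rw [← h]
    funext e
    unfold lamH
    rw [(Glue180.stHyp P).nil]
  rw [e1, Z_const (sys_prs hn)]
  have hc : Fintype.card (Mov.Om (Fin P.n)) = ∏ i ∈ range (P.n / 2), (2 * i + 1) := by
    rw [Br.card_Om (by rwa [Fintype.card_fin]), Fintype.card_fin]
    obtain ⟨k, hk⟩ := hev
    obtain ⟨j, rfl⟩ : ∃ j, k = j + 1 := ⟨k - 1, by omega⟩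
    have e2 : P.n / 2 = j + 1 := by omega
    rw [e2, ← df_eq, hk]
    congr 1
    omega
  rw [hc]
  unfold Z0
  push_cast
  congr 1
  have hq' : ((P.q - (P.n - 1) : ℕ) : ℝ) = (P.q : ℝ) - ((P.n - 1 : ℕ) : ℝ) :=
    Nat.cast_sub hq.le
  rw [hq']
  congr 1
  unfold w0
  have h1 : ((P.n - 1 : ℕ) : ℝ) < P.q := by exact_mod_cast hq
  have h2 : (P.q : ℝ) - ((P.n - 1 : ℕ) : ℝ) ≠ 0 := by linarith
  field_simp
  ring

end Crest.Agent.R304.Z0542
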